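import Vale.Agent.P224.MathlibUsed
import Vale.Agent.P224.Defs
attribute [-instance] Vector.instHMul Pi.preorder CommCStarAlgebra.toCStarAlgebra CStarAlgebra.toNormedRing CommCStarAlgebra.toNormedCommRing Std.Time.WallTime.instHAddOffset_1 CommCStarAlgebra.toNonUnitalCommCStarAlgebra CStarAlgebra.toNonUnitalCStarAlgebra NonUnitalCommCStarAlgebra.toNonUnitalCStarAlgebra NonUnitalCommCStarAlgebra.toNonUnitalNormedCommRing NonUnitalCStarAlgebra.toNonUnitalNormedRing NonUnitalNormedCommRing.toNonUnitalSeminormedCommRing SeminormedRing.toNonUnitalSeminormedRing IdemCommSemiring.toIdemSemiring KleeneAlgebra.toIdemSemiring IdemCommSemiring.toCommSemiring IdemSemiring.toSemiring CommSemiRingCat.instCommSemiringObjForgetRingHomCarrier EuclideanDomain.toCommRing Field.toEuclideanDomain SeminormedCommRing.toCommRing instCoeT CommRing.toNonAssocCommRing NonAssocCommRing.toNonAssocRing CommRing.toAddCommGroupWithOne NonAssocRing.toAddCommGroupWithOne Std.Time.WallTime.instHSubDuration_1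 NonUnitalNormedCommRing.toNonUnitalCommRing NonUnitalSeminormedCommRing.toNonUnitalCommRing NonAssocCommRing.toNonUnitalNonAssocCommRing NonUnitalCommRing.toNonUnitalRing NonUnitalNormedRing.toNonUnitalRing NonUnitalSeminormedRing.toNonUnitalRing Ring.toNonUnitalRing NonUnitalRing.toNonUnitalNonAssocRing instCoeTOfCoeDep Pi.instFintype Valued.toUniformSpace UpgradedStandardBorel.toTopologicalSpace SemimoduleCat.isAddCommMonoid LinearOrderedAddCommGroupWithTop.instLinearOrderedAddCommMonoidWithTop LinearOrderedAddCommGroupWithTop.toAddCommMonoid LinearOrderedAddCommMonoidWithTop.toAddCommMonoid CommSemiring.toNonAssocCommSemiring NonAssocCommRing.toNonAssocCommSemiring NonAssocCommSemiring.toNonAssocSemiring NonAssocRing.toNonAssocSemiring AddCommGroupWithOne.toAddCommGroup NonUnitalRing.toNonUnitalSemiring NonAssocCommSemiring.toNonUnitalNonAssocCommSemiring NonUnitalNonAssocCommSemiring.toNonUnitalNonAssocSemiring NumberField.to_charZero AddCommGroupWithOne.toAddCommMonoidWithOne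 Std.Time.Duration.instHMulInt_1 AddCommMonoidWithOne.toAddCommMonoid ModuleCat.isModule NormedCommGroup.toSeminormedCommGroup SemiRingCat.instSemiringObjForgetRingHomCarrier Pi.nonUnitalNonAssocSemiring LinearOrderedCommGroupWithZero.toLinearOrderedCommMonoidWithZero instInnerProductSpaceRealComplex ModuleCat.instAddCommGroupCarrierMkOfSMul' BoxIntegral.Box.instMembershipForallReal NonUnitalSeminormedRing.toPseudoMetricSpace SeminormedCommGroup.toPseudoMetricSpace TopologicalSpace.UpgradedIsCompletelyPseudoMetrizableSpace.toPseudoMetricSpace IdemSemiring.toCanonicallyOrderedAdd Complex.instDenselyNormedField LinearOrderedCommGroupWithZero.toCommGroupWithZero Pi.addMonoidWithOne TopologicalSpace.Compacts.instSetLike LinOrd.str Pi.normedRing AddCommGroupWithOne.toAddGroupWithOne instFiniteProp OrderDual.instPow_1 LinearOrderedCommMonoidWithZero.toIsBotZeroClass Invertible.toNeZero NeZero.of_gt' Nat.AtLeastTwo.toNeZero NonUnitalCStarAlgebra.toNormedSpace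 Fintype.decidablePiFintype AbsoluteValue.funLike Pi.partialOrder CompleteAtomicBooleanAlgebra.toCompletelyDistribLattice NormedCommGroup.toCommGroup SeminormedCommGroup.toCommGroup LinearOrderedAddCommGroupWithTop.toSubNegMonoid instSubsingleton IsEmpty.instSubsingleton Unique.instSubsingleton CompletelyDistribLattice.toCompleteDistribLattice Nat.Prime.one_lt' Algebra.Extension.commRing NormedCommGroup.toNormedGroup CompleteDistribLattice.toCoframe CompleteBooleanAlgebra.toBooleanAlgebra RingCat.instRingObjForgetRingHomCarrier CommGroupWithZero.toCommMonoidWithZero CommSemiring.toCommMonoidWithZero LinearOrderedCommMonoidWithZero.toCommMonoidWithZero AddGrpCat.str MonoidWithZero.toSemigroupWithZero SemigroupWithZero.toMulZeroClass NormedGroup.toSeminormedGroup SeminormedCommGroup.toSeminormedGroup instCoeTC Pi.nonAssocSemiring Pi.isOrderedRing CompleteLinearOrder.toCompleteLattice Order.Coframe.toCompleteLattice Order.Frame.toCompleteLattice BooleanAlgebra.toBiheytingAlgebra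 CompleteDistribLattice.toBiheytingAlgebra CompleteLinearOrder.toBiheytingAlgebra CompletelyDistribLattice.toBiheytingAlgebra Pi.mulZeroClass instPosMulMonoWithZeroOfMulLeftMono CommGroup.toGroup NormedGroup.toGroup SeminormedGroup.toGroup UniformSpace.Completion.instNorm instCoeHTC instCoeHTCT MonCat.monoidObj CategoryTheory.instFinCategoryOfFintypeOfIsThin SetLike.instFintype Unique.fintype CategoryTheory.FinCategory.fintypeObj Pi.nonUnitalSemiring CompleteLinearOrder.toLinearOrder ConditionallyCompleteLinearOrder.toLinearOrder LinearOrderedAddCommGroupWithTop.toLinearOrder LinearOrderedAddCommMonoidWithTop.toLinearOrder LinearOrderedCommMonoidWithZero.toLinearOrder Module.complexToReal Fin.completeLinearOrder Pi.instLattice BiheytingAlgebra.toCoheytingAlgebra BiheytingAlgebra.toHeytingAlgebra Order.Coframe.toCoheytingAlgebra MeasureTheory.L2.instInnerSubtypeAEEqFunMemAddSubgroupLpOfNatENNReal Set.instAddLeftMono AddGroupFilterBasis.isTopologicalAddGroup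 IsValuativeTopology.instIsTopologicalAddGroup NonarchimedeanAddGroup.toIsTopologicalAddGroup NonarchimedeanRing.to_nonarchimedeanAddGroup CanonicallyOrderedAdd.toMulLeftMono CanonicallyOrderedMul.toMulLeftMono IdemSemiring.toMulLeftMono IsOrderedCancelMonoid.toIsOrderedMonoid IsOrderedMonoid.toIsOrderedCancelMonoid LinearOrderedCommMonoidWithZero.toIsOrderedMonoid MulSemiringAction.toDistribMulAction instContinuousSMulForall_1 ChainCompletePartialOrder.instOmegaCompletePartialOrder CompletePartialOrder.toOmegaCompletePartialOrder OmegaCompletePartialOrder.toPartialOrder CoheytingAlgebra.toGeneralizedCoheytingAlgebra GeneralizedBooleanAlgebra.toGeneralizedCoheytingAlgebra HeytingAlgebra.toGeneralizedHeytingAlgebra Finite.of_subsingleton SetLike.instFinite instOfScientificFloat32 CommMonCat.str Pi.distribMulAction' CStarAlgebra.toNormedAlgebra NormedAlgebra.id AddOpposite.instAddZero OrderDual.instDivisionSemiring instConditionallyCompletePartialOrderSup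 CompleteLattice.toCompleteSemilatticeInf CompleteLattice.toCompleteSemilatticeSup CompleteLattice.toConditionallyCompleteLattice ConditionallyCompletePartialOrder.toConditionallyCompletePartialOrderInf Set.instAddRightMono Pi.instTopForall NormedAddGroup.toSeminormedAddGroup Fin.instBiheytingAlgebra Pi.mulOneClass AlgebraicClosure.instGroupWithZero UniformSpace.Completion.instNormedFieldOfCompletableTopField BooleanAlgebra.toDistribLattice CompleteLattice.toLattice CompleteLattice.toPartialOrder' CompleteSemilatticeInf.toPartialOrder CompleteSemilatticeSup.toPartialOrder ConditionallyCompleteLattice.toLattice ConditionallyCompletePartialOrderInf.toPartialOrder GeneralizedBooleanAlgebra.toDistribLattice GeneralizedCoheytingAlgebra.toDistribLattice GeneralizedCoheytingAlgebra.toLattice GeneralizedHeytingAlgebra.toDistribLattice GeneralizedHeytingAlgebra.toLattice IdemSemiring.toSemilatticeSup LinearOrder.toLattice SemilatticeSup.toPartialOrder Order.Coframe.toDistribLattice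 Order.Frame.toDistribLattice Pi.monoidWithZero instMulPosMonoWithZeroOfMulRightMono NonUnitalNormedRing.toMetricSpace NormedCommGroup.toMetricSpace NormedDivisionRing.toMetricSpace NormedField.toMetricSpace NormedRing.toMetricSpace TopologicalSpace.UpgradedIsCompletelyMetrizableSpace.toMetricSpace instCoeTCOfCoe Std.LinearOrderPackage.toLinearPreorderPackage Std.LinearPreorderPackage.toPreorderPackage IsScalarTower.complexToReal OrderDual.instDivisionRing Pi.commMagma DiscreteUniformity.instDiscreteTopology Finite.instDiscreteTopology Subsingleton.discreteTopology Pi.opensMeasurableSpace_of_subsingleton Pi.isOrderedAddMonoid Pi.distribSMul' DiscreteUniformity.inst DiscreteUniformity.instOfFiniteOfDiscreteTopology IsTopologicalSemiring.toContinuousAdd Group.instTorsor instIndiscreteTopology instIndiscreteTopologyOfSubsingleton forall_prop_decidable Array.instDecidableForallForallMemOfDecidablePred Finset.decidableDforallFinset Fintype.decidableForallFintype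 Multiset.decidableDforallMultiset Option.decidableForallMem Vector.instDecidableForallForallMemOfDecidablePred Pi.unique Pi.uniqueOfIsEmpty WithLp.instUnique IsStrictOrderedRing.toCharZero RCLike.charZero_rclike Pi.instCompl Fin.instCoheytingAlgebra Fin.instHeytingAlgebra instOrderTopologyOrderDual instIsModuleTopology IsModuleTopology.instSubsingleton IsTopologicalTorsor.toContinuousSMul ModuleFilterBasis.continuousSMul countable_of_linear_succ_pred_arch Countable.of_linearOrder_locallyFiniteOrder Denumerable.toEncodable Encodable.countable IsEmpty.toEncodable Subsingleton.to_countable instDenselyOrderedForall MonoidWithZero.toMulActionWithZero OrderAddMonoidHom.instAddMonoidHomClass instNonemptyOfMonad Pi.instIsRightCancelAdd Pi.divisionCommMonoid Pi.instZeroLEOneClass ENormedCommMonoid.toESeminormedCommMonoid NormedCommGroup.toENormedCommMonoid Pi.nonUnitalNonAssocRing NormedAddGroup.toMetricSpace NormedGroup.toMetricSpace String.Slice.Pos.instLinearOrderPackage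 AddMonCat.addMonoidObj CommGroup.toDivisionCommMonoid Group.toDivisionMonoid instNonUnitalAlgHomClassOfNonUnitalAlgEquivClass AlgHom.instNonUnitalAlgHomClassOfAlgHomClass Int.instNormMulClass RingHomClass.toLinearMapClassNNRat RingHomClass.toLinearMapClassRat instClosedIicTopologyOrderDual instNoMinOrderForallOfNonempty instIsDedekindDomainOfIsDomainOfIsDedekindRing IsDedekindDomainDvr.isDedekindDomain Pi.t2Space Int.instStarRing instDistribSMul DiscreteTopology.toAlexandrovDiscrete Finite.toAlexandrovDiscrete IndiscreteTopology.toAlexandrovDiscrete Pi.instOne IsIsometricSMul.to_continuousConstSMul IsUniformGroup.instUniformContinuousConstSMul NormedGroup.to_isIsometricSMul Ring.uniformContinuousConstSMul EReal.instPosMulReflectLT Int.decidableLELE Int.decidableLELT Int.decidableLTLE Int.decidableLTLT List.instDecidableMemOfLawfulBEq instIsWellOrderOfIsEmpty instLocallyCompactSpaceOfPrespectralSpace instPrespectralSpaceOfNoetherianSpace isWellOrder_gt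 AlexandrovDiscrete.toLocallyCompactSpace Finite.to_wellFoundedGT IsWellOrder.toIsWellFounded SpectralSpace.toPrespectralSpace TopologicalSpace.instNoetherianSpaceOfIndiscreteTopology WellFounded.instIsWellFoundedOnFun TopologicalSpace.Finite.to_noetherianSpace TopologicalSpace.Opens.instFinite TopologicalSpace.Opens.instSetLike TopologicalSpace.Opens.instUniqueOfIsEmpty Pi.instSubtractionCommMonoid ContinuousAddMonoidHom.instCoeOutOfAddMonoidHomClassOfContinuousMapClass ContinuousMonoidHom.instCoeOutOfMonoidHomClassOfContinuousMapClass HomeomorphClass.instCoeOutHomeomorph IsometryClass.instCoeOutIsometryEquiv Std.LinearOrderPackage.toPartialOrderPackage Std.PartialOrderPackage.toPreorderPackage Part.ofOptionDecidable continuousSub_of_discreteTopology continuousSub_of_indiscreteTopology instUniqueAddUnitsOfSubsingleton CanonicallyOrderedCommMonoid.toUniqueAddUnits LinearOrderedAddCommGroupWithTop.toSubtractionMonoid instInhabitedOfMonad Nontrivial.to_nonempty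 Torsor.nonempty Unique.instInhabited CategoryTheory.IsConnected.is_nonempty Pi.divisionMonoid Pi.semigroup compactSpace_of_completeLinearOrder instCompactSpace Finite.compactSpace SpectralSpace.toCompactSpace Subsingleton.compactSpace TopologicalSpace.NoetherianSpace.compactSpace Std.DTreeMap.Raw.instInsertSigma bot_nonempty infSet_to_nonempty supSet_to_nonempty top_nonempty ConnectedSpace.toNonempty IrreducibleSpace.toNonempty One.instNonempty Zero.instNonempty AlgEquivClass.toAlgHomClass instCoeOutOfCoeFun Pi.normedAddGroup Std.DTreeMap.Raw.instSingletonSigma Pi.seminormedRing CompactSpace.sigmaCompact Pi.addGroupWithOne AddCancelCommMonoid.toAddCommMonoid ESeminormedAddCommMonoid.toAddCommMonoid Torsor.toMulAction GradedMonoid.GradeZero.mulAction Pi.instStarForall MulSemiringActionSemiHomClass.toDistribMulActionSemiHomClass NonUnitalAlgSemiHomClass.toDistribMulActionSemiHomClass instCoeHTCOfCoeHeadOfCoeOTC instCoeHTCTOfCoeTailOfCoeHTC instCoeTailIntOfIntCast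 instCoeTailNatOfNatCast instCoeTailRatOfRatCast DivisionRing.toNNRatCast DivisionRing.toRatCast DivisionSemiring.toNNRatCast LinearMapClass.instCoeToLinearMap NNRatCast.toCoeTail NonUnitalStarRingHomClass.instCoeHeadNonUnitalStarRingHom SemilinearMapClass.instCoeToSemilinearMap StarAlgEquivClass.instCoeHead StarRingEquivClass.instCoeHead instSMulZeroClass ValuationClass.toMonoidWithZeroHomClass MeasureTheory.Measure.prod.instSFinite Pi.instIsTopologicalSemiring RCLike.algebraMapCoe UpgradedStandardBorel.toPolishSpace instInfiniteOfUncountable instIsDomain instNontrivialOfCharZero AddCancelCommMonoid.toAddCancelMonoid AddCancelMonoid.toAddLeftCancelMonoid AddCommGroup.toGrindIntModule AddCommMonoid.toGrindNatModule AddLeftCancelMonoid.toAddMonoid AddRightCancelMonoid.toAddMonoid CancelCommMonoid.toCancelMonoid CancelCommMonoid.toCommMonoid CancelCommMonoid.toLeftCancelMonoid CancelMonoid.toLeftCancelMonoid CancelMonoid.toRightCancelMonoid CategoryTheory.isConnected_of_nonempty_and_subsingleton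 CharZero.infinite CommGroup.toCancelCommMonoid CommGroup.toCommMonoid CommMonoidWithZero.toCommMonoid CommRing.toGrindCommRing CommSemiring.toGrindCommSemiring Denumerable.instInfinite DivisionCommMonoid.toCommMonoid DivisionRing.isDomain DivisionRing.toNontrivial ENormedAddCommMonoid.toENormedAddMonoid ENormedAddMonoid.toESeminormedAddMonoid ENormedCommMonoid.toENormedMonoid ENormedMonoid.toESeminormedMonoid ESeminormedCommMonoid.toCommMonoid ESeminormedCommMonoid.toESeminormedMonoid ESeminormedMonoid.toMonoid EuclideanDomain.instIsDomain EuclideanDomain.toNontrivial Field.instIsLocalRing Field.isDomain Field.toGrindField Group.toCancelMonoid Infinite.instNontrivial IsAlgClosed.instInfinite IsDedekindDomain.toIsDomain IsDiscreteValuationRing.toIsLocalRing IsDomain.of_isSimpleRing IsDomain.toNontrivial IsLocalRing.toNontrivial IsOrderedRing.toIsStrictOrderedRing IsSimpleAddGroup.toNontrivial IsSimpleGroup.toNontrivial IsSimpleOrder.toNontrivial IsSimpleRing.instNontrivial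 IsStrictOrderedRing.isDomain IsStrictOrderedRing.toNontrivial LeftCancelMonoid.toMonoid LinearOrderedAddCommGroupWithTop.toNontrivial NoMaxOrder.infinite NoMinOrder.infinite NontriviallyNormedField.infinite NormedAddGroup.toENormedAddMonoid NormedGroup.toENormedMonoid Preorder.smallCategory RightCancelMonoid.toMonoid Ring.toGrindRing Semiring.toGrindSemiring ValuationRing.isLocalRing CategoryTheory.Groupoid.toCategory CategoryTheory.StrictBicategory.category GradedMonoid.GradeZero.commMonoid GradedMonoid.GradeZero.monoid instSMulCommClassOfIsScalarTower instDiscreteMeasurableSpace MeasurableSingletonClass.toDiscreteMeasurableSpace coePNatNat instNatCastNat Nat.Primes.coeNat Nat.Primes.coePNat Pi.existsAddOfLe NonUnitalNormedRing.toNorm NonUnitalSeminormedRing.toNorm NormedCommGroup.toNorm instPolishSpaceOfSeparableSpaceOfIsCompletelyMetrizableSpace AddGroup.instAddTorsor BooleanAlgebra.toBot BooleanAlgebra.toBoundedOrder BooleanAlgebra.toTop BoundedOrder.toOrderBot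 BoundedOrder.toOrderTop CoheytingAlgebra.toBoundedOrder CoheytingAlgebra.toOrderTop CompleteLattice.toBoundedOrder CompletePartialOrder.toSupSet CompleteSemilatticeInf.toInfSet CompleteSemilatticeSup.toSupSet ConditionallyCompleteLattice.toInfSet ConditionallyCompleteLattice.toSupSet ConditionallyCompleteLinearOrderBot.toOrderBot ConditionallyCompletePartialOrderInf.toInfSet ConditionallyCompletePartialOrderSup.toSupSet Convex.instPathConnectedSpace GeneralizedBooleanAlgebra.toBot GeneralizedBooleanAlgebra.toOrderBot GeneralizedCoheytingAlgebra.toOrderBot GeneralizedHeytingAlgebra.toOrderTop HeytingAlgebra.toBoundedOrder IdemSemiring.toOrderBot IrreducibleSpace.connectedSpace LinearOrderedAddCommGroupWithTop.toOrderTop LinearOrderedAddCommMonoidWithTop.toOrderTop LinearOrderedCommMonoidWithZero.toOrderBot MulZeroClass.negZeroClass NormedAddTorsor.toAddTorsor' NormedSpace.instPathConnectedSpace One.ofOfNat1 OrderBot.toBot OrderTop.toTop PathConnectedSpace.connectedSpace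 instMulActionSemiHomClassMulActionHom RCLike.instNormSMulClassInt MonoidWithZeroHomClass.toZeroHomClass MulEquivClass.toMonoidWithZeroHomClass MulRingSeminormClass.toMonoidWithZeroHomClass Ordinal.instPosMulStrictMono instClosedIciTopologyOrderDual OrderDual.instIsOrderedModule SuccAddOrder.toSuccOrder Pi.orderClosedTopology' Nat.instIsStrictOrderedRing MetricSpace.toPseudoMetricSpace SeminormedGroup.toPseudoMetricSpace instTopologicalSpaceFin Fin.addCommGroup Fin.addCommMonoid Fin.instBoundedOrder Fin.instNontrivial Fin.instPartialOrder ContinuousLinearMap.toNormedRing ContinuousLinearMap.toSeminormedRing MeasureTheory.instSFiniteOfCountable Pi.instOrderTop instCStarAlgebraForall instCommCStarAlgebraForall instNonUnitalCStarAlgebraForall instNonUnitalCommCStarAlgebraForall Pi.commRing Pi.nonAssocRing Pi.nonUnitalCommRing Pi.nonUnitalNormedCommRing Pi.nonUnitalNormedRing Pi.nonUnitalRing Pi.nonUnitalSeminormedCommRing Pi.nonUnitalSeminormedRing Pi.normedCommutativeRing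 Pi.seminormedCommRing EReal.instMulPosReflectLT instBEqOfDecidableEq Int.instLawfulBEq Std.PreorderPackage.toBEq Pi.divInvMonoid CanonicallyOrderedAdd.toMulRightMono IdemSemiring.toMulRightMono IsOrderedAddMonoid.toAddRightMono IsOrderedMonoid.toMulRightMono Pi.commMonoidWithZero MeasureTheory.Measure.instSFiniteFstOfProd Pi.hasDistribNeg AlgHom.instContinuousLinearMapClassOfAlgHomClass instNoMaxOrderForallOfNonempty Algebra.complexToReal NormedAlgebra.complexToReal GradedMonoid.GradeZero.smul eventuallyMeasurableSingleton instMeasurableSingletonClassOfMeasurableEq standardBorelSpace_of_discreteMeasurableSpace standardBorel_of_polish StandardBorelSpace.instMeasurableEq IsDedekindDomain.isDedekindDomainDvr IsDedekindDomain.toIsDedekindRing instDecidableRelLe Std.instDecidableLE Set.instNoZeroDivisors Pi.instMaxForall_mathlib AlgHomClass.linearMapClass ContinuousSemilinearEquivClass.continuousSemilinearMapClass NonUnitalAlgHomClass.instLinearMapClass NonUnitalAlgHomClass.instSemilinearMapClassOfNonUnitalAlgSemiHomClassToMonoidHomRingHom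 SemilinearEquivClass.instSemilinearMapClass PolishSpace.toIsCompletelyMetrizableSpace SpectralSpace.toT0Space T6Space.toT0Space TopologicalSpace.IsCompletelyMetrizableSpace.of_completeSpace_metrizable Pi.instTrivialStarForall MulSemiringAction.toMulDistribMulAction Pi.nonUnitalCommSemiring instIsReducedForall Pi.subNegZeroMonoid AlgHom.instRingHomCompTripleComp AbsoluteValue.zeroHomClass IsSepClosed.isAlgClosed_of_perfectField IsSepClosed.of_isAlgClosed StrictOrderedSemiring.toPosSMulStrictMonoNat Algebra.IsFiniteSplit.instOfIsSepClosedOfEssFiniteTypeOfFormallyEtale PolishSpace.toSecondCountableTopology RCLike.toDecidableEq AlgHomClass.toRingHomClass MulSemiringActionSemiHomClass.toRingHomClass RingEquivClass.toRingHomClass SemilinearMapClass.toAddHomClass instLindelofSpaceOfCompactSpace instLindelofSpaceOfSigmaCompactSpace sigmaCompactSpace_of_locallyCompact_secondCountable Countable.LindelofSpace DiscreteTopology.secondCountableTopology_of_countable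 Finite.toSecondCountableTopology HereditarilyLindelof.to_Lindelof SecondCountableTopology.toHereditarilyLindelof SeparableWeaklyLocallyCompactGroup.sigmaCompactSpace Subsingleton.lindelofSpace TopologicalSpace.instSecondCountableTopologyOfLindelofSpaceOfPseudoMetrizableSpace TopologicalSpace.Countable.to_separableSpace Pi.instIsTopologicalRing StarSubalgebra.commCStarAlgebra StarSubalgebra.cstarAlgebra SubalgebraClass.normedRing SubfieldClass.toNormedField SubringClass.toNormedCommRing SubringClass.toNormedRing Pi.measurableSub₂ -- iprune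

set_option linter.all false

section

section

namespace Vale.Agent.P224

open Matrix

variable {n : Type*} [Fintype n] [DecidableEq n]

lemma exists_orth_diag (A : Matrix n n ℝ) (hA : A.IsHermitian) :
    ∃ U : Matrix n n ℝ, Uᵀ * U = 1 ∧ Uᵀ * A * U = diagonal hA.eigenvalues := by
  refine ⟨hA.eigenvectorUnitary, ?_, ?_⟩
  · have := Unitary.coe_star_mul_self hA.eigenvectorUnitary
    rw [star_eq_conjTranspose, conjTranspose_eq_transpose_of_trivial] at this
    exact this
  · have := hA.conjStarAlgAut_star_eigenvectorUnitary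
    rw [Unitary.conjStarAlgAut_star_apply] at this
    rw [star_eq_conjTranspose, conjTranspose_eq_transpose_of_trivial] at this
    rw [this]
    rfl

/-- simultaneous diagonalisation -/
lemma exists_simul_diag (G H : Matrix n n ℝ) (hG : G.PosDef) (hH : Hᵀ = H) :
    ∃ (T : Matrix n n ℝ) (κ : n → ℝ), Tᵀ * G * T = 1 ∧ Tᵀ * H * T = diagonal κ := by
  obtain ⟨U, hU, hUG⟩ := exists_orth_diag G hG.1
  set C : Matrix n n ℝ := U * diagonal (fun i => (Real.sqrt (hG.1.eigenvalues i))⁻¹) with hC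
  have hCG : Cᵀ * G * C = 1 := by
    rw [hC, transpose_mul, diagonal_transpose]
    calc diagonal (fun i => (Real.sqrt (hG.1.eigenvalues i))⁻¹) * Uᵀ * G *
          (U * diagonal (fun i => (Real.sqrt (hG.1.eigenvalues i))⁻¹))
        = diagonal (fun i => (Real.sqrt (hG.1.eigenvalues i))⁻¹) * (Uᵀ * G * U) *
          diagonal (fun i => (Real.sqrt (hG.1.eigenvalues i))⁻¹) := by
          simp only [Matrix.mul_assoc]
      _ = 1 := by
          rw [hUG, diagonal_mul_diagonal, diagonal_mul_diagonal, ← diagonal_one]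
          congr 1
          funext i
          have hp := hG.eigenvalues_pos i
          have hs : 0 < Real.sqrt (hG.1.eigenvalues i) := Real.sqrt_pos.mpr hp
          have := Real.mul_self_sqrt hp.le
          field_simp
          linarith only [this]
  have hK : (Cᵀ * H * C).IsHermitian := by
    rw [IsHermitian, conjTranspose_eq_transpose_of_trivial]
    simp only [Matrix.mul_assoc, transpose_mul, hH, transpose_transpose]
  obtain ⟨V, hV, hVK⟩ := exists_orth_diag _ hK
  refine ⟨C * V, hK.eigenvalues, ?_, ?_⟩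
  · calc (C * V)ᵀ * G * (C * V) = Vᵀ * (Cᵀ * G * C) * V := by
          simp only [transpose_mul, Matrix.mul_assoc]
      _ = 1 := by rw [hCG, Matrix.mul_one, hV]
  · calc (C * V)ᵀ * H * (C * V) = Vᵀ * (Cᵀ * H * C) * V := by
          simp only [transpose_mul, Matrix.mul_assoc]
      _ = _ := hVK

/-- The principal curvatures. -/
theorem exists_kappa (G H : Matrix n n ℝ) (hG : G.PosDef) (hH : Hᵀ = H) :
    ∃ κ : n → ℝ, (G⁻¹ * H).trace = ∑ i, κ i ∧
      ((G⁻¹ * H) * (G⁻¹ * H)).trace = ∑ i, κ i ^ 2 ∧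
      (∀ a b : ℝ, (a • G - b • H).det = G.det * ∏ i, (a - b * κ i)) ∧
      (∀ a b : ℝ, (∀ v : n → ℝ, 0 ≤ v ⬝ᵥ ((a • G - b • H) *ᵥ v)) → ∀ i, 0 ≤ a - b * κ i) := by
  obtain ⟨T, κ, hTG, hTH⟩ := exists_simul_diag G H hG hH
  have hdet : T.det * T.det * G.det = 1 := by
    have := congrArg Matrix.det hTG
    rw [det_mul, det_mul, det_transpose, det_one] at this
    linarith only [this]
  have hTdet : T.det ≠ 0 := by
    intro h
    rw [h] at hdet
    simp only [mul_zero, zero_mul, zero_ne_one] at hdet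
  have hTu : IsUnit T.det := isUnit_iff_ne_zero.mpr hTdet
  have hGdet : IsUnit G.det := isUnit_iff_ne_zero.mpr hG.det_pos.ne'
  have hTt : IsUnit (Tᵀ).det := by rw [det_transpose]; exact hTu
  -- G⁻¹ = T Tᵀ
  have hGinv : G⁻¹ = T * Tᵀ := by
    have h1 : G * (T * Tᵀ) = 1 := by
      have : Tᵀ * (G * (T * Tᵀ)) = Tᵀ * 1 := by
        calc Tᵀ * (G * (T * Tᵀ)) = (Tᵀ * G * T) * Tᵀ := by simp only [Matrix.mul_assoc]
          _ = Tᵀ * 1 := by rw [hTG, Matrix.one_mul, Matrix.mul_one]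
      have h2 := congrArg (fun X => (Tᵀ)⁻¹ * X) this
      simpa only [← Matrix.mul_assoc, Matrix.nonsing_inv_mul _ hTt, one_mul, mul_one] using h2
    exact inv_eq_right_inv h1
  have hW : G⁻¹ * H = T * (diagonal κ * T⁻¹) := by
    have h1 : (Tᵀ * H) = diagonal κ * T⁻¹ := by
      rw [← hTH, Matrix.mul_assoc (Tᵀ * H), Matrix.mul_nonsing_inv _ hTu, Matrix.mul_one]
    rw [hGinv, Matrix.mul_assoc, h1]
  refine ⟨κ, ?_, ?_, ?_, ?_⟩
  · rw [hW, trace_mul_comm, Matrix.mul_assoc, Matrix.nonsing_inv_mul _ hTu, Matrix.mul_one,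
      trace_diagonal]
  · rw [hW]
    have : T * (diagonal κ * T⁻¹) * (T * (diagonal κ * T⁻¹))
        = T * (diagonal κ * diagonal κ * T⁻¹) := by
      calc T * (diagonal κ * T⁻¹) * (T * (diagonal κ * T⁻¹))
          = T * (diagonal κ * (T⁻¹ * T) * (diagonal κ * T⁻¹)) := by
            simp only [Matrix.mul_assoc]
        _ = _ := by
            rw [Matrix.nonsing_inv_mul _ hTu, Matrix.mul_one]
            simp only [Matrix.mul_assoc]
    rw [this, trace_mul_comm, Matrix.mul_assoc, Matrix.nonsing_inv_mul _ hTu, Matrix.mul_one,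
      diagonal_mul_diagonal, trace_diagonal]
    simp only [pow_two]
  · intro a b
    have h1 : Tᵀ * (a • G - b • H) * T = diagonal (fun i => a - b * κ i) := by
      rw [Matrix.mul_sub, Matrix.sub_mul, Matrix.mul_smul, Matrix.mul_smul, Matrix.smul_mul,
        Matrix.smul_mul, hTG, hTH]
      ext i j
      by_cases hij : i = j
      · subst hij
        simp
      · simp [hij]
    have h2 := congrArg Matrix.det h1
    rw [det_mul, det_mul, det_transpose, det_diagonal] at h2
    have h3 : G.det * (T.det * (a • G - b • H).det * T.det) = (a • G - b • H).det := by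
      calc G.det * (T.det * (a • G - b • H).det * T.det)
          = (T.det * T.det * G.det) * (a • G - b • H).det := by ring
        _ = _ := by rw [hdet, one_mul]
    rw [← h3, h2]
  · intro a b hnn i
    have h1 : Tᵀ * (a • G - b • H) * T = diagonal (fun i => a - b * κ i) := by
      rw [Matrix.mul_sub, Matrix.sub_mul, Matrix.mul_smul, Matrix.mul_smul, Matrix.smul_mul,
        Matrix.smul_mul, hTG, hTH]
      ext i j
      by_cases hij : i = j
      · subst hij
        simp
      · simp [hij]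
    have h2 := hnn (T *ᵥ Pi.single i 1)
    have h3 : (T *ᵥ Pi.single i 1) ⬝ᵥ ((a • G - b • H) *ᵥ (T *ᵥ Pi.single i 1))
        = (Tᵀ * (a • G - b • H) * T) i i := by
      calc (T *ᵥ Pi.single i 1) ⬝ᵥ ((a • G - b • H) *ᵥ (T *ᵥ Pi.single i 1))
          = (Pi.single i 1 ᵥ* Tᵀ) ⬝ᵥ ((a • G - b • H) *ᵥ (T *ᵥ Pi.single i 1)) := by
            rw [vecMul_transpose]
        _ = Pi.single i 1 ⬝ᵥ (Tᵀ *ᵥ ((a • G - b • H) *ᵥ (T *ᵥ Pi.single i 1))) :=
            (dotProduct_mulVec _ _ _).symm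
        _ = (Tᵀ * (a • G - b • H) * T) i i := by
            rw [mulVec_mulVec, mulVec_mulVec, single_one_dotProduct, mulVec_single_one,
              Matrix.col_apply, Matrix.mul_assoc]
    rw [h3, h1, diagonal_apply_eq] at h2
    exact h2

end Vale.Agent.P224
end
end

section

section

namespace Vale.Agent.P224

open MeasureTheory Metric Set Matrix
open scoped RealInnerProductSpace

/-- splitting of coordinates -/
noncomputable abbrev Te (m : ℕ) : EuclideanSpace ℝ (Fin (m + 2)) ≃L[ℝ]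
    EuclideanSpace ℝ (Fin m) × EuclideanSpace ℝ (Fin 2) := EuclideanSpace.finAddEquivProd

lemma Te_measurePreserving (m : ℕ) : MeasurePreserving (Te m) := by
  have h1 := (LinearIsometryEquiv.piLpCongrLeft 2 ℝ ℝ
    (finSumFinEquiv (m := m) (n := 2)).symm).measurePreserving
  have h2 := (PiLp.sumPiLpEquivProdLpPiLp (𝕜 := ℝ) 2
    (fun _ : Fin m ⊕ Fin 2 => ℝ)).measurePreserving
  have h3 := WithLp.volume_preserving_ofLp (EuclideanSpace ℝ (Fin m)) (EuclideanSpace ℝ (Fin 2))
  exact h3.comp (h2.comp h1)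

/-- matrix whose columns are the given vectors -/
noncomputable def Mat {m : ℕ} (q : Fin m ⊕ Fin 2 → EuclideanSpace ℝ (Fin (m + 2))) :
    Matrix (Fin m ⊕ Fin 2) (Fin m ⊕ Fin 2) ℝ :=
  Matrix.of fun s t => q t (finSumFinEquiv s)

lemma Mat_transpose_mul {m : ℕ} (q r : Fin m ⊕ Fin 2 → EuclideanSpace ℝ (Fin (m + 2))) :
    (Mat q)ᵀ * Mat r = Matrix.of fun s t => ⟪q s, r t⟫ := by
  ext s t
  simp only [Mat, Matrix.mul_apply, transpose_apply, of_apply]
  rw [Equiv.sum_comp (finSumFinEquiv (m := m) (n := 2)) (fun a => q s a * r t a)]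
  simp only [PiLp.inner_apply, RCLike.inner_apply, Real.ringHom_apply, mul_comm]

lemma det_Te_comp {m : ℕ} (D : EuclideanSpace ℝ (Fin m) × EuclideanSpace ℝ (Fin 2) →L[ℝ]
    EuclideanSpace ℝ (Fin (m + 2))) :
    ((Te m : _ →L[ℝ] _).comp D).det =
      (Mat (Sum.elim (fun i => D (EuclideanSpace.single i 1, 0))
        (fun j => D (0, EuclideanSpace.single j 1)))).det := by
  rw [ContinuousLinearMap.det, ← LinearMap.det_toMatrix
    ((EuclideanSpace.basisFun (Fin m) ℝ).toBasis.prod (EuclideanSpace.basisFun (Fin 2) ℝ).toBasis)]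
  congr 1
  ext s t
  rw [LinearMap.toMatrix_apply]
  rcases s with s | s <;> rcases t with t | t <;> simp [Mat]

end Vale.Agent.P224
end
end

section

section

namespace Vale.Agent.P224

open MeasureTheory Metric Set Matrix
open scoped RealInnerProductSpace ContDiff

section

variable {m : ℕ}

/-- the frame d_1, ..., d_m, p, n -/
def frame (d : Fin m → EuclideanSpace ℝ (Fin (m + 2))) (p n : EuclideanSpace ℝ (Fin (m + 2))) :
    Fin m ⊕ Fin 2 → EuclideanSpace ℝ (Fin (m + 2)) := Sum.elim d ![p, n]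

/-- generalised cross product of d_1, ..., d_m, p -/
noncomputable def crossN (d : Fin m → EuclideanSpace ℝ (Fin (m + 2)))
    (p : EuclideanSpace ℝ (Fin (m + 2))) : EuclideanSpace ℝ (Fin (m + 2)) :=
  WithLp.toLp 2 fun a => (Mat (frame d p (EuclideanSpace.single a 1))).det

lemma Mat_frame_eq (d : Fin m → EuclideanSpace ℝ (Fin (m + 2)))
    (p n : EuclideanSpace ℝ (Fin (m + 2))) :
    Mat (frame d p n) = (Mat (frame d p 0)).updateCol (Sum.inr 1)
      (fun s => n (finSumFinEquiv s)) := by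
  ext s t
  rcases t with t | t
  · simp [Mat, frame]
  · fin_cases t
    · simp only [Mat, frame, Fin.zero_eta, Fin.isValue, of_apply, Sum.elim_inr, cons_val_zero, ne_eq, Sum.inr.injEq, zero_ne_one, not_false_eq_true, updateCol_ne]
    · simp [Mat, frame]

lemma inner_crossN (d : Fin m → EuclideanSpace ℝ (Fin (m + 2)))
    (p n : EuclideanSpace ℝ (Fin (m + 2))) :
    ⟪crossN d p, n⟫ = (Mat (frame d p n)).det := by
  have h : ∀ w : EuclideanSpace ℝ (Fin (m + 2)), (Mat (frame d p w)).det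
      = cramer (Mat (frame d p 0)) (fun s => w (finSumFinEquiv s)) (Sum.inr 1) := by
    intro w
    rw [Mat_frame_eq, cramer_apply]
  have h1 : ∀ a, crossN d p a
      = cramer (Mat (frame d p 0)) (Pi.single (finSumFinEquiv.symm a) 1) (Sum.inr 1) := by
    intro a
    have := h (EuclideanSpace.single a 1)
    simp only [crossN]
    rw [this]
    have e : (fun s => (EuclideanSpace.single a (1 : ℝ)) (finSumFinEquiv s))
        = (Pi.single (finSumFinEquiv.symm a) 1 : Fin m ⊕ Fin 2 → ℝ) := by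
      funext s
      by_cases hs : finSumFinEquiv s = a
      · subst hs
        simp
      · have hs' : s ≠ finSumFinEquiv.symm a := by
          intro h; apply hs; rw [h]; simp
        simp [hs, hs']
    rw [e]
  rw [h n]
  have h2 : (fun s => n (finSumFinEquiv s)) = ∑ s : Fin m ⊕ Fin 2,
      n (finSumFinEquiv s) • (Pi.single s (1 : ℝ) : Fin m ⊕ Fin 2 → ℝ) := by
    funext s
    simp [Finset.sum_apply, Pi.single_apply]
  rw [h2, map_sum, Finset.sum_apply, PiLp.inner_apply]
  rw [← Equiv.sum_comp (finSumFinEquiv (m := m) (n := 2))]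
  apply Finset.sum_congr rfl
  intro s _
  rw [h1, map_smul]
  simp only [Equiv.symm_apply_apply, Fin.isValue, RCLike.inner_apply, Real.ringHom_apply, Pi.smul_apply, smul_eq_mul]

lemma inner_crossN_p (d : Fin m → EuclideanSpace ℝ (Fin (m + 2)))
    (p : EuclideanSpace ℝ (Fin (m + 2))) : ⟪crossN d p, p⟫ = 0 := by
  rw [inner_crossN]
  apply det_zero_of_column_eq (i := Sum.inr 0) (j := Sum.inr 1) (by simp)
  intro k
  simp [Mat, frame]

lemma inner_crossN_d (d : Fin m → EuclideanSpace ℝ (Fin (m + 2)))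
    (p : EuclideanSpace ℝ (Fin (m + 2))) (i : Fin m) : ⟪crossN d p, d i⟫ = 0 := by
  rw [inner_crossN]
  apply det_zero_of_column_eq (i := Sum.inl i) (j := Sum.inr 1) (by simp)
  intro k
  simp [Mat, frame]

lemma frame_gram (d : Fin m → EuclideanSpace ℝ (Fin (m + 2)))
    (p n : EuclideanSpace ℝ (Fin (m + 2))) (hp : ‖p‖ = 1) (hn : ‖n‖ = 1) (hpn : ⟪p, n⟫ = 0)
    (hdp : ∀ i, ⟪d i, p⟫ = 0) (hdn : ∀ i, ⟪d i, n⟫ = 0) :
    (Mat (frame d p n))ᵀ * Mat (frame d p n) = fromBlocks (Matrix.gram ℝ d) 0 0 1 := by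
  rw [Mat_transpose_mul]
  have hdp' : ∀ i, ⟪p, d i⟫ = 0 := fun i => by rw [real_inner_comm]; exact hdp i
  have hdn' : ∀ i, ⟪n, d i⟫ = 0 := fun i => by rw [real_inner_comm]; exact hdn i
  have hnp : ⟪n, p⟫ = 0 := by rw [real_inner_comm]; exact hpn
  ext s t
  rcases s with s | s <;> rcases t with t | t
  · simp only [frame, of_apply, Sum.elim_inl, fromBlocks_apply₁₁, gram_apply]
  · fin_cases t <;> simp [frame, hdp, hdn]
  · fin_cases s <;> simp [frame, hdp', hdn']
  · fin_cases s <;> fin_cases t <;> simp [frame, hp, hn, hpn, hnp]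

lemma frame_det_sq (d : Fin m → EuclideanSpace ℝ (Fin (m + 2)))
    (p n : EuclideanSpace ℝ (Fin (m + 2))) (hp : ‖p‖ = 1) (hn : ‖n‖ = 1) (hpn : ⟪p, n⟫ = 0)
    (hdp : ∀ i, ⟪d i, p⟫ = 0) (hdn : ∀ i, ⟪d i, n⟫ = 0) :
    (Mat (frame d p n)).det ^ 2 = (Matrix.gram ℝ d).det := by
  have := congrArg Matrix.det (frame_gram d p n hp hn hpn hdp hdn)
  rw [det_mul, det_transpose, det_fromBlocks_zero₂₁, det_one, mul_one] at this
  rw [← this]; ring

lemma exists_unit_normal (d : Fin m → EuclideanSpace ℝ (Fin (m + 2)))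
    (p : EuclideanSpace ℝ (Fin (m + 2))) :
    ∃ n : EuclideanSpace ℝ (Fin (m + 2)), ‖n‖ = 1 ∧ ⟪p, n⟫ = 0 ∧ ∀ i, ⟪d i, n⟫ = 0 := by
  set S : Submodule ℝ (EuclideanSpace ℝ (Fin (m + 2))) :=
    Submodule.span ℝ (Set.range (Fin.cons p d : Fin (m + 1) → EuclideanSpace ℝ (Fin (m + 2))))
    with hS
  have hfin : Module.finrank ℝ S ≤ m + 1 := by
    have := finrank_range_le_card (R := ℝ)
      (b := (Fin.cons p d : Fin (m + 1) → EuclideanSpace ℝ (Fin (m + 2))))
    simpa only [ge_iff_le, Set.finrank, Fintype.card_fin] using this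
  have hperp : 0 < Module.finrank ℝ Sᗮ := by
    have := Submodule.finrank_add_finrank_orthogonal S
    rw [finrank_euclideanSpace_fin] at this
    omega
  obtain ⟨⟨v, hv⟩, hv0⟩ := (Module.finrank_pos_iff_exists_ne_zero (R := ℝ)).mp hperp
  have hv0' : v ≠ 0 := fun h => hv0 (by ext1; exact h)
  have hnv : ‖v‖ ≠ 0 := norm_ne_zero_iff.mpr hv0'
  have hin : ∀ w ∈ S, ⟪w, v⟫ = 0 := fun w hw => (Submodule.mem_orthogonal S v).mp hv w hw
  refine ⟨‖v‖⁻¹ • v, ?_, ?_, ?_⟩
  · rw [norm_smul, norm_inv, norm_norm, inv_mul_cancel₀ hnv]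
  · rw [inner_smul_right, hin p (Submodule.subset_span ⟨0, by simp⟩), mul_zero]
  · intro i
    rw [inner_smul_right, hin (d i) (Submodule.subset_span ⟨i.succ, by simp⟩), mul_zero]

lemma crossN_ne_zero (d : Fin m → EuclideanSpace ℝ (Fin (m + 2)))
    (p : EuclideanSpace ℝ (Fin (m + 2))) (hp : ‖p‖ = 1) (hdp : ∀ i, ⟪d i, p⟫ = 0)
    (hd : LinearIndependent ℝ d) : crossN d p ≠ 0 := by
  intro h0
  obtain ⟨n, hn, hpn, hdn⟩ := exists_unit_normal d p
  have h1 := frame_det_sq d p n hp hn hpn hdp hdn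
  rw [← inner_crossN, h0, inner_zero_left] at h1
  have h2 := (Matrix.det_gram_ne_zero_iff_linearIndependent (𝕜 := ℝ)).mpr hd
  apply h2
  rw [← h1]; norm_num

end

end Vale.Agent.P224
end
end

section

section

namespace Vale.Agent.P224

open MeasureTheory Metric Set Matrix
open scoped RealInnerProductSpace ContDiff

section

variable {m : ℕ}

/-- first partial derivatives -/
noncomputable def D1 (f : EuclideanSpace ℝ (Fin m) → EuclideanSpace ℝ (Fin (m + 2))) (i : Fin m)
    (u : EuclideanSpace ℝ (Fin m)) : EuclideanSpace ℝ (Fin (m + 2)) :=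
  fderiv ℝ f u (EuclideanSpace.single i 1)

/-- second partial derivatives -/
noncomputable def D2 (f : EuclideanSpace ℝ (Fin m) → EuclideanSpace ℝ (Fin (m + 2))) (i j : Fin m)
    (u : EuclideanSpace ℝ (Fin m)) : EuclideanSpace ℝ (Fin (m + 2)) :=
  fderiv ℝ (D1 f j) u (EuclideanSpace.single i 1)

/-- unnormalised normal -/
noncomputable def N0 (f : EuclideanSpace ℝ (Fin m) → EuclideanSpace ℝ (Fin (m + 2)))
    (u : EuclideanSpace ℝ (Fin m)) : EuclideanSpace ℝ (Fin (m + 2)) :=
  crossN (fun i => D1 f i u) (f u)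

/-- unit normal -/
noncomputable def nu (f : EuclideanSpace ℝ (Fin m) → EuclideanSpace ℝ (Fin (m + 2)))
    (u : EuclideanSpace ℝ (Fin m)) : EuclideanSpace ℝ (Fin (m + 2)) :=
  ‖N0 f u‖⁻¹ • N0 f u

/-- A smooth immersion of an open set into the unit sphere. -/
structure Imm (f : EuclideanSpace ℝ (Fin m) → EuclideanSpace ℝ (Fin (m + 2)))
    (T : Set (EuclideanSpace ℝ (Fin m))) : Prop where
  isOpen : IsOpen T
  smooth : ContDiffOn ℝ ∞ f T
  unit : ∀ u ∈ T, ‖f u‖ = 1
  inj : ∀ u ∈ T, Function.Injective (fderiv ℝ f u)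

variable {f : EuclideanSpace ℝ (Fin m) → EuclideanSpace ℝ (Fin (m + 2))}
  {T : Set (EuclideanSpace ℝ (Fin m))}

namespace Imm

lemma contDiffOn_D1 (h : Imm f T) (i : Fin m) : ContDiffOn ℝ ∞ (D1 f i) T := by
  have h1 : ContDiffOn ℝ ∞ (fderiv ℝ f) T :=
    h.smooth.fderiv_of_isOpen h.isOpen (by norm_cast)
  exact h1.clm_apply contDiffOn_const

lemma contDiffOn_D2 (h : Imm f T) (i j : Fin m) : ContDiffOn ℝ ∞ (D2 f i j) T := by
  have h1 : ContDiffOn ℝ ∞ (fderiv ℝ (D1 f j)) T :=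
    (h.contDiffOn_D1 j).fderiv_of_isOpen h.isOpen (by norm_cast)
  exact h1.clm_apply contDiffOn_const

lemma contDiffOn_N0 (h : Imm f T) : ContDiffOn ℝ ∞ (N0 f) T := by
  rw [contDiffOn_euclidean]
  intro a
  have : (fun u => N0 f u a) = fun u =>
      ∑ σ : Equiv.Perm (Fin m ⊕ Fin 2), Equiv.Perm.sign σ •
        ∏ s, Mat (frame (fun i => D1 f i u) (f u) (EuclideanSpace.single a 1)) (σ s) s := by
    funext u
    simp only [N0, crossN]
    rw [det_apply]
  rw [this]
  apply ContDiffOn.sum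
  intro σ _
  apply ContDiffOn.const_smul
  apply contDiffOn_prod
  intro s _
  rcases s with s | s
  · have h1 := h.contDiffOn_D1 s
    rw [contDiffOn_euclidean] at h1
    simpa [Mat, frame] using h1 (finSumFinEquiv (σ (Sum.inl s)))
  · fin_cases s
    · have h1 := h.smooth
      rw [contDiffOn_euclidean] at h1
      simpa [Mat, frame] using h1 (finSumFinEquiv (σ (Sum.inr 0)))
    · simpa [Mat, frame] using contDiffOn_const

lemma inner_f_D1 (h : Imm f T) {u : EuclideanSpace ℝ (Fin m)} (hu : u ∈ T) (i : Fin m) :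
    ⟪f u, D1 f i u⟫ = 0 := by
  have hd : DifferentiableAt ℝ f u :=
    (h.smooth.differentiableOn (by norm_num)).differentiableAt (h.isOpen.mem_nhds hu)
  have h1 : (fun v => ⟪f v, f v⟫) =ᶠ[nhds u] fun _ => (1 : ℝ) := by
    filter_upwards [h.isOpen.mem_nhds hu] with v hv
    rw [real_inner_self_eq_norm_sq, h.unit v hv]; norm_num
  have h2 := fderiv_inner_apply ℝ hd hd (EuclideanSpace.single i 1)
  rw [h1.fderiv_eq, fderiv_fun_const] at h2
  simp only [Pi.zero_apply, _root_.zero_apply] at h2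
  rw [real_inner_comm (f u) (fderiv ℝ f u (EuclideanSpace.single i 1))] at h2
  unfold D1
  linarith only [h2]

lemma inner_D1_f (h : Imm f T) {u : EuclideanSpace ℝ (Fin m)} (hu : u ∈ T) (i : Fin m) :
    ⟪D1 f i u, f u⟫ = 0 := by
  rw [real_inner_comm]; exact h.inner_f_D1 hu i

lemma linearIndependent (h : Imm f T) {u : EuclideanSpace ℝ (Fin m)} (hu : u ∈ T) :
    LinearIndependent ℝ (fun i => D1 f i u) := by
  have h1 := (EuclideanSpace.basisFun (Fin m) ℝ).toBasis.linearIndependent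
  have hk : LinearMap.ker (fderiv ℝ f u).toLinearMap = ⊥ := by
    rw [LinearMap.ker_eq_bot]
    exact h.inj u hu
  have h2 := h1.map' _ hk
  have e : (fun i => D1 f i u) = (⇑(fderiv ℝ f u).toLinearMap ∘
      ⇑(EuclideanSpace.basisFun (Fin m) ℝ).toBasis) := by
    funext i
    simp only [D1, ContinuousLinearMap.coe_coe, OrthonormalBasis.coe_toBasis, Function.comp_apply, EuclideanSpace.basisFun_apply]
  rw [e]
  exact h2

lemma N0_ne_zero (h : Imm f T) {u : EuclideanSpace ℝ (Fin m)} (hu : u ∈ T) : N0 f u ≠ 0 :=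
  crossN_ne_zero _ _ (h.unit u hu) (fun i => h.inner_D1_f hu i) (h.linearIndependent hu)

lemma norm_nu (h : Imm f T) {u : EuclideanSpace ℝ (Fin m)} (hu : u ∈ T) : ‖nu f u‖ = 1 := by
  unfold nu
  rw [norm_smul, norm_inv, norm_norm, inv_mul_cancel₀ (norm_ne_zero_iff.mpr (h.N0_ne_zero hu))]

lemma inner_nu_f (u : EuclideanSpace ℝ (Fin m)) : ⟪nu f u, f u⟫ = 0 := by
  unfold nu N0
  rw [inner_smul_left, inner_crossN_p, mul_zero]

lemma inner_nu_D1 (u : EuclideanSpace ℝ (Fin m)) (i : Fin m) : ⟪nu f u, D1 f i u⟫ = 0 := by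
  unfold nu N0
  rw [inner_smul_left, inner_crossN_d (fun i => D1 f i u), mul_zero]

lemma contDiffOn_nu (h : Imm f T) : ContDiffOn ℝ ∞ (nu f) T := by
  unfold nu
  refine ContDiffOn.fun_smul ?_ h.contDiffOn_N0
  apply ContDiffOn.inv
  · exact h.contDiffOn_N0.norm ℝ fun u hu => h.N0_ne_zero hu
  · intro u hu
    exact norm_ne_zero_iff.mpr (h.N0_ne_zero hu)

lemma diffAt (h : Imm f T) {u : EuclideanSpace ℝ (Fin m)} (hu : u ∈ T) :
    DifferentiableAt ℝ f u :=
  (h.smooth.differentiableOn (by norm_num)).differentiableAt (h.isOpen.mem_nhds hu)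

lemma diffAt_D1 (h : Imm f T) {u : EuclideanSpace ℝ (Fin m)} (hu : u ∈ T) (i : Fin m) :
    DifferentiableAt ℝ (D1 f i) u :=
  ((h.contDiffOn_D1 i).differentiableOn (by norm_num)).differentiableAt (h.isOpen.mem_nhds hu)

lemma diffAt_nu (h : Imm f T) {u : EuclideanSpace ℝ (Fin m)} (hu : u ∈ T) :
    DifferentiableAt ℝ (nu f) u :=
  (h.contDiffOn_nu.differentiableOn (by norm_num)).differentiableAt (h.isOpen.mem_nhds hu)

end Imm

/-- differentiating a constant inner product -/
lemma inner_const_deriv {g k : EuclideanSpace ℝ (Fin m) → EuclideanSpace ℝ (Fin (m + 2))}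
    {u : EuclideanSpace ℝ (Fin m)} (hT : IsOpen T) (hu : u ∈ T) (c : ℝ)
    (hc : ∀ v ∈ T, ⟪g v, k v⟫ = c) (hg : DifferentiableAt ℝ g u) (hk : DifferentiableAt ℝ k u)
    (w : EuclideanSpace ℝ (Fin m)) :
    ⟪g u, fderiv ℝ k u w⟫ + ⟪fderiv ℝ g u w, k u⟫ = 0 := by
  have h1 : (fun v => ⟪g v, k v⟫) =ᶠ[nhds u] fun _ => c := by
    filter_upwards [hT.mem_nhds hu] with v hv
    exact hc v hv
  have h2 := fderiv_inner_apply ℝ hg hk w
  rw [h1.fderiv_eq, fderiv_fun_const] at h2
  simp only [Pi.zero_apply, _root_.zero_apply] at h2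
  exact h2.symm

/-- partial derivatives of the normal -/
noncomputable def dnu (f : EuclideanSpace ℝ (Fin m) → EuclideanSpace ℝ (Fin (m + 2))) (i : Fin m)
    (u : EuclideanSpace ℝ (Fin m)) : EuclideanSpace ℝ (Fin (m + 2)) :=
  fderiv ℝ (nu f) u (EuclideanSpace.single i 1)

/-- the metric -/
noncomputable def G (f : EuclideanSpace ℝ (Fin m) → EuclideanSpace ℝ (Fin (m + 2)))
    (u : EuclideanSpace ℝ (Fin m)) : Matrix (Fin m) (Fin m) ℝ := Matrix.gram ℝ (fun i => D1 f i u)

/-- the second fundamental form -/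
noncomputable def H (f : EuclideanSpace ℝ (Fin m) → EuclideanSpace ℝ (Fin (m + 2)))
    (u : EuclideanSpace ℝ (Fin m)) : Matrix (Fin m) (Fin m) ℝ :=
  Matrix.of fun i j => ⟪D2 f i j u, nu f u⟫

namespace Imm

lemma inner_dnu_nu (h : Imm f T) {u : EuclideanSpace ℝ (Fin m)} (hu : u ∈ T) (i : Fin m) :
    ⟪nu f u, dnu f i u⟫ = 0 := by
  have := inner_const_deriv h.isOpen hu 1 (g := nu f) (k := nu f)
    (fun v hv => by rw [real_inner_self_eq_norm_sq, h.norm_nu hv]; norm_num)
    (h.diffAt_nu hu) (h.diffAt_nu hu) (EuclideanSpace.single i 1)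
  rw [real_inner_comm (nu f u)] at this
  unfold dnu
  linarith only [this]

lemma inner_f_dnu (h : Imm f T) {u : EuclideanSpace ℝ (Fin m)} (hu : u ∈ T) (i : Fin m) :
    ⟪f u, dnu f i u⟫ = 0 := by
  have := inner_const_deriv h.isOpen hu 0 (g := f) (k := nu f)
    (fun v hv => by rw [real_inner_comm]; exact inner_nu_f v)
    (h.diffAt hu) (h.diffAt_nu hu) (EuclideanSpace.single i 1)
  have h2 : ⟪fderiv ℝ f u (EuclideanSpace.single i 1), nu f u⟫ = 0 := by
    rw [real_inner_comm]; exact inner_nu_D1 u i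
  unfold dnu
  linarith

lemma inner_D1_dnu (h : Imm f T) {u : EuclideanSpace ℝ (Fin m)} (hu : u ∈ T) (i j : Fin m) :
    ⟪D1 f j u, dnu f i u⟫ = - H f u i j := by
  have := inner_const_deriv h.isOpen hu 0 (g := D1 f j) (k := nu f)
    (fun v hv => by rw [real_inner_comm]; exact inner_nu_D1 v j)
    (h.diffAt_D1 hu j) (h.diffAt_nu hu) (EuclideanSpace.single i 1)
  unfold dnu H D2
  simp only [of_apply]
  linarith only [this]

lemma inner_D2_f (h : Imm f T) {u : EuclideanSpace ℝ (Fin m)} (hu : u ∈ T) (i j : Fin m) :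
    ⟪D2 f i j u, f u⟫ = - G f u i j := by
  have := inner_const_deriv h.isOpen hu 0 (g := D1 f j) (k := f)
    (fun v hv => h.inner_D1_f hv j)
    (h.diffAt_D1 hu j) (h.diffAt hu) (EuclideanSpace.single i 1)
  unfold G D2
  rw [gram_apply, real_inner_comm (D1 f j u) (D1 f i u)]
  have e : fderiv ℝ f u (EuclideanSpace.single i 1) = D1 f i u := rfl
  rw [e] at this
  linarith

lemma D2_symm (h : Imm f T) {u : EuclideanSpace ℝ (Fin m)} (hu : u ∈ T) (i j : Fin m) :
    D2 f i j u = D2 f j i u := by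
  have hc : ContDiffAt ℝ ∞ f u := h.smooth.contDiffAt (h.isOpen.mem_nhds hu)
  have hsym : IsSymmSndFDerivAt ℝ f u := hc.isSymmSndFDerivAt (by
    simp only [minSmoothness_of_isRCLikeNormedField]; norm_cast)
  have hd : DifferentiableAt ℝ (fderiv ℝ f) u := by
    have h1 : ContDiffOn ℝ ∞ (fderiv ℝ f) T :=
      h.smooth.fderiv_of_isOpen h.isOpen (by norm_cast)
    exact (h1.differentiableOn (by norm_num)).differentiableAt (h.isOpen.mem_nhds hu)
  have e : ∀ i j, D2 f i j u = fderiv ℝ (fderiv ℝ f) u (EuclideanSpace.single i 1)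
      (EuclideanSpace.single j 1) := by
    intro i j
    unfold D2 D1
    rw [fderiv_clm_apply hd (differentiableAt_const _)]
    simp
  rw [e, e]
  exact hsym _ _

lemma H_symm (h : Imm f T) {u : EuclideanSpace ℝ (Fin m)} (hu : u ∈ T) : (H f u)ᵀ = H f u := by
  ext i j
  simp only [transpose_apply, H, of_apply]
  rw [h.D2_symm hu]

lemma G_posDef (h : Imm f T) {u : EuclideanSpace ℝ (Fin m)} (hu : u ∈ T) : (G f u).PosDef :=
  posDef_gram_of_linearIndependent (h.linearIndependent hu)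

end Imm

end

end Vale.Agent.P224
end
end

section

section

namespace Vale.Agent.P224

open Matrix

variable {m : ℕ}

lemma vmv (u v w x : Fin m → ℝ) :
    vecMulVec u v * vecMulVec w x = (v ⬝ᵥ w) • vecMulVec u x := by
  rw [vecMulVec_mul_vecMulVec]
  ext i j
  simp only [vecMulVec_apply, Pi.smul_apply, Matrix.smul_apply, smul_eq_mul]
  ring

/-- inverse of the metric of a projective graph -/
lemma graph_inv (x d : Fin m → ℝ) (f a r2 W : ℝ) (w y : Fin m → ℝ)
    (ha : a = f - x ⬝ᵥ d) (hr : r2 = 1 + x ⬝ᵥ x + f ^ 2) (hW : W = 1 + d ⬝ᵥ d + a ^ 2)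
    (hw : w = d - a • x) (hy : y = x + f • d) (hr0 : r2 ≠ 0) (hW0 : W ≠ 0) :
    (1 + vecMulVec d d - r2⁻¹ • vecMulVec y y) * (1 + vecMulVec x x - W⁻¹ • vecMulVec w w)
      = 1 := by
  have hdx : d ⬝ᵥ x = x ⬝ᵥ d := dotProduct_comm _ _
  have e1 : d ⬝ᵥ w = (W - 1 - a ^ 2) - a * (f - a) := by
    rw [hw, dotProduct_sub, dotProduct_smul, hdx, hW]
    simp only [smul_eq_mul]
    rw [show x ⬝ᵥ d = f - a by rw [ha]; ring]
    ring
  have e2 : y ⬝ᵥ x = (r2 - 1 - f ^ 2) + f * (f - a) := by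
    rw [hy, add_dotProduct, smul_dotProduct, hdx, hr, show x ⬝ᵥ d = f - a by rw [ha]; ring]
    simp only [smul_eq_mul]
    ring
  have e3 : y ⬝ᵥ w = f * W - a * r2 := by
    rw [hy, hw, add_dotProduct, smul_dotProduct, dotProduct_sub, dotProduct_sub,
      dotProduct_smul, dotProduct_smul, hdx, show x ⬝ᵥ d = f - a by rw [ha]; ring, hr, hW]
    simp only [smul_eq_mul]
    ring
  have e4 : d ⬝ᵥ x = f - a := by rw [hdx, ha]; ring
  have hexp : (1 + vecMulVec d d - r2⁻¹ • vecMulVec y y) *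
      (1 + vecMulVec x x - W⁻¹ • vecMulVec w w)
      = 1 + vecMulVec x x - W⁻¹ • vecMulVec w w + vecMulVec d d
        + (d ⬝ᵥ x) • vecMulVec d x - (W⁻¹ * (d ⬝ᵥ w)) • vecMulVec d w
        - r2⁻¹ • vecMulVec y y - (r2⁻¹ * (y ⬝ᵥ x)) • vecMulVec y x
        + (r2⁻¹ * (W⁻¹ * (y ⬝ᵥ w))) • vecMulVec y w := by
    simp only [Matrix.mul_sub, Matrix.mul_add, Matrix.mul_one, Matrix.sub_mul, Matrix.add_mul, Matrix.one_mul, vmv, smul_mul, smul_smul, Matrix.mul_smul, smul_sub, smul_add]
    ext i j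
    simp only [Matrix.add_apply, Matrix.sub_apply, Matrix.smul_apply, smul_eq_mul]
    ring
  rw [hexp, e1, e2, e3, e4]
  ext i j
  simp only [hw, hy, Matrix.add_apply, Matrix.sub_apply, vecMulVec_apply, Matrix.smul_apply, Pi.sub_apply, Pi.smul_apply, smul_eq_mul, Pi.add_apply]
  field_simp
  ring

lemma graph_trace (x w : Fin m → ℝ) (W : ℝ) (Φ : Matrix (Fin m) (Fin m) ℝ) :
    ((1 + vecMulVec x x - W⁻¹ • vecMulVec w w) * Φ).trace
      = Φ.trace + x ⬝ᵥ (Φ *ᵥ x) - W⁻¹ * (w ⬝ᵥ (Φ *ᵥ w)) := by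
  simp only [Matrix.sub_mul, Matrix.add_mul, Matrix.one_mul, Matrix.smul_mul, vecMulVec_mul,
    trace_sub, trace_add, trace_smul, trace_vecMulVec, smul_eq_mul]
  rw [dotProduct_comm x (x ᵥ* Φ), dotProduct_comm w (w ᵥ* Φ), ← dotProduct_mulVec,
    ← dotProduct_mulVec]

lemma graph_trace_sq (x w : Fin m → ℝ) (W : ℝ) (Φ : Matrix (Fin m) (Fin m) ℝ) (hΦ : Φᵀ = Φ) :
    (((1 + vecMulVec x x - W⁻¹ • vecMulVec w w) * Φ) *
      ((1 + vecMulVec x x - W⁻¹ • vecMulVec w w) * Φ)).trace
      = (Φ * Φ).trace + 2 * ((Φ *ᵥ x) ⬝ᵥ (Φ *ᵥ x)) - 2 * W⁻¹ * ((Φ *ᵥ w) ⬝ᵥ (Φ *ᵥ w))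
        + (x ⬝ᵥ (Φ *ᵥ x)) ^ 2 - 2 * W⁻¹ * (x ⬝ᵥ (Φ *ᵥ w)) ^ 2
        + (W⁻¹ * (w ⬝ᵥ (Φ *ᵥ w))) ^ 2 := by
  have hv : ∀ z : Fin m → ℝ, z ᵥ* Φ = Φ *ᵥ z := by
    intro z
    rw [← vecMul_transpose, hΦ]
  have key : ((1 + vecMulVec x x - W⁻¹ • vecMulVec w w) * Φ)
      = Φ + vecMulVec x (Φ *ᵥ x) - W⁻¹ • vecMulVec w (Φ *ᵥ w) := by
    simp only [Matrix.sub_mul, Matrix.add_mul, Matrix.one_mul, vecMulVec_mul, hv, smul_mul]
  rw [key]
  simp only [Matrix.sub_mul, Matrix.add_mul, Matrix.mul_add, Matrix.mul_sub, Matrix.smul_mul,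
    Matrix.mul_smul, vmv, trace_sub, trace_add,
    trace_smul, smul_eq_mul]
  simp only [vecMulVec_mul, mul_vecMulVec, trace_vecMulVec, hv]
  have c1 : x ⬝ᵥ (Φ *ᵥ (Φ *ᵥ x)) = (Φ *ᵥ x) ⬝ᵥ (Φ *ᵥ x) := by
    rw [dotProduct_mulVec, hv]
  have c2 : w ⬝ᵥ (Φ *ᵥ (Φ *ᵥ w)) = (Φ *ᵥ w) ⬝ᵥ (Φ *ᵥ w) := by
    rw [dotProduct_mulVec, hv]
  have c3 : w ⬝ᵥ (Φ *ᵥ x) = x ⬝ᵥ (Φ *ᵥ w) := by
    rw [dotProduct_mulVec, hv, dotProduct_comm]
  have c4 : (Φ *ᵥ x) ⬝ᵥ x = x ⬝ᵥ (Φ *ᵥ x) := dotProduct_comm _ _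
  have c5 : (Φ *ᵥ w) ⬝ᵥ w = w ⬝ᵥ (Φ *ᵥ w) := dotProduct_comm _ _
  have c6 : (Φ *ᵥ x) ⬝ᵥ w = x ⬝ᵥ (Φ *ᵥ w) := by rw [dotProduct_comm, c3]
  have c7 : (Φ *ᵥ w) ⬝ᵥ x = x ⬝ᵥ (Φ *ᵥ w) := dotProduct_comm _ _
  simp only [c1, c2, c3, c4, c5, c6, c7]
  ring

end Vale.Agent.P224
end
end

section

section

namespace Vale.Agent.P224

open MeasureTheory Metric Set Matrix Filter
open scoped RealInnerProductSpace ContDiff Topology

variable {m : ℕ}

/-- partial derivative of a scalar function -/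
noncomputable def pr (φ : EuclideanSpace ℝ (Fin m) → ℝ) (i : Fin m)
    (x : EuclideanSpace ℝ (Fin m)) : ℝ := fderiv ℝ φ x (EuclideanSpace.single i 1)

lemma contDiffOn_pr {φ : EuclideanSpace ℝ (Fin m) → ℝ} {T : Set (EuclideanSpace ℝ (Fin m))}
    (hT : IsOpen T) (h : ContDiffOn ℝ ∞ φ T) (i : Fin m) : ContDiffOn ℝ ∞ (pr φ i) T := by
  have h1 : ContDiffOn ℝ ∞ (fderiv ℝ φ) T := h.fderiv_of_isOpen hT (by norm_cast)
  exact h1.clm_apply contDiffOn_const

lemma diffAt_of_contDiffOn {F : Type*} [NormedAddCommGroup F] [NormedSpace ℝ F]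
    {φ : EuclideanSpace ℝ (Fin m) → F} {T : Set (EuclideanSpace ℝ (Fin m))}
    (hT : IsOpen T) (h : ContDiffOn ℝ ∞ φ T) {x : EuclideanSpace ℝ (Fin m)} (hx : x ∈ T) :
    DifferentiableAt ℝ φ x :=
  (h.differentiableOn (by norm_num)).differentiableAt (hT.mem_nhds hx)

/-- An orthonormal frame adapted to a point and a normal. -/
structure IsFrame (p ν : EuclideanSpace ℝ (Fin (m + 2)))
    (e : Fin m → EuclideanSpace ℝ (Fin (m + 2))) : Prop where
  pp : ⟪p, p⟫ = 1
  nn : ⟪ν, ν⟫ = 1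
  pn : ⟪p, ν⟫ = 0
  ep : ∀ i, ⟪e i, p⟫ = 0
  en : ∀ i, ⟪e i, ν⟫ = 0
  ee : ∀ i j, ⟪e i, e j⟫ = if i = j then 1 else 0

/-- the unnormalised projective graph -/
noncomputable def graphY (p ν : EuclideanSpace ℝ (Fin (m + 2)))
    (e : Fin m → EuclideanSpace ℝ (Fin (m + 2))) (φ : EuclideanSpace ℝ (Fin m) → ℝ)
    (x : EuclideanSpace ℝ (Fin m)) : EuclideanSpace ℝ (Fin (m + 2)) :=
  p + ∑ i, x i • e i + φ x • ν

variable {p ν : EuclideanSpace ℝ (Fin (m + 2))} {e : Fin m → EuclideanSpace ℝ (Fin (m + 2))}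
  {φ c : EuclideanSpace ℝ (Fin m) → ℝ} {X : EuclideanSpace ℝ (Fin m) → EuclideanSpace ℝ (Fin (m + 2))}
  {T : Set (EuclideanSpace ℝ (Fin m))}

lemma hasFDerivAt_graphY {x : EuclideanSpace ℝ (Fin m)} (hφ : DifferentiableAt ℝ φ x) :
    HasFDerivAt (graphY p ν e φ)
      (∑ i, (EuclideanSpace.proj (𝕜 := ℝ) i).smulRight (e i) + (fderiv ℝ φ x).smulRight ν) x := by
  unfold graphY
  have h1 : HasFDerivAt (fun x : EuclideanSpace ℝ (Fin m) => ∑ i, x i • e i)
      (∑ i, (EuclideanSpace.proj (𝕜 := ℝ) i).smulRight (e i)) x := by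
    apply HasFDerivAt.fun_sum
    intro i _
    exact ((EuclideanSpace.proj (𝕜 := ℝ) i).hasFDerivAt (x := x)).smul_const (e i)
  exact (h1.const_add p).add (hφ.hasFDerivAt.smul_const ν)

lemma fderiv_graphY {x : EuclideanSpace ℝ (Fin m)} (hφ : DifferentiableAt ℝ φ x) (j : Fin m) :
    fderiv ℝ (graphY p ν e φ) x (EuclideanSpace.single j 1) = e j + pr φ j x • ν := by
  rw [(hasFDerivAt_graphY hφ).fderiv]
  simp only [_root_.add_apply, _root_.sum_apply, ContinuousLinearMap.smulRight_apply, pr]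
  simp only [PiLp.proj_apply, PiLp.single_apply, ite_smul, one_smul, zero_smul, Finset.sum_ite_eq', Finset.mem_univ, ↓reduceIte]

namespace IsFrame

variable (hf : IsFrame p ν e)
include hf

lemma np : ⟪ν, p⟫ = 0 := by rw [real_inner_comm]; exact hf.pn
lemma pe (i : Fin m) : ⟪p, e i⟫ = 0 := by rw [real_inner_comm]; exact hf.ep i
lemma ne (i : Fin m) : ⟪ν, e i⟫ = 0 := by rw [real_inner_comm]; exact hf.en i

lemma inner_YY (x : EuclideanSpace ℝ (Fin m)) :
    ⟪graphY p ν e φ x, graphY p ν e φ x⟫ = 1 + (x : Fin m → ℝ) ⬝ᵥ x + φ x ^ 2 := by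
  unfold graphY
  simp only [inner_add_left, inner_add_right, sum_inner, inner_sum, inner_smul_left,
    inner_smul_right, hf.pp, hf.nn, hf.pn, hf.np, hf.ep, hf.en, hf.pe, hf.ne, hf.ee,
    conj_trivial]
  simp only [mul_zero, Finset.sum_const_zero, add_zero, mul_ite, mul_one, Finset.sum_ite_eq', Finset.mem_univ, ↓reduceIte, zero_add, dotProduct, add_right_inj]
  ring

lemma inner_Y_dY (x : EuclideanSpace ℝ (Fin m)) (d : ℝ) (j : Fin m) :
    ⟪graphY p ν e φ x, e j + d • ν⟫ = x j + φ x * d := by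
  unfold graphY
  simp only [inner_add_left, inner_add_right, sum_inner, inner_smul_left,
    inner_smul_right, hf.nn, hf.pn, hf.en, hf.pe, hf.ne, hf.ee, conj_trivial]
  simp only [mul_ite, mul_one, mul_zero, Finset.sum_ite_eq', Finset.mem_univ, ↓reduceIte, zero_add, add_zero, Finset.sum_const_zero, add_right_inj]
  ring

lemma inner_dY_dY (d d' : ℝ) (i j : Fin m) :
    ⟪e i + d • ν, e j + d' • ν⟫ = (if i = j then 1 else 0) + d * d' := by
  simp only [inner_add_left, inner_add_right, inner_smul_left,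
    inner_smul_right, hf.nn, hf.en, hf.ne, hf.ee, conj_trivial]
  ring

lemma inner_N_Y (x : EuclideanSpace ℝ (Fin m)) (a : ℝ) (d : Fin m → ℝ) :
    ⟪graphY p ν e φ x, ν - a • p - ∑ i, d i • e i⟫ = φ x - a - (x : Fin m → ℝ) ⬝ᵥ d := by
  unfold graphY
  simp only [inner_add_left, inner_sub_right, sum_inner, inner_sum, inner_smul_left,
    inner_smul_right, hf.pp, hf.nn, hf.pn, hf.np, hf.ep, hf.en, hf.pe, hf.ne, hf.ee,
    conj_trivial]
  have hcomm : ∑ i, d i * x i = ∑ i, x i * d i := Finset.sum_congr rfl fun i _ => mul_comm _ _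
  simp only [mul_zero, Finset.sum_const_zero, add_zero, mul_one, zero_add, mul_ite, Finset.sum_ite_eq', Finset.mem_univ, ↓reduceIte, dotProduct, sub_right_inj]
  linear_combination hcomm

lemma inner_N_dY (a : ℝ) (d : Fin m → ℝ) (j : Fin m) (d' : ℝ) :
    ⟪e j + d' • ν, ν - a • p - ∑ i, d i • e i⟫ = d' - d j := by
  simp only [inner_add_left, inner_sub_right, inner_sum, inner_smul_left,
    inner_smul_right, hf.nn, hf.np, hf.ep, hf.en, hf.ne, hf.ee,
    conj_trivial]
  simp only [mul_one, zero_add, mul_zero, add_zero, sub_zero, mul_ite, Finset.sum_ite_eq, Finset.mem_univ, ↓reduceIte]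

lemma inner_N_N (a : ℝ) (d : Fin m → ℝ) :
    ⟪ν - a • p - ∑ i, d i • e i, ν - a • p - ∑ i, d i • e i⟫ = 1 + d ⬝ᵥ d + a ^ 2 := by
  simp only [inner_sub_left, inner_sub_right, sum_inner, inner_sum, inner_smul_left,
    inner_smul_right, hf.pp, hf.nn, hf.pn, hf.np, hf.ep, hf.en, hf.pe, hf.ne, hf.ee,
    conj_trivial]
  simp only [mul_zero, sub_zero, Finset.sum_const_zero, mul_one, zero_sub, mul_neg, sub_neg_eq_add, sub_self, mul_ite, Finset.sum_ite_eq', Finset.mem_univ, ↓reduceIte, Finset.sum_neg_distrib, dotProduct]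
  ring

lemma inner_n_N (a : ℝ) (d : Fin m → ℝ) :
    ⟪ν, ν - a • p - ∑ i, d i • e i⟫ = 1 := by
  simp only [inner_sub_right, hf.nn, inner_smul_right, hf.np, inner_sum, hf.ne]
  simp only [mul_zero, sub_zero, Finset.sum_const_zero]

end IsFrame

lemma D1_graph (hT : IsOpen T) (hc : ContDiffOn ℝ ∞ c T)
    (hφ : ContDiffOn ℝ ∞ φ T) (hX : ∀ x ∈ T, X x = c x • graphY p ν e φ x)
    {z : EuclideanSpace ℝ (Fin m)} (hz : z ∈ T) (j : Fin m) :
    D1 X j z = pr c j z • graphY p ν e φ z + c z • (e j + pr φ j z • ν) := by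
  have hev : X =ᶠ[𝓝 z] fun v => c v • graphY p ν e φ v := by
    filter_upwards [hT.mem_nhds hz] with v hv
    exact hX v hv
  unfold D1
  have hcz := diffAt_of_contDiffOn hT hc hz
  have hφz := diffAt_of_contDiffOn hT hφ hz
  rw [hev.fderiv_eq, fderiv_fun_smul hcz (hasFDerivAt_graphY hφz).differentiableAt]
  simp only [_root_.add_apply, _root_.smul_apply, ContinuousLinearMap.smulRight_apply,
    fderiv_graphY hφz]
  exact _root_.add_comm _ _

/-- the fundamental forms of a projective graph -/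
theorem graph_forms (hf : IsFrame p ν e) (hT : IsOpen T) (hc : ContDiffOn ℝ ∞ c T)
    (hφ : ContDiffOn ℝ ∞ φ T) (hX : ∀ x ∈ T, X x = c x • graphY p ν e φ x)
    (hunit : ∀ x ∈ T, ‖X x‖ = 1) {x : EuclideanSpace ℝ (Fin m)} (hx : x ∈ T)
    (d y : Fin m → ℝ) (a W r2 : ℝ) (hd : d = fun i => pr φ i x)
    (ha : a = φ x - (x : Fin m → ℝ) ⬝ᵥ d) (hW : W = 1 + d ⬝ᵥ d + a ^ 2)
    (hr : r2 = 1 + (x : Fin m → ℝ) ⬝ᵥ x + φ x ^ 2) (hy : y = (x : Fin m → ℝ) + φ x • d) :
    ∃ n : EuclideanSpace ℝ (Fin (m + 2)), n = (Real.sqrt W)⁻¹ • (ν - a • p - ∑ i, d i • e i) ∧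
      ‖n‖ = 1 ∧ ⟪X x, n⟫ = 0 ∧ (∀ i, ⟪D1 X i x, n⟫ = 0) ∧
      c x ^ 2 * r2 = 1 ∧
      Matrix.gram ℝ (fun i => D1 X i x) =
        (c x ^ 2) • (1 + vecMulVec d d - r2⁻¹ • vecMulVec y y) ∧
      (Matrix.of fun i j => ⟪D2 X i j x, n⟫) =
        (c x * (Real.sqrt W)⁻¹) • Matrix.of fun i j => pr (pr φ j) i x := by
  have hW0 : 0 < W := by
    rw [hW]
    have : 0 ≤ d ⬝ᵥ d := by
      unfold dotProduct
      exact Finset.sum_nonneg fun i _ => mul_self_nonneg _
    (clear * - this; positivity)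
  have hr0 : 0 < r2 := by
    rw [hr]
    have : 0 ≤ (x : Fin m → ℝ) ⬝ᵥ x := by
      unfold dotProduct
      exact Finset.sum_nonneg fun i _ => mul_self_nonneg _
    (clear * - this; positivity)
  have hsW : 0 < Real.sqrt W := Real.sqrt_pos.mpr hW0
  set N : EuclideanSpace ℝ (Fin (m + 2)) := ν - a • p - ∑ i, d i • e i with hN
  have hNN : ⟪N, N⟫ = W := by rw [hN, hf.inner_N_N, hW]
  have hNY : ⟪graphY p ν e φ x, N⟫ = 0 := by
    rw [hN, hf.inner_N_Y, ha]; ring
  have hNdY : ∀ j, ⟪e j + pr φ j x • ν, N⟫ = 0 := by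
    intro j
    rw [hN, hf.inner_N_dY, hd]; ring
  have hνN : ⟪ν, N⟫ = 1 := hf.inner_n_N a d
  -- first derivatives on T
  have hD1 : ∀ z ∈ T, ∀ j, D1 X j z = pr c j z • graphY p ν e φ z +
      c z • (e j + pr φ j z • ν) := fun z hz j => D1_graph hT hc hφ hX hz j
  have hcr : c x ^ 2 * r2 = 1 := by
    have h1 : ⟪X x, X x⟫ = 1 := by rw [real_inner_self_eq_norm_sq, hunit x hx]; norm_num
    rw [hX x hx, inner_smul_left, inner_smul_right, hf.inner_YY, ← hr] at h1
    simp only [conj_trivial] at h1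
    linear_combination h1
  have hc0 : c x ≠ 0 := by
    intro h0
    rw [h0] at hcr
    norm_num at hcr
  -- derivative of c
  have hYY : ⟪graphY p ν e φ x, graphY p ν e φ x⟫ = r2 := by rw [hf.inner_YY, hr]
  have hYdY : ∀ j, ⟪graphY p ν e φ x, e j + pr φ j x • ν⟫ = y j := by
    intro j
    rw [hf.inner_Y_dY, hy, hd]
    simp
  have hdYY : ∀ j, ⟪e j + pr φ j x • ν, graphY p ν e φ x⟫ = y j := by
    intro j
    rw [real_inner_comm, hYdY]
  have hci : ∀ i, pr c i x = - c x * y i / r2 := by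
    intro i
    have h1 : ⟪X x, D1 X i x⟫ + ⟪D1 X i x, X x⟫ = 0 := by
      have hXd : DifferentiableAt ℝ X x := by
        have hXs : ContDiffOn ℝ ∞ X T := by
          have : ContDiffOn ℝ ∞ (fun v => c v • graphY p ν e φ v) T := by
            apply hc.smul
            unfold graphY
            apply ContDiffOn.add
            · apply ContDiffOn.add contDiffOn_const
              apply ContDiffOn.sum
              intro i _
              have : ContDiff ℝ ∞ (fun x : EuclideanSpace ℝ (Fin m) => x i) :=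
                (EuclideanSpace.proj (𝕜 := ℝ) i).contDiff
              exact (this.smul contDiff_const).contDiffOn
            · exact hφ.smul contDiffOn_const
          exact this.congr hX
        exact diffAt_of_contDiffOn hT hXs hx
      exact inner_const_deriv hT hx 1 (fun v hv => by
        rw [real_inner_self_eq_norm_sq, hunit v hv]; norm_num) hXd hXd _
    rw [real_inner_comm (X x) (D1 X i x), hD1 x hx i, hX x hx] at h1
    simp only [inner_add_right, inner_smul_left, inner_smul_right, hYY, conj_trivial] at h1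
    have h2 : ⟪graphY p ν e φ x, e i⟫ + pr φ i x * ⟪graphY p ν e φ x, ν⟫ = y i := by
      have := hYdY i
      rwa [inner_add_right, inner_smul_right] at this
    have h3 : c x * (pr c i x * r2 + c x * y i) = 0 := by
      rw [← h2]
      linear_combination h1 / 2
    have h4 : pr c i x * r2 + c x * y i = 0 := by
      rcases mul_eq_zero.mp h3 with h | h
      · exact absurd h hc0
      · exact h
    field_simp
    linear_combination h4
  refine ⟨(Real.sqrt W)⁻¹ • N, rfl, ?_, ?_, ?_, hcr, ?_, ?_⟩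
  · rw [norm_smul, norm_inv, Real.norm_eq_abs, abs_of_pos hsW]
    have : ‖N‖ = Real.sqrt W := by
      rw [← hNN, real_inner_self_eq_norm_sq, Real.sqrt_sq (norm_nonneg _)]
    rw [this, inv_mul_cancel₀ hsW.ne']
  · rw [hX x hx, inner_smul_left, inner_smul_right, hNY]
    simp
  · intro i
    rw [hD1 x hx i, inner_smul_right, inner_add_left, inner_smul_left, inner_smul_left, hNY,
      hNdY]
    simp
  · ext i j
    rw [gram_apply, hD1 x hx i, hD1 x hx j]
    rw [inner_add_left, inner_add_right, inner_add_right]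
    simp only [inner_smul_left, inner_smul_right, hYY, hYdY, hdYY, conj_trivial]
    rw [hf.inner_dY_dY, hci, hci]
    simp only [Matrix.smul_apply, Matrix.sub_apply, Matrix.add_apply, Matrix.one_apply,
      vecMulVec_apply, smul_eq_mul]
    have hdi : ∀ i, pr φ i x = d i := by intro i; rw [hd]
    rw [hdi, hdi]
    field_simp
    ring
  · ext i j
    simp only [inner_smul_right, of_apply, Matrix.smul_apply, smul_eq_mul]
    have hD2 : D2 X i j x = pr (pr c j) i x • graphY p ν e φ x +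
        pr c j x • (e i + pr φ i x • ν) + pr c i x • (e j + pr φ j x • ν) +
        (c x * pr (pr φ j) i x) • ν := by
      have hev : D1 X j =ᶠ[𝓝 x] fun v => pr c j v • graphY p ν e φ v +
          c v • (e j + pr φ j v • ν) := by
        filter_upwards [hT.mem_nhds hx] with v hv
        exact hD1 v hv j
      have hcx := diffAt_of_contDiffOn hT hc hx
      have hφx := diffAt_of_contDiffOn hT hφ hx
      have hcj := diffAt_of_contDiffOn hT (contDiffOn_pr hT hc j) hx
      have hφj := diffAt_of_contDiffOn hT (contDiffOn_pr hT hφ j) hx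
      have h1 : HasFDerivAt (fun v => pr c j v • graphY p ν e φ v) _ x :=
        hcj.hasFDerivAt.smul (hasFDerivAt_graphY hφx)
      have h2 : HasFDerivAt (fun v => e j + pr φ j v • ν) _ x :=
        (hφj.hasFDerivAt.smul_const ν).const_add (e j)
      have h3 : HasFDerivAt (fun v => c v • (e j + pr φ j v • ν)) _ x :=
        hcx.hasFDerivAt.smul h2
      unfold D2
      rw [hev.fderiv_eq, (h1.fun_add h3).fderiv]
      have h4 := fderiv_graphY (p := p) (ν := ν) (e := e) hφx i
      rw [(hasFDerivAt_graphY hφx).fderiv] at h4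
      simp only [_root_.add_apply, _root_.smul_apply, ContinuousLinearMap.smulRight_apply] at h4 ⊢
      rw [h4]
      simp only [pr, smul_smul]
      module
    rw [hD2, inner_add_left, inner_add_left, inner_add_left, inner_smul_left, inner_smul_left,
      inner_smul_left, inner_smul_left, hNY, hNdY, hNdY, hνN]
    simp only [conj_trivial]
    ring

/-- The equations of a projective graph with vanishing mean curvature. -/
theorem graph_eqs (x : Fin m → ℝ) (Φ Gm Hm : Matrix (Fin m) (Fin m) ℝ) (hΦ : Φᵀ = Φ)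
    (d y w : Fin m → ℝ) (f a W r2 cc s : ℝ)
    (ha : a = f - x ⬝ᵥ d) (hW : W = 1 + d ⬝ᵥ d + a ^ 2)
    (hr : r2 = 1 + x ⬝ᵥ x + f ^ 2) (hy : y = x + f • d) (hw : w = d - a • x)
    (hcc : cc ^ 2 * r2 = 1)
    (hG : Gm = (cc ^ 2) • (1 + vecMulVec d d - r2⁻¹ • vecMulVec y y))
    (hH : Hm = (cc * (Real.sqrt W)⁻¹) • Φ)
    (h1 : (Gm⁻¹ * Hm).trace = 0) (h2 : ((Gm⁻¹ * Hm) * (Gm⁻¹ * Hm)).trace = s) :
    W * (Φ.trace + x ⬝ᵥ (Φ *ᵥ x)) = w ⬝ᵥ (Φ *ᵥ w) ∧
    s * W ^ 3 = r2 * (W ^ 2 * ((Φ * Φ).trace +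
        2 * ((Φ *ᵥ x) ⬝ᵥ (Φ *ᵥ x)) + (x ⬝ᵥ (Φ *ᵥ x)) ^ 2) -
        2 * W * ((Φ *ᵥ w) ⬝ᵥ (Φ *ᵥ w) + (x ⬝ᵥ (Φ *ᵥ w)) ^ 2) +
        (w ⬝ᵥ (Φ *ᵥ w)) ^ 2) := by
  have hW0 : 0 < W := by
    rw [hW]
    have : 0 ≤ d ⬝ᵥ d := by
      unfold dotProduct
      exact Finset.sum_nonneg fun i _ => mul_self_nonneg _
    (clear * - this; positivity)
  have hr0 : 0 < r2 := by
    rw [hr]
    have : 0 ≤ x ⬝ᵥ x := by
      unfold dotProduct
      exact Finset.sum_nonneg fun i _ => mul_self_nonneg _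
    (clear * - this; positivity)
  have hsW : 0 < Real.sqrt W := Real.sqrt_pos.mpr hW0
  have hsq : Real.sqrt W ^ 2 = W := Real.sq_sqrt hW0.le
  have hcc0 : cc ≠ 0 := by
    intro h0
    rw [h0] at hcc
    norm_num at hcc
  set K : Matrix (Fin m) (Fin m) ℝ := 1 + vecMulVec x x - W⁻¹ • vecMulVec w w with hK
  have hinv := graph_inv x d f a r2 W w y ha hr hW hw hy hr0.ne' hW0.ne'
  have hGi : Gm⁻¹ = (cc ^ 2)⁻¹ • K := by
    apply Matrix.inv_eq_right_inv
    rw [hG, Matrix.smul_mul, Matrix.mul_smul, hinv, smul_smul,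
      mul_inv_cancel₀ (pow_ne_zero 2 hcc0), one_smul]
  have hGH : Gm⁻¹ * Hm = (cc * Real.sqrt W)⁻¹ • (K * Φ) := by
    rw [hGi, hH, Matrix.smul_mul, Matrix.mul_smul, smul_smul]
    congr 1
    (clear * - hW0 hcc0; field_simp)
  rw [hGH] at h1 h2
  rw [trace_smul, graph_trace, smul_eq_mul] at h1
  rw [Matrix.smul_mul, Matrix.mul_smul, smul_smul, trace_smul, graph_trace_sq x w W Φ hΦ,
    smul_eq_mul] at h2
  have hne : (cc * Real.sqrt W)⁻¹ ≠ 0 := inv_ne_zero (mul_ne_zero hcc0 hsW.ne')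
  have e1 : Φ.trace + x ⬝ᵥ (Φ *ᵥ x) - W⁻¹ * (w ⬝ᵥ (Φ *ᵥ w)) = 0 := by
    rcases mul_eq_zero.mp h1 with h | h
    · exact absurd h hne
    · exact h
  constructor
  · field_simp at e1
    linear_combination e1
  · have e2 : (cc * Real.sqrt W)⁻¹ * (cc * Real.sqrt W)⁻¹ = r2 / W := by
      have : (cc * Real.sqrt W) * (cc * Real.sqrt W) = W / r2 := by
        rw [eq_div_iff hr0.ne']
        linear_combination W * hcc + cc ^ 2 * r2 * hsq
      rw [← mul_inv, this, inv_div]
    rw [e2] at h2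
    rw [← h2]
    field_simp
    ring

end Vale.Agent.P224
end
end

section

section

namespace Vale.Agent.P224

open Filter Topology Asymptotics
open scoped ContDiff

/-- second-order expansion at 0 -/
def J2 (g : ℝ → ℝ) (a b c : ℝ) : Prop :=
  (fun t => g t - (a + b * t + c * t ^ 2)) =o[𝓝 0] fun t : ℝ => t ^ 2

lemma J2.congr {g h : ℝ → ℝ} {a b c : ℝ} (hg : J2 g a b c) (e : g =ᶠ[𝓝 0] h) : J2 h a b c := by
  unfold J2 at *
  refine hg.congr' ?_ (EventuallyEq.refl _ _)
  filter_upwards [e] with t ht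
  rw [ht]

lemma J2.const (c : ℝ) : J2 (fun _ => c) c 0 0 := by
  unfold J2
  simp only [zero_mul, add_zero, sub_self, isLittleO_const_left, true_or]

lemma J2.id : J2 (fun t => t) 0 1 0 := by
  unfold J2
  simp only [one_mul, zero_add, zero_mul, add_zero, sub_self, isLittleO_const_left, true_or]

lemma J2.add {g h : ℝ → ℝ} {a b c a' b' c' : ℝ} (hg : J2 g a b c) (hh : J2 h a' b' c') :
    J2 (fun t => g t + h t) (a + a') (b + b') (c + c') := by
  unfold J2 at *
  refine (hg.add hh).congr_left ?_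
  intro t
  ring

lemma J2.sub {g h : ℝ → ℝ} {a b c a' b' c' : ℝ} (hg : J2 g a b c) (hh : J2 h a' b' c') :
    J2 (fun t => g t - h t) (a - a') (b - b') (c - c') := by
  unfold J2 at *
  refine (hg.sub hh).congr_left ?_
  intro t
  ring

lemma J2.sum {ι : Type*} (s : Finset ι) {g : ι → ℝ → ℝ} {a b c : ι → ℝ}
    (h : ∀ i ∈ s, J2 (g i) (a i) (b i) (c i)) :
    J2 (fun t => ∑ i ∈ s, g i t) (∑ i ∈ s, a i) (∑ i ∈ s, b i) (∑ i ∈ s, c i) := by
  classical
  induction s using Finset.induction_on with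
  | empty => simpa using J2.const 0
  | insert i s hi ih =>
    simp only [Finset.sum_insert hi]
    exact (h i (Finset.mem_insert_self _ _)).add
      (ih fun j hj => h j (Finset.mem_insert_of_mem hj))

lemma J2.mul {g h : ℝ → ℝ} {a b c a' b' c' : ℝ} (hg : J2 g a b c) (hh : J2 h a' b' c') :
    J2 (fun t => g t * h t) (a * a') (a * b' + b * a') (a * c' + b * b' + c * a') := by
  have h0 : Tendsto (fun t : ℝ => t) (𝓝 0) (𝓝 0) := tendsto_id
  have hbg : (fun t : ℝ => a + b * t + c * t ^ 2) =O[𝓝 0] fun _ => (1 : ℝ) := by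
    have : ContinuousAt (fun t : ℝ => a + b * t + c * t ^ 2) 0 := by fun_prop
    exact this.isBigO_one ℝ
  have hbh : h =O[𝓝 0] fun _ => (1 : ℝ) := by
    have h1 : (fun t => h t - (a' + b' * t + c' * t ^ 2)) =O[𝓝 0] fun _ => (1 : ℝ) := by
      refine hh.isBigO.trans ?_
      have : ContinuousAt (fun t : ℝ => t ^ 2) 0 := by fun_prop
      exact this.isBigO_one ℝ
    have h2 : (fun t : ℝ => a' + b' * t + c' * t ^ 2) =O[𝓝 0] fun _ => (1 : ℝ) := by
      have : ContinuousAt (fun t : ℝ => a' + b' * t + c' * t ^ 2) 0 := by fun_prop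
      exact this.isBigO_one ℝ
    refine (h1.add h2).congr_left ?_
    intro t
    ring
  have e1 : (fun t => (g t - (a + b * t + c * t ^ 2)) * h t) =o[𝓝 0] fun t : ℝ => t ^ 2 := by
    have := hg.mul_isBigO hbh
    simpa only [mul_one] using this
  have e2 : (fun t => (a + b * t + c * t ^ 2) * (h t - (a' + b' * t + c' * t ^ 2)))
      =o[𝓝 0] fun t : ℝ => t ^ 2 := by
    have := hbg.mul_isLittleO hh
    simpa only [one_mul] using this
  have e3 : (fun t : ℝ => t ^ 2 * (t * (b * c' + c * b' + c * c' * t))) =o[𝓝 0]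
      fun t : ℝ => t ^ 2 := by
    have h3 : (fun t : ℝ => t * (b * c' + c * b' + c * c' * t)) =o[𝓝 0] fun _ => (1 : ℝ) := by
      rw [isLittleO_one_iff]
      have : ContinuousAt (fun t : ℝ => t * (b * c' + c * b' + c * c' * t)) 0 := by fun_prop
      have h4 := this.tendsto
      simpa only [mul_zero, add_zero, zero_mul] using h4
    have := (isBigO_refl (fun t : ℝ => t ^ 2) (𝓝 0)).mul_isLittleO h3
    simpa only [mul_one] using this
  unfold J2
  refine ((e1.add e2).add e3).congr_left ?_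
  intro t
  ring

lemma J2.unique {g : ℝ → ℝ} {a b c a' b' c' : ℝ} (h : J2 g a b c) (h' : J2 g a' b' c') :
    a = a' ∧ b = b' ∧ c = c' := by
  have h1 : (fun t : ℝ => (a' - a) + (b' - b) * t + (c' - c) * t ^ 2) =o[𝓝 0]
      fun t : ℝ => t ^ 2 := by
    refine (h.sub h').congr_left ?_
    intro t
    ring
  have ht0 : Tendsto (fun t : ℝ => t ^ 2) (𝓝[≠] 0) (𝓝 0) := by
    have : ContinuousAt (fun t : ℝ => t ^ 2) 0 := by fun_prop
    have h3 := this.tendsto.mono_left (nhdsWithin_le_nhds (s := {0}ᶜ))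
    simpa only [ne_eq, OfNat.ofNat_ne_zero, not_false_eq_true, zero_pow] using h3
  have hne : ∀ᶠ t : ℝ in 𝓝[≠] 0, t ≠ 0 := eventually_mem_nhdsWithin
  have k0 : a' - a = 0 := by
    have h2 : Tendsto (fun t : ℝ => (a' - a) + (b' - b) * t + (c' - c) * t ^ 2) (𝓝 0)
        (𝓝 (a' - a)) := by
      have : ContinuousAt (fun t : ℝ => (a' - a) + (b' - b) * t + (c' - c) * t ^ 2) 0 := by
        fun_prop
      have h3 := this.tendsto
      simpa only [mul_zero, add_zero, ne_eq, OfNat.ofNat_ne_zero, not_false_eq_true, zero_pow] using h3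
    have h4 : Tendsto (fun t : ℝ => (a' - a) + (b' - b) * t + (c' - c) * t ^ 2) (𝓝 0) (𝓝 0) := by
      refine h1.trans_tendsto ?_
      have : ContinuousAt (fun t : ℝ => t ^ 2) 0 := by (clear * -; fun_prop)
      have h3 := this.tendsto
      simpa only [ne_eq, OfNat.ofNat_ne_zero, not_false_eq_true, zero_pow] using h3
    exact tendsto_nhds_unique h2 h4
  have k1 : b' - b = 0 := by
    have h5 : (fun t : ℝ => (b' - b) + (c' - c) * t) =o[𝓝[≠] 0] fun t : ℝ => t := by
      have h6 := (h1.mono (nhdsWithin_le_nhds (s := {0}ᶜ)))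
      have h7 := h6.mul_isBigO (isBigO_refl (fun t : ℝ => t⁻¹) (𝓝[≠] 0))
      refine h7.congr' ?_ ?_
      · filter_upwards [hne] with t ht
        rw [k0]
        field_simp
        ring
      · filter_upwards [hne] with t ht
        field_simp
    have h8 : Tendsto (fun t : ℝ => (b' - b) + (c' - c) * t) (𝓝[≠] 0) (𝓝 0) := by
      refine h5.trans_tendsto ?_
      exact tendsto_id.mono_left nhdsWithin_le_nhds
    have h9 : Tendsto (fun t : ℝ => (b' - b) + (c' - c) * t) (𝓝[≠] 0) (𝓝 (b' - b)) := by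
      have : ContinuousAt (fun t : ℝ => (b' - b) + (c' - c) * t) 0 := by fun_prop
      have h3 := this.tendsto.mono_left (nhdsWithin_le_nhds (s := {0}ᶜ))
      simpa only [mul_zero, add_zero] using h3
    exact tendsto_nhds_unique h9 h8
  have k2 : c' - c = 0 := by
    have h5 : (fun _ : ℝ => (c' - c)) =o[𝓝[≠] 0] fun _ : ℝ => (1 : ℝ) := by
      have h6 := (h1.mono (nhdsWithin_le_nhds (s := {0}ᶜ)))
      have h7 := h6.mul_isBigO (isBigO_refl (fun t : ℝ => (t ^ 2)⁻¹) (𝓝[≠] 0))
      refine h7.congr' ?_ ?_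
      · filter_upwards [hne] with t ht
        rw [k0, k1]
        field_simp
        ring
      · filter_upwards [hne] with t ht
        field_simp
    rw [isLittleO_one_iff] at h5
    exact tendsto_nhds_unique tendsto_const_nhds h5
  refine ⟨by linarith only [k0], by linarith only [k1], by linarith only [k2]⟩

/-- expansion of a twice differentiable function -/
lemma J2.of_deriv {g g' : ℝ → ℝ} {g'' : ℝ} (h1 : ∀ᶠ t in 𝓝 0, HasDerivAt g (g' t) t)
    (h2 : HasDerivAt g' g'' 0) : J2 g (g 0) (g' 0) (g'' / 2) := by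
  unfold J2
  set k : ℝ → ℝ := fun t => g t - (g 0 + g' 0 * t + g'' / 2 * t ^ 2) with hk
  set k' : ℝ → ℝ := fun t => g' t - (g' 0 + g'' * t) with hk'
  have hkd : ∀ᶠ t in 𝓝 (0 : ℝ), HasDerivAt k (k' t) t := by
    filter_upwards [h1] with t ht
    have h3 : HasDerivAt (fun t : ℝ => g 0 + g' 0 * t + g'' / 2 * t ^ 2)
        (g' 0 + g'' * t) t := by
      have := (((hasDerivAt_id t).const_mul (g' 0)).const_add (g 0)).add
        (((hasDerivAt_id t).pow 2).const_mul (g'' / 2))
      refine this.congr_deriv ?_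
      simp only [mul_one, Nat.cast_ofNat, id_eq, Nat.add_one_sub_one, pow_one, add_right_inj]
      ring
    exact ht.sub h3
  have hko : k' =o[𝓝 0] fun t : ℝ => t := by
    rw [hasDerivAt_iff_isLittleO] at h2
    refine h2.congr ?_ ?_
    · intro t
      simp only [hk', smul_eq_mul]
      ring
    · intro t
      ring
  have hk0 : k 0 = 0 := by simp only [hk, mul_zero, add_zero, ne_eq, OfNat.ofNat_ne_zero, not_false_eq_true, zero_pow, sub_self]
  rw [isLittleO_iff]
  intro ε hε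
  have h4 := (isLittleO_iff.mp hko) hε
  obtain ⟨δ, hδ, hb⟩ := Metric.eventually_nhds_iff_ball.mp (hkd.and h4)
  rw [Metric.eventually_nhds_iff_ball]
  refine ⟨δ, hδ, ?_⟩
  intro t ht
  have hball : Metric.ball (0 : ℝ) δ ∩ Metric.closedBall 0 |t| ⊆ Metric.ball 0 δ :=
    Set.inter_subset_left
  have hconv : Convex ℝ (Metric.ball (0 : ℝ) δ ∩ Metric.closedBall 0 |t|) :=
    (convex_ball _ _).inter (convex_closedBall _ _)
  have h5 : ∀ x ∈ Metric.ball (0 : ℝ) δ ∩ Metric.closedBall 0 |t|,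
      HasDerivWithinAt k (k' x) (Metric.ball (0 : ℝ) δ ∩ Metric.closedBall 0 |t|) x := by
    intro x hx
    exact (hb x hx.1).1.hasDerivWithinAt
  have h6 : ∀ x ∈ Metric.ball (0 : ℝ) δ ∩ Metric.closedBall 0 |t|, ‖k' x‖ ≤ ε * |t| := by
    intro x hx
    refine (hb x hx.1).2.trans ?_
    have : ‖x‖ ≤ |t| := by simpa only [Real.norm_eq_abs, Metric.mem_closedBall, dist_zero_right] using hx.2
    (clear * - this hε; gcongr)
  have h7 := hconv.norm_image_sub_le_of_norm_hasDerivWithin_le h5 h6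
    (x := 0) (y := t) ⟨Metric.mem_ball_self hδ, by simp only [Metric.mem_closedBall, dist_self, abs_nonneg]⟩ ⟨ht, by simp only [Metric.mem_closedBall, dist_zero_right, Real.norm_eq_abs, Std.le_refl]⟩
  rw [hk0, sub_zero, sub_zero] at h7
  calc ‖k t‖ ≤ ε * |t| * ‖t‖ := h7
    _ = ε * ‖t ^ 2‖ := by
        rw [norm_pow, Real.norm_eq_abs]
        ring

end Vale.Agent.P224
end
end

section

section

namespace Vale.Agent.P224

open MeasureTheory Metric Set Matrix Filter
open scoped RealInnerProductSpace ContDiff Topology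

variable {m : ℕ} {f g : EuclideanSpace ℝ (Fin m) → EuclideanSpace ℝ (Fin (m + 2))}
  {σ : EuclideanSpace ℝ (Fin m) → EuclideanSpace ℝ (Fin m)} {w : EuclideanSpace ℝ (Fin m)}

lemma fderiv_eq_sum (f : EuclideanSpace ℝ (Fin m) → EuclideanSpace ℝ (Fin (m + 2)))
    (u x : EuclideanSpace ℝ (Fin m)) : fderiv ℝ f u x = ∑ b, x b • D1 f b u := by
  have hx : x = ∑ b, x b • EuclideanSpace.single b (1 : ℝ) := by
    ext j
    simp only [WithLp.ofLp_sum, WithLp.ofLp_smul, PiLp.ofLp_single, Finset.sum_apply, Pi.smul_apply, Pi.single_apply, smul_eq_mul, mul_ite, mul_one, mul_zero, Finset.sum_ite_eq, Finset.mem_univ, ↓reduceIte]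
  conv_lhs => rw [hx]
  rw [map_sum]
  apply Finset.sum_congr rfl
  intro b _
  rw [map_smul]
  rfl

/-- the Jacobian matrix -/
noncomputable def Jac (σ : EuclideanSpace ℝ (Fin m) → EuclideanSpace ℝ (Fin m))
    (w : EuclideanSpace ℝ (Fin m)) : Matrix (Fin m) (Fin m) ℝ :=
  Matrix.of fun b j => (fderiv ℝ σ w (EuclideanSpace.single j 1)) b

lemma D1_comp (hσ : DifferentiableAt ℝ σ w) (hf : DifferentiableAt ℝ f (σ w))
    (hg : g =ᶠ[𝓝 w] f ∘ σ) (j : Fin m) : D1 g j w = ∑ b, Jac σ w b j • D1 f b (σ w) := by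
  unfold D1
  rw [hg.fderiv_eq, fderiv_comp w hf hσ]
  simp only [ContinuousLinearMap.comp_apply]
  rw [fderiv_eq_sum]
  rfl

lemma D2_comp_inner (hσ : ContDiffAt ℝ ∞ σ w) (hf : ContDiffAt ℝ ∞ f (σ w))
    (hg : g =ᶠ[𝓝 w] f ∘ σ) (n : EuclideanSpace ℝ (Fin (m + 2)))
    (hn : ∀ b, ⟪D1 f b (σ w), n⟫ = 0) (i j : Fin m) :
    ⟪D2 g i j w, n⟫ = ∑ b, ∑ a, Jac σ w a i * (Jac σ w b j * ⟪D2 f a b (σ w), n⟫) := by
  have hσd : DifferentiableAt ℝ σ w := hσ.differentiableAt (by norm_num)
  have hσ1 : ContDiffAt ℝ 1 (fderiv ℝ σ) w :=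
    hσ.fderiv_right (m := 1) (by norm_cast)
  have hσ1d : DifferentiableAt ℝ (fderiv ℝ σ) w := hσ1.differentiableAt (by norm_num)
  have hf1 : ContDiffAt ℝ 1 (fderiv ℝ f) (σ w) :=
    hf.fderiv_right (m := 1) (by norm_cast)
  have hf1d : DifferentiableAt ℝ (fderiv ℝ f) (σ w) := hf1.differentiableAt (by norm_num)
  have hD1d : ∀ b, DifferentiableAt ℝ (D1 f b) (σ w) := fun b =>
    hf1d.clm_apply (differentiableAt_const _)
  have hev : D1 g j =ᶠ[𝓝 w] fun v => ∑ b, Jac σ v b j • D1 f b (σ v) := by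
    have h1 : ∀ᶠ v in 𝓝 w, DifferentiableAt ℝ σ v :=
      ((hσ.of_le (m := 1) (by norm_cast)).eventually (by simp)).mono
        fun v hv => hv.differentiableAt (by norm_num)
    have h2 : ∀ᶠ v in 𝓝 w, DifferentiableAt ℝ f (σ v) :=
      hσ.continuousAt.eventually
        (((hf.of_le (m := 1) (by norm_cast)).eventually (by simp)).mono
          fun v hv => hv.differentiableAt (by norm_num))
    have h3 : ∀ᶠ v in 𝓝 w, g =ᶠ[𝓝 v] f ∘ σ := hg.eventuallyEq_nhds
    filter_upwards [h1, h2, h3] with v k1 k2 k3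
    exact D1_comp k1 k2 k3 j
  have hJd : ∀ b, DifferentiableAt ℝ (fun v => Jac σ v b j) w := by
    intro b
    have : DifferentiableAt ℝ (fun v => fderiv ℝ σ v (EuclideanSpace.single j 1)) w :=
      hσ1d.clm_apply (differentiableAt_const _)
    exact (EuclideanSpace.proj (𝕜 := ℝ) b).differentiableAt.comp w this
  have hDd : ∀ b, DifferentiableAt ℝ (fun v => D1 f b (σ v)) w := fun b =>
    (hD1d b).comp w hσd
  unfold D2
  have hsum := fderiv_fun_sum (𝕜 := ℝ) (x := w) (u := Finset.univ)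
    (A := fun b v => Jac σ v b j • D1 f b (σ v)) (fun b _ => (hJd b).fun_smul (hDd b))
  rw [hev.fderiv_eq, hsum]
  rw [_root_.sum_apply, sum_inner]
  apply Finset.sum_congr rfl
  intro b _
  rw [fderiv_fun_smul (hJd b) (hDd b)]
  simp only [_root_.add_apply, _root_.smul_apply,
    ContinuousLinearMap.smulRight_apply, inner_add_left, inner_smul_left, hn b, mul_zero,
    add_zero, conj_trivial]
  have h5 : fderiv ℝ (fun v => D1 f b (σ v)) w (EuclideanSpace.single i 1)
      = ∑ a, Jac σ w a i • D2 f a b (σ w) := by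
    have : (fun v => D1 f b (σ v)) = D1 f b ∘ σ := rfl
    rw [this, fderiv_comp w (hD1d b) hσd]
    simp only [ContinuousLinearMap.comp_apply]
    rw [fderiv_eq_sum]
    rfl
  rw [h5, sum_inner, Finset.mul_sum]
  apply Finset.sum_congr rfl
  intro a _
  rw [inner_smul_left]
  simp only [conj_trivial, D2]
  ring

/-- transformation rule of the forms -/
lemma forms_comp (hσ : ContDiffAt ℝ ∞ σ w) (hf : ContDiffAt ℝ ∞ f (σ w))
    (hg : g =ᶠ[𝓝 w] f ∘ σ) (n : EuclideanSpace ℝ (Fin (m + 2)))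
    (hn : ∀ b, ⟪D1 f b (σ w), n⟫ = 0) :
    Matrix.gram ℝ (fun i => D1 g i w) =
      (Jac σ w)ᵀ * Matrix.gram ℝ (fun i => D1 f i (σ w)) * Jac σ w ∧
    (Matrix.of fun i j => ⟪D2 g i j w, n⟫) =
      (Jac σ w)ᵀ * (Matrix.of fun i j => ⟪D2 f i j (σ w), n⟫) * Jac σ w := by
  have hσd : DifferentiableAt ℝ σ w := hσ.differentiableAt (by norm_num)
  have hfd : DifferentiableAt ℝ f (σ w) := hf.differentiableAt (by norm_num)
  constructor
  · ext i j
    rw [gram_apply, D1_comp hσd hfd hg, D1_comp hσd hfd hg]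
    simp only [Matrix.mul_apply, transpose_apply, gram_apply, sum_inner, inner_sum,
      inner_smul_left, inner_smul_right, conj_trivial, Finset.sum_mul]
    apply Finset.sum_congr rfl
    intro b _
    rw [Finset.mul_sum]
    apply Finset.sum_congr rfl
    intro a _
    ring
  · ext i j
    simp only [of_apply, D2_comp_inner hσ hf hg n hn, Matrix.mul_apply, transpose_apply,
      Finset.sum_mul]
    apply Finset.sum_congr rfl
    intro b _
    apply Finset.sum_congr rfl
    intro a _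
    ring

/-- invariance of the traces -/
lemma trace_conj_forms (B G H : Matrix (Fin m) (Fin m) ℝ) (hB : IsUnit B.det) :
    (((Bᵀ * G * B)⁻¹ * (Bᵀ * H * B)).trace = (G⁻¹ * H).trace) ∧
    ((((Bᵀ * G * B)⁻¹ * (Bᵀ * H * B)) * ((Bᵀ * G * B)⁻¹ * (Bᵀ * H * B))).trace
      = ((G⁻¹ * H) * (G⁻¹ * H)).trace) := by
  have hBt : IsUnit (Bᵀ).det := by rw [det_transpose]; exact hB
  have e : (Bᵀ * G * B)⁻¹ * (Bᵀ * H * B) = B⁻¹ * (G⁻¹ * H) * B := by
    rw [Matrix.mul_inv_rev, Matrix.mul_inv_rev]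
    calc B⁻¹ * (G⁻¹ * (Bᵀ)⁻¹) * (Bᵀ * H * B) = B⁻¹ * G⁻¹ * ((Bᵀ)⁻¹ * Bᵀ) * H * B := by
          simp only [Matrix.mul_assoc]
      _ = _ := by
          rw [Matrix.nonsing_inv_mul _ hBt, Matrix.mul_one]
          simp only [Matrix.mul_assoc]
  rw [e]
  constructor
  · rw [trace_mul_comm, ← Matrix.mul_assoc, Matrix.mul_nonsing_inv _ hB, Matrix.one_mul]
  · have : B⁻¹ * (G⁻¹ * H) * B * (B⁻¹ * (G⁻¹ * H) * B)
        = B⁻¹ * ((G⁻¹ * H) * (G⁻¹ * H)) * B := by
      calc B⁻¹ * (G⁻¹ * H) * B * (B⁻¹ * (G⁻¹ * H) * B)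
          = B⁻¹ * (G⁻¹ * H) * (B * B⁻¹) * (G⁻¹ * H) * B := by simp only [Matrix.mul_assoc]
        _ = _ := by
          rw [Matrix.mul_nonsing_inv _ hB, Matrix.mul_one]
          simp only [Matrix.mul_assoc]
    rw [this, trace_mul_comm, ← Matrix.mul_assoc, Matrix.mul_nonsing_inv _ hB, Matrix.one_mul]

end Vale.Agent.P224
end
end

section

section

namespace Vale.Agent.P224

open MeasureTheory Metric Set Matrix
open scoped RealInnerProductSpace ContDiff

variable {m : ℕ} {f : EuclideanSpace ℝ (Fin m) → EuclideanSpace ℝ (Fin (m + 2))}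
  {T : Set (EuclideanSpace ℝ (Fin m))}

/-- the normal map -/
noncomputable def Phi (f : EuclideanSpace ℝ (Fin m) → EuclideanSpace ℝ (Fin (m + 2)))
    (p : EuclideanSpace ℝ (Fin m) × EuclideanSpace ℝ (Fin 2)) : EuclideanSpace ℝ (Fin (m + 2)) :=
  p.2 0 • f p.1 + p.2 1 • nu f p.1

/-- its derivative -/
noncomputable def dPhi (f : EuclideanSpace ℝ (Fin m) → EuclideanSpace ℝ (Fin (m + 2)))
    (p : EuclideanSpace ℝ (Fin m) × EuclideanSpace ℝ (Fin 2)) :
    EuclideanSpace ℝ (Fin m) × EuclideanSpace ℝ (Fin 2) →L[ℝ] EuclideanSpace ℝ (Fin (m + 2)) :=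
  (p.2 0 • fderiv ℝ f p.1 + p.2 1 • fderiv ℝ (nu f) p.1).comp (ContinuousLinearMap.fst ℝ _ _) +
    ((EuclideanSpace.proj (𝕜 := ℝ) (0 : Fin 2)).smulRight (f p.1) +
      (EuclideanSpace.proj (𝕜 := ℝ) (1 : Fin 2)).smulRight (nu f p.1)).comp
      (ContinuousLinearMap.snd ℝ _ _)

lemma Imm.hasFDerivAt_Phi (h : Imm f T) {p : EuclideanSpace ℝ (Fin m) × EuclideanSpace ℝ (Fin 2)}
    (hp : p.1 ∈ T) : HasFDerivAt (Phi f) (dPhi f p) p := by
  have h1 : HasFDerivAt (fun q : EuclideanSpace ℝ (Fin m) × EuclideanSpace ℝ (Fin 2) => f q.1)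
      ((fderiv ℝ f p.1).comp (ContinuousLinearMap.fst ℝ _ _)) p :=
    (h.diffAt hp).hasFDerivAt.comp p hasFDerivAt_fst
  have h2 : HasFDerivAt (fun q : EuclideanSpace ℝ (Fin m) × EuclideanSpace ℝ (Fin 2) => nu f q.1)
      ((fderiv ℝ (nu f) p.1).comp (ContinuousLinearMap.fst ℝ _ _)) p :=
    (h.diffAt_nu hp).hasFDerivAt.comp p hasFDerivAt_fst
  have h3 : ∀ i : Fin 2, HasFDerivAt
      (fun q : EuclideanSpace ℝ (Fin m) × EuclideanSpace ℝ (Fin 2) => q.2 i)
      ((EuclideanSpace.proj (𝕜 := ℝ) i).comp (ContinuousLinearMap.snd ℝ _ _)) p := by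
    intro i
    exact ((EuclideanSpace.proj (𝕜 := ℝ) i).hasFDerivAt).comp p hasFDerivAt_snd
  have h4 := ((h3 0).smul h1).add ((h3 1).smul h2)
  refine h4.congr_fderiv ?_
  ext q
  · simp [dPhi]
  · simp [dPhi]

lemma Imm.det_dPhi (h : Imm f T) {p : EuclideanSpace ℝ (Fin m) × EuclideanSpace ℝ (Fin 2)}
    (hp : p.1 ∈ T) :
    |((Te m : _ →L[ℝ] _).comp (dPhi f p)).det| * Real.sqrt (G f p.1).det
      = |(p.2 0 • G f p.1 - p.2 1 • H f p.1).det| := by
  rw [det_Te_comp]
  set c : Fin m ⊕ Fin 2 → EuclideanSpace ℝ (Fin (m + 2)) :=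
    Sum.elim (fun i => (dPhi f p) (EuclideanSpace.single i 1, 0))
        (fun j => (dPhi f p) (0, EuclideanSpace.single j 1)) with hc
  have c1 : ∀ i, c (Sum.inl i) = p.2 0 • D1 f i p.1 + p.2 1 • dnu f i p.1 := by
    intro i
    simp [hc, dPhi, D1, dnu]
  have c2 : c (Sum.inr 0) = f p.1 := by simp [hc, dPhi]
  have c3 : c (Sum.inr 1) = nu f p.1 := by simp [hc, dPhi]
  have hf1 := h.unit p.1 hp
  have hn1 := h.norm_nu hp
  have hnf := inner_nu_f (f := f) p.1
  have hfn : ⟪f p.1, nu f p.1⟫ = 0 := by rw [real_inner_comm]; exact hnf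
  have hnd := fun i => inner_nu_D1 (f := f) p.1 i
  have hdn : ∀ i, ⟪D1 f i p.1, nu f p.1⟫ = 0 := fun i => by
    rw [real_inner_comm]; exact hnd i
  have hprod : (Mat (frame (fun i => D1 f i p.1) (f p.1) (nu f p.1)))ᵀ * Mat c
      = fromBlocks (p.2 0 • G f p.1 - p.2 1 • (H f p.1)ᵀ) 0 0 1 := by
    rw [Mat_transpose_mul]
    ext s t
    rcases s with s | s <;> rcases t with t | t
    · simp only [of_apply, c1, frame, Sum.elim_inl, inner_add_right, inner_smul_right,
        fromBlocks_apply₁₁, Matrix.sub_apply, Matrix.smul_apply, smul_eq_mul, transpose_apply,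
        h.inner_D1_dnu hp]
      simp only [G, gram_apply]
      ring
    · fin_cases t
      · simp only [frame, Fin.zero_eta, Fin.isValue, of_apply, Sum.elim_inl, c2, h.inner_D1_f hp, fromBlocks_apply₁₂, Matrix.zero_apply]
      · simp only [frame, Fin.mk_one, Fin.isValue, of_apply, Sum.elim_inl, c3, hdn, fromBlocks_apply₁₂, Matrix.zero_apply]
    · fin_cases s
      · simp only [frame, Fin.zero_eta, Fin.isValue, of_apply, Sum.elim_inr, cons_val_zero, c1, inner_add_right, inner_smul_right, h.inner_f_D1 hp, mul_zero, h.inner_f_dnu hp, add_zero, fromBlocks_apply₂₁, Matrix.zero_apply]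
      · simp only [frame, Fin.mk_one, Fin.isValue, of_apply, Sum.elim_inr, cons_val_one, cons_val_fin_one, c1, inner_add_right, inner_smul_right, hnd, mul_zero, h.inner_dnu_nu hp, add_zero, fromBlocks_apply₂₁, Matrix.zero_apply]
    · fin_cases s <;> fin_cases t <;> simp [c2, c3, frame, hf1, hn1, hfn, hnf]
  have hdet := congrArg Matrix.det hprod
  rw [det_mul, det_transpose, det_fromBlocks_zero₂₁, det_one, mul_one, h.H_symm hp] at hdet
  have hsq := frame_det_sq (fun i => D1 f i p.1) (f p.1) (nu f p.1) hf1 hn1 hfn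
    (fun i => h.inner_D1_f hp i) hdn
  have hsqrt : Real.sqrt (G f p.1).det
      = |(Mat (frame (fun i => D1 f i p.1) (f p.1) (nu f p.1))).det| := by
    rw [← Real.sqrt_sq_eq_abs, hsq]
    rfl
  rw [hsqrt, ← hdet, abs_mul, mul_comm]

end Vale.Agent.P224
end
end

section

section

namespace Vale.Agent.P224

open scoped Manifold ContDiff RealInnerProductSpace Topology
open MeasureTheory Metric Module Set Filter

variable {V W : Type*} [NormedAddCommGroup V] [InnerProductSpace ℝ V] [FiniteDimensional ℝ V]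
  [NormedAddCommGroup W] [InnerProductSpace ℝ W] [FiniteDimensional ℝ W]

variable (V) in
/-- coordinates on V -/
noncomputable def iV : V ≃ₗᵢ[ℝ] EuclideanSpace ℝ (Fin (finrank ℝ V)) :=
  (stdOrthonormalBasis ℝ V).repr

/-- coordinates on W -/
noncomputable def iW (hW : finrank ℝ W = finrank ℝ V + 2) :
    W ≃ₗᵢ[ℝ] EuclideanSpace ℝ (Fin (finrank ℝ V + 2)) :=
  ((stdOrthonormalBasis ℝ W).reindex (finCongr hW)).repr

/-- f in coordinates -/
noncomputable def tr (hW : finrank ℝ W = finrank ℝ V + 2) (f : V → W)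
    (u : EuclideanSpace ℝ (Fin (finrank ℝ V))) : EuclideanSpace ℝ (Fin (finrank ℝ V + 2)) :=
  iW hW (f ((iV V).symm u))

variable (hW : finrank ℝ W = finrank ℝ V + 2) (f : V → W)

lemma iV_symm_single (i : Fin (finrank ℝ V)) :
    (iV V).symm (EuclideanSpace.single i 1) = stdOrthonormalBasis ℝ V i := by
  simp [iV]

lemma fderiv_tr (u w : EuclideanSpace ℝ (Fin (finrank ℝ V))) :
    fderiv ℝ (tr hW f) u w = iW hW (fderiv ℝ f ((iV V).symm u) ((iV V).symm w)) := by
  have h1 : tr hW f = (iW hW) ∘ (f ∘ (iV V).symm.toContinuousLinearEquiv) := rfl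
  rw [h1, (iW hW).comp_fderiv, ContinuousLinearMap.comp_apply,
    (iV V).symm.toContinuousLinearEquiv.comp_right_fderiv, ContinuousLinearMap.comp_apply]
  rfl

lemma D1_tr (i : Fin (finrank ℝ V)) : D1 (tr hW f) i = tr hW (pd f i) := by
  funext u
  unfold D1
  rw [fderiv_tr, iV_symm_single]
  rfl

lemma D2_tr (i j : Fin (finrank ℝ V)) : D2 (tr hW f) i j = tr hW (pd (pd f j) i) := by
  have h : D2 (tr hW f) i j = D1 (D1 (tr hW f) j) i := rfl
  rw [h, D1_tr, D1_tr]

lemma inner_tr (g k : V → W) (u : EuclideanSpace ℝ (Fin (finrank ℝ V))) :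
    ⟪tr hW g u, tr hW k u⟫ = ⟪g ((iV V).symm u), k ((iV V).symm u)⟫ := by
  unfold tr
  exact (iW hW).inner_map_map _ _

lemma G_tr (u : V) : G (tr hW f) (iV V u) = metricMat f u := by
  unfold G metricMat
  ext i j
  rw [Matrix.gram_apply, Matrix.gram_apply, D1_tr, D1_tr, inner_tr]
  simp

/-- the second fundamental form of f -/
noncomputable def sffMat (f : V → W) (u : V) (n : W) :
    Matrix (Fin (finrank ℝ V)) (Fin (finrank ℝ V)) ℝ :=
  Matrix.of fun i j => ⟪pd (pd f j) i u, n⟫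

lemma sff_tr (u : V) (n : W) :
    (Matrix.of fun i j => ⟪D2 (tr hW f) i j (iV V u), iW hW n⟫) = sffMat f u n := by
  unfold sffMat
  ext i j
  simp only [Matrix.of_apply]
  rw [D2_tr]
  unfold tr
  rw [(iW hW).inner_map_map]
  simp

/-- A smooth immersion of an open subset of V into the unit sphere of W. -/
structure ImmV (f : V → W) (T : Set V) : Prop where
  isOpen : IsOpen T
  smooth : ContDiffOn ℝ ∞ f T
  unit : ∀ u ∈ T, ‖f u‖ = 1
  inj : ∀ u ∈ T, Function.Injective (fderiv ℝ f u)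

variable {f}

lemma ImmV.imm {T : Set V} (h : ImmV f T) : Imm (tr hW f) ((iV V).symm ⁻¹' T) where
  isOpen := h.isOpen.preimage (iV V).symm.continuous
  smooth := by
    have h1 : ContDiffOn ℝ ∞ (f ∘ (iV V).symm) ((iV V).symm ⁻¹' T) :=
      h.smooth.comp (iV V).symm.contDiff.contDiffOn (fun u hu => hu)
    exact (iW hW).contDiff.comp_contDiffOn h1
  unit := by
    intro u hu
    unfold tr
    rw [(iW hW).norm_map]
    exact h.unit _ hu
  inj := by
    intro u hu
    have h1 : ⇑(fderiv ℝ (tr hW f) u) =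
        (iW hW) ∘ (fderiv ℝ f ((iV V).symm u)) ∘ (iV V).symm := by
      funext w
      rw [fderiv_tr]
      rfl
    rw [h1]
    exact (iW hW).injective.comp ((h.inj _ hu).comp (iV V).symm.injective)

end Vale.Agent.P224
end
end

section

section

namespace Vale.Agent.P224.FV

open Matrix

/-- determinant as a smooth function of the entries -/
lemma contDiff_detPi (m : ℕ) {n : WithTop ℕ∞} :
    ContDiff ℝ n (fun g : Fin m → Fin m → ℝ => (Matrix.of g).det) := by
  simp_rw [Matrix.det_apply']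
  apply ContDiff.sum
  intro σ _
  apply ContDiff.mul contDiff_const
  apply contDiff_prod
  intro i _
  simp only [Matrix.of_apply]
  exact (contDiff_apply_apply (𝕜 := ℝ) (E := ℝ) (σ i) i)

lemma fderiv_detPi (m : ℕ) (g h : Fin m → Fin m → ℝ) (hg : (Matrix.of g).det ≠ 0) :
    fderiv ℝ (fun g : Fin m → Fin m → ℝ => (Matrix.of g).det) g h
      = (Matrix.of g).det * ((Matrix.of g)⁻¹ * Matrix.of h).trace := by
  have hd : HasFDerivAt (fun g : Fin m → Fin m → ℝ => (Matrix.of g).det)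
      (fderiv ℝ (fun g : Fin m → Fin m → ℝ => (Matrix.of g).det) g) g :=
    ((contDiff_detPi m (n := 1)).differentiable (by (clear * -; norm_num)) g).hasFDerivAt
  have h1 : HasDerivAt (fun t : ℝ => (Matrix.of (g + t • h)).det)
      (fderiv ℝ (fun g : Fin m → Fin m → ℝ => (Matrix.of g).det) g h) 0 := by
    have hl : HasDerivAt (fun t : ℝ => g + t • h) h 0 := by
      simpa using ((hasDerivAt_id (0 : ℝ)).smul_const h).const_add g
    have hd' : HasFDerivAt (fun g : Fin m → Fin m → ℝ => (Matrix.of g).det)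
      (fderiv ℝ (fun g : Fin m → Fin m → ℝ => (Matrix.of g).det) g) (g + (0 : ℝ) • h) := by
      simpa only [zero_smul, add_zero] using hd
    exact hd'.comp_hasDerivAt (0 : ℝ) hl
  set A : Matrix (Fin m) (Fin m) ℝ := (Matrix.of g)⁻¹ * Matrix.of h with hA
  obtain ⟨q, hq⟩ : ∃ q : Polynomial ℝ, ∀ t : ℝ, (1 + t • A).det = 1 + A.trace * t + q.eval t * t ^ 2 := by
    exact ⟨_, fun t => Matrix.det_one_add_smul t A⟩
  have h2 : HasDerivAt (fun t : ℝ => (Matrix.of (g + t • h)).det)
      ((Matrix.of g).det * A.trace) 0 := by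
    have heq : (fun t : ℝ => (Matrix.of (g + t • h)).det)
        = fun t => (Matrix.of g).det * (1 + A.trace * t + q.eval t * t ^ 2) := by
      funext t
      rw [← hq, ← Matrix.det_mul]
      congr 1
      rw [Matrix.mul_add, Matrix.mul_one, Matrix.mul_smul, hA, ← Matrix.mul_assoc,
        Matrix.mul_nonsing_inv _ (isUnit_iff_ne_zero.mpr hg), Matrix.one_mul]
      rfl
    rw [heq]
    have : HasDerivAt (fun t : ℝ => 1 + A.trace * t + q.eval t * t ^ 2) A.trace 0 := by
      have e1 : HasDerivAt (fun t : ℝ => A.trace * t) A.trace 0 := by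
        simpa only [id_eq, mul_one] using (hasDerivAt_id (0 : ℝ)).const_mul A.trace
      have e2 : HasDerivAt (fun t : ℝ => q.eval t * t ^ 2) 0 0 := by
        have e3 : HasDerivAt (fun t : ℝ => t ^ 2) 0 0 := by
          simpa only [Nat.cast_ofNat, Nat.add_one_sub_one, pow_one, mul_zero] using hasDerivAt_pow 2 (0 : ℝ)
        have := (q.hasDerivAt (0 : ℝ)).fun_mul e3
        simpa only [ne_eq, OfNat.ofNat_ne_zero, not_false_eq_true, zero_pow, mul_zero, add_zero] using this
      simpa only [add_zero] using (e1.const_add 1).fun_add e2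
    exact this.const_mul _
  exact h1.unique h2

end Vale.Agent.P224.FV
end
end

section

section

namespace Vale.Agent.P224

lemma sphereVol_pos' (k : ℕ) : 0 < sphereVol k := by
  unfold sphereVol
  have := Real.Gamma_pos_of_pos (s := ((k : ℝ) + 1) / 2) (by (clear * -; positivity))
  have := Real.pi_pos
  (clear * -; positivity)

lemma cliffordVol_nonneg' (m k : ℕ) : 0 ≤ cliffordVol m k := by
  unfold cliffordVol
  have h1 := sphereVol_pos' k
  have h2 := sphereVol_pos' (m - k)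
  (clear * - h1 h2; (clear * - h1 h2; positivity))

lemma leastClifford_le {m k : ℕ} (hk : 1 ≤ k) (hkm : k < m) :
    leastClifford m ≤ cliffordVol m k := by
  unfold leastClifford
  have hb : BddBelow (Set.range fun k : Set.Ico 1 m => cliffordVol m k) := by
    refine ⟨0, ?_⟩
    rintro _ ⟨k, rfl⟩
    exact cliffordVol_nonneg' m k
  exact ciInf_le hb ⟨k, hk, hkm⟩

/-- ratio for even dimension -/
noncomputable def evenRatio (k : ℕ) : ℝ :=
  2 / 2 ^ k * Real.sqrt Real.pi * Real.Gamma ((k : ℝ) + 1 / 2) / Real.Gamma (((k : ℝ) + 1) / 2) ^ 2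

lemma clifford_even {k : ℕ} (hk : 1 ≤ k) :
    cliffordVol (2 * k) k = evenRatio k * sphereVol (2 * k) := by
  have hk' : (0 : ℝ) < k := by exact_mod_cast hk
  unfold cliffordVol evenRatio sphereVol
  have e0 : (2 * k - k : ℕ) = k := by (clear * - hk; omega)
  rw [e0]
  have h1 : ((k : ℝ) / ((2 * k : ℕ) : ℝ)) = 1 / 2 := by
    push_cast
    field_simp
  rw [h1]
  have h2 : ((1 : ℝ) / 2) ^ ((k : ℝ) / 2) * ((1 : ℝ) / 2) ^ ((k : ℝ) / 2) = 1 / 2 ^ k := by
    rw [← Real.rpow_add (by norm_num)]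
    rw [show (k : ℝ) / 2 + (k : ℝ) / 2 = (k : ℝ) by ring, Real.rpow_natCast, one_div_pow]
  have g1 : 0 < Real.Gamma (((k : ℝ) + 1) / 2) := Real.Gamma_pos_of_pos (by (clear * - hk; positivity))
  have g2 : 0 < Real.Gamma (((2 * k : ℕ) : ℝ) / 2 + 1 / 2) := Real.Gamma_pos_of_pos (by positivity)
  have e1 : (((2 * k : ℕ) : ℝ) + 1) / 2 = (k : ℝ) + 1 / 2 := by push_cast; ring
  rw [e1]
  have g3 : 0 < Real.Gamma ((k : ℝ) + 1 / 2) := Real.Gamma_pos_of_pos (by positivity)
  have hπ := Real.pi_pos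
  have h3 : Real.pi ^ (((k : ℝ) + 1) / 2) * Real.pi ^ (((k : ℝ) + 1) / 2)
      = Real.sqrt Real.pi * Real.pi ^ ((k : ℝ) + 1 / 2) := by
    rw [Real.sqrt_eq_rpow, ← Real.rpow_add hπ, ← Real.rpow_add hπ]
    congr 1
    ring
  have h4 : 0 < Real.pi ^ ((k : ℝ) + 1 / 2) := Real.rpow_pos_of_pos hπ _
  calc (1 / 2 : ℝ) ^ ((k : ℝ) / 2) * (1 / 2) ^ ((k : ℝ) / 2) *
        (2 * Real.pi ^ (((k : ℝ) + 1) / 2) / Real.Gamma (((k : ℝ) + 1) / 2)) *
        (2 * Real.pi ^ (((k : ℝ) + 1) / 2) / Real.Gamma (((k : ℝ) + 1) / 2))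
      = ((1 / 2 : ℝ) ^ ((k : ℝ) / 2) * (1 / 2) ^ ((k : ℝ) / 2)) *
        (4 * (Real.pi ^ (((k : ℝ) + 1) / 2) * Real.pi ^ (((k : ℝ) + 1) / 2))
          / Real.Gamma (((k : ℝ) + 1) / 2) ^ 2) := by ring
    _ = _ := by
        rw [h2, h3]
        field_simp
        norm_num

lemma evenRatio_rec (k : ℕ) : evenRatio (k + 2) =
    evenRatio k * (((k : ℝ) + 3 / 2) * ((k : ℝ) + 1 / 2) / ((k : ℝ) + 1) ^ 2) := by
  unfold evenRatio
  have e1 : ((k + 2 : ℕ) : ℝ) + 1 / 2 = ((k : ℝ) + 1 / 2 + 1) + 1 := by push_cast; ring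
  have e2 : (((k + 2 : ℕ) : ℝ) + 1) / 2 = ((k : ℝ) + 1) / 2 + 1 := by push_cast; ring
  have g1 : 0 < Real.Gamma (((k : ℝ) + 1) / 2) := Real.Gamma_pos_of_pos (by (clear * -; positivity))
  rw [e1, e2, Real.Gamma_add_one (by (clear * -; (clear * -; positivity))), Real.Gamma_add_one (by positivity),
    Real.Gamma_add_one (by positivity)]
  rw [pow_add]
  field_simp
  ring

lemma evenRatio_pos (k : ℕ) : 0 < evenRatio k := by
  unfold evenRatio
  have g1 : 0 < Real.Gamma (((k : ℝ) + 1) / 2) := Real.Gamma_pos_of_pos (by (clear * -; positivity))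
  have g2 : 0 < Real.Gamma ((k : ℝ) + 1 / 2) := Real.Gamma_pos_of_pos (by (clear * -; (clear * -; positivity)))
  have hπ := Real.pi_pos
  (clear * -; positivity)

lemma evenRatio_anti (k : ℕ) : evenRatio (k + 2) ≤ evenRatio k := by
  rw [evenRatio_rec]
  have h := evenRatio_pos k
  have : ((k : ℝ) + 3 / 2) * ((k : ℝ) + 1 / 2) / ((k : ℝ) + 1) ^ 2 ≤ 1 := by
    rw [div_le_one (by (clear * -; (clear * -; positivity)))]
    linarith
  calc evenRatio k * (((k : ℝ) + 3 / 2) * ((k : ℝ) + 1 / 2) / ((k : ℝ) + 1) ^ 2)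
      ≤ evenRatio k * 1 := by gcongr
    _ = evenRatio k := mul_one _

lemma evenRatio_one : evenRatio 1 = Real.pi / 2 := by
  unfold evenRatio
  have e1 : ((1 : ℕ) : ℝ) + 1 / 2 = 1 / 2 + 1 := by norm_num
  have e2 : (((1 : ℕ) : ℝ) + 1) / 2 = 1 := by norm_num
  rw [e1, e2, Real.Gamma_one, Real.Gamma_add_one (by norm_num), Real.Gamma_one_half_eq]
  have := Real.mul_self_sqrt Real.pi_pos.le
  norm_num
  linear_combination (1 / 2) * this

lemma evenRatio_two : evenRatio 2 = 3 / 2 := by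
  unfold evenRatio
  have e1 : ((2 : ℕ) : ℝ) + 1 / 2 = (1 / 2 + 1) + 1 := by norm_num
  have e2 : (((2 : ℕ) : ℝ) + 1) / 2 = 1 / 2 + 1 := by norm_num
  rw [e1, e2, Real.Gamma_add_one (by norm_num), Real.Gamma_add_one (by norm_num),
    Real.Gamma_one_half_eq]
  have h := Real.mul_self_sqrt Real.pi_pos.le
  have hp : 0 < Real.sqrt Real.pi := Real.sqrt_pos.mpr Real.pi_pos
  field_simp
  norm_num

lemma evenRatio_three : evenRatio 3 = 15 * Real.pi / 32 := by
  rw [show (3 : ℕ) = 1 + 2 by norm_num, evenRatio_rec, evenRatio_one]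
  norm_num
  ring

lemma evenRatio_four : evenRatio 4 = 35 / 24 := by
  rw [show (4 : ℕ) = 2 + 2 by norm_num, evenRatio_rec, evenRatio_two]
  norm_num

lemma evenRatio_five : evenRatio 5 = 945 * Real.pi / 2048 := by
  rw [show (5 : ℕ) = 3 + 2 by norm_num, evenRatio_rec, evenRatio_three]
  norm_num
  ring

lemma evenRatio_six : evenRatio 6 = 231 / 160 := by
  rw [show (6 : ℕ) = 4 + 2 by norm_num, evenRatio_rec, evenRatio_four]
  (clear * -; norm_num)

lemma evenRatio_seven : evenRatio 7 ≤ 1.4447 := by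
  rw [show (7 : ℕ) = 5 + 2 by norm_num, evenRatio_rec, evenRatio_five]
  have := Real.pi_lt_d6
  norm_num
  linarith

lemma evenRatio_eight : evenRatio 8 ≤ 1.4447 := by
  rw [show (8 : ℕ) = 6 + 2 by norm_num, evenRatio_rec, evenRatio_six]
  (clear * -; norm_num)

lemma evenRatio_ge_seven (k : ℕ) : evenRatio (k + 7) ≤ 1.4447 ∧ evenRatio (k + 8) ≤ 1.4447 := by
  induction k with
  | zero => exact ⟨evenRatio_seven, evenRatio_eight⟩
  | succ k ih =>
    refine ⟨?_, ?_⟩
    · rw [show k + 1 + 7 = k + 8 by ring]; exact ih.2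
    · rw [show k + 1 + 8 = (k + 7) + 2 by ring]
      exact (evenRatio_anti _).trans ih.1

/-- ratio for odd dimension -/
noncomputable def oddRatio (k : ℕ) : ℝ :=
  2 ^ (k + 1) * (((k : ℝ) / (2 * k + 1)) ^ ((k : ℝ) / 2) *
    (((k : ℝ) + 1) / (2 * k + 1)) ^ (((k : ℝ) + 1) / 2))

lemma clifford_odd (k : ℕ) :
    cliffordVol (2 * k + 1) k = oddRatio k * sphereVol (2 * k + 1) := by
  unfold cliffordVol oddRatio sphereVol
  have e0 : (2 * k + 1 - k : ℕ) = k + 1 := by omega
  rw [e0]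
  push_cast
  have hπ := Real.pi_pos
  have hd := Real.Gamma_mul_Gamma_add_half (((k : ℝ) + 1) / 2)
  have e1 : ((k : ℝ) + 1) / 2 + 1 / 2 = ((k : ℝ) + 1 + 1) / 2 := by ring
  have e2 : 2 * (((k : ℝ) + 1) / 2) = (k : ℝ) + 1 := by ring
  have e3 : (2 * (k : ℝ) + 1 + 1) / 2 = (k : ℝ) + 1 := by ring
  rw [e1, e2] at hd
  rw [e3]
  have g1 : 0 < Real.Gamma (((k : ℝ) + 1) / 2) := Real.Gamma_pos_of_pos (by (clear * -; positivity))
  have g2 : 0 < Real.Gamma (((k : ℝ) + 1 + 1) / 2) := Real.Gamma_pos_of_pos (by (clear * -; positivity))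
  have g3 : 0 < Real.Gamma ((k : ℝ) + 1) := Real.Gamma_pos_of_pos (by (clear * -; positivity))
  have h3 : Real.pi ^ (((k : ℝ) + 1) / 2) * Real.pi ^ (((k : ℝ) + 1 + 1) / 2)
      = Real.sqrt Real.pi * Real.pi ^ ((k : ℝ) + 1) := by
    rw [Real.sqrt_eq_rpow, ← Real.rpow_add hπ, ← Real.rpow_add hπ]
    congr 1
    ring
  have h4 : 0 < Real.pi ^ ((k : ℝ) + 1) := Real.rpow_pos_of_pos hπ _
  have h5 : (2 : ℝ) ^ (1 - ((k : ℝ) + 1)) = 1 / 2 ^ k := by
    rw [show 1 - ((k : ℝ) + 1) = -(k : ℝ) by ring, Real.rpow_neg (by norm_num),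
      Real.rpow_natCast, one_div]
  rw [h5] at hd
  have hs : 0 < Real.sqrt Real.pi := Real.sqrt_pos.mpr hπ
  set A := ((k : ℝ) / (2 * k + 1)) ^ ((k : ℝ) / 2)
  set B := (((k : ℝ) + 1) / (2 * k + 1)) ^ (((k : ℝ) + 1) / 2)
  have key : 2 * Real.pi ^ (((k : ℝ) + 1) / 2) / Real.Gamma (((k : ℝ) + 1) / 2) *
      (2 * Real.pi ^ (((k : ℝ) + 1 + 1) / 2) / Real.Gamma (((k : ℝ) + 1 + 1) / 2))
      = 2 ^ (k + 1) * (2 * Real.pi ^ ((k : ℝ) + 1) / Real.Gamma ((k : ℝ) + 1)) := by
    have h6 : 2 * Real.pi ^ (((k : ℝ) + 1) / 2) / Real.Gamma (((k : ℝ) + 1) / 2) *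
        (2 * Real.pi ^ (((k : ℝ) + 1 + 1) / 2) / Real.Gamma (((k : ℝ) + 1 + 1) / 2))
        = 4 * (Real.pi ^ (((k : ℝ) + 1) / 2) * Real.pi ^ (((k : ℝ) + 1 + 1) / 2)) /
          (Real.Gamma (((k : ℝ) + 1) / 2) * Real.Gamma (((k : ℝ) + 1 + 1) / 2)) := by
      field_simp
      norm_num
    rw [h6, h3, hd, pow_succ]
    field_simp
    norm_num
  calc A * B * (2 * Real.pi ^ (((k : ℝ) + 1) / 2) / Real.Gamma (((k : ℝ) + 1) / 2)) *
        (2 * Real.pi ^ (((k : ℝ) + 1 + 1) / 2) / Real.Gamma (((k : ℝ) + 1 + 1) / 2))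
      = A * B * (2 * Real.pi ^ (((k : ℝ) + 1) / 2) / Real.Gamma (((k : ℝ) + 1) / 2) *
        (2 * Real.pi ^ (((k : ℝ) + 1 + 1) / 2) / Real.Gamma (((k : ℝ) + 1 + 1) / 2))) := by ring
    _ = _ := by rw [key]; ring

lemma oddRatio_pow_four (k : ℕ) :
    oddRatio k ^ 4 = 4 * ((2 * (k : ℝ) / (2 * k + 1)) ^ (2 * k) *
      ((2 * (k : ℝ) + 2) / (2 * k + 1)) ^ (2 * k + 2)) := by
  unfold oddRatio
  rw [mul_pow, mul_pow]
  have h1 : (((k : ℝ) / (2 * k + 1)) ^ ((k : ℝ) / 2)) ^ 4 = ((k : ℝ) / (2 * k + 1)) ^ (2 * k) := by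
    rw [← Real.rpow_natCast, ← Real.rpow_mul (by (clear * -; (clear * -; positivity))), ← Real.rpow_natCast]
    congr 1
    push_cast
    ring
  have h2 : ((((k : ℝ) + 1) / (2 * k + 1)) ^ (((k : ℝ) + 1) / 2)) ^ 4
      = (((k : ℝ) + 1) / (2 * k + 1)) ^ (2 * k + 2) := by
    rw [← Real.rpow_natCast, ← Real.rpow_mul (by (clear * -; positivity)), ← Real.rpow_natCast]
    congr 1
    push_cast
    ring
  rw [h1, h2]
  have h3 : (2 * (k : ℝ) / (2 * k + 1)) ^ (2 * k) = 2 ^ (2 * k) * ((k : ℝ) / (2 * k + 1)) ^ (2 * k) := by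
    rw [← mul_pow]; congr 1; ring
  have h4 : ((2 * (k : ℝ) + 2) / (2 * k + 1)) ^ (2 * k + 2)
      = 2 ^ (2 * k + 2) * (((k : ℝ) + 1) / (2 * k + 1)) ^ (2 * k + 2) := by
    rw [← mul_pow]; congr 1; ring
  rw [h3, h4]
  have h5 : ((2 : ℝ) ^ (k + 1)) ^ 4 = 4 * (2 ^ (2 * k) * 2 ^ (2 * k + 2)) := by
    rw [← pow_mul, ← pow_add]
    rw [show (k + 1) * 4 = 2 + (2 * k + (2 * k + 2)) by ring, pow_add]
    norm_num
  rw [h5]
  ring

/-- main bound in odd dimension -/
lemma oddRatio_pow_four_le (k : ℕ) :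
    oddRatio k ^ 4 ≤ 4 * Real.exp (1 / (2 * (k : ℝ) + 1) + 1 / (2 * (k : ℝ) + 1) ^ 2) := by
  rw [oddRatio_pow_four]
  set x : ℝ := 1 / (2 * (k : ℝ) + 1) with hx
  have hm : (0 : ℝ) < 2 * (k : ℝ) + 1 := by (clear * -; (clear * -; positivity))
  have hx0 : 0 < x := by (clear * -; positivity)
  have hx1 : x ≤ 1 := by rw [hx, div_le_one hm]; linarith only []
  have e1 : 2 * (k : ℝ) / (2 * k + 1) = 1 - x := by rw [hx]; field_simp; ring
  have e2 : (2 * (k : ℝ) + 2) / (2 * k + 1) = 1 + x := by rw [hx]; field_simp; ring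
  have e3 : 1 / (2 * (k : ℝ) + 1) ^ 2 = x ^ 2 := by rw [hx, one_div_pow]
  rw [e1, e2, e3]
  have h1 : (1 - x) ^ (2 * k) * (1 + x) ^ (2 * k + 2) = (1 - x ^ 2) ^ (2 * k) * (1 + x) ^ 2 := by
    rw [pow_add, ← mul_assoc, ← mul_pow]
    congr 2
    ring
  rw [h1]
  have h2 : (1 - x ^ 2) ^ (2 * k) ≤ Real.exp (- (x ^ 2)) ^ (2 * k) := by
    apply pow_le_pow_left₀
    · nlinarith only [hx1, hx0]
    · have := Real.add_one_le_exp (- (x ^ 2)); linarith only [this]
  have h3 : (1 + x) ^ 2 ≤ Real.exp x ^ 2 := by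
    apply pow_le_pow_left₀ (by (clear * -; positivity))
    have := Real.add_one_le_exp x; linarith only [this]
  have h4 : Real.exp (- (x ^ 2)) ^ (2 * k) * Real.exp x ^ 2 = Real.exp (x + x ^ 2) := by
    rw [← Real.exp_nat_mul, ← Real.exp_nat_mul, ← Real.exp_add]
    congr 1
    push_cast
    have : x * (2 * (k : ℝ) + 1) = 1 := by rw [hx]; (clear * -; field_simp)
    have h5 : 2 * (k : ℝ) * x ^ 2 = x - x ^ 2 := by
      linear_combination x * this
    linear_combination - h5
  have h0 : 0 ≤ (1 + x) ^ 2 := by (clear * -; (clear * -; positivity))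
  calc 4 * ((1 - x ^ 2) ^ (2 * k) * (1 + x) ^ 2)
      ≤ 4 * (Real.exp (- (x ^ 2)) ^ (2 * k) * Real.exp x ^ 2) := by (clear * - h2 h3; gcongr)
    _ = _ := by rw [h4]

lemma exp_le_of {x B : ℝ} (n : ℕ) (hx0 : 0 ≤ x) (hx : x < n) (hn : 0 < n)
    (h : 1 ≤ B * (1 - x / n) ^ n) (hB : 0 < B) : Real.exp x ≤ B := by
  have hn' : (0 : ℝ) < n := by exact_mod_cast hn
  have h1 : 0 < 1 - x / n := by
    rw [sub_pos, div_lt_one hn']; exact hx
  have h2 : (1 - x / n) ^ n ≤ Real.exp (- x) := by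
    have := Real.one_sub_div_pow_le_exp_neg (n := n) (t := x) hx.le
    exact this
  have h3 : 1 ≤ B * Real.exp (- x) := by
    calc (1 : ℝ) ≤ B * (1 - x / n) ^ n := h
      _ ≤ B * Real.exp (- x) := by (clear * - h2 hB; gcongr)
  have h4 : Real.exp x = Real.exp x * 1 := by ring
  have h5 : Real.exp x * Real.exp (- x) = 1 := by rw [← Real.exp_add]; simp
  calc Real.exp x = Real.exp x * 1 := by ring
    _ ≤ Real.exp x * (B * Real.exp (- x)) := by (clear * - h3; gcongr)
    _ = B * (Real.exp x * Real.exp (- x)) := by ring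
    _ = B := by rw [h5, mul_one]

lemma oddRatio_le {k : ℕ} {B : ℝ} (hB : 0 ≤ B) {K : ℕ} (hK : K ≤ k)
    (h : 4 * Real.exp (1 / (2 * (K : ℝ) + 1) + 1 / (2 * (K : ℝ) + 1) ^ 2) ≤ B ^ 4) :
    oddRatio k ≤ B := by
  have hk : (K : ℝ) ≤ k := by exact_mod_cast hK
  have h1 : 4 * Real.exp (1 / (2 * (k : ℝ) + 1) + 1 / (2 * (k : ℝ) + 1) ^ 2) ≤
      4 * Real.exp (1 / (2 * (K : ℝ) + 1) + 1 / (2 * (K : ℝ) + 1) ^ 2) := by
    gcongr
  have h2 := (oddRatio_pow_four_le k).trans (h1.trans h)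
  exact le_of_pow_le_pow_left₀ (by norm_num) hB h2

theorem ratio2 : leastClifford 2 ≤ (1 + 0.5931) * sphereVol 2 := by
  have h := leastClifford_le (m := 2) (k := 1) (by norm_num) (by norm_num)
  have h2 := clifford_even (k := 1) (by norm_num)
  rw [show 2 * 1 = 2 by norm_num, evenRatio_one] at h2
  rw [h2] at h
  have hp := Real.pi_lt_d4
  have hs := sphereVol_pos' 2
  refine h.trans ?_
  gcongr
  norm_num
  linarith only [hp]

theorem ratio3 : leastClifford 3 ≤ (1 + 0.5525) * sphereVol 3 := by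
  have h := leastClifford_le (m := 3) (k := 1) (by norm_num) (by norm_num)
  have h2 := clifford_odd 1
  rw [show 2 * 1 + 1 = 3 by norm_num] at h2
  rw [h2] at h
  refine h.trans ?_
  have hs := sphereVol_pos' 3
  have h3 : oddRatio 1 ≤ 1 + 0.5525 := by
    have h4 := oddRatio_pow_four 1
    have h5 : oddRatio 1 ^ 4 ≤ (1 + 0.5525) ^ 4 := by
      rw [h4]
      (clear * -; norm_num)
    exact le_of_pow_le_pow_left₀ (by norm_num) (by norm_num) h5
  (clear * - h3 hs; gcongr)

lemma even_bound {k : ℕ} (hk : 1 ≤ k) {B : ℝ} (h : evenRatio k ≤ B) :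
    leastClifford (2 * k) ≤ B * sphereVol (2 * k) := by
  refine (leastClifford_le hk (by omega)).trans ?_
  rw [clifford_even hk]
  have hs := sphereVol_pos' (2 * k)
  gcongr

lemma odd_bound {k : ℕ} (hk : 1 ≤ k) {B : ℝ} (h : oddRatio k ≤ B) :
    leastClifford (2 * k + 1) ≤ B * sphereVol (2 * k + 1) := by
  refine (leastClifford_le hk (by omega)).trans ?_
  rw [clifford_odd]
  have hs := sphereVol_pos' (2 * k + 1)
  gcongr

lemma exp5 : 4 * Real.exp (1 / (2 * ((2 : ℕ) : ℝ) + 1) + 1 / (2 * ((2 : ℕ) : ℝ) + 1) ^ 2)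
    ≤ 1.5036 ^ 4 := by
  have : Real.exp (1 / (2 * ((2 : ℕ) : ℝ) + 1) + 1 / (2 * ((2 : ℕ) : ℝ) + 1) ^ 2) ≤ 1.277 := by
    apply exp_le_of 16 (by (clear * -; positivity)) (by norm_num) (by norm_num) _ (by norm_num)
    norm_num
  calc _ ≤ 4 * (1.277 : ℝ) := by (clear * - this; gcongr)
    _ ≤ _ := by norm_num

lemma exp9 : 4 * Real.exp (1 / (2 * ((4 : ℕ) : ℝ) + 1) + 1 / (2 * ((4 : ℕ) : ℝ) + 1) ^ 2)
    ≤ 1.484 ^ 4 := by
  have : Real.exp (1 / (2 * ((4 : ℕ) : ℝ) + 1) + 1 / (2 * ((4 : ℕ) : ℝ) + 1) ^ 2) ≤ 1.2 := by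
    apply exp_le_of 4 (by (clear * -; (clear * -; positivity))) (by norm_num) (by norm_num) _ (by norm_num)
    norm_num
  calc _ ≤ 4 * (1.2 : ℝ) := by gcongr
    _ ≤ _ := by norm_num

lemma exp13 : 4 * Real.exp (1 / (2 * ((6 : ℕ) : ℝ) + 1) + 1 / (2 * ((6 : ℕ) : ℝ) + 1) ^ 2)
    ≤ 1.4447 ^ 4 := by
  have : Real.exp (1 / (2 * ((6 : ℕ) : ℝ) + 1) + 1 / (2 * ((6 : ℕ) : ℝ) + 1) ^ 2) ≤ 1.0889 := by
    apply exp_le_of 4 (by (clear * -; positivity)) (by norm_num) (by norm_num) _ (by norm_num)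
    norm_num
  calc _ ≤ 4 * (1.0889 : ℝ) := by gcongr
    _ ≤ _ := by norm_num

theorem ratio4to8 : ∀ m, 4 ≤ m → m ≤ 8 → leastClifford m ≤ 1.5036 * sphereVol m := by
  intro m h4 h8
  have hp := Real.pi_lt_d4
  interval_cases m
  · exact even_bound (k := 2) (by norm_num) (by rw [evenRatio_two]; norm_num)
  · exact odd_bound (k := 2) (by norm_num) (oddRatio_le (by norm_num) le_rfl exp5)
  · exact even_bound (k := 3) (by norm_num) (by rw [evenRatio_three]; linarith only [hp])
  · exact odd_bound (k := 3) (by norm_num) (oddRatio_le (by norm_num) (by norm_num) exp5)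
  · exact even_bound (k := 4) (by norm_num) (by rw [evenRatio_four]; norm_num)

theorem ratio9to12 : ∀ m, 9 ≤ m → m ≤ 12 → leastClifford m ≤ 1.484 * sphereVol m := by
  intro m h4 h8
  have hp := Real.pi_lt_d4
  interval_cases m
  · exact odd_bound (k := 4) (by norm_num) (oddRatio_le (by norm_num) le_rfl exp9)
  · exact even_bound (k := 5) (by norm_num) (by rw [evenRatio_five]; linarith only [hp])
  · exact odd_bound (k := 5) (by norm_num) (oddRatio_le (by norm_num) (by norm_num) exp9)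
  · exact even_bound (k := 6) (by norm_num) (by rw [evenRatio_six]; norm_num)

theorem ratio12 : ∀ m, 12 ≤ m → leastClifford m ≤ 1.4447 * sphereVol m := by
  intro m hm
  rcases Nat.even_or_odd' m with ⟨k, hk | hk⟩
  · subst hk
    rcases Nat.lt_or_ge k 7 with h | h
    · have : k = 6 := by omega
      subst this
      exact even_bound (k := 6) (by norm_num) (by rw [evenRatio_six]; norm_num)
    · obtain ⟨j, rfl⟩ := Nat.exists_eq_add_of_le h
      apply even_bound (by omega)
      rw [add_comm 7 j]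
      exact (evenRatio_ge_seven j).1
  · subst hk
    exact odd_bound (by omega) (oddRatio_le (K := 6) (by norm_num) (by (clear * - hm; omega)) exp13)

end Vale.Agent.P224
end
end

section

section

namespace Vale.Agent.P224

open MeasureTheory Metric Set Finset

/-! ### Three real numbers -/

lemma three_pos {α β γ : ℝ} (h1 : 0 < α + β + γ) (h2 : 0 < α * β + β * γ + γ * α)
    (h3 : 0 < α * β * γ) : 0 < α ∧ 0 < β ∧ 0 < γ := by
  have key : ∀ t : ℝ, (t - α) * (t - β) * (t - γ) = 0 → 0 < t := by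
    intro t ht
    by_contra hneg
    push Not at hneg
    have e : (t - α) * (t - β) * (t - γ)
        = t ^ 3 - (α + β + γ) * t ^ 2 + (α * β + β * γ + γ * α) * t - α * β * γ := by ring
    rw [e] at ht
    have a1 : t ^ 3 ≤ 0 := by
      have : t ^ 3 = t * t ^ 2 := by ring
      rw [this]
      exact mul_nonpos_of_nonpos_of_nonneg hneg (sq_nonneg t)
    have a2 : 0 ≤ (α + β + γ) * t ^ 2 := by (clear * - h1; positivity)
    have a3 : (α * β + β * γ + γ * α) * t ≤ 0 := mul_nonpos_of_nonneg_of_nonpos h2.le hneg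
    linarith only [h3, ht, a1, a2, a3]
  exact ⟨key α (by ring), key β (by ring), key γ (by ring)⟩

/-- product of the positive parts of three numbers -/
lemma pos3_ge {α β γ : ℝ} (h1 : 0 < α + β + γ) (h2 : 0 < α * β + β * γ + γ * α) :
    α * β * γ ≤ max α 0 * max β 0 * max γ 0 := by
  by_cases h3 : 0 < α * β * γ
  · obtain ⟨a, b, c⟩ := three_pos h1 h2 h3
    rw [max_eq_left a.le, max_eq_left b.le, max_eq_left c.le]
  · push Not at h3
    exact h3.trans (by (clear * -; positivity))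

lemma convex3 {α β γ α' β' γ' α'' β'' γ'' s t : ℝ}
    (hs : 0 ≤ s) (ht : 0 ≤ t)
    (e1' : α' + β' + γ' = α + β + γ) (e1'' : α'' + β'' + γ'' = α + β + γ)
    (e2' : α' * β' + β' * γ' + γ' * α' = α * β + β * γ + γ * α)
    (e2'' : α'' * β'' + β'' * γ'' + γ'' * α'' = α * β + β * γ + γ * α)
    (e3 : α * β * γ = s * (α' * β' * γ') + t * (α'' * β'' * γ'')) :
    max α 0 * max β 0 * max γ 0 ≤
      s * (max α' 0 * max β' 0 * max γ' 0) + t * (max α'' 0 * max β'' 0 * max γ'' 0) := by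
  have hnn : 0 ≤ s * (max α' 0 * max β' 0 * max γ' 0)
      + t * (max α'' 0 * max β'' 0 * max γ'' 0) := by (clear * - hs ht; positivity)
  by_cases ha : 0 < α
  swap
  · push Not at ha
    rw [max_eq_right ha]
    simpa only [zero_mul, ge_iff_le] using hnn
  by_cases hb : 0 < β
  swap
  · push Not at hb
    rw [max_eq_right hb]
    simpa only [mul_zero, zero_mul, ge_iff_le] using hnn
  by_cases hc : 0 < γ
  swap
  · push Not at hc
    rw [max_eq_right hc]
    simpa only [mul_zero, ge_iff_le] using hnn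
  rw [max_eq_left ha.le, max_eq_left hb.le, max_eq_left hc.le, e3]
  have h1 : 0 < α + β + γ := by (clear * - ha hb hc; positivity)
  have h2 : 0 < α * β + β * γ + γ * α := by (clear * - ha hb hc; positivity)
  have A := pos3_ge (α := α') (β := β') (γ := γ') (by rw [e1']; exact h1) (by rw [e2']; exact h2)
  have B := pos3_ge (α := α'') (β := β'') (γ := γ'') (by rw [e1'']; exact h1)
    (by rw [e2'']; exact h2)
  exact add_le_add (mul_le_mul_of_nonneg_left A hs) (mul_le_mul_of_nonneg_left B ht)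

lemma exists_triples_aux (μ p q : ℝ) (h1 : p - q ≠ 0) (h2 : 2 * p + q ≠ 0) (h3 : p + 2 * q ≠ 0) :
    ∃ d : ℝ, 3 * d ^ 2 = p ^ 2 + p * q + q ^ 2 ∧
      (μ - 2 * d) * (μ + d) * (μ + d) < (μ + p) * (μ + q) * (μ + (- p - q)) ∧
      (μ + p) * (μ + q) * (μ + (- p - q)) < (μ + 2 * d) * (μ - d) * (μ - d) := by
  have hV : 0 < (p ^ 2 + p * q + q ^ 2) / 3 := by
    have h2 : 0 < (p - q) ^ 2 := by (clear * - h1; positivity)
    have : 0 < p ^ 2 + p * q + q ^ 2 := by linarith [sq_nonneg (p + q)]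
    (clear * - this; positivity)
  obtain ⟨d, hd0, hd⟩ : ∃ d : ℝ, 0 < d ∧ d ^ 2 = (p ^ 2 + p * q + q ^ 2) / 3 :=
    ⟨Real.sqrt _, Real.sqrt_pos.mpr hV, Real.sq_sqrt hV.le⟩
  have hd2 : 3 * d ^ 2 = p ^ 2 + p * q + q ^ 2 := by rw [hd]; ring
  have hdisc : 0 < (p - q) ^ 2 * (2 * p + q) ^ 2 * (p + 2 * q) ^ 2 := by (clear * - h1 h2 h3; positivity)
  have hid : 4 * (p ^ 2 + p * q + q ^ 2) ^ 3 - 27 * (p * q * (- p - q)) ^ 2
      = (p - q) ^ 2 * (2 * p + q) ^ 2 * (p + 2 * q) ^ 2 := by ring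
  have hlt : (p * q * (- p - q)) ^ 2 < (2 * d ^ 3) ^ 2 := by
    have : (2 * d ^ 3) ^ 2 = 4 * (3 * d ^ 2) ^ 3 / 27 := by ring
    rw [this, hd2]
    linarith only [hdisc]
  obtain ⟨hl1, hl2⟩ := abs_lt_of_sq_lt_sq' hlt (by (clear * - hd0; positivity))
  refine ⟨d, hd2, ?_, ?_⟩
  · have : (μ + p) * (μ + q) * (μ + (- p - q)) - (μ - 2 * d) * (μ + d) * (μ + d)
        = μ * (3 * d ^ 2 - (p ^ 2 + p * q + q ^ 2)) + (p * q * (-p - q) + 2 * d ^ 3) := by
      ring
    rw [hd2, sub_self, mul_zero] at this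
    linarith only [hl1, this]
  · have : (μ + 2 * d) * (μ - d) * (μ - d) - (μ + p) * (μ + q) * (μ + (- p - q))
        = - μ * (3 * d ^ 2 - (p ^ 2 + p * q + q ^ 2)) + (2 * d ^ 3 - p * q * (-p - q)) := by
      ring
    rw [hd2, sub_self, mul_zero] at this
    linarith only [hl2, this]

/-- Given three distinct numbers there are two triples with the same sum and sum of squares and
with strictly smaller, resp. strictly larger product. -/
lemma exists_triples {x y z : ℝ} (hxy : x ≠ y) (hyz : y ≠ z) (hxz : x ≠ z) :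
    ∃ x' y' z' x'' y'' z'' : ℝ,
      x' + y' + z' = x + y + z ∧ x'' + y'' + z'' = x + y + z ∧
      x' ^ 2 + y' ^ 2 + z' ^ 2 = x ^ 2 + y ^ 2 + z ^ 2 ∧
      x'' ^ 2 + y'' ^ 2 + z'' ^ 2 = x ^ 2 + y ^ 2 + z ^ 2 ∧
      x' * y' * z' < x * y * z ∧ x * y * z < x'' * y'' * z'' := by
  obtain ⟨μ, p, q, rfl, rfl, rfl⟩ : ∃ μ p q : ℝ, x = μ + p ∧ y = μ + q ∧ z = μ + (- p - q) :=
    ⟨(x + y + z) / 3, x - (x + y + z) / 3, y - (x + y + z) / 3, by ring, by ring, by ring⟩
  obtain ⟨d, hd, h1, h2⟩ := exists_triples_aux μ p q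
    (by intro h; apply hxy; linarith) (by intro h; apply hxz; linarith only [h])
    (by intro h; apply hyz; linarith)
  refine ⟨μ - 2 * d, μ + d, μ + d, μ + 2 * d, μ - d, μ - d, by ring, by ring, ?_, ?_, h1, h2⟩
  · linear_combination 2 * hd
  · linear_combination 2 * hd

/-! ### The functional -/

/-- product of the positive parts -/
noncomputable def P {m : ℕ} (κ : Fin m → ℝ) (z : EuclideanSpace ℝ (Fin 2)) : ℝ :=
  ∏ i, max (z 0 - z 1 * κ i) 0

lemma P_nonneg {m : ℕ} (κ : Fin m → ℝ) (z : EuclideanSpace ℝ (Fin 2)) : 0 ≤ P κ z :=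
  Finset.prod_nonneg fun _ _ => le_max_right _ _

lemma P_continuous {m : ℕ} :
    Continuous (Function.uncurry (P : (Fin m → ℝ) → EuclideanSpace ℝ (Fin 2) → ℝ)) := by
  unfold Function.uncurry P
  (clear * -; (clear * -; fun_prop))

/-- The integral over the unit disc. -/
noncomputable def J {m : ℕ} (κ : Fin m → ℝ) : ℝ :=
  ∫ z in closedBall (0 : EuclideanSpace ℝ (Fin 2)) 1, P κ z

lemma J_continuous {m : ℕ} : Continuous (J : (Fin m → ℝ) → ℝ) :=
  continuous_parametric_integral_of_continuous P_continuous (isCompact_closedBall _ _)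

lemma P_integrableOn {m : ℕ} (κ : Fin m → ℝ) :
    IntegrableOn (P κ) (closedBall (0 : EuclideanSpace ℝ (Fin 2)) 1) := by
  have : Continuous (P κ) := by
    have := (P_continuous (m := m)).comp (Continuous.prodMk_right κ)
    exact this
  exact this.continuousOn.integrableOn_compact (isCompact_closedBall _ _)

lemma J_nonneg {m : ℕ} (κ : Fin m → ℝ) : 0 ≤ J κ :=
  integral_nonneg fun z => P_nonneg κ z

/-- replace the three coordinates i, j, k -/
def upd {m : ℕ} (κ : Fin m → ℝ) (i j k : Fin m) (x y z : ℝ) : Fin m → ℝ :=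
  fun l => if l = i then x else if l = j then y else if l = k then z else κ l

lemma prod_upd {m : ℕ} (κ : Fin m → ℝ) {i j k : Fin m} (hij : i ≠ j) (hjk : j ≠ k) (hik : i ≠ k)
    (x y z : ℝ) (g : ℝ → ℝ) :
    ∏ l, g (upd κ i j k x y z l) = g x * g y * g z * ∏ l ∈ ({i, j, k} : Finset (Fin m))ᶜ, g (κ l) := by
  rw [← Finset.prod_mul_prod_compl ({i, j, k} : Finset (Fin m))]
  congr 1
  · rw [Finset.prod_insert, Finset.prod_insert, Finset.prod_singleton]
    · simp [upd, hij.symm, hik.symm, hjk.symm, mul_assoc]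
    · simpa using hjk
    · simp [hij, hik]
  · apply Finset.prod_congr rfl
    intro l hl
    simp only [Finset.mem_compl, Finset.mem_insert, Finset.mem_singleton, not_or] at hl
    simp [upd, hl.1, hl.2.1, hl.2.2]

lemma sum_upd {m : ℕ} (κ : Fin m → ℝ) {i j k : Fin m} (hij : i ≠ j) (hjk : j ≠ k) (hik : i ≠ k)
    (x y z : ℝ) (g : ℝ → ℝ) :
    ∑ l, g (upd κ i j k x y z l) = g x + g y + g z + ∑ l ∈ ({i, j, k} : Finset (Fin m))ᶜ, g (κ l) := by
  rw [← Finset.sum_add_sum_compl ({i, j, k} : Finset (Fin m))]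
  congr 1
  · rw [Finset.sum_insert, Finset.sum_insert, Finset.sum_singleton]
    · simp [upd, hij.symm, hik.symm, hjk.symm, add_assoc]
    · simpa using hjk
    · simp [hij, hik]
  · apply Finset.sum_congr rfl
    intro l hl
    simp only [Finset.mem_compl, Finset.mem_insert, Finset.mem_singleton, not_or] at hl
    simp [upd, hl.1, hl.2.1, hl.2.2]

lemma upd_self {m : ℕ} (κ : Fin m → ℝ) (i j k : Fin m) : upd κ i j k (κ i) (κ j) (κ k) = κ := by
  funext l
  unfold upd
  split_ifs with h1 h2 h3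
  · rw [h1]
  · rw [h2]
  · rw [h3]
  · rfl

lemma P_convex {m : ℕ} (κ : Fin m → ℝ) {i j k : Fin m} (hij : i ≠ j) (hjk : j ≠ k) (hik : i ≠ k)
    {x y z x' y' z' x'' y'' z'' s t : ℝ} (hs : 0 ≤ s) (ht : 0 ≤ t) (hst : s + t = 1)
    (e1' : x' + y' + z' = x + y + z) (e1'' : x'' + y'' + z'' = x + y + z)
    (e2' : x' ^ 2 + y' ^ 2 + z' ^ 2 = x ^ 2 + y ^ 2 + z ^ 2)
    (e2'' : x'' ^ 2 + y'' ^ 2 + z'' ^ 2 = x ^ 2 + y ^ 2 + z ^ 2)
    (e3 : x * y * z = s * (x' * y' * z') + t * (x'' * y'' * z''))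
    (w : EuclideanSpace ℝ (Fin 2)) :
    P (upd κ i j k x y z) w ≤
      s * P (upd κ i j k x' y' z') w + t * P (upd κ i j k x'' y'' z'') w := by
  unfold P
  rw [prod_upd κ hij hjk hik x y z (fun v => max (w 0 - w 1 * v) 0),
    prod_upd κ hij hjk hik x' y' z' (fun v => max (w 0 - w 1 * v) 0),
    prod_upd κ hij hjk hik x'' y'' z'' (fun v => max (w 0 - w 1 * v) 0)]
  have hR : 0 ≤ ∏ l ∈ ({i, j, k} : Finset (Fin m))ᶜ, max (w 0 - w 1 * κ l) 0 :=
    Finset.prod_nonneg fun _ _ => le_max_right _ _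
  have q' : x' * y' + y' * z' + z' * x' = x * y + y * z + z * x := by
    linear_combination (x' + y' + z' + x + y + z) / 2 * e1' - e2' / 2
  have q'' : x'' * y'' + y'' * z'' + z'' * x'' = x * y + y * z + z * x := by
    linear_combination (x'' + y'' + z'' + x + y + z) / 2 * e1'' - e2'' / 2
  have key := convex3 (α := w 0 - w 1 * x) (β := w 0 - w 1 * y) (γ := w 0 - w 1 * z)
    (α' := w 0 - w 1 * x') (β' := w 0 - w 1 * y') (γ' := w 0 - w 1 * z')
    (α'' := w 0 - w 1 * x'') (β'' := w 0 - w 1 * y'') (γ'' := w 0 - w 1 * z'') hs ht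
    (by linear_combination (- w 1) * e1') (by linear_combination (- w 1) * e1'')
    (by linear_combination (- 2 * w 0 * w 1) * e1' + (w 1) ^ 2 * q')
    (by linear_combination (- 2 * w 0 * w 1) * e1'' + (w 1) ^ 2 * q'')
    (by
      linear_combination (-(w 1) ^ 3) * e3 + (- (w 0) ^ 3 + (w 0) ^ 2 * w 1 * (x + y + z)
        - w 0 * (w 1) ^ 2 * (x * y + y * z + z * x)) * hst
        + s * ((w 0) ^ 2 * w 1 * e1') - s * w 0 * (w 1) ^ 2 * q'
        + t * ((w 0) ^ 2 * w 1 * e1'') - t * w 0 * (w 1) ^ 2 * q'')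
  linarith only [mul_le_mul_of_nonneg_right key hR]

lemma J_convex {m : ℕ} (κ : Fin m → ℝ) {i j k : Fin m} (hij : i ≠ j) (hjk : j ≠ k) (hik : i ≠ k)
    {x y z x' y' z' x'' y'' z'' s t : ℝ} (hs : 0 ≤ s) (ht : 0 ≤ t) (hst : s + t = 1)
    (e1' : x' + y' + z' = x + y + z) (e1'' : x'' + y'' + z'' = x + y + z)
    (e2' : x' ^ 2 + y' ^ 2 + z' ^ 2 = x ^ 2 + y ^ 2 + z ^ 2)
    (e2'' : x'' ^ 2 + y'' ^ 2 + z'' ^ 2 = x ^ 2 + y ^ 2 + z ^ 2)
    (e3 : x * y * z = s * (x' * y' * z') + t * (x'' * y'' * z'')) :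
    J (upd κ i j k x y z) ≤
      s * J (upd κ i j k x' y' z') + t * J (upd κ i j k x'' y'' z'') := by
  unfold J
  rw [← integral_const_mul, ← integral_const_mul, ← integral_add]
  · apply integral_mono
    · exact P_integrableOn _
    · exact ((P_integrableOn _).const_mul _).add ((P_integrableOn _).const_mul _)
    · intro w
      exact P_convex κ hij hjk hik hs ht hst e1' e1'' e2' e2'' e3 w
  · exact (P_integrableOn _).const_mul _
  · exact (P_integrableOn _).const_mul _

/-! ### The maximisation problem -/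

/-- the constraint set -/
def K (m : ℕ) : Set (Fin m → ℝ) := {κ | ∑ i, κ i = 0 ∧ ∑ i, κ i ^ 2 = m}

lemma K_isClosed (m : ℕ) : IsClosed (K m) := by
  apply IsClosed.inter
  · exact isClosed_eq (by fun_prop) continuous_const
  · exact isClosed_eq (by fun_prop) continuous_const

lemma K_isCompact (m : ℕ) : IsCompact (K m) := by
  apply Metric.isCompact_of_isClosed_isBounded (K_isClosed m)
  rw [isBounded_iff_subset_closedBall 0]
  refine ⟨Real.sqrt m, ?_⟩
  intro κ hκ
  rw [mem_closedBall_zero_iff, pi_norm_le_iff_of_nonneg (Real.sqrt_nonneg _)]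
  intro i
  rw [Real.norm_eq_abs]
  apply Real.abs_le_sqrt
  rw [← hκ.2]
  exact Finset.single_le_sum (f := fun i => κ i ^ 2) (fun _ _ => sq_nonneg _) (Finset.mem_univ i)

lemma K_nonempty {m : ℕ} (hm : 2 ≤ m) : (K m).Nonempty := by
  obtain ⟨n, rfl⟩ : ∃ n, m = n + 2 := ⟨m - 2, by omega⟩
  refine ⟨Fin.cons (Real.sqrt (((n + 2 : ℕ) : ℝ) / 2))
    (Fin.cons (- Real.sqrt (((n + 2 : ℕ) : ℝ) / 2)) (fun _ => 0)), ?_, ?_⟩
  · rw [Fin.sum_univ_succ, Fin.sum_univ_succ]
    simp only [Nat.cast_add, Nat.cast_ofNat, Nat.ofNat_nonneg, Real.sqrt_div', Fin.cons_zero, Fin.succ_zero_eq_one, Fin.cons_one, Fin.cons_succ, sum_const_zero, add_zero, add_neg_cancel]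
  · rw [Fin.sum_univ_succ, Fin.sum_univ_succ]
    simp only [Fin.cons_zero, Fin.cons_succ, neg_sq]
    rw [Real.sq_sqrt (by (clear * -; positivity))]
    simp only [Nat.cast_add, Nat.cast_ofNat, ne_eq, OfNat.ofNat_ne_zero, not_false_eq_true, zero_pow, sum_const_zero, add_zero, add_halves]

lemma exists_max {m : ℕ} (hm : 2 ≤ m) : ∃ κ ∈ K m, (∀ κ' ∈ K m, J κ' ≤ J κ) ∧
    ∀ i j k, κ i = κ j ∨ κ j = κ k ∨ κ i = κ k := by
  obtain ⟨κ₁, hκ₁, hmax₁⟩ := (K_isCompact m).exists_isMaxOn (K_nonempty hm)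
    (J_continuous (m := m)).continuousOn
  set S : Set (Fin m → ℝ) := K m ∩ {κ | J κ = J κ₁} with hS
  have hScomp : IsCompact S :=
    (K_isCompact m).inter_right (isClosed_eq J_continuous continuous_const)
  obtain ⟨κ, hκ, hmax⟩ := hScomp.exists_isMaxOn ⟨κ₁, hκ₁, rfl⟩
    (f := fun κ => ∑ i, κ i ^ 3) (by (clear * -; (clear * -; fun_prop)))
  refine ⟨κ, hκ.1, ?_, ?_⟩
  · intro κ' hκ'
    have h : J κ = J κ₁ := hκ.2
    rw [h]
    exact hmax₁ hκ'
  · intro i j k
    by_contra hcon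
    push Not at hcon
    obtain ⟨h1, h2, h3⟩ := hcon
    have hij : i ≠ j := fun h => h1 (by rw [h])
    have hjk : j ≠ k := fun h => h2 (by rw [h])
    have hik : i ≠ k := fun h => h3 (by rw [h])
    obtain ⟨x', y', z', x'', y'', z'', a1, a2, b1, b2, c1, c2⟩ := exists_triples h1 h2 h3
    -- convex combination
    set D : ℝ := x'' * y'' * z'' - x' * y' * z' with hD
    have hDpos : 0 < D := by rw [hD]; linarith only [c1, c2]
    set s : ℝ := (x'' * y'' * z'' - κ i * κ j * κ k) / D with hs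
    set t : ℝ := (κ i * κ j * κ k - x' * y' * z') / D with ht
    have hs0 : 0 < s := div_pos (by linarith only [c2]) hDpos
    have ht0 : 0 < t := div_pos (by linarith only [c1]) hDpos
    have hst : s + t = 1 := by
      rw [hs, ht, ← add_div, div_eq_one_iff_eq hDpos.ne', hD]; ring
    have e3 : κ i * κ j * κ k = s * (x' * y' * z') + t * (x'' * y'' * z'') := by
      rw [hs, ht]
      field_simp
      rw [hD]; ring
    have key := J_convex κ hij hjk hik hs0.le ht0.le hst a1 a2 b1 b2 e3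
    rw [upd_self] at key
    have memK : ∀ x y z : ℝ, x + y + z = κ i + κ j + κ k →
        x ^ 2 + y ^ 2 + z ^ 2 = κ i ^ 2 + κ j ^ 2 + κ k ^ 2 → upd κ i j k x y z ∈ K m := by
      intro x y z e1 e2
      constructor
      · have A := sum_upd κ hij hjk hik x y z (fun v => v)
        have B := sum_upd κ hij hjk hik (κ i) (κ j) (κ k) (fun v => v)
        rw [upd_self] at B
        rw [A, e1, ← B]
        exact hκ.1.1
      · have A := sum_upd κ hij hjk hik x y z (fun v => v ^ 2)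
        have B := sum_upd κ hij hjk hik (κ i) (κ j) (κ k) (fun v => v ^ 2)
        rw [upd_self] at B
        rw [A, e2, ← B]
        exact hκ.1.2
    have hK' := memK x' y' z' a1 b1
    have hK'' := memK x'' y'' z'' a2 b2
    have l' : J (upd κ i j k x' y' z') ≤ J κ₁ := hmax₁ hK'
    have l'' : J (upd κ i j k x'' y'' z'') ≤ J κ₁ := hmax₁ hK''
    have hJ : J κ = J κ₁ := hκ.2
    have heq : J (upd κ i j k x'' y'' z'') = J κ₁ := by
      apply le_antisymm l''
      by_contra hlt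
      push Not at hlt
      have : s * J (upd κ i j k x' y' z') + t * J (upd κ i j k x'' y'' z'')
          < s * J κ₁ + t * J κ₁ :=
        add_lt_add_of_le_of_lt (mul_le_mul_of_nonneg_left l' hs0.le)
          (mul_lt_mul_of_pos_left hlt ht0)
      have h2 : s * J κ₁ + t * J κ₁ = J κ₁ := by rw [← add_mul, hst, one_mul]
      linarith only [key, hJ, this, h2]
    have hle : ∑ l, (upd κ i j k x'' y'' z'' l) ^ 3 ≤ ∑ l, κ l ^ 3 := hmax ⟨hK'', heq⟩
    have A := sum_upd κ hij hjk hik x'' y'' z'' (fun v => v ^ 3)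
    have B := sum_upd κ hij hjk hik (κ i) (κ j) (κ k) (fun v => v ^ 3)
    rw [upd_self] at B
    rw [A, B] at hle
    have id1 : x'' ^ 3 + y'' ^ 3 + z'' ^ 3 - (κ i ^ 3 + κ j ^ 3 + κ k ^ 3)
        = 3 * (x'' * y'' * z'' - κ i * κ j * κ k) := by
      have e2 : x'' * y'' + y'' * z'' + z'' * x''
          = κ i * κ j + κ j * κ k + κ k * κ i := by
        linear_combination (x'' + y'' + z'' + κ i + κ j + κ k) / 2 * a2 - b2 / 2
      linear_combination ((x'' + y'' + z'') ^ 2 + (x'' + y'' + z'') * (κ i + κ j + κ k)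
        + (κ i + κ j + κ k) ^ 2 - 3 * (x'' * y'' + y'' * z'' + z'' * x'')) * a2
        - 3 * (κ i + κ j + κ k) * e2
    linarith only [c2, hle, id1]

end Vale.Agent.P224
end
end

section

section

namespace Vale.Agent.P224

open MeasureTheory Metric Set

lemma integral_E2 (f : ℝ × ℝ → ℝ) :
    ∫ z : EuclideanSpace ℝ (Fin 2), f (z 0, z 1) = ∫ p, f p := by
  have h1 := (EuclideanSpace.volume_preserving_symm_measurableEquiv_toLp (Fin 2)).integral_comp'
    (fun g : Fin 2 → ℝ => f (g 0, g 1))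
  have h2 := (volume_preserving_finTwoArrow ℝ).integral_comp' f
  rw [← h2]
  exact h1

/-- polar coordinates for the functions we need -/
lemma polar_formula (k l : ℕ) (φ : ℝ → ℝ) :
    ∫ z : EuclideanSpace ℝ (Fin 2), φ (z 0 ^ 2 + z 1 ^ 2) * (max (z 0) 0 ^ k * max (z 1) 0 ^ l)
      = (∫ r in Ioi (0 : ℝ), r ^ (k + l + 1) * φ (r ^ 2)) *
        ∫ θ in Ioo (-Real.pi) Real.pi, max (Real.cos θ) 0 ^ k * max (Real.sin θ) 0 ^ l := by
  rw [integral_E2 (fun p => φ (p.1 ^ 2 + p.2 ^ 2) * (max p.1 0 ^ k * max p.2 0 ^ l)),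
    ← integral_comp_polarCoord_symm]
  rw [← setIntegral_prod_mul]
  apply setIntegral_congr_fun
  · exact polarCoord.open_target.measurableSet
  · intro p hp
    simp only [polarCoord_target, Set.mem_prod, mem_Ioi] at hp
    have hp1 : 0 < p.1 := hp.1
    simp only [polarCoord_symm_apply, smul_eq_mul]
    have e1 : (p.1 * Real.cos p.2) ^ 2 + (p.1 * Real.sin p.2) ^ 2 = p.1 ^ 2 := by
      have := Real.sin_sq_add_cos_sq p.2
      linear_combination p.1 ^ 2 * this
    have e2 : max (p.1 * Real.cos p.2) 0 = p.1 * max (Real.cos p.2) 0 := by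
      rw [mul_max_of_nonneg _ _ hp1.le, mul_zero]
    have e3 : max (p.1 * Real.sin p.2) 0 = p.1 * max (Real.sin p.2) 0 := by
      rw [mul_max_of_nonneg _ _ hp1.le, mul_zero]
    rw [e1, e2, e3]
    ring

lemma gauss_Ioi (k : ℕ) :
    ∫ r in Ioi (0 : ℝ), r ^ k * Real.exp (- r ^ 2) = Real.Gamma (((k : ℝ) + 1) / 2) / 2 := by
  have h := integral_rpow_mul_exp_neg_rpow (p := 2) (q := k) (by norm_num)
    (by have : (0 : ℝ) ≤ k := Nat.cast_nonneg k
        linarith)
  rw [show Real.Gamma (((k : ℝ) + 1) / 2) / 2 = 1 / 2 * Real.Gamma (((k : ℝ) + 1) / 2) by ring, ← h]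
  apply setIntegral_congr_fun measurableSet_Ioi
  intro x hx
  simp only [Real.rpow_natCast, Real.rpow_ofNat]

lemma gauss_max (k : ℕ) (hk : 1 ≤ k) :
    ∫ x : ℝ, Real.exp (- x ^ 2) * max x 0 ^ k = Real.Gamma (((k : ℝ) + 1) / 2) / 2 := by
  rw [← gauss_Ioi k, ← integral_indicator measurableSet_Ioi]
  congr 1
  funext x
  by_cases hx : 0 < x
  · rw [indicator_of_mem (by exact hx), max_eq_left hx.le]; ring
  · rw [indicator_of_notMem (by exact hx), max_eq_right (not_lt.mp hx), zero_pow (by omega),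
      mul_zero]

lemma theta_formula (k l : ℕ) (hk : 1 ≤ k) (hl : 1 ≤ l) :
    Real.Gamma (((k : ℝ) + 1) / 2) * Real.Gamma (((l : ℝ) + 1) / 2) / 4 =
      Real.Gamma (((k : ℝ) + l + 2) / 2) / 2 *
        ∫ θ in Ioo (-Real.pi) Real.pi, max (Real.cos θ) 0 ^ k * max (Real.sin θ) 0 ^ l := by
  have h := polar_formula k l (fun s => Real.exp (- s))
  have e : ∫ z : EuclideanSpace ℝ (Fin 2), Real.exp (- (z 0 ^ 2 + z 1 ^ 2)) *
      (max (z 0) 0 ^ k * max (z 1) 0 ^ l) =
      Real.Gamma (((k : ℝ) + 1) / 2) * Real.Gamma (((l : ℝ) + 1) / 2) / 4 := by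
    rw [integral_E2 (fun p => Real.exp (- (p.1 ^ 2 + p.2 ^ 2)) * (max p.1 0 ^ k * max p.2 0 ^ l))]
    have : ∀ p : ℝ × ℝ, Real.exp (- (p.1 ^ 2 + p.2 ^ 2)) * (max p.1 0 ^ k * max p.2 0 ^ l)
        = (Real.exp (- p.1 ^ 2) * max p.1 0 ^ k) * (Real.exp (- p.2 ^ 2) * max p.2 0 ^ l) := by
      intro p
      rw [neg_add, Real.exp_add]; ring
    simp_rw [this]
    rw [show (volume : Measure (ℝ × ℝ)) = (volume : Measure ℝ).prod volume from rfl,
      integral_prod_mul (fun x : ℝ => Real.exp (- x ^ 2) * max x 0 ^ k)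
      (fun y : ℝ => Real.exp (- y ^ 2) * max y 0 ^ l), gauss_max k hk, gauss_max l hl]
    ring
  rw [← e, h]
  have := gauss_Ioi (k + l + 1)
  rw [this]
  push_cast
  ring_nf

lemma disc_formula (k l : ℕ) (hk : 1 ≤ k) (hl : 1 ≤ l) :
    ∫ z in closedBall (0 : EuclideanSpace ℝ (Fin 2)) 1, max (z 0) 0 ^ k * max (z 1) 0 ^ l =
      Real.Gamma (((k : ℝ) + 1) / 2) * Real.Gamma (((l : ℝ) + 1) / 2) /
        (4 * Real.Gamma (((k : ℝ) + l) / 2 + 2)) := by
  have h := polar_formula k l (fun s => if s ≤ 1 then 1 else 0)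
  have e1 : ∫ z in closedBall (0 : EuclideanSpace ℝ (Fin 2)) 1, max (z 0) 0 ^ k * max (z 1) 0 ^ l
      = ∫ z : EuclideanSpace ℝ (Fin 2), (if z 0 ^ 2 + z 1 ^ 2 ≤ 1 then (1 : ℝ) else 0) *
        (max (z 0) 0 ^ k * max (z 1) 0 ^ l) := by
    rw [← integral_indicator measurableSet_closedBall]
    congr 1
    funext z
    have : z ∈ closedBall (0 : EuclideanSpace ℝ (Fin 2)) 1 ↔ z 0 ^ 2 + z 1 ^ 2 ≤ 1 := by
      rw [mem_closedBall_zero_iff, EuclideanSpace.norm_eq, Real.sqrt_le_one]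
      simp only [Real.norm_eq_abs, sq_abs, Fin.sum_univ_two, Fin.isValue]
    by_cases hz : z ∈ closedBall (0 : EuclideanSpace ℝ (Fin 2)) 1
    · rw [indicator_of_mem hz, if_pos (this.mp hz), one_mul]
    · rw [indicator_of_notMem hz, if_neg (fun h => hz (this.mpr h)), zero_mul]
  have e2 : ∫ r in Ioi (0 : ℝ), r ^ (k + l + 1) * (if r ^ 2 ≤ 1 then (1 : ℝ) else 0)
      = 1 / ((k : ℝ) + l + 2) := by
    have : ∫ r in Ioi (0 : ℝ), r ^ (k + l + 1) * (if r ^ 2 ≤ 1 then (1 : ℝ) else 0)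
        = ∫ r in (0 : ℝ)..1, r ^ (k + l + 1) := by
      rw [intervalIntegral.integral_of_le zero_le_one, ← integral_indicator measurableSet_Ioi,
        ← integral_indicator measurableSet_Ioc]
      congr 1
      funext r
      by_cases hr : 0 < r
      · rw [indicator_of_mem (by exact hr)]
        by_cases hr1 : r ≤ 1
        · rw [indicator_of_mem (by exact ⟨hr, hr1⟩), if_pos (by nlinarith only [hr1, hr]), mul_one]
        · rw [indicator_of_notMem (by intro h; exact hr1 h.2), if_neg (by push Not at *; nlinarith only [hr1]),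
            mul_zero]
      · rw [indicator_of_notMem (by exact hr), indicator_of_notMem (by intro h; exact hr h.1)]
    rw [this, integral_pow]
    push_cast
    norm_num
    ring_nf
  rw [e1, h, e2]
  have ht := theta_formula k l hk hl
  set Θ := ∫ θ in Ioo (-Real.pi) Real.pi, max (Real.cos θ) 0 ^ k * max (Real.sin θ) 0 ^ l
  have hG : Real.Gamma (((k : ℝ) + l) / 2 + 2)
      = (((k : ℝ) + l) / 2 + 1) * Real.Gamma (((k : ℝ) + l + 2) / 2) := by
    rw [show ((k : ℝ) + l) / 2 + 2 = (((k : ℝ) + l) / 2 + 1) + 1 by ring,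
      Real.Gamma_add_one (by (clear * - hk hl; positivity))]
    congr 2
    ring
  have hpos : 0 < Real.Gamma (((k : ℝ) + l + 2) / 2) := Real.Gamma_pos_of_pos (by positivity)
  rw [hG]
  have hk' : (0 : ℝ) < (k : ℝ) + l + 2 := by positivity
  field_simp
  field_simp at ht
  linarith only [ht]

/-- rotation of the plane -/
lemma exists_rot (c s : ℝ) (h : c ^ 2 + s ^ 2 = 1) :
    ∃ R : EuclideanSpace ℝ (Fin 2) ≃ₗᵢ[ℝ] EuclideanSpace ℝ (Fin 2),
      ∀ z, (R z) 0 = c * z 0 - s * z 1 ∧ (R z) 1 = s * z 0 + c * z 1 := by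
  let L : EuclideanSpace ℝ (Fin 2) →ₗ[ℝ] EuclideanSpace ℝ (Fin 2) :=
    { toFun := fun z => !₂[c * z 0 - s * z 1, s * z 0 + c * z 1]
      map_add' := by
        intro x y
        ext i
        fin_cases i <;> simp <;> ring
      map_smul' := by
        intro a x
        ext i
        fin_cases i <;> simp <;> ring }
  let Li : EuclideanSpace ℝ (Fin 2) →ₗᵢ[ℝ] EuclideanSpace ℝ (Fin 2) :=
    { L with
      norm_map' := by
        intro z
        rw [EuclideanSpace.norm_eq, EuclideanSpace.norm_eq]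
        congr 1
        simp only [Fin.sum_univ_two, Real.norm_eq_abs, sq_abs]
        simp only [L, LinearMap.coe_mk, AddHom.coe_mk]
        simp only [PiLp.toLp_apply, Matrix.cons_val_zero, Matrix.cons_val_one]
        linear_combination (z 0 ^ 2 + z 1 ^ 2) * h }
  refine ⟨Li.toLinearIsometryEquiv rfl, ?_⟩
  intro z
  constructor
  · simp only [Fin.isValue, LinearIsometry.toLinearIsometryEquiv_apply, LinearIsometry.coe_mk, LinearMap.coe_mk, AddHom.coe_mk, Matrix.cons_val_zero, Li, L]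
  · simp only [Fin.isValue, LinearIsometry.toLinearIsometryEquiv_apply, LinearIsometry.coe_mk, LinearMap.coe_mk, AddHom.coe_mk, Matrix.cons_val_one, Matrix.cons_val_fin_one, Li, L]

lemma rot_integral (c s : ℝ) (h : c ^ 2 + s ^ 2 = 1) (g : ℝ → ℝ → ℝ) :
    ∫ z in closedBall (0 : EuclideanSpace ℝ (Fin 2)) 1, g (c * z 0 - s * z 1) (s * z 0 + c * z 1)
      = ∫ z in closedBall (0 : EuclideanSpace ℝ (Fin 2)) 1, g (z 0) (z 1) := by
  obtain ⟨R, hR⟩ := exists_rot c s h
  have hpre : R ⁻¹' closedBall (0 : EuclideanSpace ℝ (Fin 2)) 1 = closedBall 0 1 := by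
    ext z
    simp only [LinearIsometryEquiv.preimage_closedBall, map_zero, mem_closedBall, dist_zero_right]
  have := R.measurePreserving.setIntegral_preimage_emb R.toHomeomorph.measurableEmbedding
    (fun z => g (z 0) (z 1)) (closedBall 0 1)
  rw [hpre] at this
  rw [← this]
  simp_rw [fun z => (hR z).1, fun z => (hR z).2]

end Vale.Agent.P224
end
end

section

section

namespace Vale.Agent.P224

open MeasureTheory Metric Set

/-- volume of the unit ball of dimension m + 2 -/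
noncomputable def ballVol (m : ℕ) : ℝ := Real.pi ^ (((m : ℝ) + 2) / 2) / Real.Gamma ((m : ℝ) / 2 + 2)

lemma sphereVol_pos (k : ℕ) : 0 < sphereVol k := by
  unfold sphereVol
  have := Real.Gamma_pos_of_pos (s := ((k : ℝ) + 1) / 2) (by (clear * -; positivity))
  have := Real.pi_pos
  (clear * -; (clear * -; positivity))

lemma cliffordVol_pos {m k : ℕ} (hk : 1 ≤ k) (hkm : k < m) : 0 < cliffordVol m k := by
  unfold cliffordVol
  have h1 := sphereVol_pos k
  have h2 := sphereVol_pos (m - k)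
  have h3 : (0 : ℝ) < k := by exact_mod_cast hk
  have h4 : (0 : ℝ) < ((m - k : ℕ) : ℝ) := by
    have : 0 < m - k := by omega
    exact_mod_cast this
  have h5 : (0 : ℝ) < m := by
    have : 0 < m := by omega
    exact_mod_cast this
  (clear * - hk h5 h4 h1 h2; positivity)

lemma two_valued_eval {m k : ℕ} (hk : 1 ≤ k) (hkm : k < m) (κ : Fin m → ℝ)
    (hP : ∀ z, P κ z = max (z 0 - z 1 * (Real.sqrt (((m - k : ℕ) : ℝ) / m) / Real.sqrt ((k : ℝ) / m))) 0 ^ k
      * max (z 0 + z 1 * (Real.sqrt ((k : ℝ) / m) / Real.sqrt (((m - k : ℕ) : ℝ) / m))) 0 ^ (m - k)) :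
    J κ * cliffordVol m k = ballVol m := by
  have h3 : (0 : ℝ) < k := by exact_mod_cast hk
  have h4 : (0 : ℝ) < ((m - k : ℕ) : ℝ) := by
    have : 0 < m - k := by omega
    exact_mod_cast this
  have h5 : (0 : ℝ) < m := by
    have : 0 < m := by omega
    exact_mod_cast this
  set c : ℝ := Real.sqrt ((k : ℝ) / m) with hc
  set s : ℝ := Real.sqrt (((m - k : ℕ) : ℝ) / m) with hs
  have hc0 : 0 < c := Real.sqrt_pos.mpr (by (clear * - hk h5; positivity))
  have hs0 : 0 < s := Real.sqrt_pos.mpr (by (clear * - h4 h5; positivity))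
  have hc2 : c ^ 2 = (k : ℝ) / m := Real.sq_sqrt (by positivity)
  have hs2 : s ^ 2 = ((m - k : ℕ) : ℝ) / m := Real.sq_sqrt (by (clear * - h4 h5; positivity))
  have hcast : ((m - k : ℕ) : ℝ) = (m : ℝ) - k := by
    rw [Nat.cast_sub hkm.le]
  have hcs : c ^ 2 + s ^ 2 = 1 := by
    rw [hc2, hs2, hcast]; field_simp; ring
  have e : ∀ z, P κ z = (c ^ k)⁻¹ * (s ^ (m - k))⁻¹ *
      (max (c * z 0 - s * z 1) 0 ^ k * max (s * z 0 + c * z 1) 0 ^ (m - k)) := by
    intro z
    rw [hP z]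
    have a1 : max (z 0 - z 1 * (s / c)) 0 = c⁻¹ * max (c * z 0 - s * z 1) 0 := by
      rw [mul_max_of_nonneg _ _ (by (clear * - hk h5; (clear * - hk h5; positivity))), mul_zero]
      congr 1
      (clear * - hc0; field_simp)
    have a2 : max (z 0 + z 1 * (c / s)) 0 = s⁻¹ * max (s * z 0 + c * z 1) 0 := by
      rw [mul_max_of_nonneg _ _ (by (clear * - h4 h5; positivity)), mul_zero]
      congr 1
      (clear * - hs0; field_simp)
    rw [a1, a2, mul_pow, mul_pow, inv_pow, inv_pow]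
    ring
  have hJ : J κ = (c ^ k)⁻¹ * (s ^ (m - k))⁻¹ *
      (Real.Gamma (((k : ℝ) + 1) / 2) * Real.Gamma ((((m - k : ℕ) : ℝ) + 1) / 2) /
        (4 * Real.Gamma (((k : ℝ) + (m - k : ℕ)) / 2 + 2))) := by
    unfold J
    simp_rw [e]
    rw [integral_const_mul, rot_integral c s hcs (fun a b => max a 0 ^ k * max b 0 ^ (m - k)),
      disc_formula k (m - k) hk (by omega)]
  have hcl : cliffordVol m k = c ^ k * s ^ (m - k) * sphereVol k * sphereVol (m - k) := by
    unfold cliffordVol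
    have b1 : ((k : ℝ) / m) ^ ((k : ℝ) / 2) = c ^ k := by
      rw [hc, Real.sqrt_eq_rpow, ← Real.rpow_natCast, ← Real.rpow_mul (by (clear * - hk h5; (clear * - hk h5; positivity)))]
      congr 1; ring
    have b2 : (((m - k : ℕ) : ℝ) / m) ^ (((m - k : ℕ) : ℝ) / 2) = s ^ (m - k) := by
      rw [hs, Real.sqrt_eq_rpow, ← Real.rpow_natCast, ← Real.rpow_mul (by (clear * - h4 h5; positivity))]
      congr 1; ring
    rw [b1, b2]
  have g1 : 0 < Real.Gamma (((k : ℝ) + 1) / 2) := Real.Gamma_pos_of_pos (by positivity)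
  have g2 : 0 < Real.Gamma ((((m - k : ℕ) : ℝ) + 1) / 2) := Real.Gamma_pos_of_pos (by (clear * - h4; positivity))
  have g3 : 0 < Real.Gamma ((m : ℝ) / 2 + 2) := Real.Gamma_pos_of_pos (by (clear * - h5; positivity))
  have hsum : ((k : ℝ) + (m - k : ℕ)) = m := by rw [hcast]; ring
  have hpi : Real.pi ^ (((m : ℝ) + 2) / 2)
      = Real.pi ^ (((k : ℝ) + 1) / 2) * Real.pi ^ ((((m - k : ℕ) : ℝ) + 1) / 2) := by
    rw [← Real.rpow_add Real.pi_pos]
    congr 1
    rw [hcast]; ring
  rw [hJ, hcl, hsum]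
  unfold sphereVol ballVol
  rw [hpi]
  field_simp
  ring

lemma aux_sqrt {m k l x : ℝ} (hk : 0 < k) (hl : 0 < l) (hm : 0 < m) (hx : 0 < x)
    (hx2 : x ^ 2 = l / k) : x = Real.sqrt (l / m) / Real.sqrt (k / m) := by
  rw [← Real.sqrt_div' _ (by positivity)]
  rw [eq_comm, Real.sqrt_eq_iff_mul_self_eq (by positivity) hx.le]
  rw [← pow_two, hx2]
  field_simp

lemma two_valued_struct {m : ℕ} (hm : 2 ≤ m) (κ : Fin m → ℝ) (hκ : κ ∈ K m)
    (h3 : ∀ i j k, κ i = κ j ∨ κ j = κ k ∨ κ i = κ k) :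
    ∃ k, 1 ≤ k ∧ k < m ∧ ∀ z, P κ z =
      max (z 0 - z 1 * (Real.sqrt (((m - k : ℕ) : ℝ) / m) / Real.sqrt ((k : ℝ) / m))) 0 ^ k
      * max (z 0 + z 1 * (Real.sqrt ((k : ℝ) / m) / Real.sqrt (((m - k : ℕ) : ℝ) / m))) 0
        ^ (m - k) := by
  obtain ⟨hsum, hsq⟩ := hκ
  have hm0 : (0 : ℝ) < m := by
    have : 0 < m := by omega
    exact_mod_cast this
  -- a positive value
  obtain ⟨i, -, hi⟩ : ∃ i ∈ Finset.univ, 0 < κ i := by
    by_contra hcon
    push Not at hcon
    have h0 : ∀ i ∈ Finset.univ, κ i = 0 := by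
      have := (Finset.sum_eq_zero_iff_of_nonpos (s := Finset.univ) (f := κ) hcon).mp hsum
      exact this
    have : ∑ i, κ i ^ 2 = 0 := Finset.sum_eq_zero fun i hi => by rw [h0 i hi]; ring
    rw [this] at hsq
    linarith only [hsq, hm0]
  obtain ⟨j, -, hj⟩ : ∃ j ∈ Finset.univ, κ j < 0 := by
    by_contra hcon
    push Not at hcon
    have h0 : ∀ i ∈ Finset.univ, κ i = 0 :=
      (Finset.sum_eq_zero_iff_of_nonneg (s := Finset.univ) (f := κ) hcon).mp hsum
    have := h0 i (Finset.mem_univ i)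
    linarith only [hi, this]
  have hval : ∀ l, κ l ≠ κ i → κ l = κ j := by
    intro l hl
    rcases h3 i j l with h | h | h
    · linarith only [hi, hj, h]
    · exact h.symm
    · exact absurd h.symm hl
  set S : Finset (Fin m) := Finset.univ.filter (fun l => κ l = κ i) with hS
  set x := κ i with hx
  set y := κ j with hy
  set k := S.card with hk
  have hSc : Sᶜ.card = m - k := by rw [Finset.card_compl, Fintype.card_fin]
  have hk1 : 1 ≤ k := by
    rw [hk, Nat.one_le_iff_ne_zero, Finset.card_ne_zero]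
    exact ⟨i, by simp only [hS, hx, Finset.mem_filter, Finset.mem_univ, and_self]⟩
  have hkm : k < m := by
    have : k ≤ m := by
      have := Finset.card_le_univ S
      rwa [Fintype.card_fin] at this
    rcases this.lt_or_eq with h | h
    · exact h
    · exfalso
      have hu : S = Finset.univ := by
        rw [← Finset.card_eq_iff_eq_univ, Fintype.card_fin]; exact h
      have : j ∈ S := by rw [hu]; exact Finset.mem_univ j
      simp only [hS, Finset.mem_filter, Finset.mem_univ, true_and] at this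
      linarith only [hi, hj, this]
  have sumf : ∀ f : ℝ → ℝ, ∑ l, f (κ l) = k * f x + ((m - k : ℕ) : ℝ) * f y := by
    intro f
    rw [← Finset.sum_add_sum_compl S]
    congr 1
    · rw [Finset.sum_congr rfl (g := fun _ => f x)]
      · rw [Finset.sum_const, nsmul_eq_mul]
      · intro l hl
        simp only [hS, Finset.mem_filter, Finset.mem_univ, true_and] at hl
        rw [hl]
    · rw [Finset.sum_congr rfl (g := fun _ => f y)]
      · rw [Finset.sum_const, nsmul_eq_mul, hSc]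
      · intro l hl
        simp only [hS, Finset.mem_compl, Finset.mem_filter, Finset.mem_univ, true_and] at hl
        rw [hval l hl]
  have prodf : ∀ f : ℝ → ℝ, ∏ l, f (κ l) = f x ^ k * f y ^ (m - k) := by
    intro f
    rw [← Finset.prod_mul_prod_compl S]
    congr 1
    · rw [Finset.prod_congr rfl (g := fun _ => f x)]
      · rw [Finset.prod_const]
      · intro l hl
        simp only [hS, Finset.mem_filter, Finset.mem_univ, true_and] at hl
        rw [hl]
    · rw [Finset.prod_congr rfl (g := fun _ => f y)]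
      · rw [Finset.prod_const, hSc]
      · intro l hl
        simp only [hS, Finset.mem_compl, Finset.mem_filter, Finset.mem_univ, true_and] at hl
        rw [hval l hl]
  have s1 := sumf (fun v => v)
  have s2 := sumf (fun v => v ^ 2)
  simp only [hsum] at s1
  simp only [hsq] at s2
  have hk0 : (0 : ℝ) < k := by exact_mod_cast hk1
  have hmk0 : (0 : ℝ) < ((m - k : ℕ) : ℝ) := by
    have : 0 < m - k := by omega
    exact_mod_cast this
  have hcast : ((m - k : ℕ) : ℝ) = (m : ℝ) - k := by rw [Nat.cast_sub hkm.le]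
  -- x ^ 2 = (m - k) / k
  have hyx : y = - (k * x) / ((m - k : ℕ) : ℝ) := by
    field_simp
    linarith only [s1]
  have hx2 : x ^ 2 = ((m - k : ℕ) : ℝ) / k := by
    rw [hyx] at s2
    rw [hcast] at s2 hmk0 ⊢
    have h1 : (m : ℝ) - k ≠ 0 := hmk0.ne'
    field_simp at s2 ⊢
    have h2 : (m : ℝ) ≠ 0 := hm0.ne'
    have : (m : ℝ) * (k * x ^ 2 - (m - k)) = 0 := by linarith only [s2]
    rcases mul_eq_zero.mp this with h | h
    · exact absurd h h2
    · linarith only [h]
  have hxe : x = Real.sqrt (((m - k : ℕ) : ℝ) / m) / Real.sqrt ((k : ℝ) / m) :=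
    aux_sqrt hk0 hmk0 hm0 hi hx2
  have hye : y = - (Real.sqrt ((k : ℝ) / m) / Real.sqrt (((m - k : ℕ) : ℝ) / m)) := by
    have hy2 : (- y) ^ 2 = (k : ℝ) / ((m - k : ℕ) : ℝ) := by
      rw [neg_sq, hyx, div_pow, neg_sq, mul_pow, hx2]
      (clear * - hmk0 hk1; field_simp)
    have := aux_sqrt hmk0 hk0 hm0 (neg_pos.mpr hj) hy2
    linarith only [this]
  refine ⟨k, hk1, hkm, ?_⟩
  intro z
  unfold P
  rw [prodf (fun v => max (z 0 - z 1 * v) 0), ← hxe]
  congr 2
  rw [hye]
  ring_nf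

/-- The extremal inequality on the constraint set. -/
theorem J_le_of_mem_K {m : ℕ} (hm : 2 ≤ m) (κ : Fin m → ℝ) (hκ : κ ∈ K m) :
    J κ * leastClifford m ≤ ballVol m := by
  obtain ⟨κ₀, hκ₀, hmax, h3⟩ := exists_max hm
  obtain ⟨k, hk1, hkm, hP⟩ := two_valued_struct hm κ₀ hκ₀ h3
  have hev := two_valued_eval hk1 hkm κ₀ hP
  have hle : leastClifford m ≤ cliffordVol m k := by
    unfold leastClifford
    have hb : BddBelow (Set.range fun k : Set.Ico 1 m => cliffordVol m k) := by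
      refine ⟨0, ?_⟩
      rintro _ ⟨l, rfl⟩
      exact (cliffordVol_pos l.2.1 l.2.2).le
    exact ciInf_le hb ⟨k, hk1, hkm⟩
  rw [← hev]
  have hJ := hmax κ hκ
  have h0 := J_nonneg κ
  have h1 := J_nonneg κ₀
  calc J κ * leastClifford m ≤ J κ * cliffordVol m k := mul_le_mul_of_nonneg_left hle h0
    _ ≤ J κ₀ * cliffordVol m k := mul_le_mul_of_nonneg_right hJ (cliffordVol_pos hk1 hkm).le

end Vale.Agent.P224
end
end

section

section

namespace Vale.Agent.P224

open MeasureTheory Metric Set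

lemma P_scale {m : ℕ} (hm : 0 < m) (κ : Fin m → ℝ) (hsum : ∑ i, κ i = 0) {τ : ℝ} (h0 : 0 ≤ τ)
    (h1 : τ ≤ 1) (z : EuclideanSpace ℝ (Fin 2)) : P κ z ≤ P (fun i => τ * κ i) z := by
  by_cases hpos : ∀ i, 0 < z 0 - z 1 * κ i
  swap
  · push Not at hpos
    obtain ⟨i, hi⟩ := hpos
    have : P κ z = 0 := by
      unfold P
      apply Finset.prod_eq_zero (Finset.mem_univ i)
      exact max_eq_right hi
    rw [this]
    exact P_nonneg _ _
  have hm' : (0 : ℝ) < m := by exact_mod_cast hm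
  have hz : 0 < z 0 := by
    have : 0 < ∑ i : Fin m, (z 0 - z 1 * κ i) := by
      apply Finset.sum_pos (fun i _ => hpos i)
      exact ⟨⟨0, hm⟩, Finset.mem_univ _⟩
    rw [Finset.sum_sub_distrib, ← Finset.mul_sum, hsum, Finset.sum_const, Finset.card_univ,
      Fintype.card_fin, nsmul_eq_mul, mul_zero, sub_zero] at this
    exact (pos_iff_pos_of_mul_pos this).mp hm'
  have hP : P κ z = ∏ i, (z 0 - z 1 * κ i) := by
    unfold P
    exact Finset.prod_congr rfl fun i _ => max_eq_left (hpos i).le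
  have hPpos : 0 < ∏ i, (z 0 - z 1 * κ i) := Finset.prod_pos fun i _ => hpos i
  have hAG : ∏ i, (z 0 - z 1 * κ i) ≤ z 0 ^ m := by
    have h : ∀ i, z 0 - z 1 * κ i ≤ z 0 * Real.exp (- z 1 * κ i / z 0) := by
      intro i
      have := Real.add_one_le_exp (- z 1 * κ i / z 0)
      have h2 := mul_le_mul_of_nonneg_left this hz.le
      have h3 : z 0 * (- z 1 * κ i / z 0 + 1) = z 0 - z 1 * κ i := by
        field_simp
        ring
      linarith only [h2, h3]
    calc ∏ i, (z 0 - z 1 * κ i) ≤ ∏ i, (z 0 * Real.exp (- z 1 * κ i / z 0)) :=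
          Finset.prod_le_prod (fun i _ => (hpos i).le) (fun i _ => h i)
      _ = z 0 ^ m := by
          rw [Finset.prod_mul_distrib, ← Real.exp_sum, Finset.prod_const, Finset.card_univ,
            Fintype.card_fin, ← Finset.sum_div, ← Finset.mul_sum, hsum]
          simp
  have hge : (z 0 ^ m) ^ (1 - τ) * (∏ i, (z 0 - z 1 * κ i)) ^ τ ≤ P (fun i => τ * κ i) z := by
    unfold P
    calc (z 0 ^ m) ^ (1 - τ) * (∏ i, (z 0 - z 1 * κ i)) ^ τ
        = ∏ i, (z 0 ^ (1 - τ) * (z 0 - z 1 * κ i) ^ τ) := by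
          rw [Finset.prod_mul_distrib, Real.finsetProd_rpow _ _ (fun i _ => (hpos i).le),
            Finset.prod_const, Finset.card_univ, Fintype.card_fin, ← Real.rpow_natCast,
            ← Real.rpow_natCast, ← Real.rpow_mul hz.le, ← Real.rpow_mul hz.le, mul_comm (m : ℝ)]
      _ ≤ ∏ i, max (z 0 - z 1 * (τ * κ i)) 0 := by
          apply Finset.prod_le_prod
          · intro i _
            exact mul_nonneg (Real.rpow_nonneg hz.le _) (Real.rpow_nonneg (hpos i).le _)
          · intro i _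
            have := Real.geom_mean_le_arith_mean2_weighted (w₁ := 1 - τ) (w₂ := τ)
              (p₁ := z 0) (p₂ := z 0 - z 1 * κ i) (by linarith only [h1]) h0 hz.le (hpos i).le (by ring)
            refine this.trans ((le_of_eq ?_).trans (le_max_left _ _))
            ring
  refine le_trans ?_ hge
  rw [hP]
  calc ∏ i, (z 0 - z 1 * κ i)
      = (∏ i, (z 0 - z 1 * κ i)) ^ (1 - τ) * (∏ i, (z 0 - z 1 * κ i)) ^ τ := by
        rw [← Real.rpow_add hPpos]; simp only [Fin.isValue, sub_add_cancel, Real.rpow_one]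
    _ ≤ (z 0 ^ m) ^ (1 - τ) * (∏ i, (z 0 - z 1 * κ i)) ^ τ :=
        mul_le_mul_of_nonneg_right (Real.rpow_le_rpow hPpos.le hAG (by linarith only [h1]))
          (Real.rpow_nonneg hPpos.le _)

lemma J_scale {m : ℕ} (hm : 0 < m) (κ : Fin m → ℝ) (hsum : ∑ i, κ i = 0) {τ : ℝ} (h0 : 0 ≤ τ)
    (h1 : τ ≤ 1) : J κ ≤ J (fun i => τ * κ i) := by
  unfold J
  exact integral_mono (P_integrableOn _) (P_integrableOn _) fun z => P_scale hm κ hsum h0 h1 z

lemma leastClifford_nonneg (m : ℕ) : 0 ≤ leastClifford m := by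
  unfold leastClifford
  apply Real.iInf_nonneg
  intro k
  exact (cliffordVol_pos k.2.1 k.2.2).le

/-- The extremal inequality. -/
theorem J_le {m : ℕ} (hm : 2 ≤ m) (κ : Fin m → ℝ) (hsum : ∑ i, κ i = 0)
    (hsq : (m : ℝ) ≤ ∑ i, κ i ^ 2) : J κ * leastClifford m ≤ ballVol m := by
  have hm' : (0 : ℝ) < m := by
    have : 0 < m := by omega
    exact_mod_cast this
  set Q := ∑ i, κ i ^ 2 with hQ
  have hQ0 : 0 < Q := lt_of_lt_of_le hm' hsq
  set τ : ℝ := Real.sqrt (m / Q) with hτ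
  have h0 : 0 ≤ τ := Real.sqrt_nonneg _
  have h1 : τ ≤ 1 := by
    rw [hτ, Real.sqrt_le_one]
    exact (div_le_one hQ0).mpr hsq
  have hmem : (fun i => τ * κ i) ∈ K m := by
    constructor
    · rw [← Finset.mul_sum, hsum, mul_zero]
    · simp_rw [mul_pow]
      rw [← Finset.mul_sum, ← hQ, hτ, Real.sq_sqrt (by (clear * - hm hQ0; (clear * - hm hQ0; positivity)))]
      field_simp
  exact (mul_le_mul_of_nonneg_right (J_scale (by omega) κ hsum h0 h1)
    (leastClifford_nonneg m)).trans (J_le_of_mem_K hm _ hmem)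

end Vale.Agent.P224
end
end

section

section

namespace Vale.Agent.P224.FV

open MeasureTheory Set Real
open scoped RealInnerProductSpace Topology ContDiff Manifold

set_option linter.unusedSectionVars false

/-- the kernels -/
noncomputable def DD (k : ℕ) (φ s : ℝ) : ℝ := ((1 - s * sin φ) ^ k)⁻¹

lemma DD_pos {k : ℕ} {φ s : ℝ} (hd : 0 < 1 - s * sin φ) : 0 < DD k φ s :=
  inv_pos.2 (pow_pos hd k)

lemma DD_succ {k : ℕ} {φ s : ℝ} (hd : 1 - s * sin φ ≠ 0) :
    DD k φ s = (1 - s * sin φ) * DD (k + 1) φ s := by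
  unfold DD
  rw [pow_succ]
  field_simp

lemma hasDerivAt_DD {k : ℕ} {φ s : ℝ} (hd : 1 - s * sin φ ≠ 0) :
    HasDerivAt (DD k φ) (k * sin φ * DD (k + 1) φ s) s := by
  have h1 : HasDerivAt (fun s => 1 - s * sin φ) (-(sin φ)) s := by
    simpa only [id_eq, one_mul] using ((hasDerivAt_id s).mul_const (sin φ)).const_sub 1
  have h2 := (h1.fun_pow k).fun_inv (pow_ne_zero k hd)
  refine h2.congr_deriv ?_
  unfold DD
  rcases k with _ | k
  · simp only [CharP.cast_eq_zero, zero_tsub, pow_zero, mul_one, mul_neg, zero_mul, neg_zero, one_pow, div_one, zero_add, pow_one]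
  · simp only [Nat.add_sub_cancel]
    field_simp
    ring

lemma contDiffAt_DD {k : ℕ} {φ s : ℝ} (hd : 1 - s * sin φ ≠ 0) :
    ContDiffAt ℝ ∞ (DD k φ) s := by
  have h1 : ContDiffAt ℝ ∞ (fun s : ℝ => (1 - s * sin φ) ^ k) s :=
    (contDiffAt_const.sub (contDiffAt_id.mul contDiffAt_const)).pow k
  exact h1.inv (pow_ne_zero k hd)

lemma hasDerivAt_DD_phi {k : ℕ} {φ s : ℝ} (hd : 1 - s * sin φ ≠ 0) :
    HasDerivAt (fun φ => DD k φ s) (k * (s * cos φ) * DD (k + 1) φ s) φ := by
  have h1 : HasDerivAt (fun φ => 1 - s * sin φ) (-(s * cos φ)) φ := by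
    simpa only using ((hasDerivAt_sin φ).const_mul s).const_sub 1
  have h2 := (h1.fun_pow k).fun_inv (pow_ne_zero k hd)
  refine h2.congr_deriv ?_
  unfold DD
  rcases k with _ | k
  · simp only [CharP.cast_eq_zero, zero_tsub, pow_zero, mul_one, mul_neg, zero_mul, neg_zero, one_pow, div_one, zero_add, pow_one]
  · simp only [Nat.add_sub_cancel]
    field_simp
    ring

end Vale.Agent.P224.FV
end
end

section

section

namespace Vale.Agent.P224.FV

open Real Set Filter
open scoped Topology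

/-- polynomial growth -/
def PG (b : ℕ → ℝ) : Prop := ∃ C : ℝ, ∃ K : ℕ, 0 ≤ C ∧ ∀ j, |b j| ≤ C * ((j : ℝ) + 1) ^ K

/-- power series -/
noncomputable def ps (b : ℕ → ℝ) (r : ℝ) : ℝ := ∑' j, b j * r ^ j

lemma summable_pow_geom (K : ℕ) {ρ : ℝ} (h0 : 0 ≤ ρ) (h1 : ρ < 1) :
    Summable (fun j : ℕ => ((j : ℝ) + 1) ^ K * ρ ^ j) := by
  rcases h0.eq_or_lt with h | h
  · subst h
    apply summable_of_ne_finset_zero (s := {0})
    intro j hj
    have : j ≠ 0 := by simpa using hj
    simp [this]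
  · have hn : ‖ρ‖ < 1 := by rwa [Real.norm_eq_abs, abs_of_pos h]
    have h2 := summable_pow_mul_geometric_of_norm_lt_one (R := ℝ) K hn
    have h3 := (summable_nat_add_iff 1).mpr h2
    have h4 : (fun j : ℕ => ((j : ℝ) + 1) ^ K * ρ ^ j)
        = fun j : ℕ => ρ⁻¹ * ((((j + 1 : ℕ) : ℝ)) ^ K * ρ ^ (j + 1)) := by
      funext j
      push_cast
      rw [pow_succ]
      (clear * - h; field_simp)
    rw [h4]
    exact h3.mul_left _

lemma PG.summable {b : ℕ → ℝ} (h : PG b) {r : ℝ} (hr : |r| < 1) :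
    Summable (fun j => b j * r ^ j) := by
  obtain ⟨C, K, hC, hb⟩ := h
  have h1 := (summable_pow_geom K (abs_nonneg r) hr).mul_left C
  refine Summable.of_norm_bounded h1 fun j => ?_
  rw [Real.norm_eq_abs, abs_mul, abs_pow, ← mul_assoc]
  exact mul_le_mul_of_nonneg_right (hb j) (by positivity)

lemma PG.mul_id {b : ℕ → ℝ} (h : PG b) : PG (fun j => (j : ℝ) * b j) := by
  obtain ⟨C, K, hC, hb⟩ := h
  refine ⟨C, K + 1, hC, fun j => ?_⟩
  rw [abs_mul, Nat.abs_cast, pow_succ]
  calc (j : ℝ) * |b j| ≤ ((j : ℝ) + 1) * (C * ((j : ℝ) + 1) ^ K) :=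
        mul_le_mul (by linarith) (hb j) (abs_nonneg _) (by (clear * -; positivity))
    _ = _ := by ring

lemma PG.mul {b d : ℕ → ℝ} (h : PG b) (h' : PG d) : PG (fun j => b j * d j) := by
  obtain ⟨C, K, hC, hb⟩ := h
  obtain ⟨C', K', hC', hb'⟩ := h'
  refine ⟨C * C', K + K', by positivity, fun j => ?_⟩
  rw [abs_mul]
  calc |b j| * |d j| ≤ (C * ((j : ℝ) + 1) ^ K) * (C' * ((j : ℝ) + 1) ^ K') :=
        mul_le_mul (hb j) (hb' j) (abs_nonneg _) (by (clear * - hC; positivity))
    _ = _ := by rw [pow_add]; ring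

/-- derivative of a power series, in Euler form -/
lemma PG.hasDerivAt {b : ℕ → ℝ} (h : PG b) {r : ℝ} (hr : |r| < 1) :
    HasDerivAt (ps b) (∑' j, b j * ((j : ℝ) * r ^ (j - 1))) r := by
  obtain ⟨ρ, hρ1, hρ2⟩ := exists_between hr
  have hρ0 : 0 < ρ := (abs_nonneg r).trans_lt hρ1
  obtain ⟨C, K, hC, hb⟩ := h
  set u : ℕ → ℝ := fun j => C * ρ⁻¹ * (((j : ℝ) + 1) ^ (K + 1) * ρ ^ j) with hu
  have hus : Summable u := (summable_pow_geom (K + 1) hρ0.le hρ2).mul_left _
  have hPG : PG b := ⟨C, K, hC, hb⟩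
  unfold ps
  apply hasDerivAt_tsum_of_isPreconnected (u := u) (t := Ioo (-ρ) ρ) hus isOpen_Ioo
    (isPreconnected_Ioo) (g := fun j z => b j * z ^ j)
    (g' := fun j z => b j * ((j : ℝ) * z ^ (j - 1))) (y₀ := 0)
  · intro j z hz
    exact (hasDerivAt_pow j z).const_mul (b j)
  · intro j z hz
    have hz' : |z| ≤ ρ := (abs_lt.mpr hz).le
    rw [Real.norm_eq_abs, abs_mul, abs_mul, abs_pow, Nat.abs_cast]
    rcases j with _ | j
    · simp only [Nat.cast_zero, zero_mul, mul_zero, hu]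
      (clear * - hC hρ0; (clear * - hC hρ0; positivity))
    · simp only [Nat.add_sub_cancel, hu]
      calc |b (j + 1)| * (((j + 1 : ℕ) : ℝ) * |z| ^ j)
          ≤ (C * (((j + 1 : ℕ) : ℝ) + 1) ^ K) * ((((j + 1 : ℕ) : ℝ) + 1) * ρ ^ j) := by
            refine mul_le_mul (hb _) ?_ (by (clear * -; (clear * -; positivity))) (by (clear * - hC; positivity))
            refine mul_le_mul (by linarith only []) (pow_le_pow_left₀ (abs_nonneg _) hz' j)
              (by (clear * -; (clear * -; positivity))) (by (clear * -; positivity))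
        _ = _ := by
            rw [pow_succ ρ]
            field_simp
            ring
  · exact ⟨by linarith only [hρ0], hρ0⟩
  · exact hPG.summable (by simp only [abs_zero, zero_lt_one])
  · exact abs_lt.mp hρ1

lemma PG.theta {b : ℕ → ℝ} (r : ℝ) :
    (∑' j, b j * ((j : ℝ) * r ^ (j - 1))) * r = ps (fun j => (j : ℝ) * b j) r := by
  unfold ps
  rw [← tsum_mul_right]
  apply tsum_congr
  intro j
  rcases j with _ | j
  · simp only [CharP.cast_eq_zero, zero_tsub, pow_zero, mul_one, mul_zero, zero_mul]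
  · simp only [Nat.add_sub_cancel]
    rw [pow_succ]; ring

/-- derivative along the angle -/
lemma PG.deriv_sin {b : ℕ → ℝ} (h : PG b) {φ : ℝ} (hφ : φ ∈ Ioo 0 (π / 2)) :
    HasDerivAt (fun φ => ps b (sin φ))
      (ps (fun j => (j : ℝ) * b j) (sin φ) * (cos φ / sin φ)) φ := by
  have hs0 : 0 < sin φ := sin_pos_of_pos_of_lt_pi hφ.1 (by linarith [hφ.2, pi_pos])
  have hc0 : 0 < cos φ := cos_pos_of_mem_Ioo ⟨by linarith only [hφ.1, pi_pos], hφ.2⟩
  have hs1 : |sin φ| < 1 := by
    have := sin_sq_add_cos_sq φ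
    rw [← sq_lt_one_iff_abs_lt_one]
    nlinarith only [this, hc0]
  have h1 := (h.hasDerivAt hs1).comp φ (Real.hasDerivAt_sin φ)
  refine h1.congr_deriv ?_
  rw [← PG.theta]
  (clear * - hs0 hc0; field_simp)

lemma PG.continuousOn_sin {b : ℕ → ℝ} (h : PG b) :
    ContinuousOn (fun φ => ps b (sin φ)) (Ico 0 (π / 2)) := by
  intro φ hφ
  have hc0 : 0 < cos φ := cos_pos_of_mem_Ioo ⟨by linarith [hφ.1, pi_pos], hφ.2⟩
  have hs1 : |sin φ| < 1 := by
    have := sin_sq_add_cos_sq φ
    rw [← sq_lt_one_iff_abs_lt_one]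
    nlinarith only [this, hc0]
  exact ((h.hasDerivAt hs1).comp φ (Real.hasDerivAt_sin φ)).continuousAt.continuousWithinAt

lemma ps_nonneg {b : ℕ → ℝ} (hb : ∀ j, 0 ≤ b j) {r : ℝ} (hr : 0 ≤ r) : 0 ≤ ps b r :=
  tsum_nonneg fun j => mul_nonneg (hb j) (pow_nonneg hr j)

end Vale.Agent.P224.FV
end
end

section

section

namespace Vale.Agent.P224.FV

open Real Set Filter MeasureTheory
open scoped Topology

/-- the algebraic identity behind the comparison argument -/
lemma wron_identity (S K M T0 T1 T2 f f1 f2 c : ℝ) (k : ℕ) (hS : S ≠ 0) (hK : K ≠ 0) (h : S ^ 2 + K ^ 2 = 1) :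
  ((M * S ^ k * K * K + S ^ (k + 1) * -S) *
            (T1 * f - T0 * (S / K * f1 + M * (S / K) ^ 2 * f)) +
          S ^ (k + 1) * K *
            (T2 * (K / S) * f + T1 * f1 -
              (T1 * (K / S) * (S / K * f1 + M * (S / K) ^ 2 * f) +
                T0 * ((1 / K ^ 2 * f1 + S / K * f2)
            + ((M * (2 * (S / K) * (1 / K ^ 2))) * f
              + M * (S / K) ^ 2 * f1)))))
          = S ^ k * f * (K ^ 2 * T2 + (M * K ^ 2
              - (M + 1) * S ^ 2) * T1
              - (c + M * (M + 1) * S ^ 2) * T0)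
            - S ^ k * T0 / K ^ 2 * (K ^ 2 * S ^ 2 * f2
              + K * S * (M + K ^ 2) * f1
              + (M * S ^ 2 - c * K ^ 2) * f) := by
  have hk1 : S ^ (k + 1) = S ^ k * S := pow_succ S k
  rw [hk1]
  generalize S ^ k = Z
  have e1 : Z * S * K *
            (T2 * (K / S) * f + T1 * f1 -
              (T1 * (K / S) * (S / K * f1 + M * (S / K) ^ 2 * f) +
                T0 * ((1 / K ^ 2 * f1 + S / K * f2)
            + ((M * (2 * (S / K) * (1 / K ^ 2))) * f
              + M * (S / K) ^ 2 * f1)))) = Z * K ^ 2 * T2 * f - M * Z * S ^ 2 * T1 * f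
              - Z * S * T0 * (f1 / K + S * f2 + 2 * M * S * f / K ^ 2 + M * S ^ 2 * f1 / K) := by
    field_simp
    ring
  rw [e1]
  have e2 : ∀ A B : ℝ, K ^ 2 * A = K ^ 2 * B → A = B := fun A B hAB =>
    mul_left_cancel₀ (pow_ne_zero 2 hK) hAB
  apply e2
  have q1 : K ^ 2 * (((M * Z * K * K + Z * S * -S) *
            (T1 * f - T0 * (S / K * f1 + M * (S / K) ^ 2 * f)) +
          (Z * K ^ 2 * T2 * f - M * Z * S ^ 2 * T1 * f
              - Z * S * T0 * (f1 / K + S * f2 + 2 * M * S * f / K ^ 2 + M * S ^ 2 * f1 / K))))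
     = (M * Z * K * K + Z * S * -S) *
            (K ^ 2 * T1 * f - T0 * (S * K * f1 + M * S ^ 2 * f)) +
          (Z * K ^ 4 * T2 * f - M * Z * S ^ 2 * K ^ 2 * T1 * f
              - Z * S * T0 * (K * f1 + K ^ 2 * S * f2 + 2 * M * S * f + K * M * S ^ 2 * f1)) := by
    (clear * - hK; field_simp)
  have q2 : K ^ 2 * (Z * f * (K ^ 2 * T2 + (M * K ^ 2
              - (M + 1) * S ^ 2) * T1
              - (c + M * (M + 1) * S ^ 2) * T0)
            - Z * T0 / K ^ 2 * (K ^ 2 * S ^ 2 * f2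
              + K * S * (M + K ^ 2) * f1
              + (M * S ^ 2 - c * K ^ 2) * f))
     = K ^ 2 * Z * f * (K ^ 2 * T2 + (M * K ^ 2
              - (M + 1) * S ^ 2) * T1
              - (c + M * (M + 1) * S ^ 2) * T0)
            - Z * T0 * (K ^ 2 * S ^ 2 * f2
              + K * S * (M + K ^ 2) * f1
              + (M * S ^ 2 - c * K ^ 2) * f) := by
    (clear * - hK; field_simp)
  rw [q1, q2]
  linear_combination (-T0 * f1 * Z * S * (M - 1) * K + T0 * f * M * Z * S ^ 2) * h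

/-- hypotheses of the comparison argument -/
structure Cmp (m : ℕ) (c φ₁ : ℝ) (T0 T1 T2 f f1 f2 : ℝ → ℝ) : Prop where
  hm : 1 ≤ m
  h1 : φ₁ ∈ Ioo 0 (π / 2)
  T0c : ContinuousOn T0 (Icc 0 φ₁)
  T1c : ContinuousOn T1 (Icc 0 φ₁)
  fc : ContinuousOn f (Icc 0 φ₁)
  f1c : ContinuousOn f1 (Icc 0 φ₁)
  T0d : ∀ φ ∈ Ioo 0 φ₁, HasDerivAt T0 (T1 φ * (cos φ / sin φ)) φ
  T1d : ∀ φ ∈ Ioo 0 φ₁, HasDerivAt T1 (T2 φ * (cos φ / sin φ)) φ
  fd : ∀ φ ∈ Ioo 0 φ₁, HasDerivAt f (f1 φ) φ
  f1d : ∀ φ ∈ Ioo 0 φ₁, HasDerivAt f1 (f2 φ) φ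
  T0n : ∀ φ ∈ Icc 0 φ₁, 0 ≤ T0 φ
  fpos : ∀ φ ∈ Ioc 0 φ₁, 0 < f φ
  ineqT : ∀ φ ∈ Ioo 0 φ₁, (c + m * (m + 1) * sin φ ^ 2) * T0 φ ≤
    cos φ ^ 2 * T2 φ + (m * cos φ ^ 2 - (m + 1) * sin φ ^ 2) * T1 φ
  ineqf : ∀ φ ∈ Ioo 0 φ₁, cos φ ^ 2 * sin φ ^ 2 * f2 φ + cos φ * sin φ * (m + cos φ ^ 2) * f1 φ
    + (m * sin φ ^ 2 - c * cos φ ^ 2) * f φ ≤ 0

variable {m : ℕ} {c φ₁ : ℝ} {T0 T1 T2 f f1 f2 : ℝ → ℝ}

theorem Cmp.wronskian (h : Cmp m c φ₁ T0 T1 T2 f f1 f2) :
    ∀ φ ∈ Icc 0 φ₁, 0 ≤ sin φ ^ m * cos φ *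
      (T1 φ * f φ - T0 φ * (sin φ / cos φ * f1 φ + m * (sin φ / cos φ) ^ 2 * f φ)) := by
  have hcos : ∀ φ ∈ Icc 0 φ₁, 0 < cos φ := fun φ hφ =>
    cos_pos_of_mem_Ioo ⟨by linarith only [hφ.1, pi_pos], by linarith only [hφ.2, h.h1.2]⟩
  have hsin : ∀ φ ∈ Ioo 0 φ₁, 0 < sin φ := fun φ hφ =>
    sin_pos_of_pos_of_lt_pi hφ.1 (by linarith [hφ.2, h.h1.2, pi_pos])
  set P : ℝ → ℝ := fun φ => sin φ ^ m * cos φ *
      (T1 φ * f φ - T0 φ * (sin φ / cos φ * f1 φ + m * (sin φ / cos φ) ^ 2 * f φ)) with hP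
  have hmono : MonotoneOn P (Icc 0 φ₁) := by
    have hder : ∀ φ ∈ Ioo 0 φ₁, ∃ D, HasDerivAt P D φ ∧ 0 ≤ D := by
      intro φ hφ
      have hc := hcos φ (Ioo_subset_Icc_self hφ)
      have hs := hsin φ hφ
      have hT := h.ineqT φ hφ
      have hf := h.ineqf φ hφ
      have hT0 := h.T0n φ (Ioo_subset_Icc_self hφ)
      have hfp := h.fpos φ ⟨hφ.1, hφ.2.le⟩
      have dsin := Real.hasDerivAt_sin φ
      have dcos := Real.hasDerivAt_cos φ
      have dtan : HasDerivAt (fun φ => sin φ / cos φ) (1 / cos φ ^ 2) φ := by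
        refine (dsin.fun_div dcos hc.ne').congr_deriv ?_
        have := sin_sq_add_cos_sq φ
        congr 1
        linarith only [this]
      have dT0 := h.T0d φ hφ
      have dT1 := h.T1d φ hφ
      have df := h.fd φ hφ
      have df1 := h.f1d φ hφ
      have dg : HasDerivAt (fun φ => sin φ / cos φ * f1 φ + m * (sin φ / cos φ) ^ 2 * f φ)
          ((1 / cos φ ^ 2 * f1 φ + sin φ / cos φ * f2 φ)
            + ((m * (2 * (sin φ / cos φ) * (1 / cos φ ^ 2))) * f φ
              + m * (sin φ / cos φ) ^ 2 * f1 φ)) φ := by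
        refine (dtan.fun_mul df1).fun_add (((dtan.fun_pow 2).const_mul (m : ℝ)).fun_mul df)
          |>.congr_deriv ?_
        simp only [Nat.add_one_sub_one, pow_one]
        push_cast
        ring
      have dP1 := ((dsin.fun_pow m).fun_mul dcos)
      have dP2 := (dT1.fun_mul df).fun_sub (dT0.fun_mul dg)
      refine ⟨_, dP1.fun_mul dP2, ?_⟩
      obtain ⟨k, rfl⟩ : ∃ k, m = k + 1 := ⟨m - 1, by have := h.hm; omega⟩
      simp only [Nat.add_sub_cancel]
      rw [wron_identity (sin φ) (cos φ) ((k + 1 : ℕ) : ℝ) (T0 φ) (T1 φ) (T2 φ) (f φ) (f1 φ) (f2 φ)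
        c k hs.ne' hc.ne' (sin_sq_add_cos_sq φ)]
      have n1 : 0 ≤ sin φ ^ k * f φ := by (clear * - hs hfp; positivity)
      have n2 : 0 ≤ sin φ ^ k * T0 φ / cos φ ^ 2 := by (clear * - hs hT0 hc; (clear * - hs hT0 hc; positivity))
      have n3 := mul_nonneg n1 (sub_nonneg.mpr hT)
      have n4 := mul_nonneg n2 (neg_nonneg.mpr hf)
      linarith only [n3, n4]
    apply monotoneOn_of_deriv_nonneg (convex_Icc 0 φ₁)
    · have ccos : ContinuousOn cos (Icc 0 φ₁) := continuous_cos.continuousOn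
      have csin : ContinuousOn sin (Icc 0 φ₁) := continuous_sin.continuousOn
      have ctan : ContinuousOn (fun φ => sin φ / cos φ) (Icc 0 φ₁) :=
        csin.div ccos fun φ hφ => (hcos φ hφ).ne'
      exact ((csin.pow m).mul ccos).mul ((h.T1c.mul h.fc).sub (h.T0c.mul ((ctan.mul h.f1c).add
        ((continuousOn_const.mul (ctan.pow 2)).mul h.fc))))
    · intro φ hφ
      rw [interior_Icc] at hφ
      obtain ⟨D, hD, -⟩ := hder φ hφ
      exact hD.differentiableAt.differentiableWithinAt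
    · intro φ hφ
      rw [interior_Icc] at hφ
      obtain ⟨D, hD, hD0⟩ := hder φ hφ
      rw [hD.deriv]; exact hD0
  intro φ hφ
  have h0 : P 0 = 0 := by
    simp only [hP, sin_zero]
    rw [zero_pow (by have := h.hm; omega)]
    ring
  have := hmono (left_mem_Icc.mpr h.h1.1.le) hφ hφ.1
  rw [h0] at this
  exact this

/-- the quotient is nondecreasing -/
theorem Cmp.ratio (h : Cmp m c φ₁ T0 T1 T2 f f1 f2) :
    MonotoneOn (fun φ => cos φ ^ m * T0 φ / f φ) (Ioc 0 φ₁) := by
  have hcos : ∀ φ ∈ Icc 0 φ₁, 0 < cos φ := fun φ hφ =>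
    cos_pos_of_mem_Ioo ⟨by linarith only [hφ.1, pi_pos], by linarith only [hφ.2, h.h1.2]⟩
  have hsin : ∀ φ ∈ Ioo 0 φ₁, 0 < sin φ := fun φ hφ =>
    sin_pos_of_pos_of_lt_pi hφ.1 (by linarith [hφ.2, h.h1.2, pi_pos])
  have hder : ∀ φ ∈ Ioo 0 φ₁, ∃ D, HasDerivAt (fun φ => cos φ ^ m * T0 φ / f φ) D φ ∧ 0 ≤ D := by
    intro φ hφ
    have hc := hcos φ (Ioo_subset_Icc_self hφ)
    have hs := hsin φ hφ
    have hfp := h.fpos φ ⟨hφ.1, hφ.2.le⟩
    have hw := h.wronskian φ (Ioo_subset_Icc_self hφ)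
    have hd := (((Real.hasDerivAt_cos φ).fun_pow m).fun_mul (h.T0d φ hφ)).fun_div
      (h.fd φ hφ) hfp.ne'
    refine ⟨_, hd, ?_⟩
    obtain ⟨k, rfl⟩ : ∃ k, m = k + 1 := ⟨m - 1, by have := h.hm; omega⟩
    simp only [Nat.add_sub_cancel]
    have hpos : 0 < sin φ ^ (k + 1) * cos φ := by positivity
    have hw2 := nonneg_of_mul_nonneg_right hw hpos
    have e : ((((k + 1 : ℕ) : ℝ) * cos φ ^ k * -sin φ * T0 φ
        + cos φ ^ (k + 1) * (T1 φ * (cos φ / sin φ))) * f φ - cos φ ^ (k + 1) * T0 φ * f1 φ)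
        = cos φ ^ (k + 2) / sin φ * (T1 φ * f φ - T0 φ * (sin φ / cos φ * f1 φ
          + ((k + 1 : ℕ) : ℝ) * (sin φ / cos φ) ^ 2 * f φ)) := by
      generalize ((k + 1 : ℕ) : ℝ) = M
      rw [pow_succ, pow_succ]
      field_simp
      ring
    rw [e]
    (clear * - hc hs hw2 hfp; (clear * - hc hs hw2 hfp; positivity))
  apply monotoneOn_of_deriv_nonneg (convex_Ioc 0 φ₁)
  · have c1 : ContinuousOn (fun φ => cos φ ^ m) (Ioc 0 φ₁) :=
      (continuous_cos.pow m).continuousOn
    exact (c1.mul (h.T0c.mono Ioc_subset_Icc_self)).div (h.fc.mono Ioc_subset_Icc_self)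
      fun φ hφ => (h.fpos φ hφ).ne'
  · intro φ hφ
    rw [interior_Ioc] at hφ
    obtain ⟨D, hD, -⟩ := hder φ hφ
    exact hD.differentiableAt.differentiableWithinAt
  · intro φ hφ
    rw [interior_Ioc] at hφ
    obtain ⟨D, hD, hD0⟩ := hder φ hφ
    rw [hD.deriv]; exact hD0

/-- the integral bound -/
theorem Cmp.integral_le (h : Cmp m c φ₁ T0 T1 T2 f f1 f2) :
    ∫ φ in (0 : ℝ)..φ₁, cos φ * (cos φ ^ m * T0 φ)
      ≤ ((∫ φ in (0 : ℝ)..φ₁, cos φ * f φ) / f φ₁) * (cos φ₁ ^ m * T0 φ₁) := by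
  have h0 := h.h1.1
  have hf1 : 0 < f φ₁ := h.fpos φ₁ (right_mem_Ioc.mpr h0)
  have hcos : ∀ φ ∈ Icc 0 φ₁, 0 < cos φ := fun φ hφ =>
    cos_pos_of_mem_Ioo ⟨by linarith only [hφ.1, pi_pos], by linarith only [hφ.2, h.h1.2]⟩
  have c0 : ContinuousOn (fun φ => cos φ * (cos φ ^ m * T0 φ)) (Icc 0 φ₁) :=
    continuous_cos.continuousOn.mul ((continuous_cos.pow m).continuousOn.mul h.T0c)
  have c1 : ContinuousOn (fun φ => cos φ * f φ * ((cos φ₁ ^ m * T0 φ₁) / f φ₁)) (Icc 0 φ₁) :=
    (continuous_cos.continuousOn.mul h.fc).mul continuousOn_const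
  have key : ∫ φ in (0 : ℝ)..φ₁, cos φ * (cos φ ^ m * T0 φ)
      ≤ ∫ φ in (0 : ℝ)..φ₁, cos φ * f φ * ((cos φ₁ ^ m * T0 φ₁) / f φ₁) := by
    apply intervalIntegral.integral_mono_on_of_le_Ioo h0.le
      (c0.intervalIntegrable_of_Icc h0.le) (c1.intervalIntegrable_of_Icc h0.le)
    intro φ hφ
    have hr := h.ratio ⟨hφ.1, hφ.2.le⟩ (right_mem_Ioc.mpr h0) hφ.2.le
    simp only at hr
    have hfp := h.fpos φ ⟨hφ.1, hφ.2.le⟩
    rw [div_le_iff₀ hfp] at hr
    have hc := hcos φ (Ioo_subset_Icc_self hφ)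
    calc cos φ * (cos φ ^ m * T0 φ)
        ≤ cos φ * (cos φ₁ ^ m * T0 φ₁ / f φ₁ * f φ) := mul_le_mul_of_nonneg_left hr hc.le
      _ = _ := by ring
  refine key.trans (le_of_eq ?_)
  rw [intervalIntegral.integral_mul_const]
  ring

end Vale.Agent.P224.FV
end
end

section

section

namespace Vale.Agent.P224.FV

open MvPolynomial Finset

section

variable {n : ℕ}

/-- the weight -/
noncomputable def fac (α : Fin n →₀ ℕ) : ℝ := ∏ i, (Nat.factorial (α i) : ℝ)

lemma fac_pos (α : Fin n →₀ ℕ) : 0 < fac α :=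
  Finset.prod_pos fun i _ => by exact_mod_cast Nat.factorial_pos _

/-- the Fischer form -/
noncomputable def fB (p q : MvPolynomial (Fin n) ℝ) : ℝ :=
  ∑ᶠ α : Fin n →₀ ℕ, fac α * (coeff α p * coeff α q)

lemma fB_supp (p q : MvPolynomial (Fin n) ℝ) :
    (Function.support fun α : Fin n →₀ ℕ => fac α * (coeff α p * coeff α q)).Finite := by
  apply (p.support.finite_toSet).subset
  intro α hα
  rw [Finset.mem_coe, MvPolynomial.mem_support_iff]
  intro h
  apply hα
  simp [h]

lemma fB_comm (p q : MvPolynomial (Fin n) ℝ) : fB p q = fB q p := by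
  unfold fB
  apply finsum_congr
  intro α; ring

lemma fB_add_left (p p' q : MvPolynomial (Fin n) ℝ) : fB (p + p') q = fB p q + fB p' q := by
  unfold fB
  rw [← finsum_add_distrib (fB_supp p q) (fB_supp p' q)]
  apply finsum_congr
  intro α
  rw [coeff_add]; ring

lemma fB_smul_left (c : ℝ) (p q : MvPolynomial (Fin n) ℝ) : fB (C c * p) q = c * fB p q := by
  unfold fB
  rw [mul_finsum]
  apply finsum_congr
  intro α
  rw [coeff_C_mul]; ring

lemma fB_zero_left (q : MvPolynomial (Fin n) ℝ) : fB 0 q = 0 := by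
  unfold fB; simp

lemma fB_add_right (p q q' : MvPolynomial (Fin n) ℝ) : fB p (q + q') = fB p q + fB p q' := by
  rw [fB_comm, fB_add_left, fB_comm q, fB_comm q']

lemma fB_smul_right (c : ℝ) (p q : MvPolynomial (Fin n) ℝ) : fB p (C c * q) = c * fB p q := by
  rw [fB_comm, fB_smul_left, fB_comm]

lemma fB_sum_left {ι : Type*} (s : Finset ι) (p : ι → MvPolynomial (Fin n) ℝ)
    (q : MvPolynomial (Fin n) ℝ) : fB (∑ i ∈ s, p i) q = ∑ i ∈ s, fB (p i) q := by
  classical
  induction s using Finset.induction_on with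
  | empty => simp [fB_zero_left]
  | insert a s ha ih => rw [sum_insert ha, fB_add_left, ih, sum_insert ha]

lemma fB_monomial (α : Fin n →₀ ℕ) (c : ℝ) (q : MvPolynomial (Fin n) ℝ) :
    fB (monomial α c) q = c * (fac α * coeff α q) := by
  classical
  unfold fB
  rw [finsum_eq_single _ α]
  · rw [coeff_monomial, if_pos rfl]; ring
  · intro β hβ
    rw [coeff_monomial, if_neg (fun h => hβ h.symm)]; ring

/-- multiplication by a variable is adjoint to differentiation -/
lemma fB_X_mul (i : Fin n) (p q : MvPolynomial (Fin n) ℝ) :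
    fB (X i * p) q = fB p (pderiv i q) := by
  induction p using MvPolynomial.induction_on' with
  | monomial α c =>
    have h1 : X i * monomial α c = monomial (α + Finsupp.single i 1) c := by
      rw [X, monomial_mul, one_mul, add_comm]
    rw [h1, fB_monomial, fB_monomial, coeff_pderiv]
    have h2 : fac (α + Finsupp.single i 1) = (α i + 1) * fac α := by
      unfold fac
      rw [← Finset.mul_prod_erase univ _ (mem_univ i),
        ← Finset.mul_prod_erase univ (fun j => (Nat.factorial (α j) : ℝ)) (mem_univ i)]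
      have h3 : ∏ j ∈ univ.erase i, (Nat.factorial ((α + Finsupp.single i 1 : Fin n →₀ ℕ) j) : ℝ)
          = ∏ j ∈ univ.erase i, (Nat.factorial (α j) : ℝ) := by
        apply Finset.prod_congr rfl
        intro j hj
        have hne : j ≠ i := Finset.ne_of_mem_erase hj
        rw [Finsupp.add_apply, Finsupp.single_eq_of_ne hne, add_zero]
      rw [h3, Finsupp.add_apply, Finsupp.single_eq_same, Nat.factorial_succ]
      push_cast
      ring
    rw [h2]
    ring
  | add p p' h1 h2 => rw [mul_add, fB_add_left, fB_add_left, h1, h2]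

/-- linear form -/
noncomputable def lin (x : Fin n → ℝ) : MvPolynomial (Fin n) ℝ := ∑ i, C (x i) * X i

/-- norm squared polynomial -/
noncomputable def nsq : MvPolynomial (Fin n) ℝ := ∑ i, X i * X i

/-- Laplacian -/
noncomputable def lap (q : MvPolynomial (Fin n) ℝ) : MvPolynomial (Fin n) ℝ :=
  ∑ i, pderiv i (pderiv i q)

lemma fB_lin_mul (x : Fin n → ℝ) (p q : MvPolynomial (Fin n) ℝ) :
    fB (lin x * p) q = ∑ i, x i * fB p (pderiv i q) := by
  unfold lin
  rw [Finset.sum_mul, fB_sum_left]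
  apply Finset.sum_congr rfl
  intro i _
  rw [mul_assoc, fB_smul_left, fB_X_mul]

lemma fB_nsq_mul (p q : MvPolynomial (Fin n) ℝ) : fB (nsq * p) q = fB p (lap q) := by
  unfold nsq lap
  rw [Finset.sum_mul, fB_sum_left, fB_comm p, fB_sum_left]
  apply Finset.sum_congr rfl
  intro i _
  rw [mul_assoc, fB_X_mul, fB_X_mul, fB_comm]

lemma pderiv_lin (x : Fin n → ℝ) (i : Fin n) : pderiv i (lin x) = C (x i) := by
  classical
  unfold lin
  rw [map_sum]
  simp only [pderiv_C_mul, pderiv_X]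
  rw [Finset.sum_eq_single i]
  · simp
  · intro j _ hj
    simp [hj]
  · simp only [mem_univ, not_true_eq_false, Pi.single_eq_same, mul_one, map_eq_zero, IsEmpty.forall_iff]

lemma pderiv_lin_pow (x : Fin n → ℝ) (i : Fin n) (k : ℕ) :
    pderiv i (lin x ^ (k + 1)) = C ((k + 1) * x i) * lin x ^ k := by
  rw [Derivation.leibniz_pow, pderiv_lin]
  simp only [Nat.add_sub_cancel, smul_eq_mul, nsmul_eq_mul, Nat.cast_add, Nat.cast_one, map_mul,
    map_add, map_natCast, map_one]
  ring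

/-- pairing of powers of linear forms -/
lemma fB_lin_pow (x y : Fin n → ℝ) (k : ℕ) :
    fB (lin x ^ k) (lin y ^ k) = k.factorial * (∑ i, x i * y i) ^ k := by
  induction k with
  | zero =>
    simp only [pow_zero, Nat.factorial_zero, Nat.cast_one, mul_one]
    have : (1 : MvPolynomial (Fin n) ℝ) = monomial 0 1 := rfl
    rw [this, fB_monomial]
    simp only [fac, Finsupp.coe_zero, Pi.zero_apply, Nat.factorial_zero, Nat.cast_one, prod_const_one, monomial_zero', C_1, coeff_zero_one, mul_one]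
  | succ k ih =>
    rw [pow_succ' (lin x), fB_lin_mul]
    simp only [pderiv_lin_pow, fB_smul_right, ih]
    rw [Nat.factorial_succ, pow_succ]
    push_cast
    rw [Finset.mul_sum]
    rw [Finset.mul_sum]
    apply Finset.sum_congr rfl
    intro i _
    ring

lemma lap_lin_pow (x : Fin n → ℝ) (hx : ∑ i, x i * x i = 1) (k : ℕ) :
    lap (lin x ^ (k + 2)) = C (((k : ℝ) + 2) * (k + 1)) * lin x ^ k := by
  unfold lap
  have h : ∀ i, pderiv i (pderiv i (lin x ^ (k + 2)))
      = C (((k : ℝ) + 2) * (k + 1) * (x i * x i)) * lin x ^ k := by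
    intro i
    rw [show k + 2 = (k + 1) + 1 from rfl, pderiv_lin_pow, pderiv_C_mul, pderiv_lin_pow,
      ← mul_assoc, ← C_mul]
    congr 2
    push_cast
    ring
  simp only [h]
  rw [← Finset.sum_mul, ← map_sum, ← Finset.mul_sum, hx, mul_one]

lemma lap_lin_pow_zero (x : Fin n → ℝ) : lap (lin x ^ 0) = 0 := by
  unfold lap; simp only [pow_zero, Derivation.map_one_eq_zero, map_zero, sum_const_zero]

lemma lap_lin_pow_one (x : Fin n → ℝ) : lap (lin x ^ 1) = 0 := by
  unfold lap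
  simp only [pow_one, pderiv_lin, derivation_C, sum_const_zero]

/-- the Euler operator on powers of linear forms -/
lemma euler_lin_pow (x : Fin n → ℝ) (k : ℕ) :
    ∑ i, X i * pderiv i (lin x ^ k) = C (k : ℝ) * lin x ^ k := by
  rcases k with _ | k
  · simp only [pow_zero, Derivation.map_one_eq_zero, mul_zero, sum_const_zero, CharP.cast_eq_zero, C_0, mul_one]
  · simp only [pderiv_lin_pow]
    have : ∀ i, X i * (C (((k : ℝ) + 1) * x i) * lin x ^ k)
        = C ((k : ℝ) + 1) * lin x ^ k * (C (x i) * X i) := by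
      intro i; rw [C_mul]; ring
    simp only [this]
    rw [← Finset.mul_sum]
    change C ((k : ℝ) + 1) * lin x ^ k * lin x = _
    push_cast
    ring

lemma pderiv_nsq (i : Fin n) : pderiv i (nsq : MvPolynomial (Fin n) ℝ) = C 2 * X i := by
  classical
  unfold nsq
  rw [map_sum]
  simp only [pderiv_mul, pderiv_X]
  rw [Finset.sum_eq_single i]
  · simp only [Pi.single_eq_same, one_mul, mul_one]
    rw [show (C 2 : MvPolynomial (Fin n) ℝ) = 2 from map_ofNat C 2]
    ring
  · intro j _ hj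
    simp [hj]
  · simp only [mem_univ, not_true_eq_false, Pi.single_eq_same, one_mul, mul_one, add_self_eq_zero, X_ne_zero, imp_self]

/-- the commutator of the Laplacian with multiplication by the squared norm -/
lemma lap_nsq_mul (q : MvPolynomial (Fin n) ℝ) :
    lap (nsq * q) = C (2 * (n : ℝ)) * q + C 4 * (∑ i, X i * pderiv i q) + nsq * lap q := by
  unfold lap
  have h : ∀ i, pderiv i (pderiv i (nsq * q))
      = C 2 * q + C 4 * (X i * pderiv i q) + nsq * pderiv i (pderiv i q) := by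
    intro i
    simp only [pderiv_mul, pderiv_nsq, map_add, pderiv_C, pderiv_X_self]
    rw [show (C 4 : MvPolynomial (Fin n) ℝ) = C 2 * C 2 by rw [← C_mul]; norm_num]
    rw [show (C 2 : MvPolynomial (Fin n) ℝ) = 2 from map_ofNat C 2]
    ring
  simp only [h]
  rw [Finset.sum_add_distrib, Finset.sum_add_distrib, Finset.sum_const, Finset.card_univ,
    Fintype.card_fin, ← Finset.mul_sum, ← Finset.mul_sum, nsmul_eq_mul, C_mul]
  rw [show (C (n : ℝ) : MvPolynomial (Fin n) ℝ) = n from map_natCast C n]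
  ring

/-- the three pairings -/
lemma fB_nsq_lin (x y : Fin n → ℝ) (hy : ∑ i, y i * y i = 1) (j : ℕ) :
    fB (nsq * lin x ^ j) (lin y ^ (j + 2))
      = (j + 2).factorial * (∑ i, x i * y i) ^ j := by
  rw [fB_nsq_mul, lap_lin_pow y hy, fB_smul_right, fB_lin_pow]
  rw [Nat.factorial_succ, Nat.factorial_succ]
  push_cast
  ring

lemma fB_nsq_nsq (x y : Fin n → ℝ) (hx : ∑ i, x i * x i = 1) (hy : ∑ i, y i * y i = 1) (j : ℕ) :
    fB (nsq * lin x ^ j) (nsq * lin y ^ j)
      = j.factorial * ((2 * n + 4 * j) * (∑ i, x i * y i) ^ j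
        + j * (j - 1) * (∑ i, x i * y i) ^ (j - 2)) := by
  rw [fB_nsq_mul, lap_nsq_mul, euler_lin_pow, fB_add_right, fB_add_right, fB_smul_right,
    fB_smul_right, fB_smul_right, fB_lin_pow]
  have h1 : fB (lin x ^ j) (nsq * lap (lin y ^ j))
      = j.factorial * (j * (j - 1) * (∑ i, x i * y i) ^ (j - 2)) := by
    rw [fB_comm, fB_nsq_mul]
    rcases j with _ | _ | j
    · rw [lap_lin_pow_zero, fB_zero_left]; simp only [Nat.factorial_zero, Nat.cast_one, CharP.cast_eq_zero, zero_sub, mul_neg, mul_one, neg_zero, zero_tsub, pow_zero, mul_zero]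
    · rw [lap_lin_pow_one, fB_zero_left]; simp only [zero_add, Nat.factorial_one, Nat.cast_one, sub_self, mul_zero, Nat.one_le_ofNat, Nat.sub_eq_zero_of_le, pow_zero, mul_one]
    · rw [lap_lin_pow x hx, lap_lin_pow y hy, fB_smul_left, fB_smul_right, fB_lin_pow]
      have e : j + 1 + 1 - 2 = j := by omega
      rw [e]
      have : ∑ i, y i * x i = ∑ i, x i * y i := Finset.sum_congr rfl fun i _ => mul_comm _ _
      rw [this, Nat.factorial_succ, Nat.factorial_succ]
      push_cast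
      ring
  rw [h1]
  ring

end

end Vale.Agent.P224.FV
end
end

section

section

namespace Vale.Agent.P224.FV

set_option linter.unusedSectionVars false

open MvPolynomial Finset MeasureTheory

section

variable {n l : ℕ} {X : Type*} [MeasurableSpace X]

/-- bounded measurable families of polynomials with uniformly finite support -/
structure Good (Φ : X → MvPolynomial (Fin n) ℝ) : Prop where
  meas : ∀ α, Measurable fun p => coeff α (Φ p)
  bdd : ∃ K : ℝ, 0 ≤ K ∧ ∀ α p, |coeff α (Φ p)| ≤ K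
  supp : ∃ S : Finset (Fin n →₀ ℕ), ∀ p, ∀ α, α ∉ S → coeff α (Φ p) = 0

lemma Good.const (q : MvPolynomial (Fin n) ℝ) : Good (fun _ : X => q) where
  meas := fun α => measurable_const
  bdd := by
    refine ⟨∑ α ∈ q.support, |coeff α q|, Finset.sum_nonneg fun _ _ => abs_nonneg _, ?_⟩
    intro α _
    by_cases h : α ∈ q.support
    · exact Finset.single_le_sum (f := fun α => |coeff α q|) (fun _ _ => abs_nonneg _) h
    · rw [MvPolynomial.notMem_support_iff.mp h, abs_zero]
      exact Finset.sum_nonneg fun _ _ => abs_nonneg _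
  supp := ⟨q.support, fun _ α h => MvPolynomial.notMem_support_iff.mp h⟩

lemma Good.add {Φ Ψ : X → MvPolynomial (Fin n) ℝ} (h1 : Good Φ) (h2 : Good Ψ) :
    Good (fun p => Φ p + Ψ p) where
  meas := fun α => by
    simp only [coeff_add]
    exact (h1.meas α).add (h2.meas α)
  bdd := by
    obtain ⟨K1, hK1, b1⟩ := h1.bdd
    obtain ⟨K2, hK2, b2⟩ := h2.bdd
    refine ⟨K1 + K2, add_nonneg hK1 hK2, fun α p => ?_⟩
    rw [coeff_add]
    exact (abs_add_le _ _).trans (add_le_add (b1 α p) (b2 α p))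
  supp := by
    classical
    obtain ⟨S1, s1⟩ := h1.supp
    obtain ⟨S2, s2⟩ := h2.supp
    refine ⟨S1 ∪ S2, fun p α hα => ?_⟩
    rw [Finset.mem_union, not_or] at hα
    rw [coeff_add, s1 p α hα.1, s2 p α hα.2, add_zero]

lemma Good.smul {Φ : X → MvPolynomial (Fin n) ℝ} (h : Good Φ) {f : X → ℝ} (hf : Measurable f)
    {K : ℝ} (hK0 : 0 ≤ K) (hK : ∀ p, |f p| ≤ K) : Good (fun p => C (f p) * Φ p) where
  meas := fun α => by
    simp only [coeff_C_mul]
    exact hf.mul (h.meas α)
  bdd := by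
    obtain ⟨K1, hK1, b1⟩ := h.bdd
    refine ⟨K * K1, mul_nonneg hK0 hK1, fun α p => ?_⟩
    rw [coeff_C_mul, abs_mul]
    exact mul_le_mul (hK p) (b1 α p) (abs_nonneg _) hK0
  supp := by
    obtain ⟨S1, s1⟩ := h.supp
    refine ⟨S1, fun p α hα => ?_⟩
    rw [coeff_C_mul, s1 p α hα, mul_zero]

lemma Good.X_mul {Φ : X → MvPolynomial (Fin n) ℝ} (h : Good Φ) (i : Fin n) :
    Good (fun p => MvPolynomial.X i * Φ p) where
  meas := fun α => by
    classical
    simp only [coeff_X_mul']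
    by_cases hi : i ∈ α.support
    · simp only [hi, if_true]; exact h.meas _
    · simp only [hi, if_false]; exact measurable_const
  bdd := by
    classical
    obtain ⟨K1, hK1, b1⟩ := h.bdd
    refine ⟨K1, hK1, fun α p => ?_⟩
    rw [coeff_X_mul']
    split_ifs
    · exact b1 _ _
    · simpa only [abs_zero] using hK1
  supp := by
    classical
    obtain ⟨S1, s1⟩ := h.supp
    refine ⟨S1.image (fun β => β + Finsupp.single i 1), fun p α hα => ?_⟩
    rw [coeff_X_mul']
    split_ifs with hi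
    · apply s1
      intro hmem
      apply hα
      rw [Finset.mem_image]
      refine ⟨_, hmem, ?_⟩
      apply tsub_add_cancel_of_le
      rw [Finsupp.single_le_iff]
      exact Nat.one_le_iff_ne_zero.mpr (Finsupp.mem_support_iff.mp hi)
    · rfl

lemma Good.sum {ι : Type*} (s : Finset ι) {Φ : ι → X → MvPolynomial (Fin n) ℝ}
    (h : ∀ i ∈ s, Good (Φ i)) : Good (fun p => ∑ i ∈ s, Φ i p) := by
  classical
  induction s using Finset.induction_on with
  | empty => simpa using Good.const (X := X) (0 : MvPolynomial (Fin n) ℝ)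
  | insert a s ha ih =>
    simp only [sum_insert ha]
    exact (h a (mem_insert_self a s)).add (ih fun i hi => h i (mem_insert_of_mem hi))

lemma Good.lin_mul {x : X → Fin n → ℝ} (hx : Measurable x) (hx1 : ∀ p i, |x p i| ≤ 1)
    {Φ : X → MvPolynomial (Fin n) ℝ} (h : Good Φ) : Good (fun p => lin (x p) * Φ p) := by
  have : (fun p => lin (x p) * Φ p) = fun p => ∑ i, C (x p i) * (MvPolynomial.X i * Φ p) := by
    funext p
    unfold lin
    rw [Finset.sum_mul]
    exact Finset.sum_congr rfl fun i _ => by ring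
  rw [this]
  exact Good.sum _ fun i _ => (h.X_mul i).smul ((measurable_pi_apply i).comp hx) zero_le_one
    (fun p => hx1 p i)

lemma Good.lin_pow {x : X → Fin n → ℝ} (hx : Measurable x) (hx1 : ∀ p i, |x p i| ≤ 1) (k : ℕ) :
    Good (fun p => lin (x p) ^ k) := by
  induction k with
  | zero => simpa using Good.const (X := X) (1 : MvPolynomial (Fin n) ℝ)
  | succ k ih =>
    simp only [pow_succ']
    exact ih.lin_mul hx hx1

lemma Good.nsq_mul {Φ : X → MvPolynomial (Fin n) ℝ} (h : Good Φ) : Good (fun p => nsq * Φ p) := by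
  have : (fun p => nsq * Φ p)
      = fun p => ∑ i, (MvPolynomial.X i * (MvPolynomial.X i * Φ p)) := by
    funext p
    unfold nsq
    rw [Finset.sum_mul]
    exact Finset.sum_congr rfl fun i _ => by ring
  rw [this]
  exact Good.sum _ fun i _ => (h.X_mul i).X_mul i

variable (μ : Measure X) [IsFiniteMeasure μ]

/-- positivity of the Fischer kernel -/
lemma Good.pos {Φ : X → MvPolynomial (Fin n) ℝ} (h : Good Φ) {ν : X → Fin l → ℝ}
    (hν : Measurable ν) (hν1 : ∀ p i, |ν p i| ≤ 1) :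
    0 ≤ ∫ q, fB (Φ q.1) (Φ q.2) * (∑ i, ν q.1 i * ν q.2 i) ∂(μ.prod μ) := by
  obtain ⟨S, hS⟩ := h.supp
  obtain ⟨K, hK0, hK⟩ := h.bdd
  have e1 : ∀ q : X × X, fB (Φ q.1) (Φ q.2) * (∑ i, ν q.1 i * ν q.2 i)
      = ∑ α ∈ S, ∑ i, fac α * ((coeff α (Φ q.1) * ν q.1 i) * (coeff α (Φ q.2) * ν q.2 i)) := by
    intro q
    have : fB (Φ q.1) (Φ q.2) = ∑ α ∈ S, fac α * (coeff α (Φ q.1) * coeff α (Φ q.2)) := by
      unfold fB
      apply finsum_eq_sum_of_support_subset
      intro α hα
      by_contra hc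
      apply hα
      have : α ∉ S := fun h => hc (Finset.mem_coe.mpr h)
      simp only
      rw [hS q.1 α this]
      ring
    rw [this, Finset.sum_mul]
    apply Finset.sum_congr rfl
    intro α _
    rw [Finset.mul_sum]
    apply Finset.sum_congr rfl
    intro i _
    ring
  have hint : ∀ α i, Integrable (fun p => coeff α (Φ p) * ν p i) μ := by
    intro α i
    refine Integrable.of_bound ((h.meas α).mul
      ((measurable_pi_apply i).comp hν)).aestronglyMeasurable (K * 1) ?_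
    filter_upwards with p
    rw [Real.norm_eq_abs, abs_mul]
    exact mul_le_mul (hK α p) (hν1 p i) (abs_nonneg _) hK0
  simp only [e1]
  rw [integral_finsetSum]
  · apply Finset.sum_nonneg
    intro α _
    rw [integral_finsetSum]
    · apply Finset.sum_nonneg
      intro i _
      rw [integral_const_mul, integral_prod_mul (f := fun p => coeff α (Φ p) * ν p i)
        (g := fun p => coeff α (Φ p) * ν p i)]
      exact mul_nonneg (fac_pos α).le (mul_self_nonneg _)
    · intro i _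
      exact ((hint α i).mul_prod (hint α i)).const_mul _
  · intro α _
    apply integrable_finsetSum
    intro i _
    exact ((hint α i).mul_prod (hint α i)).const_mul _

/-- the moments -/
noncomputable def mom (x : X → Fin n → ℝ) (ν : X → Fin l → ℝ) (j : ℕ) : ℝ :=
  ∫ q, (∑ i, x q.1 i * x q.2 i) ^ j * (∑ i, ν q.1 i * ν q.2 i) ∂(μ.prod μ)

variable {x : X → Fin n → ℝ} {ν : X → Fin l → ℝ}

lemma abs_coord_le (hx1 : ∀ p, ∑ i, x p i * x p i = 1) (p : X) (i : Fin n) : |x p i| ≤ 1 := by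
  have h1 : x p i * x p i ≤ 1 := by
    rw [← hx1 p]
    exact Finset.single_le_sum (f := fun i => x p i * x p i) (fun i _ => mul_self_nonneg _)
      (Finset.mem_univ i)
  rw [← sq_le_one_iff_abs_le_one]
  linarith

lemma abs_dot_le (hx1 : ∀ p, ∑ i, x p i * x p i = 1) (p q : X) :
    |∑ i, x p i * x q i| ≤ 1 := by
  have h := Finset.sum_mul_sq_le_sq_mul_sq Finset.univ (fun i => x p i) (fun i => x q i)
  have h1 := hx1 p
  have h2 := hx1 q
  simp only [← sq] at h1 h2
  rw [h1, h2] at h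
  rw [← sq_le_one_iff_abs_le_one]
  linarith only [h]

lemma integrable_mom (hx : Measurable x) (hν : Measurable ν)
    (hx1 : ∀ p, ∑ i, x p i * x p i = 1) (hν1 : ∀ p, ∑ i, ν p i * ν p i = 1) (j : ℕ) :
    Integrable (fun q : X × X => (∑ i, x q.1 i * x q.2 i) ^ j * (∑ i, ν q.1 i * ν q.2 i))
      (μ.prod μ) := by
  have m1 : ∀ i, Measurable fun q : X × X => x q.1 i := fun i =>
    (measurable_pi_apply i).comp (hx.comp measurable_fst)
  have m2 : ∀ i, Measurable fun q : X × X => x q.2 i := fun i =>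
    (measurable_pi_apply i).comp (hx.comp measurable_snd)
  have m3 : ∀ i, Measurable fun q : X × X => ν q.1 i := fun i =>
    (measurable_pi_apply i).comp (hν.comp measurable_fst)
  have m4 : ∀ i, Measurable fun q : X × X => ν q.2 i := fun i =>
    (measurable_pi_apply i).comp (hν.comp measurable_snd)
  refine Integrable.of_bound (Measurable.aestronglyMeasurable ?_) 1 ?_
  · exact ((Finset.measurable_sum _ fun i _ => (m1 i).mul (m2 i)).pow_const j).mul
      (Finset.measurable_sum _ fun i _ => (m3 i).mul (m4 i))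
  · filter_upwards with q
    rw [Real.norm_eq_abs, abs_mul, abs_pow]
    calc |∑ i, x q.1 i * x q.2 i| ^ j * |∑ i, ν q.1 i * ν q.2 i| ≤ 1 * 1 :=
          mul_le_mul (pow_le_one₀ (abs_nonneg _) (abs_dot_le hx1 _ _)) (abs_dot_le hν1 _ _)
            (abs_nonneg _) zero_le_one
      _ = 1 := by norm_num

lemma mom_nonneg (hx : Measurable x) (hν : Measurable ν)
    (hx1 : ∀ p, ∑ i, x p i * x p i = 1) (hν1 : ∀ p, ∑ i, ν p i * ν p i = 1) (j : ℕ) :
    0 ≤ mom μ x ν j := by
  have h := (Good.lin_pow hx (abs_coord_le hx1) j).pos μ hν (abs_coord_le hν1)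
  simp only [fB_lin_pow] at h
  unfold mom
  have e : ∀ q : X × X, (j.factorial : ℝ) * (∑ i, x q.1 i * x q.2 i) ^ j
      * (∑ i, ν q.1 i * ν q.2 i)
      = j.factorial * ((∑ i, x q.1 i * x q.2 i) ^ j * (∑ i, ν q.1 i * ν q.2 i)) := fun q => by ring
  simp only [e] at h
  rw [integral_const_mul] at h
  have hf : (0 : ℝ) < j.factorial := by exact_mod_cast Nat.factorial_pos j
  exact nonneg_of_mul_nonneg_right h hf

lemma integral_lin3 {Y : Type*} [MeasurableSpace Y] (τ : Measure Y) {f g h : Y → ℝ}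
    (hf : Integrable f τ) (hg : Integrable g τ) (hh : Integrable h τ) (a b c : ℝ) :
    ∫ y, (a * f y + b * g y + c * h y) ∂τ = a * ∫ y, f y ∂τ + b * ∫ y, g y ∂τ + c * ∫ y, h y ∂τ := by
  have h1 : ∫ y, (a * f y + b * g y + c * h y) ∂τ
      = ∫ y, (a * f y + b * g y) ∂τ + ∫ y, c * h y ∂τ :=
    integral_add ((hf.const_mul a).add (hg.const_mul b)) (hh.const_mul c)
  have h2 : ∫ y, (a * f y + b * g y) ∂τ = ∫ y, a * f y ∂τ + ∫ y, b * g y ∂τ :=
    integral_add (hf.const_mul a) (hg.const_mul b)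
  rw [h1, h2, integral_const_mul, integral_const_mul, integral_const_mul]

/-- the quadratic inequality -/
lemma mom_quad (hx : Measurable x) (hν : Measurable ν)
    (hx1 : ∀ p, ∑ i, x p i * x p i = 1) (hν1 : ∀ p, ∑ i, ν p i * ν p i = 1) (j : ℕ) (t : ℝ) :
    0 ≤ ((j : ℝ) + 2) * (j + 1) * (mom μ x ν (j + 2) - 2 * t * mom μ x ν j)
      + t ^ 2 * ((2 * n + 4 * j) * mom μ x ν j + j * (j - 1) * mom μ x ν (j - 2)) := by
  have g1 := Good.lin_pow hx (abs_coord_le hx1) (j + 2)
  have g2 := ((Good.lin_pow hx (abs_coord_le hx1) j).nsq_mul).smul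
    (f := fun _ => -t) measurable_const (abs_nonneg t) (fun _ => by rw [abs_neg])
  have h := (g1.add g2).pos μ hν (abs_coord_le hν1)
  have hf : (0 : ℝ) < j.factorial := by exact_mod_cast Nat.factorial_pos j
  have e : ∀ q : X × X, fB (lin (x q.1) ^ (j + 2) + C (-t) * (nsq * lin (x q.1) ^ j))
      (lin (x q.2) ^ (j + 2) + C (-t) * (nsq * lin (x q.2) ^ j)) * (∑ i, ν q.1 i * ν q.2 i)
      = j.factorial * (((j : ℝ) + 2) * (j + 1) * ((∑ i, x q.1 i * x q.2 i) ^ (j + 2)
        * (∑ i, ν q.1 i * ν q.2 i))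
        + (t ^ 2 * (2 * n + 4 * j) - 2 * t * ((j : ℝ) + 2) * (j + 1))
          * ((∑ i, x q.1 i * x q.2 i) ^ j * (∑ i, ν q.1 i * ν q.2 i))
        + t ^ 2 * (j * (j - 1)) * ((∑ i, x q.1 i * x q.2 i) ^ (j - 2)
          * (∑ i, ν q.1 i * ν q.2 i))) := by
    intro q
    rw [fB_add_left, fB_add_right, fB_add_right, fB_smul_left, fB_smul_left, fB_smul_right,
      fB_smul_right, fB_lin_pow, fB_comm (lin (x q.1) ^ (j + 2)),
      fB_nsq_lin _ _ (hx1 q.1), fB_nsq_lin _ _ (hx1 q.2), fB_nsq_nsq _ _ (hx1 q.1) (hx1 q.2)]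
    have : ∑ i, x q.2 i * x q.1 i = ∑ i, x q.1 i * x q.2 i :=
      Finset.sum_congr rfl fun i _ => mul_comm _ _
    rw [this, Nat.factorial_succ, Nat.factorial_succ]
    push_cast
    ring
  simp only [e] at h
  have i0 := integrable_mom μ hx hν hx1 hν1 j
  have i2 := integrable_mom μ hx hν hx1 hν1 (j + 2)
  have i3 := integrable_mom μ hx hν hx1 hν1 (j - 2)
  rw [integral_const_mul, integral_lin3 _ i2 i0 i3] at h
  have h2 := nonneg_of_mul_nonneg_right h hf
  unfold mom
  linarith only [h2]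

lemma mom_step {R0 R2 Q q t2 : ℝ} (_hR : 0 ≤ R0) (hq : 0 < q) (ht2 : 0 < t2)
    (h : ∀ t : ℝ, 0 ≤ t2 * (R2 - 2 * t * R0) + t ^ 2 * Q) (hQ : Q ≤ q * R0) :
    t2 * R0 ≤ q * R2 := by
  have h1 := h (t2 / q)
  have h2 : (t2 / q) ^ 2 * Q ≤ (t2 / q) ^ 2 * (q * R0) :=
    mul_le_mul_of_nonneg_left hQ (by positivity)
  have h3 : 0 ≤ t2 * (R2 - 2 * (t2 / q) * R0) + (t2 / q) ^ 2 * (q * R0) := by linarith
  have h4 : t2 * (R2 - 2 * (t2 / q) * R0) + (t2 / q) ^ 2 * (q * R0)
      = t2 / q * (q * R2 - t2 * R0) := by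
    field_simp
    ring
  rw [h4] at h3
  have h5 : 0 < t2 / q := by positivity
  have := nonneg_of_mul_nonneg_right h3 h5
  linarith only [this]

/-- moment recursion when the first two moments vanish -/
theorem mom_rec2 (hx : Measurable x) (hν : Measurable ν)
    (hx1 : ∀ p, ∑ i, x p i * x p i = 1) (hν1 : ∀ p, ∑ i, ν p i * ν p i = 1)
    (h0 : mom μ x ν 0 = 0) (h1 : mom μ x ν 1 = 0) (j : ℕ) :
    ((j : ℝ) + 2) * (j + 1) * mom μ x ν j ≤ j * (j + 2 + n) * mom μ x ν (j + 2) := by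
  induction j using Nat.strong_induction_on with
  | _ j ih =>
    rcases j with _ | _ | j
    · simp [h0]
    · have := mom_nonneg μ hx hν hx1 hν1 3
      simp only [zero_add, h1, mul_zero]
      (clear * - this; (clear * - this; positivity))
    · have ih' := ih j (by omega)
      have hR := mom_nonneg μ hx hν hx1 hν1 (j + 2)
      have hquad := mom_quad μ hx hν hx1 hν1 (j + 2)
      simp only [Nat.add_sub_cancel] at hquad
      push_cast at hquad ⊢
      have key2 := mom_step (q := ((j : ℝ) + 2) * ((j : ℝ) + 2 + 2 + n)) hR (by (clear * -; (clear * -; positivity)))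
        (by (clear * -; positivity)) hquad (by linarith)
      have e1 : (j : ℝ) + 1 + 1 = j + 2 := by ring
      rw [e1]
      exact key2

/-- moment recursion without vanishing moments -/
theorem mom_rec0 (hx : Measurable x) (hν : Measurable ν)
    (hx1 : ∀ p, ∑ i, x p i * x p i = 1) (hν1 : ∀ p, ∑ i, ν p i * ν p i = 1) (j : ℕ) :
    ((j : ℝ) + 1) * mom μ x ν j ≤ (j + n) * mom μ x ν (j + 2) := by
  rcases n.eq_zero_or_pos with hn | hn
  · have hz : ∀ j, mom μ x ν j = 0 := by
      intro j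
      unfold mom
      have : ∀ q : X × X, (∑ i, x q.1 i * x q.2 i) ^ j * (∑ i, ν q.1 i * ν q.2 i) = 0 := by
        intro q
        have h1 := hx1 q.1
        subst hn
        simp at h1
      simp only [this, integral_zero]
    rw [hz, hz]; simp
  have hn' : (1 : ℝ) ≤ n := by exact_mod_cast hn
  have key : ∀ j : ℕ, ((j : ℝ) + 2) * (j + 1) * mom μ x ν j
      ≤ ((j + 2) * (j + n)) * mom μ x ν (j + 2) := by
    intro j
    induction j using Nat.strong_induction_on with
    | _ j ih =>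
      rcases j with _ | _ | j
      · have hR := mom_nonneg μ hx hν hx1 hν1 0
        have hquad := mom_quad μ hx hν hx1 hν1 0
        simp only [zero_add]
        push_cast at hquad ⊢
        have := mom_step (q := (0 + 2) * (0 + (n : ℝ))) hR (by (clear * - hn; (clear * - hn; positivity))) (by norm_num) hquad
          (by linarith only [])
        linarith only [this]
      · have hR := mom_nonneg μ hx hν hx1 hν1 1
        have hquad := mom_quad μ hx hν hx1 hν1 1
        simp only [zero_add]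
        push_cast at hquad ⊢
        apply mom_step hR (by (clear * - hn; positivity)) (by positivity) hquad
        have : 0 ≤ ((n : ℝ) - 1) * mom μ x ν 1 := mul_nonneg (by linarith only [hn']) hR
        linarith only [this]
      · have ih' := ih j (by omega)
        have hR := mom_nonneg μ hx hν hx1 hν1 (j + 2)
        have hquad := mom_quad μ hx hν hx1 hν1 (j + 2)
        simp only [Nat.add_sub_cancel] at hquad
        push_cast at hquad ⊢
        have key2 := mom_step (q := ((j : ℝ) + 2 + 2) * ((j : ℝ) + 2 + n)) hR (by (clear * - hn; (clear * - hn; positivity)))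
          (by (clear * -; positivity)) hquad (by linarith only [ih'])
        have e1 : (j : ℝ) + 1 + 1 = j + 2 := by ring
        rw [e1]
        exact key2
  have h2 := key j
  have h3 : (0 : ℝ) < (j : ℝ) + 2 := by (clear * -; positivity)
  have h4 : ((j : ℝ) + 2) * (((j : ℝ) + 1) * mom μ x ν j)
      ≤ (j + 2) * ((j + n) * mom μ x ν (j + 2)) := by linarith only [h2]
  exact le_of_mul_le_mul_left h4 h3

end

end Vale.Agent.P224.FV
end
end

section

section

namespace Vale.Agent.P224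

open MeasureTheory Metric Set Matrix
open scoped RealInnerProductSpace ContDiff ENNReal

variable {m : ℕ} {f : EuclideanSpace ℝ (Fin m) → EuclideanSpace ℝ (Fin (m + 2))}
  {T S : Set (EuclideanSpace ℝ (Fin m))}

/-- principal curvatures of the pair of forms -/
def IsKappa (G H : Matrix (Fin m) (Fin m) ℝ) (κ : Fin m → ℝ) : Prop :=
  (G⁻¹ * H).trace = ∑ i, κ i ∧ ((G⁻¹ * H) * (G⁻¹ * H)).trace = ∑ i, κ i ^ 2 ∧
      (∀ a b : ℝ, (a • G - b • H).det = G.det * ∏ i, (a - b * κ i)) ∧
      (∀ a b : ℝ, (∀ v : Fin m → ℝ, 0 ≤ v ⬝ᵥ ((a • G - b • H) *ᵥ v)) → ∀ i, 0 ≤ a - b * κ i)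

/-- the pencil -/
noncomputable def Pen (f : EuclideanSpace ℝ (Fin m) → EuclideanSpace ℝ (Fin (m + 2)))
    (p : EuclideanSpace ℝ (Fin m) × EuclideanSpace ℝ (Fin 2)) : Matrix (Fin m) (Fin m) ℝ :=
  p.2 0 • G f p.1 - p.2 1 • H f p.1

/-- the domain of the normal map -/
def Dom (f : EuclideanSpace ℝ (Fin m) → EuclideanSpace ℝ (Fin (m + 2)))
    (S : Set (EuclideanSpace ℝ (Fin m))) :
    Set (EuclideanSpace ℝ (Fin m) × EuclideanSpace ℝ (Fin 2)) :=
  {p | p.1 ∈ S ∧ p.2 ∈ closedBall (0 : EuclideanSpace ℝ (Fin 2)) 1 ∧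
    ∀ v : Fin m → ℝ, 0 ≤ v ⬝ᵥ (Pen f p *ᵥ v)}

lemma continuousOn_matrix {X : Type*} [TopologicalSpace X] {A : X → Matrix (Fin m) (Fin m) ℝ}
    {s : Set X} (h : ∀ i j, ContinuousOn (fun x => A x i j) s) : ContinuousOn A s := by
  rw [continuousOn_iff_continuous_domRestrict]
  exact continuous_matrix fun i j => continuousOn_iff_continuous_domRestrict.mp (h i j)

lemma Imm.continuousOn_G (h : Imm f T) : ContinuousOn (G f) T := by
  apply continuousOn_matrix
  intro i j
  exact (h.contDiffOn_D1 i).continuousOn.inner (𝕜 := ℝ) (h.contDiffOn_D1 j).continuousOn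

lemma Imm.continuousOn_H (h : Imm f T) : ContinuousOn (H f) T := by
  apply continuousOn_matrix
  intro i j
  exact (h.contDiffOn_D2 i j).continuousOn.inner (𝕜 := ℝ) h.contDiffOn_nu.continuousOn

lemma Imm.continuousOn_Pen (h : Imm f T) : ContinuousOn (Pen f) (T ×ˢ univ) := by
  have hG : ContinuousOn (fun p : EuclideanSpace ℝ (Fin m) × EuclideanSpace ℝ (Fin 2) => G f p.1)
      (T ×ˢ univ) := h.continuousOn_G.comp continuousOn_fst (fun p hp => hp.1)
  have hH : ContinuousOn (fun p : EuclideanSpace ℝ (Fin m) × EuclideanSpace ℝ (Fin 2) => H f p.1)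
      (T ×ˢ univ) := h.continuousOn_H.comp continuousOn_fst (fun p hp => hp.1)
  have hc : ∀ i : Fin 2, ContinuousOn
      (fun p : EuclideanSpace ℝ (Fin m) × EuclideanSpace ℝ (Fin 2) => p.2 i) (T ×ˢ univ) := by
    intro i
    (clear * -; fun_prop)
  exact ((hc 0).smul hG).sub ((hc 1).smul hH)

lemma Imm.measurableSet_Dom (h : Imm f T) (hS : MeasurableSet S) (hST : S ⊆ T) :
    MeasurableSet (Dom f S) := by
  set Q : Set (Matrix (Fin m) (Fin m) ℝ) := {A | ∀ v : Fin m → ℝ, 0 ≤ v ⬝ᵥ (A *ᵥ v)} with hQ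
  have hQc : IsClosed Q := by
    have : Q = ⋂ v : Fin m → ℝ, {A | 0 ≤ v ⬝ᵥ (A *ᵥ v)} := by
      ext A; simp only [hQ, mem_ofPred_eq, mem_iInter]
    rw [this]
    apply isClosed_iInter
    intro v
    apply isClosed_le continuous_const
    fun_prop
  have hopen : IsOpen ((T ×ˢ univ : Set (EuclideanSpace ℝ (Fin m) × EuclideanSpace ℝ (Fin 2)))
      ∩ Pen f ⁻¹' Qᶜ) :=
    h.continuousOn_Pen.isOpen_inter_preimage (h.isOpen.prod isOpen_univ) hQc.isOpen_compl
  have heq : Dom f S = (S ×ˢ closedBall (0 : EuclideanSpace ℝ (Fin 2)) 1) \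
      ((T ×ˢ univ) ∩ Pen f ⁻¹' Qᶜ) := by
    ext p
    simp only [Dom, Set.mem_ofPred_eq, Set.mem_sdiff, Set.mem_prod, mem_inter_iff, mem_univ, and_true,
      mem_preimage, mem_compl_iff, hQ, not_and, not_not]
    constructor
    · rintro ⟨a, b, c⟩
      exact ⟨⟨a, b⟩, fun _ => c⟩
    · rintro ⟨⟨a, b⟩, c⟩
      exact ⟨a, b, c (hST a)⟩
  rw [heq]
  exact (hS.prod measurableSet_closedBall).diff hopen.measurableSet

lemma lintegral_P {κ : Fin m → ℝ} :
    ∫⁻ z in closedBall (0 : EuclideanSpace ℝ (Fin 2)) 1, ENNReal.ofReal (P κ z)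
      = ENNReal.ofReal (J κ) := by
  unfold J
  rw [ofReal_integral_eq_lintegral_ofReal (P_integrableOn κ)]
  exact Filter.Eventually.of_forall fun z => P_nonneg κ z

theorem Imm.local_bound (h : Imm f T) (hS : MeasurableSet S) (hST : S ⊆ T) (C : ℝ)
    (hC : ∀ u ∈ S, ∀ κ, IsKappa (G f u) (H f u) κ → J κ ≤ C) :
    volume (Phi f '' Dom f S) ≤
      ENNReal.ofReal C * ∫⁻ u in S, ENNReal.ofReal (Real.sqrt (G f u).det) := by
  have hDm := h.measurableSet_Dom hS hST
  have : (volume : Measure (EuclideanSpace ℝ (Fin m) ×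
      EuclideanSpace ℝ (Fin 2))).IsAddHaarMeasure := by
    rw [Measure.volume_eq_prod]
    infer_instance
  have step1 : volume (Phi f '' Dom f S) = volume ((fun p => Te m (Phi f p)) '' Dom f S) := by
    have h1 := (Te_measurePreserving m).measure_preimage_emb
      (Te m).toHomeomorph.measurableEmbedding ((fun p => Te m (Phi f p)) '' Dom f S)
    rw [← h1]
    congr 1
    have : (fun p => Te m (Phi f p)) '' Dom f S = Te m '' (Phi f '' Dom f S) := by
      rw [image_image]
    rw [this, preimage_image_eq _ (Te m).injective]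
  have step2 : volume ((fun p => Te m (Phi f p)) '' Dom f S) ≤
      ∫⁻ p in Dom f S, ENNReal.ofReal |((Te m : _ →L[ℝ] _).comp (dPhi f p)).det| := by
    apply addHaar_image_le_lintegral_abs_det_fderiv volume hDm
    intro p hp
    exact ((Te m).toContinuousLinearMap.hasFDerivAt.comp p
      (h.hasFDerivAt_Phi (hST hp.1))).hasFDerivWithinAt
  have step3 : ∫⁻ p in Dom f S, ENNReal.ofReal |((Te m : _ →L[ℝ] _).comp (dPhi f p)).det|
      = ∫⁻ p in Dom f S, ENNReal.ofReal (|(Pen f p).det| / Real.sqrt (G f p.1).det) := by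
    apply setLIntegral_congr_fun hDm
    intro p hp
    have hpT := hST hp.1
    have h1 := h.det_dPhi hpT
    have h2 : 0 < Real.sqrt (G f p.1).det := Real.sqrt_pos.mpr (h.G_posDef hpT).det_pos
    beta_reduce
    congr 1
    rw [eq_div_iff h2.ne', h1]
    rfl
  have hcont : ContinuousOn (fun p => ENNReal.ofReal (|(Pen f p).det| / Real.sqrt (G f p.1).det))
      (T ×ˢ univ) := by
    apply ENNReal.continuous_ofReal.comp_continuousOn
    apply ContinuousOn.div
    · exact (continuous_abs.comp (continuous_id.matrix_det)).comp_continuousOn h.continuousOn_Pen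
    · have h1 : ContinuousOn (fun u => Real.sqrt (G f u).det) T :=
        (Real.continuous_sqrt.comp (continuous_id.matrix_det)).comp_continuousOn h.continuousOn_G
      exact h1.comp continuousOn_fst (fun p hp => hp.1)
    · intro p hp
      exact (Real.sqrt_pos.mpr (h.G_posDef hp.1).det_pos).ne'
  have hDT : Dom f S ⊆ T ×ˢ univ := fun p hp => ⟨hST hp.1, mem_univ _⟩
  have hae : AEMeasurable ((Dom f S).indicator
      (fun p => ENNReal.ofReal (|(Pen f p).det| / Real.sqrt (G f p.1).det)))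
      ((volume : Measure (EuclideanSpace ℝ (Fin m))).prod
        (volume : Measure (EuclideanSpace ℝ (Fin 2)))) :=
    (aemeasurable_indicator_iff hDm).mpr ((hcont.mono hDT).aemeasurable hDm)
  have step4 : ∫⁻ p in Dom f S, ENNReal.ofReal (|(Pen f p).det| / Real.sqrt (G f p.1).det)
      ≤ ∫⁻ u in S, ENNReal.ofReal C * ENNReal.ofReal (Real.sqrt (G f u).det) := by
    rw [← lintegral_indicator hDm, Measure.volume_eq_prod, lintegral_prod _ hae,
      ← lintegral_indicator hS]
    apply lintegral_mono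
    intro u
    by_cases hu : u ∈ S
    · simp only [indicator_of_mem hu]
      have huT := hST hu
      obtain ⟨κ, hκ⟩ := exists_kappa (G f u) (H f u) (h.G_posDef huT) (h.H_symm huT)
      have hJ := hC u hu κ hκ
      have hg : 0 < (G f u).det := (h.G_posDef huT).det_pos
      have hgs : 0 < Real.sqrt (G f u).det := Real.sqrt_pos.mpr hg
      calc ∫⁻ z, (Dom f S).indicator
            (fun p => ENNReal.ofReal (|(Pen f p).det| / Real.sqrt (G f p.1).det)) (u, z)
          ≤ ∫⁻ z in closedBall (0 : EuclideanSpace ℝ (Fin 2)) 1,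
              ENNReal.ofReal (Real.sqrt (G f u).det) * ENNReal.ofReal (P κ z) := by
            rw [← lintegral_indicator measurableSet_closedBall]
            apply lintegral_mono
            intro z
            beta_reduce
            by_cases hz : (u, z) ∈ Dom f S
            · rw [indicator_of_mem hz, indicator_of_mem hz.2.1,
                ← ENNReal.ofReal_mul (Real.sqrt_nonneg _)]
              apply ENNReal.ofReal_le_ofReal
              have hnn := hκ.2.2.2 (z 0) (z 1) hz.2.2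
              have hdet := hκ.2.2.1 (z 0) (z 1)
              have hPen : Pen f (u, z) = z 0 • G f u - z 1 • H f u := rfl
              have hP : P κ z = ∏ i, (z 0 - z 1 * κ i) := by
                unfold P
                exact Finset.prod_congr rfl fun i _ => max_eq_left (hnn i)
              have hP0 : 0 ≤ ∏ i, (z 0 - z 1 * κ i) := Finset.prod_nonneg fun i _ => hnn i
              rw [hPen, hdet, hP, abs_of_nonneg (mul_nonneg hg.le hP0), div_le_iff₀ hgs]
              have := Real.mul_self_sqrt hg.le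
              apply le_of_eq
              calc (G f u).det * ∏ i, (z 0 - z 1 * κ i)
                  = (Real.sqrt (G f u).det * Real.sqrt (G f u).det) * ∏ i, (z 0 - z 1 * κ i) := by
                    rw [this]
                _ = _ := by ring
            · rw [indicator_of_notMem hz]
              exact zero_le
        _ = ENNReal.ofReal (Real.sqrt (G f u).det) * ENNReal.ofReal (J κ) := by
            rw [lintegral_const_mul' _ _ ENNReal.ofReal_ne_top, lintegral_P]
        _ ≤ ENNReal.ofReal C * ENNReal.ofReal (Real.sqrt (G f u).det) := by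
            rw [mul_comm]
            (clear * - hJ; gcongr)
    · have : ∀ z, (Dom f S).indicator
            (fun p => ENNReal.ofReal (|(Pen f p).det| / Real.sqrt (G f p.1).det)) (u, z) = 0 := by
        intro z
        apply indicator_of_notMem
        intro hz
        exact hu hz.1
      simp only [this, lintegral_const, measure_univ_of_isAddLeftInvariant, zero_mul, zero_le]
  calc volume (Phi f '' Dom f S) = volume ((fun p => Te m (Phi f p)) '' Dom f S) := step1
    _ ≤ ∫⁻ p in Dom f S, ENNReal.ofReal |((Te m : _ →L[ℝ] _).comp (dPhi f p)).det| := step2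
    _ = ∫⁻ p in Dom f S, ENNReal.ofReal (|(Pen f p).det| / Real.sqrt (G f p.1).det) := step3
    _ ≤ ∫⁻ u in S, ENNReal.ofReal C * ENNReal.ofReal (Real.sqrt (G f u).det) := step4
    _ = _ := lintegral_const_mul' _ _ ENNReal.ofReal_ne_top

end Vale.Agent.P224
end
end

section

section

namespace Vale.Agent.P224

open MeasureTheory Metric Set Matrix
open scoped RealInnerProductSpace ContDiff ENNReal

variable {m : ℕ} {f : EuclideanSpace ℝ (Fin m) → EuclideanSpace ℝ (Fin (m + 2))}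
  {T S : Set (EuclideanSpace ℝ (Fin m))}

lemma deriv_deriv_nonpos {ψ : ℝ → ℝ} {x : ℝ} (hmax : IsLocalMax ψ x) (hc : ContinuousAt ψ x) :
    deriv (deriv ψ) x ≤ 0 := by
  by_contra hpos
  push Not at hpos
  have hmin := isLocalMin_of_deriv_deriv_pos hpos hmax.deriv_eq_zero hc
  have hconst : ψ =ᶠ[nhds x] fun _ => ψ x := by
    filter_upwards [hmin, hmax] with y h1 h2
    exact le_antisymm h2 h1
  have h1 : deriv ψ =ᶠ[nhds x] deriv fun _ => ψ x := hconst.deriv
  have h2 := h1.deriv_eq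
  simp at h2
  linarith

lemma Imm.frame_det_ne_zero (h : Imm f T) {u : EuclideanSpace ℝ (Fin m)} (hu : u ∈ T) :
    (Mat (frame (fun i => D1 f i u) (f u) (nu f u))).det ≠ 0 := by
  have hsq := frame_det_sq (fun i => D1 f i u) (f u) (nu f u) (h.unit u hu) (h.norm_nu hu)
    (by rw [real_inner_comm]; exact inner_nu_f u)
    (fun i => h.inner_D1_f hu i) (fun i => by rw [real_inner_comm]; exact inner_nu_D1 u i)
  have hpos := (h.G_posDef hu).det_pos
  intro h0
  rw [h0] at hsq
  unfold G at hpos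
  rw [← hsq] at hpos
  norm_num at hpos

lemma Imm.eq_zero_of_orth (h : Imm f T) {u : EuclideanSpace ℝ (Fin m)} (hu : u ∈ T)
    (w : EuclideanSpace ℝ (Fin (m + 2))) (h1 : ∀ i, ⟪D1 f i u, w⟫ = 0) (h2 : ⟪f u, w⟫ = 0)
    (h3 : ⟪nu f u, w⟫ = 0) : w = 0 := by
  have hdet := h.frame_det_ne_zero hu
  have hmul : (Mat (frame (fun i => D1 f i u) (f u) (nu f u)))ᵀ *ᵥ
      (fun s => w (finSumFinEquiv s)) = 0 := by
    funext t
    have : ((Mat (frame (fun i => D1 f i u) (f u) (nu f u)))ᵀ *ᵥ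
      (fun s => w (finSumFinEquiv s))) t = ⟪frame (fun i => D1 f i u) (f u) (nu f u) t, w⟫ := by
      simp only [mulVec, dotProduct, transpose_apply, Mat, of_apply]
      rw [Equiv.sum_comp (finSumFinEquiv (m := m) (n := 2))
        (fun a => frame (fun i => D1 f i u) (f u) (nu f u) t a * w a)]
      simp only [mul_comm, PiLp.inner_apply, RCLike.inner_apply, Real.ringHom_apply]
    rw [this]
    rcases t with t | t
    · simpa [frame] using h1 t
    · fin_cases t
      · simpa [frame] using h2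
      · simpa [frame] using h3
  have hz := eq_zero_of_mulVec_eq_zero (by rw [det_transpose]; exact hdet) hmul
  ext a
  have := congrFun hz (finSumFinEquiv.symm a)
  simpa using this

lemma Imm.decomp (h : Imm f T) {u : EuclideanSpace ℝ (Fin m)} (hu : u ∈ T)
    (p : EuclideanSpace ℝ (Fin (m + 2))) (h1 : ∀ i, ⟪D1 f i u, p⟫ = 0) :
    p = ⟪f u, p⟫ • f u + ⟪nu f u, p⟫ • nu f u := by
  have hff : ⟪f u, f u⟫ = (1 : ℝ) := by rw [real_inner_self_eq_norm_sq, h.unit u hu]; norm_num
  have hnn : ⟪nu f u, nu f u⟫ = (1 : ℝ) := by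
    rw [real_inner_self_eq_norm_sq, h.norm_nu hu]; norm_num
  have hnf := inner_nu_f (f := f) u
  have hfn : ⟪f u, nu f u⟫ = 0 := by rw [real_inner_comm]; exact hnf
  have hw := h.eq_zero_of_orth hu (p - (⟪f u, p⟫ • f u + ⟪nu f u, p⟫ • nu f u)) ?_ ?_ ?_
  · exact sub_eq_zero.mp hw
  · intro i
    have a1 := h.inner_D1_f hu i
    have a2 : ⟪D1 f i u, nu f u⟫ = 0 := by rw [real_inner_comm]; exact inner_nu_D1 u i
    rw [inner_sub_right, inner_add_right, inner_smul_right, inner_smul_right, h1, a1, a2]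
    ring
  · rw [inner_sub_right, inner_add_right, inner_smul_right, inner_smul_right, hff, hfn]
    ring
  · rw [inner_sub_right, inner_add_right, inner_smul_right, inner_smul_right, hnf, hnn]
    ring

/-- A unit-ball point whose height function has a local maximum is in the image of the normal
domain. -/
lemma Imm.mem_image (h : Imm f T) {u : EuclideanSpace ℝ (Fin m)} (hu : u ∈ T) (huS : u ∈ S)
    (p : EuclideanSpace ℝ (Fin (m + 2))) (hp : ‖p‖ ≤ 1)
    (hmax : IsLocalMax (fun v => ⟪f v, p⟫) u) : p ∈ Phi f '' Dom f S := by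
  -- first order condition
  have hfirst : ∀ w, ⟪fderiv ℝ f u w, p⟫ = 0 := by
    intro w
    have h1 := hmax.fderiv_eq_zero
    have h2 := fderiv_inner_apply ℝ (h.diffAt hu) (differentiableAt_const p) w
    rw [h1] at h2
    simp only [_root_.zero_apply, fderiv_fun_const, Pi.zero_apply, inner_zero_right, zero_add] at h2
    exact h2.symm
  have hfirst' : ∀ i, ⟪D1 f i u, p⟫ = 0 := fun i => hfirst _
  have hdec := h.decomp hu p hfirst'
  set a := ⟪f u, p⟫ with ha
  set b := ⟪nu f u, p⟫ with hb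
  refine ⟨(u, !₂[a, b]), ⟨huS, ?_, ?_⟩, ?_⟩
  · rw [mem_closedBall_zero_iff, EuclideanSpace.norm_eq, Real.sqrt_le_one]
    simp only [Fin.sum_univ_two, Real.norm_eq_abs, sq_abs]
    have hnorm : ‖p‖ ^ 2 = a ^ 2 + b ^ 2 := by
      rw [← real_inner_self_eq_norm_sq]
      conv_lhs => rw [hdec]
      have hff : ⟪f u, f u⟫ = (1 : ℝ) := by
        rw [real_inner_self_eq_norm_sq, h.unit u hu]; norm_num
      have hnn : ⟪nu f u, nu f u⟫ = (1 : ℝ) := by
        rw [real_inner_self_eq_norm_sq, h.norm_nu hu]; norm_num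
      have hnf := inner_nu_f (f := f) u
      have hfn : ⟪f u, nu f u⟫ = 0 := by rw [real_inner_comm]; exact hnf
      simp only [inner_add_left, inner_add_right, inner_smul_left, inner_smul_right, hff, hnn,
        hnf, hfn, conj_trivial]
      ring
    have : ‖p‖ ^ 2 ≤ 1 := by
      have := norm_nonneg p
      nlinarith only [hp, this]
    simp only [Matrix.cons_val_zero, Matrix.cons_val_one]
    linarith
  · intro v
    -- second order condition
    set w : EuclideanSpace ℝ (Fin m) := WithLp.toLp 2 v with hw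
    have hwsum : w = ∑ i, v i • EuclideanSpace.single i (1 : ℝ) := by
      ext j
      simp only [hw, WithLp.ofLp_sum, WithLp.ofLp_smul, PiLp.ofLp_single, Finset.sum_apply, Pi.smul_apply, Pi.single_apply, smul_eq_mul, mul_ite, mul_one, mul_zero, Finset.sum_ite_eq, Finset.mem_univ, ↓reduceIte]
    have hline : ∀ t : ℝ, HasDerivAt (fun t : ℝ => u + t • w) w t := by
      intro t
      have := ((hasDerivAt_id t).smul_const w).const_add u
      simpa using this
    have hnear : ∀ᶠ t : ℝ in nhds 0, u + t • w ∈ T := by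
      have hc : ContinuousAt (fun t : ℝ => u + t • w) 0 := (hline 0).continuousAt
      apply hc.eventually_mem
      apply h.isOpen.mem_nhds
      simpa only [zero_smul, add_zero] using hu
    set ψ : ℝ → ℝ := fun t => ⟪f (u + t • w), p⟫ with hψ
    have hψ1 : ∀ t, u + t • w ∈ T → HasDerivAt ψ (∑ j, v j * ⟪D1 f j (u + t • w), p⟫) t := by
      intro t ht
      have h1 : HasDerivAt (fun t : ℝ => f (u + t • w)) (fderiv ℝ f (u + t • w) w) t :=
        (h.diffAt ht).hasFDerivAt.comp_hasDerivAt t (hline t)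
      have h2 := h1.inner ℝ (hasDerivAt_const t p)
      simp only [inner_zero_right, zero_add] at h2
      have h3 : ⟪fderiv ℝ f (u + t • w) w, p⟫ = ∑ j, v j * ⟪D1 f j (u + t • w), p⟫ := by
        rw [hwsum, map_sum, sum_inner]
        apply Finset.sum_congr rfl
        intro j _
        rw [map_smul, inner_smul_left, ← hwsum]
        rfl
      rw [← h3]
      exact h2
    have hψ' : deriv ψ =ᶠ[nhds 0] fun t => ∑ j, v j * ⟪D1 f j (u + t • w), p⟫ := by
      filter_upwards [hnear] with t ht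
      exact (hψ1 t ht).deriv
    have hψ2 : HasDerivAt (fun t : ℝ => ∑ j, v j * ⟪D1 f j (u + t • w), p⟫)
        (∑ j, v j * ∑ i, v i * ⟪D2 f i j u, p⟫) 0 := by
      apply HasDerivAt.fun_sum
      intro j _
      apply HasDerivAt.const_mul
      have hu0 : u + (0 : ℝ) • w = u := by simp
      have h1 : HasDerivAt (fun t : ℝ => D1 f j (u + t • w)) (fderiv ℝ (D1 f j) u w) 0 := by
        have hd : HasFDerivAt (D1 f j) (fderiv ℝ (D1 f j) u) (u + (0 : ℝ) • w) := by
          rw [hu0]; exact (h.diffAt_D1 hu j).hasFDerivAt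
        exact hd.comp_hasDerivAt 0 (hline 0)
      have h2 := h1.inner ℝ (hasDerivAt_const 0 p)
      simp only [inner_zero_right, zero_add] at h2
      have h3 : ⟪fderiv ℝ (D1 f j) u w, p⟫ = ∑ i, v i * ⟪D2 f i j u, p⟫ := by
        rw [hwsum, map_sum, sum_inner]
        apply Finset.sum_congr rfl
        intro i _
        rw [map_smul, inner_smul_left]
        rfl
      rw [← h3]
      exact h2
    have hlm : IsLocalMax ψ 0 := by
      have hc : ContinuousAt (fun t : ℝ => u + t • w) 0 := (hline 0).continuousAt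
      have hu0 : u + (0 : ℝ) • w = u := by simp
      have h1 : Filter.Tendsto (fun t : ℝ => u + t • w) (nhds 0) (nhds u) := by
        have := hc.tendsto
        rwa [hu0] at this
      have h2 := h1.eventually hmax
      filter_upwards [h2] with t ht
      simp only [hψ, hu0]
      exact ht
    have hle := deriv_deriv_nonpos hlm
      (hψ1 0 (by simpa using hu)).continuousAt
    rw [hψ'.deriv_eq, hψ2.deriv] at hle
    have hD2 : ∀ i j, ⟪D2 f i j u, p⟫ = - (a * G f u i j - b * H f u i j) := by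
      intro i j
      conv_lhs => rw [hdec]
      rw [inner_add_right, inner_smul_right, inner_smul_right, h.inner_D2_f hu]
      have : ⟪D2 f i j u, nu f u⟫ = H f u i j := rfl
      rw [this]
      ring
    have hfin : v ⬝ᵥ (Pen f (u, !₂[a, b]) *ᵥ v) = - ∑ j, v j * ∑ i, v i * ⟪D2 f i j u, p⟫ := by
      simp_rw [hD2]
      simp only [dotProduct, mulVec, Pen, Matrix.sub_apply, Matrix.smul_apply, smul_eq_mul]
      simp only [Matrix.cons_val_zero, Matrix.cons_val_one]
      rw [← Finset.sum_neg_distrib]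
      apply Finset.sum_congr rfl
      intro j _
      rw [← mul_neg, ← Finset.sum_neg_distrib]
      congr 1
      apply Finset.sum_congr rfl
      intro i _
      have e1 : G f u i j = G f u j i := by
        have := (h.G_posDef hu).1
        have h2 := congrFun (congrFun this j) i
        simpa [conjTranspose_apply] using h2
      have e2 : H f u i j = H f u j i := by
        have h2 := congrFun (congrFun (h.H_symm hu) j) i
        simpa [transpose_apply] using h2
      rw [e1, e2]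
      ring
    rw [hfin]
    linarith only [hle]
  · simp only [Phi, Matrix.cons_val_zero, Matrix.cons_val_one]
    exact hdec.symm

end Vale.Agent.P224
end
end

section

section

namespace Vale.Agent.P224

open scoped Manifold ContDiff RealInnerProductSpace
open MeasureTheory Metric Module Set

variable {V W M : Type*} [NormedAddCommGroup V] [InnerProductSpace ℝ V] [FiniteDimensional ℝ V]
  [NormedAddCommGroup W] [InnerProductSpace ℝ W] [FiniteDimensional ℝ W]
  [TopologicalSpace M] [ChartedSpace V M] {F : M → W}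

/-- F is a smooth immersion into the unit sphere -/
structure SphImm (V : Type*) {W M : Type*} [NormedAddCommGroup V] [InnerProductSpace ℝ V]
    [NormedAddCommGroup W] [InnerProductSpace ℝ W] [TopologicalSpace M] [ChartedSpace V M]
    (F : M → W) : Prop where
  smooth : ContMDiff 𝓘(ℝ, V) 𝓘(ℝ, W) ∞ F
  unit : ∀ x, ‖F x‖ = 1
  imm : ∀ x, Function.Injective (mfderiv 𝓘(ℝ, V) 𝓘(ℝ, W) F x)

lemma immV_rep [IsManifold 𝓘(ℝ, V) ∞ M] (hF : SphImm V F) (x : M) :
    ImmV (rep F x) (chartAt V x).target where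
  isOpen := (chartAt V x).open_target
  smooth := by
    rw [← contMDiffOn_iff_contDiffOn]
    exact hF.smooth.comp_contMDiffOn contMDiffOn_chart_symm
  unit := fun u _ => hF.unit _
  inj := by
    intro u hu
    set φ := chartAt V x with hφ
    have hmd : φ.MDifferentiable 𝓘(ℝ, V) 𝓘(ℝ, V) := mdifferentiable_chart (I := 𝓘(ℝ, V)) x
    have h1 : MDifferentiableAt 𝓘(ℝ, V) 𝓘(ℝ, V) φ.symm u := hmd.mdifferentiableAt_symm hu
    have h2 : Function.Injective (mfderiv 𝓘(ℝ, V) 𝓘(ℝ, V) φ.symm u) :=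
      hmd.symm.mfderiv_injective hu
    have h3 : MDifferentiableAt 𝓘(ℝ, V) 𝓘(ℝ, W) F (φ.symm u) :=
      (hF.smooth.mdifferentiable (by norm_num)) _
    have e : rep F x = F ∘ φ.symm := rfl
    rw [← mfderiv_eq_fderiv, e, mfderiv_comp u h3 h1]
    exact (hF.imm _).comp h2

lemma volume_closedBall_eq (m : ℕ) :
    volume (closedBall (0 : EuclideanSpace ℝ (Fin (m + 2))) 1) = ENNReal.ofReal (ballVol m) := by
  rw [EuclideanSpace.volume_closedBall]
  simp only [Fintype.card_fin, ENNReal.ofReal_one, one_pow, one_mul]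
  congr 1
  unfold ballVol
  rw [Real.sqrt_eq_rpow, ← Real.rpow_natCast, ← Real.rpow_mul Real.pi_pos.le]
  congr 1
  · congr 1
    push_cast
    ring
  · congr 1
    push_cast
    ring

variable [MeasurableSpace V] [BorelSpace V] [MeasurableSpace M] [BorelSpace M]

omit [InnerProductSpace ℝ V] [FiniteDimensional ℝ V] in
lemma measurable_chart_preimage (x : M) {E : Set M}
    (hE : MeasurableSet E) : MeasurableSet ((chartAt V x).target ∩ (chartAt V x).symm ⁻¹' E) := by
  set φ := chartAt V x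
  have h1 : Measurable (φ.target.domRestrict φ.symm) :=
    (continuousOn_iff_continuous_domRestrict.mp φ.continuousOn_symm).measurable
  have h2 := (MeasurableEmbedding.subtype_coe φ.open_target.measurableSet).measurableSet_image.mpr
    (h1 hE)
  convert h2 using 1
  ext u
  simp only [mem_inter_iff, mem_preimage, mem_image, domRestrict, and_comm, Subtype.exists, exists_and_left, exists_prop, exists_eq_left]

omit [FiniteDimensional ℝ W] in
lemma chartMeasure_le (x : M) {E : Set M} (hE : MeasurableSet E) :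
    ∫⁻ u in (chartAt V x).target ∩ (chartAt V x).symm ⁻¹' E,
      ENNReal.ofReal (Real.sqrt (metricMat (rep F x) u).det) ≤ volM V F E := by
  have hms := measurable_chart_preimage (V := V) x hE
  set φ := chartAt V x with hφ
  set μ : Measure M := ((volume.withDensity fun u : V =>
    ENNReal.ofReal (Real.sqrt (metricMat (rep F x) u).det)).restrict φ.target).map φ.symm with hμ
  have hle : μ ≤ volM V F := le_iSup (fun x : M => ((volume.withDensity fun u : V =>
    ENNReal.ofReal (Real.sqrt (metricMat (rep F x) u).det)).restrict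
    (chartAt V x).target).map (chartAt V x).symm) x
  have hae : AEMeasurable φ.symm ((volume.withDensity fun u : V =>
    ENNReal.ofReal (Real.sqrt (metricMat (rep F x) u).det)).restrict φ.target) :=
    φ.continuousOn_symm.aemeasurable φ.open_target.measurableSet
  have heq : μ E = ∫⁻ u in φ.target ∩ φ.symm ⁻¹' E,
      ENNReal.ofReal (Real.sqrt (metricMat (rep F x) u).det) := by
    rw [hμ, Measure.map_apply_of_aemeasurable hae hE,
      Measure.restrict_apply' φ.open_target.measurableSet, inter_comm, withDensity_apply _ hms]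
  calc _ = μ E := heq.symm
    _ ≤ volM V F E := hle E

theorem ImmV.local_bound (hW : finrank ℝ W = finrank ℝ V + 2) {f : V → W} {T S : Set V}
    (h : ImmV f T) (hS : MeasurableSet S) (hST : S ⊆ T) (C : ℝ)
    (hC : ∀ u ∈ S, ∀ κ, IsKappa (G (tr hW f) (iV V u)) (H (tr hW f) (iV V u)) κ → J κ ≤ C) :
    volume (Phi (tr hW f) '' Dom (tr hW f) ((iV V).symm ⁻¹' S)) ≤
      ENNReal.ofReal C * ∫⁻ u in S, ENNReal.ofReal (Real.sqrt (metricMat f u).det) := by
  have hmp : MeasurePreserving (iV V).symm := (iV V).symm.measurePreserving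
  have hemb : MeasurableEmbedding (iV V).symm := (iV V).symm.toHomeomorph.measurableEmbedding
  have h1 := h.imm hW |>.local_bound (S := (iV V).symm ⁻¹' S) (hmp.measurable hS)
    (preimage_mono hST) C (by
      intro u hu κ hκ
      have := hC ((iV V).symm u) hu κ
      rw [(iV V).apply_symm_apply] at this
      exact this hκ)
  refine h1.trans (le_of_eq ?_)
  congr 1
  have h2 := hmp.setLIntegral_comp_preimage_emb hemb
    (fun u => ENNReal.ofReal (Real.sqrt (metricMat f u).det)) S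
  rw [← h2]
  apply lintegral_congr
  intro u
  have := G_tr hW f ((iV V).symm u)
  rw [(iV V).apply_symm_apply] at this
  rw [this]

theorem ball_le [IsManifold 𝓘(ℝ, V) ∞ M] [CompactSpace M] [Nonempty M]
    (hW : finrank ℝ W = finrank ℝ V + 2) (hF : SphImm V F)
    (A : Set M) (hA : MeasurableSet A) (C₁ C₂ : ℝ)
    (hC₁ : ∀ x : M, ∀ u ∈ (chartAt V x).target, (chartAt V x).symm u ∈ A →
      ∀ κ, IsKappa (G (tr hW (rep F x)) (iV V u)) (H (tr hW (rep F x)) (iV V u)) κ → J κ ≤ C₁)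
    (hC₂ : ∀ x : M, ∀ u ∈ (chartAt V x).target, (chartAt V x).symm u ∉ A →
      ∀ κ, IsKappa (G (tr hW (rep F x)) (iV V u)) (H (tr hW (rep F x)) (iV V u)) κ → J κ ≤ C₂) :
    ENNReal.ofReal (ballVol (finrank ℝ V)) ≤
      ENNReal.ofReal C₁ * volM V F A + ENNReal.ofReal C₂ * volM V F Aᶜ := by
  -- a sequence of charts covering M
  obtain ⟨x, hx⟩ : ∃ x : ℕ → M, ⋃ n, (chartAt V (x n)).source = univ := by
    obtain ⟨t, ht⟩ := (isCompact_univ (X := M)).elim_nhds_subcover
      (fun x => (chartAt V x).source)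
      (fun x _ => (chartAt V x).open_source.mem_nhds (mem_chart_source _ x))
    have hne : (t : Set M).Nonempty := by
      obtain ⟨y⟩ := ‹Nonempty M›
      have := ht.2 (mem_univ y)
      simp only [mem_iUnion] at this
      obtain ⟨z, hz, -⟩ := this
      exact ⟨z, hz⟩
    obtain ⟨x, hx⟩ := (t.countable_toSet).exists_eq_range hne
    refine ⟨x, ?_⟩
    rw [eq_univ_iff_forall]
    intro y
    have := ht.2 (mem_univ y)
    simp only [mem_iUnion] at this
    obtain ⟨z, hz, hy⟩ := this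
    have hz' : z ∈ range x := by rw [← hx]; exact hz
    obtain ⟨n, rfl⟩ := hz'
    exact mem_iUnion.mpr ⟨n, hy⟩
  set φ := fun n => chartAt V (x n) with hφ
  set E : ℕ → Set M := disjointed (fun n => (φ n).source) with hE
  have hEm : ∀ n, MeasurableSet (E n) :=
    fun n => MeasurableSet.disjointed (fun n => (φ n).open_source.measurableSet) n
  have hEs : ∀ n, E n ⊆ (φ n).source := fun n => disjointed_subset _ n
  have hEu : ⋃ n, E n = univ := by rw [hE, iUnion_disjointed]; exact hx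
  have hEd : Pairwise (Function.onFun Disjoint E) := disjoint_disjointed _
  -- pieces
  set S : ℕ → Set M → Set V :=
    fun n B => (φ n).target ∩ (φ n).symm ⁻¹' (E n ∩ B) with hS
  have hSm : ∀ n B, MeasurableSet B → MeasurableSet (S n B) :=
    fun n B hB => measurable_chart_preimage (x n) ((hEm n).inter hB)
  have himmr : ∀ n, ImmV (rep F (x n)) (φ n).target := fun n => immV_rep hF (x n)
  have hcover : closedBall (0 : EuclideanSpace ℝ (Fin (finrank ℝ V + 2))) 1 ⊆
      ⋃ n, (Phi (tr hW (rep F (x n))) '' Dom (tr hW (rep F (x n))) ((iV V).symm ⁻¹' (S n A)) ∪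
        Phi (tr hW (rep F (x n))) '' Dom (tr hW (rep F (x n))) ((iV V).symm ⁻¹' (S n Aᶜ))) := by
    intro p hp
    have hp1 : ‖p‖ ≤ 1 := by simpa only [mem_closedBall, dist_zero_right] using hp
    have hcont : Continuous (fun y : M => ⟪iW hW (F y), p⟫) := by
      have := hF.smooth.continuous
      (clear A hA C₁ C₂ hC₁ hC₂ x hx φ hφ E hE hEm hEs hEu hEd S hS hSm himmr hp hp1; fun_prop)
    obtain ⟨y, -, hy⟩ := isCompact_univ.exists_isMaxOn (univ_nonempty (α := M)) hcont.continuousOn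
    have hyE : y ∈ ⋃ n, E n := by rw [hEu]; exact mem_univ y
    obtain ⟨n, hn⟩ := mem_iUnion.mp hyE
    have hys : y ∈ (φ n).source := hEs n hn
    have hut : φ n y ∈ (φ n).target := (φ n).map_source hys
    have hinv : (φ n).symm (φ n y) = y := (φ n).left_inv hys
    have hut' : iV V (φ n y) ∈ (iV V).symm ⁻¹' (φ n).target := by
      rw [mem_preimage, (iV V).symm_apply_apply]; exact hut
    have hmax : IsLocalMax (fun v => ⟪tr hW (rep F (x n)) v, p⟫) (iV V (φ n y)) := by
      filter_upwards with v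
      have := hy (mem_univ ((φ n).symm ((iV V).symm v)))
      simp only [Set.mem_ofPred_eq] at this
      unfold tr rep
      rw [(iV V).symm_apply_apply, hinv]
      exact this
    apply mem_iUnion.mpr
    refine ⟨n, ?_⟩
    by_cases hyA : y ∈ A
    · left
      have hmem : iV V (φ n y) ∈ (iV V).symm ⁻¹' (S n A) := by
        rw [mem_preimage, (iV V).symm_apply_apply]
        exact ⟨hut, by rw [mem_preimage, hinv]; exact ⟨hn, hyA⟩⟩
      exact ((himmr n).imm hW).mem_image hut' hmem p hp1 hmax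
    · right
      have hmem : iV V (φ n y) ∈ (iV V).symm ⁻¹' (S n Aᶜ) := by
        rw [mem_preimage, (iV V).symm_apply_apply]
        exact ⟨hut, by rw [mem_preimage, hinv]; exact ⟨hn, hyA⟩⟩
      exact ((himmr n).imm hW).mem_image hut' hmem p hp1 hmax
  have hb₁ : ∀ n, volume (Phi (tr hW (rep F (x n))) '' Dom (tr hW (rep F (x n)))
      ((iV V).symm ⁻¹' (S n A))) ≤ ENNReal.ofReal C₁ * volM V F (E n ∩ A) := by
    intro n
    refine ((himmr n).local_bound hW (hSm n A hA) inter_subset_left C₁ ?_).trans ?_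
    · intro u hu
      exact hC₁ (x n) u hu.1 hu.2.2
    · gcongr
      exact chartMeasure_le (x n) ((hEm n).inter hA)
  have hb₂ : ∀ n, volume (Phi (tr hW (rep F (x n))) '' Dom (tr hW (rep F (x n)))
      ((iV V).symm ⁻¹' (S n Aᶜ))) ≤ ENNReal.ofReal C₂ * volM V F (E n ∩ Aᶜ) := by
    intro n
    refine ((himmr n).local_bound hW (hSm n Aᶜ hA.compl) inter_subset_left C₂ ?_).trans ?_
    · intro u hu
      exact hC₂ (x n) u hu.1 hu.2.2
    · gcongr
      exact chartMeasure_le (x n) ((hEm n).inter hA.compl)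
  have hsum : ∀ B : Set M, MeasurableSet B → ∑' n, volM V F (E n ∩ B) = volM V F B := by
    intro B hB
    rw [← measure_iUnion]
    · rw [← iUnion_inter, hEu, univ_inter]
    · intro i j hij
      exact (hEd hij).mono inter_subset_left inter_subset_left
    · intro n
      exact (hEm n).inter hB
  calc ENNReal.ofReal (ballVol (finrank ℝ V))
      = volume (closedBall (0 : EuclideanSpace ℝ (Fin (finrank ℝ V + 2))) 1) :=
        (volume_closedBall_eq _).symm
    _ ≤ ∑' n, (volume (Phi (tr hW (rep F (x n))) '' Dom (tr hW (rep F (x n)))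
          ((iV V).symm ⁻¹' (S n A)) ∪
        Phi (tr hW (rep F (x n))) '' Dom (tr hW (rep F (x n))) ((iV V).symm ⁻¹' (S n Aᶜ)))) :=
        (measure_mono hcover).trans (measure_iUnion_le _)
    _ ≤ ∑' n, (ENNReal.ofReal C₁ * volM V F (E n ∩ A) +
          ENNReal.ofReal C₂ * volM V F (E n ∩ Aᶜ)) :=
        ENNReal.tsum_le_tsum fun n => (measure_union_le _ _).trans (add_le_add (hb₁ n) (hb₂ n))
    _ = _ := by
        rw [ENNReal.tsum_add, ENNReal.tsum_mul_left, ENNReal.tsum_mul_left, hsum A hA,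
          hsum Aᶜ hA.compl]

end Vale.Agent.P224
end
end

section

section

namespace Vale.Agent.P224.FV

open Matrix MeasureTheory Module
open scoped RealInnerProductSpace Topology

section Local

variable {V : Type*} [NormedAddCommGroup V] [InnerProductSpace ℝ V] [FiniteDimensional ℝ V]
  {E : Type*} [NormedAddCommGroup E] [InnerProductSpace ℝ E]

/-- the i-th partial derivative -/
noncomputable def lP (f : V → E) (i : Fin (finrank ℝ V))
    (u : V) : E :=
  fderiv ℝ f u (stdOrthonormalBasis ℝ V i)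

/-- the second partial derivative, first j then i -/
noncomputable def lQ (f : V → E) (i j : Fin (finrank ℝ V))
    (u : V) : E :=
  fderiv ℝ (lP f j) u (stdOrthonormalBasis ℝ V i)

/-- the Gram matrix -/
noncomputable def lG (f : V → E)
    (u : V) : Matrix (Fin (finrank ℝ V)) (Fin (finrank ℝ V)) ℝ :=
  Matrix.of fun i j => ⟪lP f i u, lP f j u⟫

/-- the coordinates of the tangential part of a -/
noncomputable def lW (f : V → E) (a : E) (i : Fin (finrank ℝ V))
    (u : V) : ℝ :=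
  ∑ j, (lG f u)⁻¹ i j * ⟪a, lP f j u⟫

variable {f : V → E} {u : V}

lemma hasFDerivAt_lP (hf : ContDiffAt ℝ 2 f u) (i : Fin (finrank ℝ V)) :
    HasFDerivAt (lP f i)
      ((ContinuousLinearMap.apply ℝ E (stdOrthonormalBasis ℝ V i)).comp
        (fderiv ℝ (fderiv ℝ f) u)) u := by
  have h1 : DifferentiableAt ℝ (fderiv ℝ f) u :=
    (hf.fderiv_right (m := 1) (by norm_num)).differentiableAt (by norm_num)
  exact (ContinuousLinearMap.apply ℝ E (stdOrthonormalBasis ℝ V i)).hasFDerivAt.comp u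
    h1.hasFDerivAt

lemma lQ_eq (hf : ContDiffAt ℝ 2 f u) (i j : Fin (finrank ℝ V)) :
    lQ f i j u = fderiv ℝ (fderiv ℝ f) u (stdOrthonormalBasis ℝ V i)
      (stdOrthonormalBasis ℝ V j) := by
  rw [lQ, (hasFDerivAt_lP hf j).fderiv]
  rfl

lemma lQ_symm (hf : ContDiffAt ℝ 2 f u) (i j : Fin (finrank ℝ V)) : lQ f i j u = lQ f j i u := by
  rw [lQ_eq hf, lQ_eq hf]
  exact (hf.isSymmSndFDerivAt (by simp)) _ _

lemma lG_symm (i j : Fin (finrank ℝ V)) : lG f u i j = lG f u j i := by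
  simp [lG, real_inner_comm]

lemma lG_transpose : (lG f u)ᵀ = lG f u := by
  ext i j; exact lG_symm j i

lemma lGinv_symm (i j : Fin (finrank ℝ V)) : (lG f u)⁻¹ i j = (lG f u)⁻¹ j i := by
  have : ((lG f u)⁻¹)ᵀ = (lG f u)⁻¹ := by
    rw [Matrix.transpose_nonsing_inv, lG_transpose]
  rw [← Matrix.transpose_apply (lG f u)⁻¹ j i, this]

/-- the derivative of the Gram matrix -/
lemma hasFDerivAt_lG (hf : ContDiffAt ℝ 2 f u) (i j : Fin (finrank ℝ V)) :
    HasFDerivAt (fun v => lG f v i j)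
      ((innerSL ℝ (lP f i u)).comp (fderiv ℝ (lP f j) u)
        + (innerSL ℝ (lP f j u)).comp (fderiv ℝ (lP f i) u)) u := by
  have h1 := (hasFDerivAt_lP hf i)
  have h2 := (hasFDerivAt_lP hf j)
  have := h1.inner ℝ h2
  rw [h1.fderiv, h2.fderiv]
  refine this.congr_fderiv ?_
  ext v
  simp [fderivInnerCLM_apply, real_inner_comm]

lemma lG_deriv (hf : ContDiffAt ℝ 2 f u) (i j k : Fin (finrank ℝ V)) :
    fderiv ℝ (fun v => lG f v j k) u (stdOrthonormalBasis ℝ V i)
      = ⟪lQ f i j u, lP f k u⟫ + ⟪lQ f i k u, lP f j u⟫ := by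
  rw [(hasFDerivAt_lG hf j k).fderiv]
  simp only [_root_.add_apply, ContinuousLinearMap.comp_apply, coe_innerSL_apply, lQ, real_inner_comm]
  ring

lemma contDiffAt_lP {n : WithTop ℕ∞} (hf : ContDiffAt ℝ (n + 1) f u) (i : Fin (finrank ℝ V)) :
    ContDiffAt ℝ n (lP f i) u :=
  (hf.fderiv_right (m := n) le_rfl).clm_apply contDiffAt_const

lemma contDiffAt_lG {n : WithTop ℕ∞} (hf : ContDiffAt ℝ (n + 1) f u) (i j : Fin (finrank ℝ V)) :
    ContDiffAt ℝ n (fun v => lG f v i j) u :=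
  (contDiffAt_lP hf i).inner ℝ (contDiffAt_lP hf j)

lemma contDiffAt_lGpi {n : WithTop ℕ∞} (hf : ContDiffAt ℝ (n + 1) f u) :
    ContDiffAt ℝ n (fun v => (fun i j => lG f v i j : Fin (finrank ℝ V) → Fin (finrank ℝ V) → ℝ)) u := by
  rw [contDiffAt_pi]
  intro i
  rw [contDiffAt_pi]
  intro j
  exact contDiffAt_lG hf i j

lemma contDiffAt_det {n : WithTop ℕ∞} (hf : ContDiffAt ℝ (n + 1) f u) :
    ContDiffAt ℝ n (fun v => (lG f v).det) u :=
  (contDiff_detPi (finrank ℝ V)).contDiffAt.comp u (contDiffAt_lGpi hf)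

lemma contDiffAt_inv {n : WithTop ℕ∞} (hf : ContDiffAt ℝ (n + 1) f u)
    (hG : (lG f u).det ≠ 0) (i j : Fin (finrank ℝ V)) :
    ContDiffAt ℝ n (fun v => (lG f v)⁻¹ i j) u := by
  have h1 : (fun v => (lG f v)⁻¹ i j) = fun v => ((lG f v).det)⁻¹ *
      (Matrix.of (Function.update (fun i j => lG f v i j : Fin (finrank ℝ V) → Fin (finrank ℝ V) → ℝ) j
        (Pi.single i 1))).det := by
    funext v
    rw [Matrix.inv_def, Matrix.smul_apply, Ring.inverse_eq_inv', Matrix.adjugate_apply,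
      smul_eq_mul]
    rfl
  rw [h1]
  refine ((contDiffAt_det hf).inv hG).mul ?_
  refine (contDiff_detPi (finrank ℝ V)).contDiffAt.comp u ?_
  rw [contDiffAt_pi]
  intro k
  by_cases hk : k = j
  · subst hk
    simpa using contDiffAt_const
  · simp only [Function.update_of_ne hk]
    rw [contDiffAt_pi]
    intro l
    exact contDiffAt_lG hf k l

lemma contDiffAt_lW {n : WithTop ℕ∞} (hf : ContDiffAt ℝ (n + 1) f u)
    (hG : (lG f u).det ≠ 0) (a : E) (i : Fin (finrank ℝ V)) :
    ContDiffAt ℝ n (lW f a i) u := by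
  unfold lW
  refine ContDiffAt.sum fun j _ => (contDiffAt_inv hf hG i j).mul ?_
  exact contDiffAt_const.inner ℝ (contDiffAt_lP hf j)

lemma contDiffAt_sqrt {n : WithTop ℕ∞} (hf : ContDiffAt ℝ (n + 1) f u)
    (hG : (lG f u).det ≠ 0) :
    ContDiffAt ℝ n (fun v => Real.sqrt (lG f v).det) u :=
  (contDiffAt_det hf).sqrt hG

lemma eventually_det (hf : ContDiffAt ℝ 1 f u) (hG : (lG f u).det ≠ 0) :
    ∀ᶠ v in 𝓝 u, (lG f v).det ≠ 0 := by
  have : ContinuousAt (fun v => (lG f v).det) u :=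
    (contDiffAt_det (n := 0) (by simpa using hf)).continuousAt
  exact this.eventually_ne hG

/-- the defining equation of the tangential part -/
lemma lG_lW (hG : (lG f u).det ≠ 0) (a : E) (j : Fin (finrank ℝ V)) :
    ∑ k, lG f u j k * lW f a k u = ⟪a, lP f j u⟫ := by
  have h : lG f u *ᵥ ((lG f u)⁻¹ *ᵥ fun j => ⟪a, lP f j u⟫) = fun j => ⟪a, lP f j u⟫ := by
    rw [Matrix.mulVec_mulVec, Matrix.mul_nonsing_inv _ (isUnit_iff_ne_zero.mpr hG),
      Matrix.one_mulVec]
  exact congrFun h j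

lemma lW_deriv (hf : ContDiffAt ℝ 2 f u) (hG : (lG f u).det ≠ 0) (a : E) (i l : Fin (finrank ℝ V)) :
    fderiv ℝ (lW f a l) u (stdOrthonormalBasis ℝ V i)
      = ∑ j, (lG f u)⁻¹ l j * (⟪a, lQ f i j u⟫
          - ∑ k, (⟪lQ f i j u, lP f k u⟫ + ⟪lQ f i k u, lP f j u⟫) * lW f a k u) := by
  have hW : ∀ k, DifferentiableAt ℝ (lW f a k) u := fun k =>
    (contDiffAt_lW (n := 1) hf hG a k).differentiableAt (by norm_num)
  have hGd : ∀ j k, DifferentiableAt ℝ (fun v => lG f v j k) u := fun j k =>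
    (hasFDerivAt_lG hf j k).differentiableAt
  -- differentiate the defining equation
  have key : ∀ j, ∑ k, lG f u j k * fderiv ℝ (lW f a k) u (stdOrthonormalBasis ℝ V i)
      = ⟪a, lQ f i j u⟫
        - ∑ k, (⟪lQ f i j u, lP f k u⟫ + ⟪lQ f i k u, lP f j u⟫) * lW f a k u := by
    intro j
    have e1 : fderiv ℝ (fun v => ∑ k, lG f v j k * lW f a k v) u (stdOrthonormalBasis ℝ V i)
        = fderiv ℝ (fun v => ⟪a, lP f j v⟫) u (stdOrthonormalBasis ℝ V i) := by
      congr 1
      apply Filter.EventuallyEq.fderiv_eq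
      filter_upwards [eventually_det (hf.of_le (by norm_num)) hG] with v hv
      exact lG_lW hv a j
    have e2 : fderiv ℝ (fun v => ⟪a, lP f j v⟫) u (stdOrthonormalBasis ℝ V i)
        = ⟪a, lQ f i j u⟫ := by
      have : HasFDerivAt (fun v => ⟪a, lP f j v⟫) ((innerSL ℝ a).comp (fderiv ℝ (lP f j) u)) u :=
        (innerSL ℝ a).hasFDerivAt.comp u (hasFDerivAt_lP hf j).differentiableAt.hasFDerivAt
      rw [this.fderiv]
      rfl
    have e3 : fderiv ℝ (fun v => ∑ k, lG f v j k * lW f a k v) u (stdOrthonormalBasis ℝ V i)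
        = ∑ k, (lG f u j k * fderiv ℝ (lW f a k) u (stdOrthonormalBasis ℝ V i)
          + (⟪lQ f i j u, lP f k u⟫ + ⟪lQ f i k u, lP f j u⟫) * lW f a k u) := by
      rw [fderiv_fun_sum (fun k _ => (hGd j k).fun_mul (hW k))]
      rw [_root_.sum_apply]
      refine Finset.sum_congr rfl fun k _ => ?_
      rw [fderiv_fun_mul (hGd j k) (hW k)]
      simp only [_root_.add_apply, _root_.smul_apply, smul_eq_mul]
      rw [lG_deriv hf]
      ring
    rw [e2, e3, Finset.sum_add_distrib] at e1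
    (clear hf hG l hW hGd e2 e3; linarith)
  have h : (lG f u)⁻¹ *ᵥ (lG f u *ᵥ fun k => fderiv ℝ (lW f a k) u (stdOrthonormalBasis ℝ V i))
      = fun k => fderiv ℝ (lW f a k) u (stdOrthonormalBasis ℝ V i) := by
    rw [Matrix.mulVec_mulVec, Matrix.nonsing_inv_mul _ (isUnit_iff_ne_zero.mpr hG),
      Matrix.one_mulVec]
  have h2 := congrFun h l
  simp only [Matrix.mulVec, dotProduct] at h2
  rw [← h2]
  refine Finset.sum_congr rfl fun j _ => ?_
  rw [key j]

lemma sqrt_deriv (hf : ContDiffAt ℝ 2 f u) (hG : 0 < (lG f u).det) (i : Fin (finrank ℝ V)) :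
    fderiv ℝ (fun v => Real.sqrt (lG f v).det) u (stdOrthonormalBasis ℝ V i)
      = Real.sqrt (lG f u).det * ∑ j, ∑ k, (lG f u)⁻¹ j k * ⟪lQ f i j u, lP f k u⟫ := by
  have hd : DifferentiableAt ℝ (fun v => (lG f v).det) u :=
    (contDiffAt_det (n := 1) hf).differentiableAt (by norm_num)
  have hpi : DifferentiableAt ℝ (fun v => (fun i j => lG f v i j : Fin (finrank ℝ V) → Fin (finrank ℝ V) → ℝ)) u :=
    (contDiffAt_lGpi (n := 1) hf).differentiableAt (by norm_num)
  have e1 : fderiv ℝ (fun v => (lG f v).det) u (stdOrthonormalBasis ℝ V i)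
      = (lG f u).det * (2 * ∑ j, ∑ k, (lG f u)⁻¹ j k * ⟪lQ f i j u, lP f k u⟫) := by
    have hc : HasFDerivAt (fun v => (lG f v).det)
        ((fderiv ℝ (fun g : Fin (finrank ℝ V) → Fin (finrank ℝ V) → ℝ => (Matrix.of g).det) (fun i j => lG f u i j)).comp
          (fderiv ℝ (fun v => (fun i j => lG f v i j : Fin (finrank ℝ V) → Fin (finrank ℝ V) → ℝ)) u)) u :=
      (((contDiff_detPi (finrank ℝ V) (n := 1)).differentiable (by norm_num)
        (fun i j => lG f u i j)).hasFDerivAt).comp u hpi.hasFDerivAt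
    rw [hc.fderiv, ContinuousLinearMap.comp_apply,
      fderiv_detPi (finrank ℝ V) (fun i j => lG f u i j) _ hG.ne']
    have hh : ∀ j k, fderiv ℝ (fun v => (fun i j => lG f v i j : Fin (finrank ℝ V) → Fin (finrank ℝ V) → ℝ)) u
        (stdOrthonormalBasis ℝ V i) j k = ⟪lQ f i j u, lP f k u⟫ + ⟪lQ f i k u, lP f j u⟫ := by
      intro j k
      rw [← lG_deriv hf i j k]
      rw [fderiv_pi (fun j => differentiableAt_pi.mp hpi j), ContinuousLinearMap.pi_apply,
        fderiv_pi (fun k => differentiableAt_pi.mp (differentiableAt_pi.mp hpi j) k),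
        ContinuousLinearMap.pi_apply]
    have hof : (Matrix.of fun i j => lG f u i j) = lG f u := rfl
    rw [hof]
    congr 1
    rw [Matrix.trace]
    simp only [Matrix.diag_apply, Matrix.mul_apply, Matrix.of_apply, hh, mul_add,
      Finset.sum_add_distrib]
    rw [two_mul]
    congr 1
    · rw [Finset.sum_comm]
      refine Finset.sum_congr rfl fun j _ => Finset.sum_congr rfl fun k _ => ?_
      rw [lGinv_symm]
  rw [fderiv_sqrt hd hG.ne', _root_.smul_apply, e1, smul_eq_mul]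
  have hs : Real.sqrt (lG f u).det * Real.sqrt (lG f u).det = (lG f u).det :=
    Real.mul_self_sqrt hG.le
  have hs0 : Real.sqrt (lG f u).det ≠ 0 := (Real.sqrt_pos.mpr hG).ne'
  generalize (∑ j, ∑ k, (lG f u)⁻¹ j k * ⟪lQ f i j u, lP f k u⟫) = S
  generalize Real.sqrt (lG f u).det = r at hs hs0
  rw [← hs]
  (clear * - hs0; field_simp)

/-- the tangential part -/
noncomputable def lT (f : V → E) (a : E)
    (u : V) : E := ∑ k, lW f a k u • lP f k u

lemma inner_lT (hG : (lG f u).det ≠ 0) (a : E) (j : Fin (finrank ℝ V)) :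
    ⟪lP f j u, lT f a u⟫ = ⟪a, lP f j u⟫ := by
  rw [lT, inner_sum, ← lG_lW hG a j]
  refine Finset.sum_congr rfl fun k _ => ?_
  rw [inner_smul_right, mul_comm]
  rfl

lemma inner_f_lP (hf : ContDiffAt ℝ 2 f u) (hn : ∀ᶠ v in 𝓝 u, ‖f v‖ = 1) (i : Fin (finrank ℝ V)) :
    ⟪f u, lP f i u⟫ = 0 := by
  have hd : DifferentiableAt ℝ f u := hf.differentiableAt (by norm_num)
  have h1 : fderiv ℝ (fun v => ⟪f v, f v⟫) u = fderiv ℝ (fun _ => (1 : ℝ)) u := by
    apply Filter.EventuallyEq.fderiv_eq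
    filter_upwards [hn] with v hv
    rw [real_inner_self_eq_norm_sq, hv]; norm_num
  have h2 := congrArg (fun L => L (stdOrthonormalBasis ℝ V i)) h1
  simp only [fderiv_inner_apply ℝ hd hd, fderiv_fun_const] at h2
  simp only [Pi.zero_apply, _root_.zero_apply] at h2
  have h3 : ⟪fderiv ℝ f u (stdOrthonormalBasis ℝ V i), f u⟫
      = ⟪f u, fderiv ℝ f u (stdOrthonormalBasis ℝ V i)⟫ := real_inner_comm _ _
  rw [h3] at h2
  change ⟪f u, fderiv ℝ f u (stdOrthonormalBasis ℝ V i)⟫ = 0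
  (clear hf hn hd h1 h3; linarith)

lemma inner_f_lQ (hf : ContDiffAt ℝ 3 f u) (hn : ∀ᶠ v in 𝓝 u, ‖f v‖ = 1) (i j : Fin (finrank ℝ V)) :
    ⟪lQ f i j u, f u⟫ = - lG f u i j := by
  have hf2 : ContDiffAt ℝ 2 f u := hf.of_le (by norm_num)
  have hd : DifferentiableAt ℝ f u := hf.differentiableAt (by norm_num)
  have hPd : DifferentiableAt ℝ (lP f j) u := (hasFDerivAt_lP hf2 j).differentiableAt
  have h1 : fderiv ℝ (fun v => ⟪f v, lP f j v⟫) u = fderiv ℝ (fun _ => (0 : ℝ)) u := by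
    apply Filter.EventuallyEq.fderiv_eq
    have hev : ∀ᶠ v in 𝓝 u, ContDiffAt ℝ 3 f v := hf.eventually (by norm_num)
    filter_upwards [hn.eventually_nhds, hev] with v hv hv2
    exact inner_f_lP (hv2.of_le (by (clear * -; norm_num))) hv j
  have h2 := congrArg (fun L => L (stdOrthonormalBasis ℝ V i)) h1
  simp only [fderiv_inner_apply ℝ hd hPd, fderiv_fun_const] at h2
  simp only [Pi.zero_apply, _root_.zero_apply] at h2
  have h3 : ⟪lQ f i j u, f u⟫ = ⟪f u, fderiv ℝ (lP f j) u (stdOrthonormalBasis ℝ V i)⟫ :=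
    real_inner_comm _ _
  have h4 : lG f u i j = ⟪fderiv ℝ f u (stdOrthonormalBasis ℝ V i), lP f j u⟫ := rfl
  rw [h3, h4]
  (clear hf hn hf2 hd hPd h1 h3 h4; linarith)

/-- the local form of the first variation formula -/
theorem div_formula (hf : ContDiffAt ℝ 3 f u) (hG : 0 < (lG f u).det)
    (hn : ∀ᶠ v in 𝓝 u, ‖f v‖ = 1)
    (hmin : ∀ n : E, ‖n‖ = 1 → ⟪f u, n⟫ = 0 → (∀ i, ⟪lP f i u, n⟫ = 0) →
      ∑ i, ∑ j, (lG f u)⁻¹ i j * ⟪lQ f i j u, n⟫ = 0) (a : E) :
    ∑ i, fderiv ℝ (fun v => Real.sqrt (lG f v).det * lW f a i v) u (stdOrthonormalBasis ℝ V i)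
      = - ((finrank ℝ V : ℝ) * (Real.sqrt (lG f u).det * ⟪a, f u⟫)) := by
  have hf2 : ContDiffAt ℝ 2 f u := hf.of_le (by (clear * -; norm_num))
  have hW : ∀ k, DifferentiableAt ℝ (lW f a k) u := fun k =>
    (contDiffAt_lW (n := 1) hf2 hG.ne' a k).differentiableAt (by norm_num)
  have hS : DifferentiableAt ℝ (fun v => Real.sqrt (lG f v).det) u :=
    (contDiffAt_sqrt (n := 1) hf2 hG.ne').differentiableAt (by norm_num)
  -- the normal part
  set w : E := a - lT f a u with hw
  have hwP : ∀ i, ⟪lP f i u, w⟫ = 0 := by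
    intro i
    rw [hw, inner_sub_right, inner_lT hG.ne', real_inner_comm, sub_self]
  have hfP : ∀ i, ⟪f u, lP f i u⟫ = 0 := inner_f_lP hf2 hn
  have hfu : ⟪f u, f u⟫ = 1 := by
    rw [real_inner_self_eq_norm_sq, hn.self_of_nhds]; norm_num
  have hfT : ⟪f u, lT f a u⟫ = 0 := by
    rw [lT, inner_sum]
    refine Finset.sum_eq_zero fun k _ => ?_
    rw [inner_smul_right, hfP, mul_zero]
  have hsum : ∑ i, ∑ j, (lG f u)⁻¹ i j * ⟪lQ f i j u, w⟫ = - ((finrank ℝ V : ℝ) * ⟪a, f u⟫) := by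
    set z : E := w - ⟪a, f u⟫ • f u with hz
    have hzP : ∀ i, ⟪lP f i u, z⟫ = 0 := by
      intro i
      rw [hz, inner_sub_right, hwP, inner_smul_right, real_inner_comm (f u) (lP f i u), hfP]
      simp
    have hzf : ⟪f u, z⟫ = 0 := by
      rw [hz, inner_sub_right, hw, inner_sub_right, hfT, inner_smul_right, hfu,
        real_inner_comm (f u) a]
      ring
    have hzsum : ∑ i, ∑ j, (lG f u)⁻¹ i j * ⟪lQ f i j u, z⟫ = 0 := by
      by_cases hz0 : z = 0
      · simp only [hz0, inner_zero_right, mul_zero, Finset.sum_const_zero]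
      · have hzn : ‖z‖ ≠ 0 := norm_ne_zero_iff.mpr hz0
        have := hmin (‖z‖⁻¹ • z) (by rw [norm_smul, norm_inv, norm_norm, inv_mul_cancel₀ hzn])
          (by rw [inner_smul_right, hzf, mul_zero])
          (fun i => by rw [inner_smul_right, hzP, mul_zero])
        have h2 : ∑ i, ∑ j, (lG f u)⁻¹ i j * ⟪lQ f i j u, z⟫
            = ‖z‖ * ∑ i, ∑ j, (lG f u)⁻¹ i j * ⟪lQ f i j u, ‖z‖⁻¹ • z⟫ := by
          rw [Finset.mul_sum]
          refine Finset.sum_congr rfl fun i _ => ?_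
          rw [Finset.mul_sum]
          refine Finset.sum_congr rfl fun j _ => ?_
          rw [inner_smul_right]
          (clear hf hG hn hmin hf2 hW hS hw hwP hfP hfu hfT hz hzP hzf this; field_simp)
        rw [h2, this, mul_zero]
    have hwz : w = z + ⟪a, f u⟫ • f u := by rw [hz]; abel
    have hfs : ∑ i, ∑ j, (lG f u)⁻¹ i j * lG f u i j = finrank ℝ V := by
      have : ∀ i, ∑ j, (lG f u)⁻¹ i j * lG f u i j = 1 := by
        intro i
        have h1 : ((lG f u)⁻¹ * lG f u) i i = 1 := by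
          rw [Matrix.nonsing_inv_mul _ (isUnit_iff_ne_zero.mpr hG.ne')]; simp
        rw [Matrix.mul_apply] at h1
        rw [← h1]
        exact Finset.sum_congr rfl fun j _ => by rw [lG_symm i j]
      simp only [this, Finset.sum_const, Finset.card_univ, Fintype.card_fin, nsmul_eq_mul, mul_one]
    rw [hwz]
    have h3 : ∀ i j, (lG f u)⁻¹ i j * ⟪lQ f i j u, z + ⟪a, f u⟫ • f u⟫
        = (lG f u)⁻¹ i j * ⟪lQ f i j u, z⟫
          - ⟪a, f u⟫ * ((lG f u)⁻¹ i j * lG f u i j) := by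
      intro i j
      rw [inner_add_right, inner_smul_right, inner_f_lQ hf hn]
      ring
    simp only [h3, Finset.sum_sub_distrib, ← Finset.mul_sum, hfs, hzsum]
    ring
  -- the computation
  have e0 : ∀ i, fderiv ℝ (fun v => Real.sqrt (lG f v).det * lW f a i v) u
      (stdOrthonormalBasis ℝ V i)
      = Real.sqrt (lG f u).det * (
        (∑ j, (lG f u)⁻¹ i j * ⟪lQ f i j u, w⟫)
        + (lW f a i u * (∑ j, ∑ k, (lG f u)⁻¹ j k * ⟪lQ f i j u, lP f k u⟫)
        - ∑ j, ∑ k, (lG f u)⁻¹ i j * (⟪lQ f i k u, lP f j u⟫ * lW f a k u))) := by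
    intro i
    rw [fderiv_fun_mul hS (hW i)]
    simp only [_root_.add_apply, _root_.smul_apply, smul_eq_mul]
    rw [sqrt_deriv hf2 hG, lW_deriv hf2 hG.ne']
    have e1 : ∀ j, ⟪lQ f i j u, w⟫ = ⟪a, lQ f i j u⟫
        - ∑ k, ⟪lQ f i j u, lP f k u⟫ * lW f a k u := by
      intro j
      rw [hw, inner_sub_right, real_inner_comm a, lT, inner_sum]
      congr 1
      refine Finset.sum_congr rfl fun k _ => ?_
      rw [inner_smul_right, mul_comm]
    simp only [e1, add_mul, Finset.sum_add_distrib, mul_sub, mul_add, Finset.sum_sub_distrib,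
      Finset.mul_sum]
    ring_nf
  simp only [e0]
  rw [← Finset.mul_sum, Finset.sum_add_distrib, hsum, Finset.sum_sub_distrib]
  have e2 : ∑ i, lW f a i u * (∑ j, ∑ k, (lG f u)⁻¹ j k * ⟪lQ f i j u, lP f k u⟫)
      = ∑ i, ∑ j, ∑ k, (lG f u)⁻¹ i j * (⟪lQ f i k u, lP f j u⟫ * lW f a k u) := by
    have c1 : ∑ i, ∑ j, ∑ k, (lG f u)⁻¹ i j * (⟪lQ f i k u, lP f j u⟫ * lW f a k u)
        = ∑ i, ∑ k, ∑ j, (lG f u)⁻¹ i j * (⟪lQ f i k u, lP f j u⟫ * lW f a k u) :=
      Finset.sum_congr rfl fun i _ => Finset.sum_comm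
    rw [c1, Finset.sum_comm]
    refine Finset.sum_congr rfl fun i _ => ?_
    rw [Finset.mul_sum]
    refine Finset.sum_congr rfl fun j _ => ?_
    rw [Finset.mul_sum]
    refine Finset.sum_congr rfl fun k _ => ?_
    rw [lQ_symm hf2 i j]
    ring
  rw [e2]
  ring

end Local

end Vale.Agent.P224.FV
end
end

section

section

namespace Vale.Agent.P224.FV

open Matrix MeasureTheory Module Function
open scoped RealInnerProductSpace Topology ContDiff

section

variable {V : Type*} [NormedAddCommGroup V] [InnerProductSpace ℝ V] [FiniteDimensional ℝ V]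
  {E : Type*} [NormedAddCommGroup E] [InnerProductSpace ℝ E]

/-- local data: an immersed minimal piece of the unit sphere -/
structure LocMin (f : V → E) (T : Set V) : Prop where
  isOpen : IsOpen T
  smooth : ContDiffOn ℝ ∞ f T
  unit : ∀ u ∈ T, ‖f u‖ = 1
  inj : ∀ u ∈ T, Function.Injective (fderiv ℝ f u)
  minimal : ∀ u ∈ T, ∀ n : E, ‖n‖ = 1 → ⟪f u, n⟫ = 0 → (∀ i, ⟪lP f i u, n⟫ = 0) →
      ∑ i, ∑ j, (lG f u)⁻¹ i j * ⟪lQ f i j u, n⟫ = 0

variable {f : V → E} {T : Set V}

lemma lP_linearIndependent {u : V} (h : Function.Injective (fderiv ℝ f u)) :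
    LinearIndependent ℝ (fun i => lP f i u) := by
  have h1 : LinearIndependent ℝ (stdOrthonormalBasis ℝ V) :=
    (stdOrthonormalBasis ℝ V).toBasis.linearIndependent
  have := h1.map' (fderiv ℝ f u : V →ₗ[ℝ] E) (LinearMap.ker_eq_bot.mpr h)
  exact this

lemma lG_det_pos {u : V} (h : Function.Injective (fderiv ℝ f u)) : 0 < (lG f u).det := by
  have h1 := Matrix.posDef_gram_of_linearIndependent (𝕜 := ℝ) (lP_linearIndependent h)
  exact h1.det_pos

lemma LocMin.contDiffAt (h : LocMin f T) {u : V} (hu : u ∈ T) : ContDiffAt ℝ ∞ f u :=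
  h.smooth.contDiffAt (h.isOpen.mem_nhds hu)

lemma LocMin.contDiffAt_nat (h : LocMin f T) {u : V} (hu : u ∈ T) (n : ℕ) :
    ContDiffAt ℝ n f u :=
  (h.contDiffAt hu).of_le (by exact_mod_cast le_top)

lemma LocMin.det_pos (h : LocMin f T) {u : V} (hu : u ∈ T) : 0 < (lG f u).det :=
  lG_det_pos (h.inj u hu)

lemma continuous_mul_of_tsupport {g φ : V → ℝ} (hT : IsOpen T) (hg : ContinuousOn g T)
    (hφ : Continuous φ) (hs : tsupport φ ⊆ T) : Continuous (fun u => g u * φ u) := by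
  rw [continuous_iff_continuousAt]
  intro u
  by_cases hu : u ∈ T
  · exact (hg.continuousAt (hT.mem_nhds hu)).mul hφ.continuousAt
  · have h1 : u ∉ tsupport φ := fun h => hu (hs h)
    have h2 : ∀ᶠ v in 𝓝 u, φ v = 0 := by
      have := (isClosed_tsupport φ).isOpen_compl.mem_nhds h1
      filter_upwards [this] with v hv
      exact image_eq_zero_of_notMem_tsupport hv
    have h3 : (fun u => g u * φ u) =ᶠ[𝓝 u] fun _ => 0 := by
      filter_upwards [h2] with v hv
      rw [hv, mul_zero]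
    exact continuousAt_const.congr h3.symm

lemma integrable_mul_of_tsupport [MeasurableSpace V] [BorelSpace V] {g φ : V → ℝ}
    (hT : IsOpen T) (hg : ContinuousOn g T)
    (hφ : Continuous φ) (hs : tsupport φ ⊆ T) (hc : HasCompactSupport φ) :
    Integrable (fun u => g u * φ u) :=
  (continuous_mul_of_tsupport hT hg hφ hs).integrable_of_hasCompactSupport
    (hc.mul_left (f := g))

/-- the tangential coordinate vector of a -/
noncomputable def vW (f : V → E) (a : E) (u : V) : V :=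
  ∑ i, lW f a i u • stdOrthonormalBasis ℝ V i

lemma LocMin.cont_Y (h : LocMin f T) (a : E) (i : Fin (finrank ℝ V)) :
    ContinuousOn (fun v => Real.sqrt (lG f v).det * lW f a i v) T := fun u hu =>
  (((contDiffAt_sqrt (n := 0) (h.contDiffAt_nat hu 1) (h.det_pos hu).ne').mul
    (contDiffAt_lW (n := 0) (h.contDiffAt_nat hu 1) (h.det_pos hu).ne' a i)).continuousAt
      ).continuousWithinAt

lemma LocMin.diff_Y (h : LocMin f T) (a : E) (i : Fin (finrank ℝ V)) {u : V} (hu : u ∈ T) :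
    DifferentiableAt ℝ (fun v => Real.sqrt (lG f v).det * lW f a i v) u :=
  (((contDiffAt_sqrt (n := 1) (h.contDiffAt_nat hu 2) (h.det_pos hu).ne').mul
    (contDiffAt_lW (n := 1) (h.contDiffAt_nat hu 2) (h.det_pos hu).ne' a i)).differentiableAt
      (by norm_num))

lemma LocMin.cont_DY (h : LocMin f T) (a : E) (i : Fin (finrank ℝ V)) (w : V) :
    ContinuousOn (fun u => fderiv ℝ (fun v => Real.sqrt (lG f v).det * lW f a i v) u w) T := by
  intro u hu
  have h1 : ContDiffAt ℝ 1 (fun v => Real.sqrt (lG f v).det * lW f a i v) u :=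
    (contDiffAt_sqrt (n := 1) (h.contDiffAt_nat hu 2) (h.det_pos hu).ne').mul
    (contDiffAt_lW (n := 1) (h.contDiffAt_nat hu 2) (h.det_pos hu).ne' a i)
  have h2 : ContDiffAt ℝ 0
      (fderiv ℝ (fun v => Real.sqrt (lG f v).det * lW f a i v)) u :=
    h1.fderiv_right (m := 0) (by norm_num)
  exact (h2.continuousAt.clm_apply continuousAt_const).continuousWithinAt

variable [MeasurableSpace V] [BorelSpace V]

/-- local first variation formula -/
theorem LocMin.stokes (h : LocMin f T) (a : E) {φ : V → ℝ} (hφ : ContDiff ℝ 1 φ)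
    (hc : HasCompactSupport φ) (hs : tsupport φ ⊆ T) :
    ∫ u, Real.sqrt (lG f u).det * fderiv ℝ φ u (vW f a u)
      = (finrank ℝ V : ℝ) * ∫ u, Real.sqrt (lG f u).det * ⟪a, f u⟫ * φ u := by
  have hφc : Continuous φ := hφ.continuous
  have hφd : ∀ w : V, Continuous (fun u => fderiv ℝ φ u w) := fun w =>
    (hφ.continuous_fderiv (by norm_num)).clm_apply continuous_const
  have hsd : ∀ w : V, tsupport (fun u => fderiv ℝ φ u w) ⊆ T := fun w =>
    (tsupport_fderiv_apply_subset ℝ w).trans hs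
  have hcd : ∀ w : V, HasCompactSupport (fun u => fderiv ℝ φ u w) := fun w =>
    hc.fderiv_apply ℝ w
  set Y : Fin (finrank ℝ V) → V → ℝ := fun i v => Real.sqrt (lG f v).det * lW f a i v with hY
  have hint1 : ∀ i, Integrable (fun u => Y i u * fderiv ℝ φ u (stdOrthonormalBasis ℝ V i)) :=
    fun i => integrable_mul_of_tsupport h.isOpen (h.cont_Y a i) (hφd _) (hsd _) (hcd _)
  have hint2 : ∀ i, Integrable (fun u => fderiv ℝ (Y i) u (stdOrthonormalBasis ℝ V i) * φ u) :=
    fun i => integrable_mul_of_tsupport h.isOpen (h.cont_DY a i _) hφc hs hc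
  have hint3 : ∀ i, Integrable (fun u => Y i u * φ u) :=
    fun i => integrable_mul_of_tsupport h.isOpen (h.cont_Y a i) hφc hs hc
  have key : ∀ i, ∫ u, Y i u * fderiv ℝ φ u (stdOrthonormalBasis ℝ V i)
      = - ∫ u, fderiv ℝ (Y i) u (stdOrthonormalBasis ℝ V i) * φ u := fun i =>
    integral_mul_fderiv_eq_neg_fderiv_mul_of_integrable (hint2 i) (hint1 i) (hint3 i)
      (fun x hx => h.diff_Y a i (hs hx)) (fun x _ => hφ.differentiable (by norm_num) x)
  have e1 : (fun u => Real.sqrt (lG f u).det * fderiv ℝ φ u (vW f a u))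
      = fun u => ∑ i, Y i u * fderiv ℝ φ u (stdOrthonormalBasis ℝ V i) := by
    funext u
    rw [vW, map_sum, Finset.mul_sum]
    refine Finset.sum_congr rfl fun i _ => ?_
    rw [map_smul, smul_eq_mul, hY]
    ring
  rw [e1, integral_finsetSum _ (fun i _ => hint1 i)]
  simp only [key]
  rw [Finset.sum_neg_distrib, ← integral_finsetSum _ (fun i _ => hint2 i), ← integral_neg,
    ← integral_const_mul]
  apply integral_congr_ae
  filter_upwards with u
  by_cases hu : u ∈ T
  · rw [← Finset.sum_mul, div_formula (h.contDiffAt_nat hu 3) (h.det_pos hu) ?_ (h.minimal u hu)]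
    · ring
    · filter_upwards [h.isOpen.mem_nhds hu] with v hv
      exact h.unit v hv
  · have : φ u = 0 := image_eq_zero_of_notMem_tsupport (fun hx => hu (hs hx))
    simp only [this, mul_zero, Finset.sum_const_zero, neg_zero]

end

end Vale.Agent.P224.FV
end
end

section

section

namespace Vale.Agent.P224

open MeasureTheory Filter Topology Set
open scoped RealInnerProductSpace ContDiff ENNReal

section basic

variable {m : ℕ}

lemma lint_gauss (hm : 0 < m) {b : ℝ} (hb : 0 < b) :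
    ∫⁻ w : EuclideanSpace ℝ (Fin m), ENNReal.ofReal (Real.exp (-b * ‖w‖ ^ 2))
      = ENNReal.ofReal ((Real.pi / b) ^ ((m : ℝ) / 2)) := by
  have h1 := GaussianFourier.integral_rexp_neg_mul_sq_norm (V := EuclideanSpace ℝ (Fin m)) hb
  have hpos : 0 < (Real.pi / b) ^ ((Module.finrank ℝ (EuclideanSpace ℝ (Fin m)) : ℝ) / 2) :=
    Real.rpow_pos_of_pos (div_pos Real.pi_pos hb) _
  have hint : Integrable (fun w : EuclideanSpace ℝ (Fin m) => Real.exp (-b * ‖w‖ ^ 2)) := by
    by_contra h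
    rw [integral_undef h] at h1
    rw [← h1] at hpos
    exact lt_irrefl _ hpos
  rw [← ofReal_integral_eq_lintegral_ofReal hint
    (Eventually.of_forall fun _ => (Real.exp_pos _).le), h1]
  simp only [finrank_euclideanSpace, Fintype.card_fin]

lemma lint_one_add (hm : 0 < m) :
    ∫⁻ w : EuclideanSpace ℝ (Fin m), ENNReal.ofReal ((2 / (1 + ‖w‖ ^ 2)) ^ m)
      = ENNReal.ofReal (sphereVol m) := by
  have hm' : (0 : ℝ) < m := by exact_mod_cast hm
  have hG : 0 < Real.Gamma m := Real.Gamma_pos_of_pos hm'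
  -- layer formula
  have h1 : ∀ w : EuclideanSpace ℝ (Fin m), ENNReal.ofReal ((2 / (1 + ‖w‖ ^ 2)) ^ m)
      = ∫⁻ t in Ioi (0 : ℝ), ENNReal.ofReal (2 ^ m / Real.Gamma m * (t ^ ((m : ℝ) - 1) *
        Real.exp (-((1 + ‖w‖ ^ 2) * t)))) := by
    intro w
    have hr : 0 < 1 + ‖w‖ ^ 2 := by (clear * -; positivity)
    have h2 := Real.integral_rpow_mul_exp_neg_mul_Ioi hm' hr
    have hpos : 0 < (1 / (1 + ‖w‖ ^ 2)) ^ (m : ℝ) * Real.Gamma m := by (clear * - hm; positivity)
    have hint : IntegrableOn (fun t : ℝ => t ^ ((m : ℝ) - 1) *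
        Real.exp (-((1 + ‖w‖ ^ 2) * t))) (Ioi 0) := by
      by_contra h
      rw [integral_undef h] at h2
      rw [← h2] at hpos
      exact lt_irrefl _ hpos
    rw [← ofReal_integral_eq_lintegral_ofReal (hint.const_mul _), integral_const_mul, h2]
    · congr 1
      rw [Real.rpow_natCast, div_pow, div_pow, one_pow]
      (clear * - hm; field_simp)
    · filter_upwards [self_mem_ae_restrict measurableSet_Ioi] with t ht
      have ht' : (0 : ℝ) < t := ht
      (clear * - hm ht'; positivity)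
  simp_rw [h1]
  rw [lintegral_lintegral_swap]
  · have h3 : ∀ t ∈ Ioi (0 : ℝ), ∫⁻ w : EuclideanSpace ℝ (Fin m),
        ENNReal.ofReal (2 ^ m / Real.Gamma m * (t ^ ((m : ℝ) - 1) *
        Real.exp (-((1 + ‖w‖ ^ 2) * t)))) =
        ENNReal.ofReal (2 ^ m * Real.pi ^ ((m : ℝ) / 2) / Real.Gamma m *
          (t ^ ((m : ℝ) / 2 - 1) * Real.exp (-(1 * t)))) := by
      intro t ht
      have ht' : (0 : ℝ) < t := ht
      have h4 : ∀ w : EuclideanSpace ℝ (Fin m),
          ENNReal.ofReal (2 ^ m / Real.Gamma m * (t ^ ((m : ℝ) - 1) *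
          Real.exp (-((1 + ‖w‖ ^ 2) * t)))) =
          ENNReal.ofReal (2 ^ m / Real.Gamma m * (t ^ ((m : ℝ) - 1) * Real.exp (-t))) *
            ENNReal.ofReal (Real.exp (-t * ‖w‖ ^ 2)) := by
        intro w
        rw [← ENNReal.ofReal_mul (by positivity)]
        congr 1
        rw [show -((1 + ‖w‖ ^ 2) * t) = -t + -t * ‖w‖ ^ 2 by ring, Real.exp_add]
        ring
      simp_rw [h4]
      rw [lintegral_const_mul _ (by fun_prop), lint_gauss hm ht', ← ENNReal.ofReal_mul (by (clear * - hm ht'; positivity))]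
      congr 1
      rw [Real.div_rpow Real.pi_pos.le ht'.le, one_mul]
      have h5 : t ^ ((m : ℝ) - 1) = t ^ ((m : ℝ) / 2 - 1) * t ^ ((m : ℝ) / 2) := by
        rw [← Real.rpow_add ht']; congr 1; ring
      rw [h5]
      have : 0 < t ^ ((m : ℝ) / 2) := Real.rpow_pos_of_pos ht' _
      field_simp
    rw [setLIntegral_congr_fun measurableSet_Ioi h3]
    have hm2 : (0 : ℝ) < (m : ℝ) / 2 := by positivity
    have h6 := Real.integral_rpow_mul_exp_neg_mul_Ioi hm2 (r := 1) zero_lt_one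
    have hpos : 0 < (1 / 1 : ℝ) ^ ((m : ℝ) / 2) * Real.Gamma ((m : ℝ) / 2) := by
      have := Real.Gamma_pos_of_pos hm2
      positivity
    have hint : IntegrableOn (fun t : ℝ => t ^ ((m : ℝ) / 2 - 1) * Real.exp (-(1 * t)))
        (Ioi 0) := by
      by_contra h
      rw [integral_undef h] at h6
      rw [← h6] at hpos
      exact lt_irrefl _ hpos
    rw [← ofReal_integral_eq_lintegral_ofReal (hint.const_mul _), integral_const_mul, h6]
    · congr 1
      unfold sphereVol
      have hd := Real.Gamma_mul_Gamma_add_half ((m : ℝ) / 2)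
      have e1 : (m : ℝ) / 2 + 1 / 2 = ((m : ℝ) + 1) / 2 := by ring
      have e2 : 2 * ((m : ℝ) / 2) = m := by ring
      rw [e1, e2] at hd
      have e3 : (2 : ℝ) ^ (1 - (m : ℝ)) = 2 / 2 ^ m := by
        rw [Real.rpow_sub (by norm_num), Real.rpow_one, Real.rpow_natCast]
      rw [e3] at hd
      have g1 : 0 < Real.Gamma (((m : ℝ) + 1) / 2) := Real.Gamma_pos_of_pos (by positivity)
      have g2 : 0 < Real.Gamma ((m : ℝ) / 2) := Real.Gamma_pos_of_pos (by positivity)
      have h7 : Real.pi ^ (((m : ℝ) + 1) / 2) = Real.pi ^ ((m : ℝ) / 2) * Real.sqrt Real.pi := by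
        rw [Real.sqrt_eq_rpow, ← Real.rpow_add Real.pi_pos]; congr 1; ring
      rw [h7, div_one, Real.one_rpow, one_mul]
      have hpi : 0 < Real.pi ^ ((m : ℝ) / 2) := Real.rpow_pos_of_pos Real.pi_pos _
      rw [div_mul_eq_mul_div, div_eq_div_iff hG.ne' g1.ne']
      have h8 : Real.Gamma ((m : ℝ) / 2) * Real.Gamma (((m : ℝ) + 1) / 2) * 2 ^ m
          = Real.Gamma m * 2 * Real.sqrt Real.pi := by
        rw [hd]; field_simp
      linear_combination Real.pi ^ ((m : ℝ) / 2) * h8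
    · filter_upwards [self_mem_ae_restrict measurableSet_Ioi] with t ht
      have ht' : (0 : ℝ) < t := ht
      have := Real.pi_pos
      positivity
  · apply Measurable.aemeasurable
    fun_prop

/-- linear change of variables -/
lemma lint_linear {n : ℕ} (hm : 0 < m)
    (L : EuclideanSpace ℝ (Fin m) →L[ℝ] EuclideanSpace ℝ (Fin n)) (hL : Function.Injective L) :
    ∫⁻ z : EuclideanSpace ℝ (Fin m), ENNReal.ofReal ((2 / (1 + ‖L z‖ ^ 2)) ^ m *
      Real.sqrt (Matrix.det (Matrix.of fun i j =>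
        ⟪L (EuclideanSpace.single i 1), L (EuclideanSpace.single j 1)⟫)))
      = ENNReal.ofReal (sphereVol m) := by
  set G0 : Matrix (Fin m) (Fin m) ℝ := Matrix.of fun i j =>
        ⟪L (EuclideanSpace.single i 1), L (EuclideanSpace.single j 1)⟫ with hG0
  have hG0' : G0 = Matrix.gram ℝ (fun i => L (EuclideanSpace.single i 1)) := by
    ext i j; rfl
  have hli : LinearIndependent ℝ (fun i => L (EuclideanSpace.single i (1 : ℝ))) := by
    have h1 := (EuclideanSpace.basisFun (Fin m) ℝ).toBasis.linearIndependent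
    have hk : LinearMap.ker L.toLinearMap = ⊥ := by
      rw [LinearMap.ker_eq_bot]
      exact hL
    have h2 := h1.map' _ hk
    have e : (fun i => L (EuclideanSpace.single i (1 : ℝ))) = (⇑L.toLinearMap ∘
        ⇑(EuclideanSpace.basisFun (Fin m) ℝ).toBasis) := by
      funext i
      simp
    rw [e]
    exact h2
  have hpd : G0.PosDef := by
    rw [hG0']; exact Matrix.posDef_gram_of_linearIndependent hli
  obtain ⟨T, κ, hTG, -⟩ := exists_simul_diag G0 0 hpd (by simp)
  have hdet : T.det * T.det * G0.det = 1 := by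
    have := congrArg Matrix.det hTG
    rw [Matrix.det_mul, Matrix.det_mul, Matrix.det_transpose, Matrix.det_one] at this
    linarith only [this]
  have hTdet : T.det ≠ 0 := by
    intro h
    rw [h] at hdet
    simp at hdet
  set TL : EuclideanSpace ℝ (Fin m) →ₗ[ℝ] EuclideanSpace ℝ (Fin m) :=
    Matrix.toLpLin 2 2 T with hTL
  have hTLd : LinearMap.det TL = T.det := LinearMap.det_toLpLin 2 T
  have hLsum : ∀ z : EuclideanSpace ℝ (Fin m), L z = ∑ b, z b • L (EuclideanSpace.single b 1) := by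
    intro z
    have hx : z = ∑ b, z b • EuclideanSpace.single b (1 : ℝ) := by
      ext j
      simp only [WithLp.ofLp_sum, WithLp.ofLp_smul, PiLp.ofLp_single, Finset.sum_apply, Pi.smul_apply, Pi.single_apply, smul_eq_mul, mul_ite, mul_one, mul_zero, Finset.sum_ite_eq, Finset.mem_univ, ↓reduceIte]
    conv_lhs => rw [hx]
    rw [map_sum]
    simp only [map_smul]
  have hnorm : ∀ w, ‖L (TL w)‖ ^ 2 = ‖w‖ ^ 2 := by
    intro w
    have h1 : ‖L (TL w)‖ ^ 2 = (w : Fin m → ℝ) ⬝ᵥ ((T.transpose * G0 * T).mulVec w) := by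
      rw [← real_inner_self_eq_norm_sq, hLsum (TL w)]
      simp only [sum_inner, inner_sum, inner_smul_left, inner_smul_right, conj_trivial]
      have h2 : ∀ b, (TL w) b = (T.mulVec w) b := by
        intro b
        rw [hTL, Matrix.toLpLin_apply]
      simp only [h2]
      have h3 : (w : Fin m → ℝ) ⬝ᵥ ((T.transpose * G0 * T).mulVec w)
          = (T.mulVec w) ⬝ᵥ (G0.mulVec (T.mulVec w)) := by
        rw [← Matrix.mulVec_mulVec, ← Matrix.mulVec_mulVec, Matrix.dotProduct_mulVec,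
          Matrix.vecMul_transpose]
      rw [h3]
      generalize T.mulVec (w : Fin m → ℝ) = v
      simp only [dotProduct, Matrix.mulVec, hG0, Matrix.of_apply, Finset.mul_sum]
      apply Finset.sum_congr rfl
      intro i _
      apply Finset.sum_congr rfl
      intro j _
      rw [real_inner_comm (L (EuclideanSpace.single i 1)) (L (EuclideanSpace.single j 1))]
      ring
    rw [h1, hTG, Matrix.one_mulVec, EuclideanSpace.norm_eq, Real.sq_sqrt
      (Finset.sum_nonneg fun i _ => by (clear * -; positivity))]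
    simp only [dotProduct, Real.norm_eq_abs, pow_two, abs_mul_abs_self]
  have hmap := Measure.map_linearMap_addHaar_eq_smul_addHaar (f := TL)
    (volume : Measure (EuclideanSpace ℝ (Fin m))) (by rw [hTLd]; exact hTdet)
  have hcont : Continuous TL := TL.continuous_of_finiteDimensional
  set h : EuclideanSpace ℝ (Fin m) → ℝ≥0∞ := fun z =>
    ENNReal.ofReal ((2 / (1 + ‖L z‖ ^ 2)) ^ m * Real.sqrt G0.det) with hh
  have hmeas : Measurable h := by
    apply ENNReal.measurable_ofReal.comp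
    apply Measurable.mul_const
    apply Measurable.pow_const
    apply Measurable.div measurable_const
    have : Continuous fun z : EuclideanSpace ℝ (Fin m) => 1 + ‖L z‖ ^ 2 := by fun_prop
    exact this.measurable
  have h1 : ∫⁻ w, h (TL w) = ∫⁻ z, h z ∂(Measure.map TL volume) :=
    (lintegral_map hmeas hcont.measurable).symm
  rw [hmap, lintegral_smul_measure, hTLd, smul_eq_mul] at h1
  have h2 : ∫⁻ w, h (TL w) = ENNReal.ofReal (sphereVol m) * ENNReal.ofReal (Real.sqrt G0.det) := by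
    have : ∀ w, h (TL w) = ENNReal.ofReal ((2 / (1 + ‖w‖ ^ 2)) ^ m) *
        ENNReal.ofReal (Real.sqrt G0.det) := by
      intro w
      simp only [hh]
      rw [hnorm, ENNReal.ofReal_mul (by (clear * -; positivity))]
    simp_rw [this]
    rw [lintegral_mul_const _ (by (clear * -; fun_prop)), lint_one_add hm]
  rw [h2] at h1
  have hs : Real.sqrt G0.det = |T.det⁻¹| := by
    have h3 : G0.det = (T.det⁻¹) ^ 2 := by
      field_simp
      linarith only [hdet]
    rw [h3, Real.sqrt_sq_eq_abs]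
  rw [hs] at h1
  have hne : ENNReal.ofReal |T.det⁻¹| ≠ 0 := by
    rw [ne_eq, ENNReal.ofReal_eq_zero, not_le]
    exact abs_pos.mpr (inv_ne_zero hTdet)
  rw [mul_comm] at h1
  exact ((ENNReal.mul_right_inj hne ENNReal.ofReal_ne_top).mp h1).symm

lemma continuousOn_mat {X : Type*} [TopologicalSpace X] {A : X → Matrix (Fin m) (Fin m) ℝ}
    {s : Set X} (h : ∀ i j, ContinuousOn (fun x => A x i j) s) : ContinuousOn A s := by
  rw [continuousOn_iff_continuous_domRestrict]
  exact continuous_matrix fun i j => continuousOn_iff_continuous_domRestrict.mp (h i j)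

/-- scaling -/
lemma lint_scale (u₀ : EuclideanSpace ℝ (Fin m)) {c : ℝ} (hc : 0 < c)
    (h : EuclideanSpace ℝ (Fin m) → ℝ≥0∞) :
    ∫⁻ u, h u = ENNReal.ofReal (c ^ m) * ∫⁻ z, h (u₀ + c • z) := by
  have hmap := Measure.map_addHaar_smul (volume : Measure (EuclideanSpace ℝ (Fin m))) hc.ne'
  have h1 : ∫⁻ z, h (u₀ + c • z) = ∫⁻ v, h (u₀ + v) ∂(Measure.map (fun z => c • z) volume) := by
    have := (Homeomorph.smulOfNeZero c hc.ne' (α := EuclideanSpace ℝ (Fin m))).measurableEmbedding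
    exact (this.lintegral_map (fun v => h (u₀ + v))).symm
  rw [hmap, lintegral_smul_measure] at h1
  have h2 : ∫⁻ v, h (u₀ + v) = ∫⁻ u, h u := lintegral_add_left_eq_self h u₀
  rw [h2] at h1
  rw [h1, smul_eq_mul, ← mul_assoc, ← ENNReal.ofReal_mul (by positivity)]
  have : c ^ m * |(c ^ Module.finrank ℝ (EuclideanSpace ℝ (Fin m)))⁻¹| = 1 := by
    rw [finrank_euclideanSpace_fin, abs_of_pos (by positivity)]
    field_simp
  rw [this]
  simp

end basic

/-- The conformal density of an immersed piece at one of its points is at least the volume of the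
unit sphere. -/
theorem density_local {m n : ℕ} (hm : 0 < m)
    (f : EuclideanSpace ℝ (Fin m) → EuclideanSpace ℝ (Fin n))
    (U : Set (EuclideanSpace ℝ (Fin m))) (hU : IsOpen U) (u₀ : EuclideanSpace ℝ (Fin m))
    (hu : u₀ ∈ U) (hf : ContDiffOn ℝ 1 f U) (hn : ∀ u ∈ U, ‖f u‖ = 1)
    (hinj : Function.Injective (fderiv ℝ f u₀)) {δ : ℝ} (hδ : 0 < δ)
    (hsub : Metric.ball u₀ δ ⊆ U) {ε : ℝ} (hε : 0 < ε) :
    ∀ᶠ φ in nhdsWithin (Real.pi / 2) (Set.Iio (Real.pi / 2)),
      ENNReal.ofReal ((1 - ε) * sphereVol m) ≤ ∫⁻ u in Metric.ball u₀ δ,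
        ENNReal.ofReal (Real.cos φ ^ m / (1 - Real.sin φ * ⟪f u, f u₀⟫) ^ m *
          Real.sqrt (Matrix.det (Matrix.of fun i j => ⟪fderiv ℝ f u (EuclideanSpace.single i 1),
            fderiv ℝ f u (EuclideanSpace.single j 1)⟫))) := by
  set L := fderiv ℝ f u₀ with hL
  set D : EuclideanSpace ℝ (Fin m) → ℝ := fun u => Real.sqrt (Matrix.det (Matrix.of fun i j =>
    ⟪fderiv ℝ f u (EuclideanSpace.single i 1), fderiv ℝ f u (EuclideanSpace.single j 1)⟫)) with hD
  set g : ℝ → EuclideanSpace ℝ (Fin m) → ℝ≥0∞ := fun φ u =>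
    ENNReal.ofReal (Real.cos φ ^ m / (1 - Real.sin φ * ⟪f u, f u₀⟫) ^ m * D u) with hg
  set cc : ℝ → ℝ := fun φ => Real.sqrt (2 * (1 - Real.sin φ)) with hcc
  set K : ℝ → EuclideanSpace ℝ (Fin m) → ℝ≥0∞ := fun φ z =>
    ENNReal.ofReal (cc φ ^ m) * (Metric.ball u₀ δ).indicator (g φ) (u₀ + cc φ • z) with hK
  have hfc : ContinuousOn f (Metric.ball u₀ δ) := (hf.continuousOn).mono hsub
  have hfdc : ContinuousOn (fderiv ℝ f) U := by
    have := hf.fderiv_of_isOpen (m := 0) hU (by norm_num)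
    exact this.continuousOn
  have hDc : ContinuousOn D U := by
    apply Continuous.comp_continuousOn Real.continuous_sqrt
    apply (continuous_id.matrix_det).comp_continuousOn
    apply continuousOn_mat
    intro i j
    exact (hfdc.clm_apply continuousOn_const).inner (𝕜 := ℝ) (hfdc.clm_apply continuousOn_const)
  -- measurability
  have hmeas : ∀ φ, AEMeasurable (K φ) volume := by
    intro φ
    have h1 : AEMeasurable ((Metric.ball u₀ δ).indicator (g φ)) volume := by
      rw [aemeasurable_indicator_iff Metric.isOpen_ball.measurableSet]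
      apply ENNReal.measurable_ofReal.comp_aemeasurable
      apply AEMeasurable.mul
      · apply AEMeasurable.div aemeasurable_const
        apply AEMeasurable.pow_const
        have h2 : ContinuousOn (fun u => 1 - Real.sin φ * ⟪f u, f u₀⟫) (Metric.ball u₀ δ) :=
          continuousOn_const.sub (continuousOn_const.mul (hfc.inner (𝕜 := ℝ) continuousOn_const))
        exact h2.aemeasurable Metric.isOpen_ball.measurableSet
      · exact (hDc.mono hsub).aemeasurable Metric.isOpen_ball.measurableSet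
    by_cases hc : cc φ = 0
    · have : K φ = fun _ => ENNReal.ofReal (cc φ ^ m) *
          (Metric.ball u₀ δ).indicator (g φ) u₀ := by
        funext z
        simp only [hK, hc, zero_smul, add_zero]
      rw [this]
      exact aemeasurable_const
    · apply AEMeasurable.const_mul
      have hmap := Measure.map_addHaar_smul (volume : Measure (EuclideanSpace ℝ (Fin m))) hc
      have hq1 : Measure.QuasiMeasurePreserving (fun z : EuclideanSpace ℝ (Fin m) => cc φ • z)
          volume volume := by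
        refine ⟨by (clear * -; fun_prop), ?_⟩
        rw [hmap]
        exact Measure.smul_absolutelyContinuous
      have hq2 : Measure.QuasiMeasurePreserving (fun z : EuclideanSpace ℝ (Fin m) => u₀ + z)
          volume volume := (measurePreserving_add_left volume u₀).quasiMeasurePreserving
      exact h1.comp_quasiMeasurePreserving (hq2.comp hq1)
  -- pointwise limits
  have hsin : ∀ᶠ φ in nhdsWithin (Real.pi / 2) (Set.Iio (Real.pi / 2)),
      0 < Real.sin φ ∧ Real.sin φ < 1 ∧ 0 < Real.cos φ := by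
    have h1 : ∀ᶠ φ in nhdsWithin (Real.pi / 2) (Set.Iio (Real.pi / 2)), 0 < φ :=
      nhdsWithin_le_nhds (lt_mem_nhds (by have := Real.pi_pos; linarith only [this]))
    filter_upwards [h1, self_mem_nhdsWithin] with φ hp1 hp2
    have hp2' : φ < Real.pi / 2 := hp2
    have hcos : 0 < Real.cos φ := Real.cos_pos_of_mem_Ioo ⟨by linarith only [hp1, hp2'], hp2'⟩
    refine ⟨Real.sin_pos_of_pos_of_lt_pi hp1 (by linarith only [hp1, hp2']), ?_, hcos⟩
    have := Real.sin_sq_add_cos_sq φ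
    nlinarith only [this, hcos]
  have hsint : Tendsto Real.sin (nhdsWithin (Real.pi / 2) (Set.Iio (Real.pi / 2))) (𝓝 1) := by
    have := (Real.continuous_sin.tendsto (Real.pi / 2)).mono_left
      (nhdsWithin_le_nhds (s := Set.Iio (Real.pi / 2)))
    rwa [Real.sin_pi_div_two] at this
  have hcct : Tendsto cc (nhdsWithin (Real.pi / 2) (Set.Iio (Real.pi / 2))) (𝓝 0) := by
    have h1 : Tendsto (fun φ => Real.sqrt (2 * (1 - Real.sin φ)))
        (nhdsWithin (Real.pi / 2) (Set.Iio (Real.pi / 2))) (𝓝 (Real.sqrt (2 * (1 - 1)))) :=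
      (Real.continuous_sqrt.tendsto _).comp ((hsint.const_sub 1).const_mul 2)
    have h0 : Real.sqrt (2 * (1 - 1)) = 0 := by norm_num
    rw [h0] at h1
    exact h1
  have hccpos : ∀ᶠ φ in nhdsWithin (Real.pi / 2) (Set.Iio (Real.pi / 2)), 0 < cc φ := by
    filter_upwards [hsin] with φ hφ
    exact Real.sqrt_pos.mpr (by linarith only [hφ])
  have hfd : HasFDerivAt f L u₀ :=
    ((hf.differentiableOn (by norm_num)).differentiableAt (hU.mem_nhds hu)).hasFDerivAt
  have hlim : ∀ z, Tendsto (fun φ => K φ z) (nhdsWithin (Real.pi / 2) (Set.Iio (Real.pi / 2)))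
      (𝓝 (ENNReal.ofReal ((2 / (1 + ‖L z‖ ^ 2)) ^ m * D u₀))) := by
    intro z
    have hu' : Tendsto (fun φ => u₀ + cc φ • z) (nhdsWithin (Real.pi / 2) (Set.Iio (Real.pi / 2)))
        (𝓝 u₀) := by
      have := (tendsto_const_nhds (x := u₀)).add (hcct.smul_const z)
      simpa only [zero_smul, add_zero] using this
    have hball : ∀ᶠ φ in nhdsWithin (Real.pi / 2) (Set.Iio (Real.pi / 2)),
        u₀ + cc φ • z ∈ Metric.ball u₀ δ := hu'.eventually (Metric.ball_mem_nhds u₀ hδ)
    have hquot : Tendsto (fun φ => (cc φ)⁻¹ • (f (u₀ + cc φ • z) - f u₀))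
        (nhdsWithin (Real.pi / 2) (Set.Iio (Real.pi / 2))) (𝓝 (L z)) := by
      have hne : ∀ᶠ φ in nhdsWithin (Real.pi / 2) (Set.Iio (Real.pi / 2)), cc φ ≠ 0 :=
        hccpos.mono fun φ h => h.ne'
      have h2 : Tendsto (fun φ => (cc φ)⁻¹ • (f (u₀ + cc φ • z) - f u₀))
          (nhdsWithin (Real.pi / 2) (Set.Iio (Real.pi / 2))) (𝓝 (L z)) := by
        have hder : HasDerivAt (fun t : ℝ => f (u₀ + t • z)) (L z) 0 := by
          have h3 : HasDerivAt (fun t : ℝ => u₀ + t • z) z 0 := by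
            have := ((hasDerivAt_id (0 : ℝ)).smul_const z).const_add u₀
            simpa using this
          have h4 : HasFDerivAt f L (u₀ + (0 : ℝ) • z) := by simpa only [zero_smul, add_zero] using hfd
          exact h4.comp_hasDerivAt 0 h3
        have h5 := hder.tendsto_slope_zero
        simp only [zero_add, zero_smul, add_zero] at h5
        have h6 : Tendsto cc (nhdsWithin (Real.pi / 2) (Set.Iio (Real.pi / 2)))
            (nhdsWithin 0 {0}ᶜ) := tendsto_nhdsWithin_iff.mpr ⟨hcct, hne⟩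
        exact h5.comp h6
      exact h2
    have hreal : Tendsto (fun φ => (2 * (1 + Real.sin φ)) ^ ((m : ℝ) / 2) /
        (1 + Real.sin φ * ‖(cc φ)⁻¹ • (f (u₀ + cc φ • z) - f u₀)‖ ^ 2) ^ m *
        D (u₀ + cc φ • z)) (nhdsWithin (Real.pi / 2) (Set.Iio (Real.pi / 2)))
        (𝓝 ((2 * (1 + 1)) ^ ((m : ℝ) / 2) / (1 + 1 * ‖L z‖ ^ 2) ^ m * D u₀)) := by
      apply Tendsto.mul
      · apply Tendsto.div
        · exact ((hsint.const_add 1).const_mul 2).rpow_const (Or.inl (by norm_num))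
        · exact ((hsint.mul (hquot.norm.pow 2)).const_add 1).pow m
        · (clear * -; positivity)
      · exact ((hDc.continuousAt (hU.mem_nhds hu)).tendsto).comp hu'
    have hval : (2 * (1 + 1) : ℝ) ^ ((m : ℝ) / 2) / (1 + 1 * ‖L z‖ ^ 2) ^ m * D u₀
        = (2 / (1 + ‖L z‖ ^ 2)) ^ m * D u₀ := by
      have : (2 * (1 + 1) : ℝ) ^ ((m : ℝ) / 2) = 2 ^ m := by
        rw [show (2 * (1 + 1) : ℝ) = 2 ^ (2 : ℝ) by norm_num, ← Real.rpow_mul (by norm_num)]
        rw [show (2 : ℝ) * ((m : ℝ) / 2) = m by ring, Real.rpow_natCast]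
      rw [this, one_mul, div_pow]
    rw [hval] at hreal
    refine (ENNReal.tendsto_ofReal hreal).congr' ?_
    filter_upwards [hsin, hball, hccpos] with φ hφ hb hc
    simp only [hK]
    rw [indicator_of_mem hb]
    simp only [hg]
    rw [← ENNReal.ofReal_mul (pow_nonneg hc.le m), ← mul_assoc]
    congr 2
    -- algebra
    set κ : ℝ := 1 - Real.sin φ with hκ
    have hκ0 : 0 < κ := by rw [hκ]; linarith only [hφ]
    have hc2 : cc φ ^ 2 = 2 * κ := Real.sq_sqrt (by (clear * - hκ0; positivity))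
    have hcos2 : Real.cos φ ^ 2 = κ * (1 + Real.sin φ) := by
      rw [hκ]
      have := Real.sin_sq_add_cos_sq φ
      linear_combination this
    have hs : 1 - Real.sin φ * ⟪f (u₀ + cc φ • z), f u₀⟫ = κ * (1 + Real.sin φ *
        ‖(cc φ)⁻¹ • (f (u₀ + cc φ • z) - f u₀)‖ ^ 2) := by
      rw [norm_smul, mul_pow, norm_inv, Real.norm_eq_abs, inv_pow, sq_abs, hc2,
        @norm_sub_sq ℝ, hn _ (hsub hb), hn _ hu]
      simp only [RCLike.re_to_real]
      rw [hκ] at hκ0 ⊢
      field_simp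
      ring
    rw [hs, mul_pow]
    have h7 : (2 * (1 + Real.sin φ)) ^ ((m : ℝ) / 2) = cc φ ^ m * Real.cos φ ^ m / κ ^ m := by
      have h8 : 2 * (1 + Real.sin φ) = (cc φ * Real.cos φ / κ) ^ (2 : ℝ) := by
        rw [Real.rpow_two, div_pow, mul_pow, hc2, hcos2]
        (clear * - hκ0; field_simp)
      rw [h8, ← Real.rpow_mul (div_nonneg (mul_nonneg hc.le hφ.2.2.le) hκ0.le),
        show (2 : ℝ) * ((m : ℝ) / 2) = m by ring,
        Real.rpow_natCast, div_pow, mul_pow]
    rw [h7]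
    (clear * - hκ0 hc; field_simp)
  -- Fatou
  have hfatou := lintegral_liminf_le' (μ := (volume : Measure (EuclideanSpace ℝ (Fin m))))
    (f := K) (u := nhdsWithin (Real.pi / 2) (Set.Iio (Real.pi / 2))) hmeas
  have hne : (nhdsWithin (Real.pi / 2) (Set.Iio (Real.pi / 2))).NeBot := inferInstance
  have hlim' : ∀ z, liminf (fun φ => K φ z) (nhdsWithin (Real.pi / 2) (Set.Iio (Real.pi / 2)))
      = ENNReal.ofReal ((2 / (1 + ‖L z‖ ^ 2)) ^ m * D u₀) := fun z => (hlim z).liminf_eq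
  simp_rw [hlim'] at hfatou
  rw [lint_linear hm L hinj] at hfatou
  have hs0 : 0 < sphereVol m := by
    unfold sphereVol
    have := Real.Gamma_pos_of_pos (s := ((m : ℝ) + 1) / 2) (by (clear * - hm; positivity))
    have := Real.pi_pos
    positivity
  have hlt : ENNReal.ofReal ((1 - ε) * sphereVol m) < liminf (fun φ => ∫⁻ z, K φ z)
      (nhdsWithin (Real.pi / 2) (Set.Iio (Real.pi / 2))) := by
    refine lt_of_lt_of_le ?_ hfatou
    rw [ENNReal.ofReal_lt_ofReal_iff hs0]
    nlinarith only [hε, hs0]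
  have hev := eventually_lt_of_lt_liminf hlt
  filter_upwards [hev, hccpos] with φ h1 hc
  have h2 : ∫⁻ z, K φ z = ∫⁻ u in Metric.ball u₀ δ, g φ u := by
    rw [← lintegral_indicator Metric.isOpen_ball.measurableSet]
    rw [lint_scale u₀ hc ((Metric.ball u₀ δ).indicator (g φ)),
      ← lintegral_const_mul' _ _ ENNReal.ofReal_ne_top]
  rw [h2] at h1
  exact h1.le

end Vale.Agent.P224
end
end

section

section

namespace Vale.Agent.P224.FV

open MeasureTheory Set Real
open scoped Topology RealInnerProductSpace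

/-- the conformal factor -/
noncomputable def cf (φ s : ℝ) : ℝ := cos φ / (1 - s * sin φ)

lemma abs_sin_lt_one {φ : ℝ} (hφ : φ ∈ Ioo (-(π / 2)) (π / 2)) : |sin φ| < 1 := by
  have hc := cos_pos_of_mem_Ioo hφ
  have := sin_sq_add_cos_sq φ
  rw [← sq_lt_one_iff_abs_lt_one]
  nlinarith

lemma den_pos {φ s : ℝ} (hφ : φ ∈ Ioo (-(π / 2)) (π / 2)) (hs : |s| ≤ 1) :
    0 < 1 - s * sin φ := by
  have h1 := abs_sin_lt_one hφ
  have h2 : |s * sin φ| < 1 := by
    rw [abs_mul]
    calc |s| * |sin φ| ≤ 1 * |sin φ| := by (clear * - hs; gcongr)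
      _ < 1 := by linarith
  have := (abs_lt.mp h2).2
  linarith only [this]

lemma den_ge {φ s : ℝ} (hs : |s| ≤ 1) : 1 - |sin φ| ≤ 1 - s * sin φ := by
  have : s * sin φ ≤ |sin φ| := by
    calc s * sin φ ≤ |s * sin φ| := le_abs_self _
      _ = |s| * |sin φ| := abs_mul _ _
      _ ≤ 1 * |sin φ| := by gcongr
      _ = |sin φ| := one_mul _
  linarith only [this]

lemma cf_pos {φ s : ℝ} (hφ : φ ∈ Ioo (-(π / 2)) (π / 2)) (hs : |s| ≤ 1) : 0 < cf φ s :=
  div_pos (cos_pos_of_mem_Ioo hφ) (den_pos hφ hs)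

lemma hasDerivAt_cf {φ s : ℝ} (hφ : φ ∈ Ioo (-(π / 2)) (π / 2)) (hs : |s| ≤ 1) :
    HasDerivAt (fun φ => cf φ s) ((s - sin φ) / (1 - s * sin φ) ^ 2) φ := by
  have hd := den_pos hφ hs
  have h1 : HasDerivAt (fun φ => 1 - s * sin φ) (-(s * cos φ)) φ := by
    simpa only using ((hasDerivAt_sin φ).const_mul s).const_sub 1
  have h2 := (hasDerivAt_cos φ).fun_div h1 hd.ne'
  unfold cf
  refine h2.congr_deriv ?_
  congr 1
  have : cos φ ^ 2 = 1 - sin φ ^ 2 := by have := sin_sq_add_cos_sq φ; (clear * - this; linarith)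
  linear_combination s * this

lemma hasDerivAt_cf_pow {φ s : ℝ} (m : ℕ) (hφ : φ ∈ Ioo (-(π / 2)) (π / 2)) (hs : |s| ≤ 1) :
    HasDerivAt (fun φ => cf φ s ^ m)
      (m * cos φ ^ (m - 1) * ((s - sin φ) / (1 - s * sin φ) ^ (m + 1))) φ := by
  have h := (hasDerivAt_cf hφ hs).fun_pow m
  refine h.congr_deriv ?_
  have hd := (den_pos hφ hs).ne'
  unfold cf
  rcases m with _ | m
  · simp only [CharP.cast_eq_zero, zero_tsub, pow_zero, mul_one, zero_mul, zero_add, pow_one]
  · simp only [Nat.add_sub_cancel]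
    rw [div_pow]
    field_simp
    ring

/-- differentiation under the integral sign -/
lemma hasDerivAt_integral_cf {Y : Type*} [MeasurableSpace Y] (ν : Measure Y) [IsFiniteMeasure ν]
    (m : ℕ) {s g : Y → ℝ} (hs : Measurable s) (hg : Measurable g) (hs1 : ∀ y, |s y| ≤ 1)
    (hg1 : ∀ y, |g y| ≤ 1) {φ : ℝ} (hφ : φ ∈ Ioo (-(π / 2)) (π / 2)) :
    HasDerivAt (fun φ => ∫ y, g y * cf φ (s y) ^ m ∂ν)
      (m * cos φ ^ (m - 1) * ∫ y, g y * ((s y - sin φ) / (1 - s y * sin φ) ^ (m + 1)) ∂ν) φ := by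
  -- a compact neighbourhood
  obtain ⟨a, ha0, haφ, haπ⟩ : ∃ a, 0 < a ∧ |φ| < a ∧ a < π / 2 := by
    have h1 : |φ| < π / 2 := abs_lt.mpr hφ
    refine ⟨(|φ| + π / 2) / 2, ?_, ?_, ?_⟩
    · have := abs_nonneg φ; have := pi_pos; (clear * -; positivity)
    · linarith only [h1]
    · linarith only [h1]
  set S := Ioo (-a) a with hS
  have hSn : S ∈ 𝓝 φ := isOpen_Ioo.mem_nhds (abs_lt.mp haφ)
  have hSsub : ∀ x ∈ S, x ∈ Ioo (-(π / 2)) (π / 2) := fun x hx =>
    ⟨by have := hx.1; linarith only [haπ, this], by have := hx.2; linarith only [haπ, this]⟩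
  have hsin : ∀ x ∈ S, |sin x| ≤ sin a := by
    intro x hx
    rw [abs_le]
    constructor
    · rw [← sin_neg]
      apply sin_le_sin_of_le_of_le_pi_div_two
      · linarith only [haπ]
      · have := hx.2; linarith only [haπ, this]
      · have := hx.1; linarith only [this]
    · apply sin_le_sin_of_le_of_le_pi_div_two
      · have := hx.1; linarith only [haπ, this]
      · linarith only [haπ]
      · have := hx.2; linarith only [this]
  have hsa : sin a < 1 := by
    have := abs_sin_lt_one (φ := a) ⟨by linarith, haπ⟩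
    exact (abs_lt.mp this).2
  set C : ℝ := m * (2 / (1 - sin a) ^ (m + 1)) with hC
  have hmeas : ∀ x, Measurable fun y => g y * cf x (s y) ^ m := by
    intro x
    unfold cf
    (clear * - hg hs; fun_prop)
  have hmeas' : Measurable fun y => g y * (m * cos φ ^ (m - 1) *
      ((s y - sin φ) / (1 - s y * sin φ) ^ (m + 1))) := by
    fun_prop
  have hint : Integrable (fun y => g y * cf φ (s y) ^ m) ν := by
    refine Integrable.of_bound (hmeas φ).aestronglyMeasurable ((1 / (1 - |sin φ|)) ^ m) ?_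
    filter_upwards with y
    rw [norm_mul, Real.norm_eq_abs, Real.norm_eq_abs, abs_of_nonneg (pow_nonneg (cf_pos hφ (hs1 y)).le m)]
    have h1 : cf φ (s y) ≤ 1 / (1 - |sin φ|) := by
      unfold cf
      have h2 := den_ge (φ := φ) (hs1 y)
      have h3 : 0 < 1 - |sin φ| := by have := abs_sin_lt_one hφ; linarith only [this]
      gcongr
      exact cos_le_one φ
    calc |g y| * cf φ (s y) ^ m ≤ 1 * cf φ (s y) ^ m := by
          gcongr
          · exact pow_nonneg (cf_pos hφ (hs1 y)).le m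
          · exact hg1 y
      _ = cf φ (s y) ^ m := one_mul _
      _ ≤ _ := pow_le_pow_left₀ (cf_pos hφ (hs1 y)).le h1 m
  have key := hasDerivAt_integral_of_dominated_loc_of_deriv_le (μ := ν) (s := S) (x₀ := φ)
    (F := fun x y => g y * cf x (s y) ^ m)
    (F' := fun x y => g y * (m * cos x ^ (m - 1) *
      ((s y - sin x) / (1 - s y * sin x) ^ (m + 1))))
    (bound := fun _ => C) hSn
    (Filter.Eventually.of_forall fun x => (hmeas x).aestronglyMeasurable) hint
    hmeas'.aestronglyMeasurable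
    (by
      filter_upwards with y
      intro x hx
      have hd : (1 - sin a) ≤ 1 - s y * sin x := by
        have h1 := den_ge (φ := x) (hs1 y)
        have h2 := hsin x hx
        linarith only [h1, h2]
      have h1a : 0 < 1 - sin a := by linarith only [hsa]
      have hdp : (1 - sin a) ^ (m + 1) ≤ (1 - s y * sin x) ^ (m + 1) :=
        pow_le_pow_left₀ h1a.le hd _
      rw [norm_mul, norm_mul, norm_mul, norm_div]
      simp only [Real.norm_eq_abs]
      have e1 : |cos x ^ (m - 1)| ≤ 1 := by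
        rw [abs_pow]
        exact pow_le_one₀ (abs_nonneg _) (abs_cos_le_one x)
      have e2 : |s y - sin x| ≤ 2 := by
        calc |s y - sin x| ≤ |s y| + |sin x| := abs_sub _ _
          _ ≤ 1 + 1 := add_le_add (hs1 y) (abs_sin_le_one x)
          _ = 2 := by norm_num
      have e3 : |(1 - s y * sin x) ^ (m + 1)| = (1 - s y * sin x) ^ (m + 1) :=
        abs_of_pos (pow_pos (h1a.trans_le hd) _)
      rw [e3, Nat.abs_cast]
      calc |g y| * ((m : ℝ) * |cos x ^ (m - 1)| * (|s y - sin x| / (1 - s y * sin x) ^ (m + 1)))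
          ≤ 1 * ((m : ℝ) * 1 * (2 / (1 - sin a) ^ (m + 1))) := by
            have hpp : 0 < (1 - s y * sin x) ^ (m + 1) := pow_pos (h1a.trans_le hd) _
            refine mul_le_mul (hg1 y) ?_ (by (clear * - hpp; (clear * - hpp; positivity))) zero_le_one
            (clear * - e1 e2 hsa hdp hpp; gcongr)
        _ = C := by rw [hC]; ring)
    (integrable_const C)
    (by
      filter_upwards with y
      intro x hx
      have := (hasDerivAt_cf_pow m (hSsub x hx) (hs1 y)).const_mul (g y)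
      exact this)
  have h2 := key.2
  refine h2.congr_deriv ?_
  rw [← integral_const_mul]
  refine integral_congr_ae ?_
  filter_upwards with y
  ring

set_option linter.unusedSectionVars false

section

variable {X : Type*} [MeasurableSpace X] {E : Type*} [NormedAddCommGroup E]
  [InnerProductSpace ℝ E] [MeasurableSpace E] [BorelSpace E] [SecondCountableTopology E]

/-- measurable unit vectors -/
structure Pts (p n : X → E) : Prop where
  mp : Measurable p
  mn : Measurable n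
  np : ∀ x, ‖p x‖ = 1
  nn : ∀ x, ‖n x‖ = 1

/-- the data of the two point method -/
structure TwoPt (μ : Measure X) (m : ℕ) (p n : X → E) : Prop extends Pts p n where
  id1 : ∀ z : X, ∀ φ ∈ Ioo (-(π / 2)) (π / 2),
    ∫ x, (⟪p x, p z⟫ - sin φ) / (1 - ⟪p x, p z⟫ * sin φ) ^ (m + 1) ∂μ
      = - sin φ * ∫ x, ⟪n x, p z⟫ ^ 2 / (1 - ⟪p x, p z⟫ * sin φ) ^ (m + 1) ∂μ
  id2 : ∀ z : X, ∀ φ ∈ Ioo (-(π / 2)) (π / 2),
    ∫ x, ⟪n x, n z⟫ * ((⟪p x, p z⟫ - sin φ) / (1 - ⟪p x, p z⟫ * sin φ) ^ (m + 1)) ∂μ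
      = ∫ x, ⟪n x, p z⟫ * ⟪p x, n z⟫ / (1 - ⟪p x, p z⟫ * sin φ) ^ (m + 1) ∂μ

variable {μ : Measure X} [IsFiniteMeasure μ] {m : ℕ} {p n : X → E}

lemma Pts.abs_pp (h : Pts p n) (x y : X) : |⟪p x, p y⟫| ≤ 1 := by
  have := abs_real_inner_le_norm (p x) (p y)
  rwa [h.np, h.np, mul_one] at this

lemma Pts.abs_nn (h : Pts p n) (x y : X) : |⟪n x, n y⟫| ≤ 1 := by
  have := abs_real_inner_le_norm (n x) (n y)
  rwa [h.nn, h.nn, mul_one] at this

lemma TwoPt.abs_np (h : TwoPt μ m p n) (x y : X) : |⟪n x, p y⟫| ≤ 1 := by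
  have := abs_real_inner_le_norm (n x) (p y)
  rwa [h.nn, h.np, mul_one] at this

/-- the conformal volume based at z -/
noncomputable def V1 (μ : Measure X) (m : ℕ) (p : X → E) (z : X) (φ : ℝ) : ℝ :=
  ∫ x, cf φ ⟪p x, p z⟫ ^ m ∂μ

/-- the two point conformal volume -/
noncomputable def JJ (μ : Measure X) (m : ℕ) (p : X → E) (φ : ℝ) : ℝ :=
  ∫ q, cf φ ⟪p q.1, p q.2⟫ ^ m ∂(μ.prod μ)

/-- the two point normal correlation -/
noncomputable def BB (μ : Measure X) (m : ℕ) (p n : X → E) (φ : ℝ) : ℝ :=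
  ∫ q, ⟪n q.1, n q.2⟫ * cf φ ⟪p q.1, p q.2⟫ ^ m ∂(μ.prod μ)

/-- derivative of the conformal volume based at z -/
theorem TwoPt.hasDerivAt_V1 (h : TwoPt μ m p n) (z : X) {φ : ℝ}
    (hφ : φ ∈ Ioo (-(π / 2)) (π / 2)) :
    HasDerivAt (V1 μ m p z) (-(sin φ * (m * cos φ ^ (m - 1) *
      ∫ x, ⟪n x, p z⟫ ^ 2 / (1 - ⟪p x, p z⟫ * sin φ) ^ (m + 1) ∂μ))) φ := by
  have hs : Measurable (fun x => ⟪p x, p z⟫) := h.mp.inner measurable_const
  have h1 := hasDerivAt_integral_cf μ m (g := fun _ => 1) hs measurable_const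
    (fun x => h.abs_pp x z) (by simp) hφ
  simp only [one_mul] at h1
  rw [h.id1 z φ hφ] at h1
  unfold V1
  refine h1.congr_deriv ?_
  ring

lemma TwoPt.integrable_ker (h : TwoPt μ m p n) {g : X × X → ℝ} (hg : Measurable g)
    (hg1 : ∀ q, |g q| ≤ 2) {φ : ℝ} (hφ : φ ∈ Ioo (-(π / 2)) (π / 2)) (k : ℕ) :
    Integrable (fun q => g q / (1 - ⟪p q.1, p q.2⟫ * sin φ) ^ k) (μ.prod μ) := by
  have hs : Measurable (fun q : X × X => ⟪p q.1, p q.2⟫) :=
    (h.mp.comp measurable_fst).inner (h.mp.comp measurable_snd)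
  have hm : Measurable (fun q : X × X => g q / (1 - ⟪p q.1, p q.2⟫ * sin φ) ^ k) := by
    fun_prop
  refine Integrable.of_bound hm.aestronglyMeasurable (2 / (1 - |sin φ|) ^ k) ?_
  filter_upwards with q
  have h1 := den_ge (φ := φ) (h.abs_pp q.1 q.2)
  have h2 : 0 < 1 - |sin φ| := by have := abs_sin_lt_one hφ; linarith only [this]
  have h3 : (1 - |sin φ|) ^ k ≤ (1 - ⟪p q.1, p q.2⟫ * sin φ) ^ k := pow_le_pow_left₀ h2.le h1 _
  rw [norm_div, Real.norm_eq_abs, Real.norm_eq_abs,
    abs_of_pos (pow_pos (h2.trans_le h1) k)]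
  gcongr
  exact hg1 q

/-- derivatives of the two point functions, and the basic inequality -/
theorem TwoPt.main (h : TwoPt μ m p n) : ∃ a b : ℝ → ℝ, ∀ φ ∈ Ioo (-(π / 2)) (π / 2),
    HasDerivAt (JJ μ m p) (-(sin φ * a φ)) φ ∧ HasDerivAt (BB μ m p n) (b φ) φ ∧
      |b φ| ≤ a φ := by
  refine ⟨fun φ => m * cos φ ^ (m - 1) *
      ∫ q, ⟪n q.1, p q.2⟫ ^ 2 / (1 - ⟪p q.1, p q.2⟫ * sin φ) ^ (m + 1) ∂(μ.prod μ),
    fun φ => m * cos φ ^ (m - 1) *
      ∫ q, ⟪n q.1, p q.2⟫ * ⟪p q.1, n q.2⟫ / (1 - ⟪p q.1, p q.2⟫ * sin φ) ^ (m + 1)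
        ∂(μ.prod μ), ?_⟩
  intro φ hφ
  have mp1 : Measurable (fun q : X × X => p q.1) := h.mp.comp measurable_fst
  have mp2 : Measurable (fun q : X × X => p q.2) := h.mp.comp measurable_snd
  have mn1 : Measurable (fun q : X × X => n q.1) := h.mn.comp measurable_fst
  have mn2 : Measurable (fun q : X × X => n q.2) := h.mn.comp measurable_snd
  have hs : Measurable (fun q : X × X => ⟪p q.1, p q.2⟫) := mp1.inner mp2
  have hρ : Measurable (fun q : X × X => ⟪n q.1, n q.2⟫) := mn1.inner mn2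
  have ht : Measurable (fun q : X × X => ⟪n q.1, p q.2⟫) := mn1.inner mp2
  have ht' : Measurable (fun q : X × X => ⟪p q.1, n q.2⟫) := mp1.inner mn2
  have abs_pn : ∀ x y, |⟪p x, n y⟫| ≤ 1 := by
    intro x y; rw [real_inner_comm]; exact h.abs_np y x
  have hcos : 0 < cos φ := cos_pos_of_mem_Ioo hφ
  -- integrability
  have i1 : Integrable (fun q : X × X => (⟪p q.1, p q.2⟫ - sin φ) /
      (1 - ⟪p q.1, p q.2⟫ * sin φ) ^ (m + 1)) (μ.prod μ) :=
    h.integrable_ker (g := fun q => ⟪p q.1, p q.2⟫ - sin φ) (hs.sub_const _) (fun q => by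
      calc |⟪p q.1, p q.2⟫ - sin φ| ≤ |⟪p q.1, p q.2⟫| + |sin φ| := abs_sub _ _
        _ ≤ 1 + 1 := add_le_add (h.abs_pp _ _) (abs_sin_le_one φ)
        _ = 2 := by norm_num) hφ (m + 1)
  have i2 : Integrable (fun q : X × X => ⟪n q.1, p q.2⟫ ^ 2 /
      (1 - ⟪p q.1, p q.2⟫ * sin φ) ^ (m + 1)) (μ.prod μ) :=
    h.integrable_ker (g := fun q => ⟪n q.1, p q.2⟫ ^ 2) (ht.pow_const 2) (fun q => by
      rw [abs_pow]
      calc |⟪n q.1, p q.2⟫| ^ 2 ≤ 1 ^ 2 := by gcongr; exact h.abs_np _ _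
        _ ≤ 2 := by norm_num) hφ (m + 1)
  have i2' : Integrable (fun q : X × X => ⟪p q.1, n q.2⟫ ^ 2 /
      (1 - ⟪p q.1, p q.2⟫ * sin φ) ^ (m + 1)) (μ.prod μ) :=
    h.integrable_ker (g := fun q => ⟪p q.1, n q.2⟫ ^ 2) (ht'.pow_const 2) (fun q => by
      rw [abs_pow]
      calc |⟪p q.1, n q.2⟫| ^ 2 ≤ 1 ^ 2 := by gcongr; exact abs_pn _ _
        _ ≤ 2 := by norm_num) hφ (m + 1)
  have i3 : Integrable (fun q : X × X => ⟪n q.1, p q.2⟫ * ⟪p q.1, n q.2⟫ /
      (1 - ⟪p q.1, p q.2⟫ * sin φ) ^ (m + 1)) (μ.prod μ) :=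
    h.integrable_ker (g := fun q => ⟪n q.1, p q.2⟫ * ⟪p q.1, n q.2⟫) (ht.mul ht') (fun q => by
      rw [abs_mul]
      calc |⟪n q.1, p q.2⟫| * |⟪p q.1, n q.2⟫| ≤ 1 * 1 :=
            mul_le_mul (h.abs_np _ _) (abs_pn _ _) (abs_nonneg _) (by norm_num)
        _ ≤ 2 := by norm_num) hφ (m + 1)
  have i4 : Integrable (fun q : X × X => ⟪n q.1, n q.2⟫ * ((⟪p q.1, p q.2⟫ - sin φ) /
      (1 - ⟪p q.1, p q.2⟫ * sin φ) ^ (m + 1))) (μ.prod μ) := by
    have := h.integrable_ker (g := fun q => ⟪n q.1, n q.2⟫ * (⟪p q.1, p q.2⟫ - sin φ))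
      (hρ.mul (hs.sub_const _)) (fun q => by
      rw [abs_mul]
      calc |⟪n q.1, n q.2⟫| * |⟪p q.1, p q.2⟫ - sin φ| ≤ 1 * 2 := by
            refine mul_le_mul (h.abs_nn _ _) ?_ (abs_nonneg _) (by norm_num)
            calc |⟪p q.1, p q.2⟫ - sin φ| ≤ |⟪p q.1, p q.2⟫| + |sin φ| := abs_sub _ _
              _ ≤ 1 + 1 := add_le_add (h.abs_pp _ _) (abs_sin_le_one φ)
              _ = 2 := by norm_num
        _ = 2 := by norm_num) hφ (m + 1)
    refine this.congr ?_
    filter_upwards with q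
    rw [mul_div_assoc]
  -- Fubini
  have f1 : ∫ q, (⟪p q.1, p q.2⟫ - sin φ) / (1 - ⟪p q.1, p q.2⟫ * sin φ) ^ (m + 1) ∂(μ.prod μ)
      = - sin φ * ∫ q, ⟪n q.1, p q.2⟫ ^ 2 / (1 - ⟪p q.1, p q.2⟫ * sin φ) ^ (m + 1)
        ∂(μ.prod μ) := by
    rw [integral_prod_symm _ i1, integral_prod_symm _ i2, ← integral_const_mul]
    refine integral_congr_ae ?_
    filter_upwards with z
    exact h.id1 z φ hφ
  have f2 : ∫ q, ⟪n q.1, n q.2⟫ * ((⟪p q.1, p q.2⟫ - sin φ) /
        (1 - ⟪p q.1, p q.2⟫ * sin φ) ^ (m + 1)) ∂(μ.prod μ)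
      = ∫ q, ⟪n q.1, p q.2⟫ * ⟪p q.1, n q.2⟫ / (1 - ⟪p q.1, p q.2⟫ * sin φ) ^ (m + 1)
        ∂(μ.prod μ) := by
    rw [integral_prod_symm _ i4, integral_prod_symm _ i3]
    refine integral_congr_ae ?_
    filter_upwards with z
    exact h.id2 z φ hφ
  -- symmetry
  have f3 : ∫ q, ⟪p q.1, n q.2⟫ ^ 2 / (1 - ⟪p q.1, p q.2⟫ * sin φ) ^ (m + 1) ∂(μ.prod μ)
      = ∫ q, ⟪n q.1, p q.2⟫ ^ 2 / (1 - ⟪p q.1, p q.2⟫ * sin φ) ^ (m + 1) ∂(μ.prod μ) := by
    rw [← integral_prod_swap]
    refine integral_congr_ae ?_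
    filter_upwards with q
    simp only [Prod.fst_swap, Prod.snd_swap]
    rw [real_inner_comm (n q.1) (p q.2), real_inner_comm (p q.1) (p q.2)]
  refine ⟨?_, ?_, ?_⟩
  · have h1 := hasDerivAt_integral_cf (μ.prod μ) m (g := fun _ => 1) hs measurable_const
      (fun q => h.abs_pp q.1 q.2) (by simp) hφ
    simp only [one_mul] at h1
    rw [f1] at h1
    unfold JJ
    refine h1.congr_deriv ?_
    ring
  · have h1 := hasDerivAt_integral_cf (μ.prod μ) m (g := fun q => ⟪n q.1, n q.2⟫) hs hρ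
      (fun q => h.abs_pp q.1 q.2) (fun q => h.abs_nn q.1 q.2) hφ
    rw [f2] at h1
    exact h1
  · have hc : (0 : ℝ) ≤ m * cos φ ^ (m - 1) := by (clear * - hcos; positivity)
    simp only
    rw [abs_mul, abs_of_nonneg hc]
    refine mul_le_mul_of_nonneg_left ?_ hc
    have hpos : ∀ q : X × X, 0 < (1 - ⟪p q.1, p q.2⟫ * sin φ) ^ (m + 1) := fun q =>
      pow_pos (den_pos hφ (h.abs_pp q.1 q.2)) _
    calc |∫ q, ⟪n q.1, p q.2⟫ * ⟪p q.1, n q.2⟫ / (1 - ⟪p q.1, p q.2⟫ * sin φ) ^ (m + 1)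
          ∂(μ.prod μ)|
        ≤ ∫ q, (⟪n q.1, p q.2⟫ ^ 2 / (1 - ⟪p q.1, p q.2⟫ * sin φ) ^ (m + 1)
          + ⟪p q.1, n q.2⟫ ^ 2 / (1 - ⟪p q.1, p q.2⟫ * sin φ) ^ (m + 1)) / 2 ∂(μ.prod μ) := by
          rw [abs_le]
          have iabs := (i2.add i2').div_const 2
          constructor
          · rw [← integral_neg]
            refine integral_mono iabs.neg i3 fun q => ?_
            have := hpos q
            simp only
            rw [← add_div, div_div, ← neg_div, div_le_div_iff₀ (by (clear * - this; positivity)) (by (clear * - this; positivity))]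
            nlinarith only [this, sq_nonneg (⟪n q.1, p q.2⟫ + ⟪p q.1, n q.2⟫)]
          · refine integral_mono i3 iabs fun q => ?_
            have := hpos q
            simp only
            rw [← add_div, div_div, div_le_div_iff₀ (by (clear * - this; positivity)) (by (clear * - this; positivity))]
            nlinarith only [this, sq_nonneg (⟪n q.1, p q.2⟫ - ⟪p q.1, n q.2⟫)]
      _ = _ := by
          rw [integral_div, integral_add i2 i2', f3]
          ring

end

end Vale.Agent.P224.FV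
end
end

section

section

namespace Vale.Agent.P224.FV

open MeasureTheory Set Real Filter
open scoped Topology

set_option linter.unusedSectionVars false

section

variable {X : Type*} [MeasurableSpace X] {μ : Measure X} [IsFiniteMeasure μ]

/-- weighted kernel integrals -/
noncomputable def EE (μ : Measure X) (s : X → ℝ) (k : ℕ) (g : X → ℝ) (φ : ℝ) : ℝ :=
  ∫ x, g x * DD k φ (s x) ∂μ

lemma DD_le {k : ℕ} {φ s : ℝ} (hφ : φ ∈ Ioo (-(π / 2)) (π / 2)) (hs : |s| ≤ 1) :
    DD k φ s ≤ ((1 - |sin φ|) ^ k)⁻¹ := by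
  unfold DD
  have h1 := den_ge (φ := φ) hs
  have h2 : 0 < 1 - |sin φ| := by have := abs_sin_lt_one hφ; linarith only [this]
  have h3 : (1 - |sin φ|) ^ k ≤ (1 - s * sin φ) ^ k := pow_le_pow_left₀ h2.le h1 _
  exact inv_anti₀ (by (clear * - h2; positivity)) h3

lemma DD_pos' {k : ℕ} {φ s : ℝ} (hφ : φ ∈ Ioo (-(π / 2)) (π / 2)) (hs : |s| ≤ 1) :
    0 < DD k φ s := DD_pos (den_pos hφ hs)

lemma meas_DD {s : X → ℝ} (hs : Measurable s) (k : ℕ) (φ : ℝ) :
    Measurable (fun x => DD k φ (s x)) := by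
  unfold DD
  fun_prop

lemma int_EE {s g : X → ℝ} (hs : Measurable s) (hg : Measurable g) (hs1 : ∀ x, |s x| ≤ 1) {C : ℝ}
    (hg1 : ∀ x, |g x| ≤ C) {φ : ℝ} (hφ : φ ∈ Ioo (-(π / 2)) (π / 2)) (k : ℕ) :
    Integrable (fun x => g x * DD k φ (s x)) μ := by
  refine Integrable.of_bound (hg.mul (meas_DD hs k φ)).aestronglyMeasurable
    (C * ((1 - |sin φ|) ^ k)⁻¹) ?_
  filter_upwards with x
  have h1 := DD_le (k := k) hφ (hs1 x)
  have h2 := DD_pos' (k := k) hφ (hs1 x)
  rw [norm_mul, Real.norm_eq_abs, Real.norm_eq_abs, abs_of_pos h2]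
  exact mul_le_mul (hg1 x) h1 h2.le ((abs_nonneg _).trans (hg1 x))

/-- differentiation under the integral sign -/
lemma hasDerivAt_EE {s g : X → ℝ} (hs : Measurable s) (hg : Measurable g)
    (hs1 : ∀ x, |s x| ≤ 1) {C : ℝ} (hg1 : ∀ x, |g x| ≤ C) (k : ℕ) {φ : ℝ}
    (hφ : φ ∈ Ioo (-(π / 2)) (π / 2)) :
    HasDerivAt (EE μ s k g) (k * cos φ * EE μ s (k + 1) (fun x => g x * s x) φ) φ := by
  obtain ⟨a, ha0, haφ, haπ⟩ : ∃ a, 0 < a ∧ |φ| < a ∧ a < π / 2 := by
    have h1 : |φ| < π / 2 := abs_lt.mpr hφ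
    refine ⟨(|φ| + π / 2) / 2, ?_, ?_, ?_⟩
    · have := abs_nonneg φ; have := pi_pos; (clear * -; positivity)
    · linarith
    · linarith only [h1]
  set S := Ioo (-a) a with hS
  have hSn : S ∈ 𝓝 φ := isOpen_Ioo.mem_nhds (abs_lt.mp haφ)
  have hSsub : ∀ x ∈ S, x ∈ Ioo (-(π / 2)) (π / 2) := fun x hx =>
    ⟨by have := hx.1; linarith only [haπ, this], by have := hx.2; linarith only [haπ, this]⟩
  have hsin : ∀ x ∈ S, |sin x| ≤ sin a := by
    intro x hx
    rw [abs_le]
    constructor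
    · rw [← sin_neg]
      apply sin_le_sin_of_le_of_le_pi_div_two
      · linarith only [haπ]
      · have := hx.2; linarith only [haπ, this]
      · have := hx.1; linarith only [this]
    · apply sin_le_sin_of_le_of_le_pi_div_two
      · have := hx.1; linarith only [haπ, this]
      · linarith only [haπ]
      · have := hx.2; linarith only [this]
  have hsa : sin a < 1 := by
    have := abs_sin_lt_one (φ := a) ⟨by linarith only [ha0, haπ], haπ⟩
    exact (abs_lt.mp this).2
  have h1a : 0 < 1 - sin a := by linarith only [hsa]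
  have hC0 : ∀ x : X, 0 ≤ C := fun x => (abs_nonneg _).trans (hg1 x)
  have key := hasDerivAt_integral_of_dominated_loc_of_deriv_le (μ := μ) (s := S) (x₀ := φ)
    (F := fun ψ x => g x * DD k ψ (s x))
    (F' := fun ψ x => g x * (k * (s x * cos ψ) * DD (k + 1) ψ (s x)))
    (bound := fun _ => C * (k * ((1 - sin a) ^ (k + 1))⁻¹)) hSn
    (Filter.Eventually.of_forall fun ψ => (hg.mul (meas_DD hs k ψ)).aestronglyMeasurable)
    (int_EE hs hg hs1 hg1 hφ k)
    ((hg.mul ((measurable_const.mul (hs.mul_const _)).mul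
      (meas_DD hs (k + 1) φ))).aestronglyMeasurable)
    (by
      filter_upwards with x
      intro ψ hψ
      have hψ' := hSsub ψ hψ
      have h2 := DD_pos' (k := k + 1) hψ' (hs1 x)
      have h3 : DD (k + 1) ψ (s x) ≤ ((1 - sin a) ^ (k + 1))⁻¹ := by
        refine (DD_le hψ' (hs1 x)).trans ?_
        have h4 := hsin ψ hψ
        apply inv_anti₀ (by (clear * - hsa; (clear * - hsa; positivity)))
        exact pow_le_pow_left₀ h1a.le (by linarith only [h4]) _
      rw [norm_mul, norm_mul, norm_mul, norm_mul]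
      simp only [Real.norm_eq_abs]
      rw [abs_of_pos h2, Nat.abs_cast]
      have h5 : |s x| * |cos ψ| ≤ 1 := by
        calc |s x| * |cos ψ| ≤ 1 * 1 :=
              mul_le_mul (hs1 x) (abs_cos_le_one ψ) (abs_nonneg _) zero_le_one
          _ = 1 := one_mul _
      have h6 : (k : ℝ) * (|s x| * |cos ψ|) * DD (k + 1) ψ (s x) ≤
          k * ((1 - sin a) ^ (k + 1))⁻¹ := by
        have : (k : ℝ) * (|s x| * |cos ψ|) ≤ k := by
          calc (k : ℝ) * (|s x| * |cos ψ|) ≤ k * 1 := by (clear * - h5; gcongr)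
            _ = k := mul_one _
        exact mul_le_mul this h3 h2.le (by (clear * -; positivity))
      exact mul_le_mul (hg1 x) h6 (by (clear * - h2; (clear * - h2; positivity))) (hC0 x))
    (integrable_const _)
    (by
      filter_upwards with x
      intro ψ hψ
      exact (hasDerivAt_DD_phi (den_pos (hSsub ψ hψ) (hs1 x)).ne').const_mul (g x))
  have h2 := key.2
  unfold EE
  refine h2.congr_deriv ?_
  rw [← integral_const_mul]
  refine integral_congr_ae ?_
  filter_upwards with x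
  ring

lemma EE_s {s g : X → ℝ} (hs : Measurable s) (hg : Measurable g)
    (hs1 : ∀ x, |s x| ≤ 1) {C : ℝ} (hg1 : ∀ x, |g x| ≤ C) (k : ℕ) {φ : ℝ}
    (hφ : φ ∈ Ioo (-(π / 2)) (π / 2)) :
    sin φ * EE μ s (k + 1) (fun x => g x * s x) φ = EE μ s (k + 1) g φ - EE μ s k g φ := by
  unfold EE
  rw [← integral_const_mul, ← integral_sub (int_EE hs hg hs1 hg1 hφ _) (int_EE hs hg hs1 hg1 hφ _)]
  refine integral_congr_ae ?_
  filter_upwards with x
  rw [DD_succ (k := k) (den_pos hφ (hs1 x)).ne']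
  ring

/-- derivative of the normalised integrals -/
lemma hasDerivAt_cosEE {s g : X → ℝ} (hs : Measurable s) (hg : Measurable g)
    (hs1 : ∀ x, |s x| ≤ 1) {C : ℝ} (hg1 : ∀ x, |g x| ≤ C) (j k : ℕ) {φ : ℝ}
    (hφ : φ ∈ Ioo 0 (π / 2)) :
    HasDerivAt (fun φ => cos φ ^ (j + 1) * EE μ s k g φ)
      (cos φ ^ j / sin φ * (-((j : ℝ) + 1) * sin φ ^ 2 * EE μ s k g φ
        + k * cos φ ^ 2 * (EE μ s (k + 1) g φ - EE μ s k g φ))) φ := by
  have hφ' : φ ∈ Ioo (-(π / 2)) (π / 2) := ⟨by linarith only [hφ.1, pi_pos], hφ.2⟩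
  have hsin : 0 < sin φ := sin_pos_of_pos_of_lt_pi hφ.1 (by linarith only [hφ.2, pi_pos])
  have h1 := ((Real.hasDerivAt_cos φ).fun_pow (j + 1)).fun_mul
    (hasDerivAt_EE (μ := μ) hs hg hs1 hg1 k hφ')
  refine h1.congr_deriv ?_
  rw [← EE_s hs hg hs1 hg1 k hφ']
  simp only [Nat.add_sub_cancel]
  push_cast
  field_simp
  ring

lemma EE_smul {s g : X → ℝ} (c : ℝ) (k : ℕ) (φ : ℝ) :
    EE μ s k (fun x => c * g x) φ = c * EE μ s k g φ := by
  unfold EE
  rw [← integral_const_mul]
  refine integral_congr_ae ?_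
  filter_upwards with x
  ring

lemma EE_nonneg {s g : X → ℝ} (hs1 : ∀ x, |s x| ≤ 1) (hg : ∀ x, 0 ≤ g x)
    (k : ℕ) {φ : ℝ} (hφ : φ ∈ Ioo (-(π / 2)) (π / 2)) : 0 ≤ EE μ s k g φ :=
  integral_nonneg fun x => mul_nonneg (hg x) (DD_pos' hφ (hs1 x)).le

end

end Vale.Agent.P224.FV
end
end

section

section

namespace Vale.Agent.P224.FV

open Real Set Filter MeasureTheory
open scoped Topology RealInnerProductSpace

/-- differential inequality from the recursion -/
lemma ineqT_of_rec {b : ℕ → ℝ} (hPG : PG b) {m : ℕ} {c : ℝ}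
    (hA0 : 0 ≤ (0 - c) * b 0) (hA1 : 0 ≤ (1 + m - c) * b 1)
    (hrec : ∀ j : ℕ, ((j : ℝ) + m) * (j + m + 1) * b j
      ≤ (((j : ℝ) + 2) ^ 2 + m * (j + 2) - c) * b (j + 2)) {r : ℝ} (hr0 : 0 ≤ r) (hr1 : r < 1) :
    (c + m * (m + 1) * r ^ 2) * ps b r ≤
      (1 - r ^ 2) * ps (fun j => (j : ℝ) * ((j : ℝ) * b j)) r
        + (m * (1 - r ^ 2) - (m + 1) * r ^ 2) * ps (fun j => (j : ℝ) * b j) r := by
  have hr : |r| < 1 := by rwa [abs_of_nonneg hr0]
  have s0 := hPG.summable hr
  have s1 := hPG.mul_id.summable hr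
  have s2 := hPG.mul_id.mul_id.summable hr
  set A : ℕ → ℝ := fun j => ((j : ℝ) ^ 2 + m * j - c) * b j * r ^ j with hA
  set D : ℕ → ℝ := fun j => ((j : ℝ) + m) * (j + m + 1) * b j * r ^ j with hD
  have eA : A = fun j : ℕ => (j : ℝ) * ((j : ℝ) * b j) * r ^ j + m * ((j : ℝ) * b j * r ^ j)
      - c * (b j * r ^ j) := by
    funext j; simp only [hA]; ring
  have eD : D = fun j : ℕ => (j : ℝ) * ((j : ℝ) * b j) * r ^ j + (2 * m + 1) * ((j : ℝ) * b j * r ^ j)
      + m * (m + 1) * (b j * r ^ j) := by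
    funext j; simp only [hD]; ring
  have sA : Summable A := by
    rw [eA]; exact (s2.add (s1.mul_left _)).sub (s0.mul_left _)
  have sD : Summable D := by
    rw [eD]; exact (s2.add (s1.mul_left _)).add (s0.mul_left _)
  have tA : ∑' j, A j = ps (fun j => (j : ℝ) * ((j : ℝ) * b j)) r
      + m * ps (fun j => (j : ℝ) * b j) r - c * ps b r := by
    rw [eA, (s2.add (s1.mul_left _)).tsum_sub (s0.mul_left _), s2.tsum_add (s1.mul_left _),
      tsum_mul_left, tsum_mul_left]
    rfl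
  have tD : ∑' j, D j = ps (fun j => (j : ℝ) * ((j : ℝ) * b j)) r
      + (2 * m + 1) * ps (fun j => (j : ℝ) * b j) r + m * (m + 1) * ps b r := by
    rw [eD, (s2.add (s1.mul_left _)).tsum_add (s0.mul_left _), s2.tsum_add (s1.mul_left _),
      tsum_mul_left, tsum_mul_left]
    rfl
  have hsplit : ∑' j, A j = A 0 + A 1 + ∑' j, A (j + 2) := by
    rw [← sA.sum_add_tsum_nat_add 2, Finset.sum_range_succ, Finset.sum_range_one]
  have h2 : r ^ 2 * ∑' j, D j ≤ ∑' j, A (j + 2) := by
    rw [← tsum_mul_left]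
    apply Summable.tsum_le_tsum _ (sD.mul_left _) ((summable_nat_add_iff 2).mpr sA)
    intro j
    simp only [hA, hD]
    have h3 := mul_le_mul_of_nonneg_right (hrec j) (pow_nonneg hr0 (j + 2))
    push_cast
    calc r ^ 2 * (((j : ℝ) + m) * (j + m + 1) * b j * r ^ j)
        = ((j : ℝ) + m) * (j + m + 1) * b j * r ^ (j + 2) := by rw [pow_add]; ring
      _ ≤ _ := h3
  have hA0' : 0 ≤ A 0 := by simpa only [hA, CharP.cast_eq_zero, ne_eq, OfNat.ofNat_ne_zero, not_false_eq_true, zero_pow, mul_zero,     add_zero, zero_sub, neg_mul, pow_zero, mul_one, Left.nonneg_neg_iff] using hA0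
  have hA1' : 0 ≤ A 1 := by
    have := mul_nonneg hA1 hr0
    simp only [hA, Nat.cast_one, pow_one]
    linarith only [this]
  have h4 : r ^ 2 * ∑' j, D j ≤ ∑' j, A j := by rw [hsplit]; linarith only [h2, hA0', hA1']
  rw [tA, tD] at h4
  linarith only [h4]

/-- binomial coefficients -/
noncomputable def bc (m j : ℕ) : ℝ := ((j + (m - 1)).choose (m - 1) : ℕ)

lemma bc_nonneg (m j : ℕ) : 0 ≤ bc m j := Nat.cast_nonneg _

lemma bc_rec {m : ℕ} (hm : 1 ≤ m) (j : ℕ) :
    ((j : ℝ) + 1) * bc m (j + 1) = ((j : ℝ) + m) * bc m j := by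
  obtain ⟨k, rfl⟩ : ∃ k, m = k + 1 := ⟨m - 1, by (clear * - hm; omega)⟩
  unfold bc
  simp only [Nat.add_sub_cancel]
  have h := Nat.add_one_mul_choose_eq (j + k) k
  have h2 := Nat.choose_succ_right_eq (j + k + 1) k
  -- (j+k+1) * C(j+k,k) = C(j+k+1,k+1) * (k+1)
  have h3 : (j + 1) * (j + 1 + k).choose k = (j + (k + 1)) * (j + k).choose k := by
    have e1 : j + 1 + k = j + k + 1 := by ring
    rw [e1]
    have h4 : (j + k + 1).choose k * (j + k + 1 - k) = (j + k + 1).choose (k + 1) * (k + 1) :=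
      h2.symm
    have e2 : j + k + 1 - k = j + 1 := by omega
    rw [e2] at h4
    have h5 : (j + k + 1) * (j + k).choose k = (j + k + 1).choose (k + 1) * (k + 1) := h
    calc (j + 1) * (j + k + 1).choose k = (j + k + 1).choose k * (j + 1) := by ring
      _ = (j + k + 1).choose (k + 1) * (k + 1) := h4
      _ = (j + k + 1) * (j + k).choose k := h5.symm
      _ = _ := by ring
  have h6 := congrArg (fun t : ℕ => (t : ℝ)) h3
  push_cast at h6 ⊢
  linarith only [h6]

lemma bc_PG {m : ℕ} (hm : 1 ≤ m) : PG (bc m) := by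
  refine ⟨((m : ℝ)) ^ m, m, by positivity, fun j => ?_⟩
  rw [abs_of_nonneg (bc_nonneg m j)]
  unfold bc
  have h1 : (j + (m - 1)).choose (m - 1) ≤ (j + (m - 1)) ^ (m - 1) := Nat.choose_le_pow _ _
  have h2 : ((j + (m - 1)).choose (m - 1) : ℝ) ≤ ((j : ℝ) + (m - 1 : ℕ)) ^ (m - 1) := by
    exact_mod_cast h1
  have h3 : (j : ℝ) + (m - 1 : ℕ) ≤ m * ((j : ℝ) + 1) := by
    have : ((m - 1 : ℕ) : ℝ) ≤ m := by exact_mod_cast Nat.sub_le m 1
    have h1m : (1 : ℝ) ≤ m := by exact_mod_cast hm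
    nlinarith only [this, h1m]
  calc ((j + (m - 1)).choose (m - 1) : ℝ) ≤ ((j : ℝ) + (m - 1 : ℕ)) ^ (m - 1) := h2
    _ ≤ (m * ((j : ℝ) + 1)) ^ (m - 1) := pow_le_pow_left₀ (by (clear * -; (clear * -; positivity))) h3 _
    _ ≤ (m * ((j : ℝ) + 1)) ^ m := by
        apply pow_le_pow_right₀ _ (Nat.sub_le m 1)
        have h1m : (1 : ℝ) ≤ m := by exact_mod_cast hm
        nlinarith only [h1m]
    _ = _ := by rw [mul_pow]

lemma hasSum_kernel {m : ℕ} (hm : 1 ≤ m) {x : ℝ} (hx : |x| < 1) :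
    HasSum (fun j => bc m j * x ^ j) (1 / (1 - x) ^ m) := by
  have h := hasSum_choose_mul_geometric_of_norm_lt_one (m - 1) (r := x)
    (by rwa [Real.norm_eq_abs])
  have e : m - 1 + 1 = m := by omega
  rw [e] at h
  exact h

section

variable {X : Type*} [MeasurableSpace X] {E : Type*} [NormedAddCommGroup E]
  [InnerProductSpace ℝ E] [FiniteDimensional ℝ E] [MeasurableSpace E] [BorelSpace E]

/-- coordinates -/
noncomputable def crd (p : X → E) (x : X) (i : Fin (Module.finrank ℝ E)) : ℝ :=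
  ⟪stdOrthonormalBasis ℝ E i, p x⟫

lemma crd_inner (p : X → E) (x y : X) : ∑ i, crd p x i * crd p y i = ⟪p x, p y⟫ := by
  unfold crd
  rw [← (stdOrthonormalBasis ℝ E).sum_inner_mul_inner (p x) (p y)]
  exact Finset.sum_congr rfl fun i _ => by rw [real_inner_comm (p x)]

lemma crd_measurable {p : X → E} (hp : Measurable p) : Measurable (crd p) := by
  apply measurable_pi_lambda
  intro i
  exact measurable_const.inner hp

variable {μ : Measure X} [IsFiniteMeasure μ] {m : ℕ} {p n : X → E}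

/-- the moments of the normal correlation -/
noncomputable def RR (μ : Measure X) (p n : X → E) (j : ℕ) : ℝ := mom μ (crd p) (crd n) j

lemma RR_eq (j : ℕ) : RR μ p n j = ∫ q, ⟪p q.1, p q.2⟫ ^ j * ⟪n q.1, n q.2⟫ ∂(μ.prod μ) := by
  unfold RR mom
  simp only [crd_inner]

lemma Pts.crd_p (h : Pts p n) (x : X) : ∑ i, crd p x i * crd p x i = 1 := by
  rw [crd_inner, real_inner_self_eq_norm_sq, h.np]; norm_num

lemma Pts.crd_n (h : Pts p n) (x : X) : ∑ i, crd n x i * crd n x i = 1 := by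
  rw [crd_inner, real_inner_self_eq_norm_sq, h.nn]; norm_num

lemma Pts.RR_nonneg (h : Pts p n) (j : ℕ) : 0 ≤ RR μ p n j :=
  mom_nonneg μ (crd_measurable h.mp) (crd_measurable h.mn) h.crd_p h.crd_n j

lemma Pts.integrable_RR (h : Pts p n) (j : ℕ) :
    Integrable (fun q : X × X => ⟪p q.1, p q.2⟫ ^ j * ⟪n q.1, n q.2⟫) (μ.prod μ) := by
  have := integrable_mom μ (crd_measurable h.mp) (crd_measurable h.mn) h.crd_p h.crd_n j
  simpa only [crd_inner] using this

lemma Pts.RR_le (h : Pts p n) (j : ℕ) : |RR μ p n j| ≤ (μ.prod μ).real univ := by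
  rw [RR_eq]
  have : ∀ᵐ q ∂(μ.prod μ), ‖⟪p q.1, p q.2⟫ ^ j * ⟪n q.1, n q.2⟫‖ ≤ 1 := by
    filter_upwards with q
    rw [Real.norm_eq_abs, abs_mul, abs_pow]
    calc |⟪p q.1, p q.2⟫| ^ j * |⟪n q.1, n q.2⟫| ≤ 1 * 1 :=
          mul_le_mul (pow_le_one₀ (abs_nonneg _) (h.abs_pp _ _)) (h.abs_nn _ _)
            (abs_nonneg _) zero_le_one
      _ = 1 := by norm_num
  have h2 := norm_integral_le_of_norm_le_const this
  rw [Real.norm_eq_abs, one_mul] at h2
  exact h2

/-- coefficients of the normal correlation -/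
noncomputable def bb (μ : Measure X) (m : ℕ) (p n : X → E) (j : ℕ) : ℝ := bc m j * RR μ p n j

lemma Pts.bb_PG (h : Pts p n) (hm : 1 ≤ m) : PG (bb μ m p n) :=
  (bc_PG hm).mul ⟨(μ.prod μ).real univ, 0, measureReal_nonneg, fun j => by
    rw [pow_zero, mul_one]; exact h.RR_le j⟩

lemma Pts.bb_nonneg (h : Pts p n) (j : ℕ) : 0 ≤ bb μ m p n j :=
  mul_nonneg (bc_nonneg m j) (h.RR_nonneg j)

/-- power series of the normal correlation -/
theorem Pts.BB_eq (h : Pts p n) (hm : 1 ≤ m) {φ : ℝ}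
    (hφ : φ ∈ Ioo (-(π / 2)) (π / 2)) :
    BB μ m p n φ = cos φ ^ m * ps (bb μ m p n) (sin φ) := by
  have hs1 := abs_sin_lt_one hφ
  have hbs : Summable (fun j => bc m j * |sin φ| ^ j) := (bc_PG hm).summable (by rwa [abs_abs])
  have hint : ∀ j, Integrable (fun q : X × X => bc m j * sin φ ^ j *
      (⟪p q.1, p q.2⟫ ^ j * ⟪n q.1, n q.2⟫)) (μ.prod μ) := fun j =>
    (h.integrable_RR j).const_mul _
  have hsum : Summable (fun j => ∫ q, ‖bc m j * sin φ ^ j *
      (⟪p q.1, p q.2⟫ ^ j * ⟪n q.1, n q.2⟫)‖ ∂(μ.prod μ)) := by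
    refine Summable.of_nonneg_of_le (fun j => integral_nonneg fun q => norm_nonneg _) ?_
      (hbs.mul_right ((μ.prod μ).real univ))
    intro j
    have hb : ∀ q : X × X, ‖bc m j * sin φ ^ j *
        (⟪p q.1, p q.2⟫ ^ j * ⟪n q.1, n q.2⟫)‖ ≤ bc m j * |sin φ| ^ j := by
      intro q
      rw [Real.norm_eq_abs, abs_mul, abs_mul, abs_of_nonneg (bc_nonneg m j), abs_pow, abs_mul,
        abs_pow]
      calc bc m j * |sin φ| ^ j * (|⟪p q.1, p q.2⟫| ^ j * |⟪n q.1, n q.2⟫|)
          ≤ bc m j * |sin φ| ^ j * (1 * 1) := by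
            have := bc_nonneg m j
            gcongr
            · exact pow_le_one₀ (abs_nonneg _) (h.abs_pp _ _)
            · exact h.abs_nn _ _
        _ = _ := by ring
    calc ∫ q, ‖bc m j * sin φ ^ j * (⟪p q.1, p q.2⟫ ^ j * ⟪n q.1, n q.2⟫)‖ ∂(μ.prod μ)
        ≤ ∫ _q : X × X, bc m j * |sin φ| ^ j ∂(μ.prod μ) :=
          integral_mono (hint j).norm (integrable_const _) hb
      _ = bc m j * |sin φ| ^ j * (μ.prod μ).real univ := by
          rw [integral_const, smul_eq_mul, mul_comm]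
  have key := hasSum_integral_of_summable_integral_norm hint hsum
  have e1 : ∀ q : X × X, ∑' j, bc m j * sin φ ^ j * (⟪p q.1, p q.2⟫ ^ j * ⟪n q.1, n q.2⟫)
      = ⟪n q.1, n q.2⟫ * (1 / (1 - ⟪p q.1, p q.2⟫ * sin φ) ^ m) := by
    intro q
    have hx : |⟪p q.1, p q.2⟫ * sin φ| < 1 := by
      rw [abs_mul]
      calc |⟪p q.1, p q.2⟫| * |sin φ| ≤ 1 * |sin φ| :=
            mul_le_mul_of_nonneg_right (h.abs_pp _ _) (abs_nonneg _)
        _ < 1 := by linarith only [hs1]
    have h2 := (hasSum_kernel hm hx).mul_left ⟪n q.1, n q.2⟫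
    rw [← h2.tsum_eq]
    apply tsum_congr
    intro j
    rw [mul_pow]; ring
  simp only [e1] at key
  have e2 : ∀ j, ∫ q, bc m j * sin φ ^ j * (⟪p q.1, p q.2⟫ ^ j * ⟪n q.1, n q.2⟫) ∂(μ.prod μ)
      = bb μ m p n j * sin φ ^ j := by
    intro j
    rw [integral_const_mul, ← RR_eq]
    unfold bb
    ring
  simp only [e2] at key
  unfold ps
  rw [key.tsum_eq]
  unfold BB cf
  rw [← integral_const_mul]
  refine integral_congr_ae ?_
  filter_upwards with q
  rw [div_pow]
  ring

/-- recursion for the coefficients -/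
lemma Pts.bb_rec0 (h : Pts p n) (hm : 1 ≤ m) (hE : Module.finrank ℝ E = m + 2) (j : ℕ) :
    ((j : ℝ) + m) * (j + m + 1) * bb μ m p n j
      ≤ (((j : ℝ) + 2) ^ 2 + m * (j + 2) - 0) * bb μ m p n (j + 2) := by
  have hr := mom_rec0 μ (crd_measurable h.mp) (crd_measurable h.mn) h.crd_p h.crd_n j
  have hr' : ((j : ℝ) + 1) * RR μ p n j
      ≤ (j + Module.finrank ℝ E) * RR μ p n (j + 2) := hr
  rw [hE] at hr'
  have b1 := bc_rec hm j
  have b2 := bc_rec hm (j + 1)
  push_cast at b2 hr'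
  have hb := bc_nonneg m (j + 2)
  have b3 : ((j : ℝ) + 2) * (j + 1) * bc m (j + 2) = ((j : ℝ) + m) * (j + m + 1) * bc m j := by
    have e : j + 1 + 1 = j + 2 := rfl
    rw [e] at b2
    have : ((j : ℝ) + 1) * (((j : ℝ) + 1 + 1) * bc m (j + 2))
        = ((j : ℝ) + 1 + m) * (((j : ℝ) + 1) * bc m (j + 1)) := by rw [b2]; ring
    rw [b1] at this
    linarith only [this]
  unfold bb
  have hj : (0 : ℝ) ≤ (j : ℝ) + 2 := by (clear * -; (clear * -; positivity))
  have h3 := mul_le_mul_of_nonneg_right hr' (mul_nonneg hb hj)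
  calc ((j : ℝ) + m) * (j + m + 1) * (bc m j * RR μ p n j)
      = ((j : ℝ) + 2) * (j + 1) * bc m (j + 2) * RR μ p n j := by rw [b3]; ring
    _ = ((j : ℝ) + 1) * RR μ p n j * (bc m (j + 2) * (j + 2)) := by ring
    _ ≤ _ := h3
    _ = _ := by ring

/-- recursion for the coefficients: lowest degree two -/
lemma TwoPt.bb_rec2 (h : TwoPt μ m p n) (hm : 1 ≤ m) (hE : Module.finrank ℝ E = m + 2)
    (h0 : RR μ p n 0 = 0) (h1 : RR μ p n 1 = 0) (j : ℕ) :
    ((j : ℝ) + m) * (j + m + 1) * bb μ m p n j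
      ≤ (((j : ℝ) + 2) ^ 2 + m * (j + 2) - 2 * (m + 2)) * bb μ m p n (j + 2) := by
  have hr := mom_rec2 μ (crd_measurable h.mp) (crd_measurable h.mn) h.crd_p h.crd_n h0 h1 j
  have hr' : ((j : ℝ) + 2) * (j + 1) * RR μ p n j
      ≤ j * (j + 2 + Module.finrank ℝ E) * RR μ p n (j + 2) := hr
  rw [hE] at hr'
  have b1 := bc_rec hm j
  have b2 := bc_rec hm (j + 1)
  push_cast at b2 hr'
  have hb := bc_nonneg m (j + 2)
  -- (j+2)(j+1) bc(j+2) = (j+m)(j+m+1) bc j
  have b3 : ((j : ℝ) + 2) * (j + 1) * bc m (j + 2) = ((j : ℝ) + m) * (j + m + 1) * bc m j := by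
    have e : j + 1 + 1 = j + 2 := rfl
    rw [e] at b2
    have : ((j : ℝ) + 1) * (((j : ℝ) + 1 + 1) * bc m (j + 2))
        = ((j : ℝ) + 1 + m) * (((j : ℝ) + 1) * bc m (j + 1)) := by rw [b2]; ring
    rw [b1] at this
    linarith only [this]
  unfold bb
  have h3 := mul_le_mul_of_nonneg_right hr' hb
  calc ((j : ℝ) + m) * (j + m + 1) * (bc m j * RR μ p n j)
      = ((j : ℝ) + 2) * (j + 1) * bc m (j + 2) * RR μ p n j := by rw [b3]; ring
    _ = ((j : ℝ) + 2) * (j + 1) * RR μ p n j * bc m (j + 2) := by ring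
    _ ≤ _ := h3
    _ = _ := by ring

end

end Vale.Agent.P224.FV
end
end
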