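import Vale.Agent.P224.MathlibUsed
import Vale.Agent.P224.Bdl.B1
attribute [-instance] CommCStarAlgebra.toCStarAlgebra CStarAlgebra.toNormedRing CommCStarAlgebra.toNormedCommRing NormedDivisionRing.toNormedRing CommCStarAlgebra.toNonUnitalCommCStarAlgebra CStarAlgebra.toNonUnitalCStarAlgebra NonUnitalCommCStarAlgebra.toNonUnitalCStarAlgebra NonUnitalCommCStarAlgebra.toNonUnitalNormedCommRing NonUnitalCStarAlgebra.toNonUnitalNormedRing NonUnitalNormedCommRing.toNonUnitalSeminormedCommRing SeminormedRing.toNonUnitalSeminormedRing Vector.instHMul EuclideanDomain.toCommRing Field.toEuclideanDomain SeminormedCommRing.toCommRing CommRing.toAddCommGroupWithOne NonUnitalCommRing.toNonUnitalRing NonUnitalNormedCommRing.toNonUnitalCommRing NonUnitalSeminormedCommRing.toNonUnitalCommRing NonUnitalNormedRing.toNonUnitalRing NonUnitalSeminormedRing.toNonUnitalRing Ring.toNonUnitalRing NonAssocCommRing.toNonUnitalNonAssocCommRing NonUnitalRing.toNonUnitalNonAssocRing AddCommGroupWithOne.toAddCommGroup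 NormedCommGroup.toSeminormedCommGroup IdemCommSemiring.toIdemSemiring KleeneAlgebra.toIdemSemiring Valued.toUniformSpace UpgradedStandardBorel.toTopologicalSpace IdemSemiring.toSemiring IdemCommSemiring.toCommSemiring NonUnitalSeminormedRing.toPseudoMetricSpace SeminormedCommGroup.toPseudoMetricSpace TopologicalSpace.UpgradedIsCompletelyPseudoMetrizableSpace.toPseudoMetricSpace CommSemiring.toNonAssocCommSemiring NonAssocCommRing.toNonAssocCommSemiring NonAssocCommSemiring.toNonAssocSemiring NonAssocRing.toNonAssocSemiring AddCommGroupWithOne.toAddCommMonoidWithOne NonUnitalRing.toNonUnitalSemiring Semiring.toNonUnitalSemiring NonAssocCommSemiring.toNonUnitalNonAssocCommSemiring NonUnitalCommSemiring.toNonUnitalNonAssocCommSemiring NonUnitalNonAssocCommSemiring.toNonUnitalNonAssocSemiring instCoeT instCoeTOfCoeDep SemiRingCat.instSemiringObjForgetRingHomCarrier LinearOrderedAddCommGroupWithTop.instLinearOrderedAddCommMonoidWithTop instCoeTC Std.Time.WallTime.instHAddOffset_1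 LinearOrderedAddCommGroupWithTop.toAddCommMonoid LinearOrderedAddCommMonoidWithTop.toAddCommMonoid AddCommMonoidWithOne.toAddCommMonoid Pi.seminormedAddCommGroup SemimoduleCat.isAddCommMonoid instCoeHTC ModuleCat.isModule Complex.instDenselyNormedField instCoeHTCT Pi.instTopForall Pi.instFintype NumberField.to_charZero Std.Time.WallTime.instHSubDuration_1 instOfScientificFloat32 NonUnitalCStarAlgebra.toNormedSpace ModuleCat.instAddCommGroupCarrierMkOfSMul' Pi.topologicalSpace LinearOrderedCommGroupWithZero.toLinearOrderedCommMonoidWithZero BoxIntegral.Box.instMembershipForallReal MeasureTheory.L2.instInnerSubtypeAEEqFunMemAddSubgroupLpOfNatENNReal Std.Time.Duration.instHMulInt_1 NormedCommGroup.toNormedGroup Pi.normedSpace LinearOrderedAddCommGroupWithTop.toSubNegMonoid NormedGroup.toSeminormedGroup SeminormedCommGroup.toSeminormedGroup NormedCommGroup.toCommGroup SeminormedCommGroup.toCommGroup CommGroup.toGroup NormedGroup.toGroup SeminormedGroup.toGroup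 LinearOrderedCommGroupWithZero.toCommGroupWithZero MulSemiringAction.toDistribMulAction CommGroupWithZero.toCommMonoidWithZero CommMonoidWithZero.toMonoidWithZero CommSemiring.toCommMonoidWithZero LinearOrderedCommMonoidWithZero.toCommMonoidWithZero MonoidWithZero.toSemigroupWithZero NonUnitalSemiring.toSemigroupWithZero SemigroupWithZero.toMulZeroClass instCoeHTCOfCoeHeadOfCoeOTC CommSemiRingCat.instCommSemiringObjForgetRingHomCarrier instSubsingleton IsEmpty.instSubsingleton Unique.instSubsingleton ContinuousAddMonoidHom.instCoeOutOfAddMonoidHomClassOfContinuousMapClass ContinuousMonoidHom.instCoeOutOfMonoidHomClassOfContinuousMapClass HomeomorphClass.instCoeOutHomeomorph IsometryClass.instCoeOutIsometryEquiv AbsoluteValue.funLike instCoeOutOfCoeFun LinearOrderedCommMonoidWithZero.toIsBotZeroClass Invertible.toNeZero NeZero.of_gt' Nat.AtLeastTwo.toNeZero CompleteAtomicBooleanAlgebra.toCompletelyDistribLattice CategoryTheory.instFinCategoryOfFintypeOfIsThin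 SetLike.instFintype Unique.fintype CategoryTheory.FinCategory.fintypeObj LinOrd.str AddGrpCat.str NormedAlgebra.id IdemSemiring.toCanonicallyOrderedAdd Pi.partialOrder instDistribSMul LinearOrderedCommMonoidWithZero.toPosMulStrictMono Pi.addMonoidWithOne CompletelyDistribLattice.toCompleteDistribLattice instCoeHTCTOfCoeTailOfCoeHTC instCoeTailIntOfIntCast instCoeTailNatOfNatCast instCoeTailRatOfRatCast DivisionRing.toNNRatCast DivisionRing.toRatCast DivisionSemiring.toNNRatCast LinearMapClass.instCoeToLinearMap NNRatCast.toCoeTail NonUnitalStarRingHomClass.instCoeHeadNonUnitalStarRingHom SemilinearMapClass.instCoeToSemilinearMap StarAlgEquivClass.instCoeHead StarRingEquivClass.instCoeHead instFiniteProp instSMulZeroClass GradedMonoid.GradeZero.smul Algebra.complexToReal NormedAlgebra.complexToReal Finite.of_subsingleton SetLike.instFinite CompleteDistribLattice.toCoframe CompleteBooleanAlgebra.toBooleanAlgebra NonUnitalNormedRing.toMetricSpace NormedCommGroup.toMetricSpace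 NormedDivisionRing.toMetricSpace NormedField.toMetricSpace NormedRing.toMetricSpace TopologicalSpace.UpgradedIsCompletelyMetrizableSpace.toMetricSpace Pi.mulZeroClass Nat.instOne Nat.Prime.one_lt' Pi.seminormedAddGroup pseudoMetricSpacePi Torsor.toMulAction GradedMonoid.GradeZero.mulAction DiscreteUniformity.inst DiscreteUniformity.instOfFiniteOfDiscreteTopology CompleteLinearOrder.toCompleteLattice Order.Coframe.toCompleteLattice Order.Frame.toCompleteLattice coePNatNat Nat.Primes.coeNat Nat.Primes.coePNat Std.DTreeMap.Raw.instSingletonSigma forall_prop_decidable Array.instDecidableForallForallMemOfDecidablePred Finset.decidableDforallFinset Fintype.decidableForallFintype Multiset.decidableDforallMultiset Option.decidableForallMem Vector.instDecidableForallForallMemOfDecidablePred NormedAddGroup.toSeminormedAddGroup BooleanAlgebra.toBiheytingAlgebra CompleteDistribLattice.toBiheytingAlgebra CompleteLinearOrder.toBiheytingAlgebra CompletelyDistribLattice.toBiheytingAlgebra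 OrderDual.instDivisionRing OrderDual.instDivisionSemiring CompleteLinearOrder.toConditionallyCompleteLinearOrderBot Algebra.Extension.commRing NormedAddGroup.toMetricSpace NormedGroup.toMetricSpace Fin.completeLinearOrder Set.instAddLeftMono Std.LinearOrderPackage.toLinearPreorderPackage Std.LinearPreorderPackage.toPreorderPackage AlgebraicClosure.instGroupWithZero NonarchimedeanAddGroup.toIsTopologicalAddGroup NonarchimedeanRing.to_nonarchimedeanAddGroup AddGroupFilterBasis.isTopologicalAddGroup IsValuativeTopology.instIsTopologicalAddGroup UniformSpace.Completion.instNorm ConditionallyCompleteLinearOrderBot.toConditionallyCompleteLinearOrder instContinuousSMulForall_1 Pi.normedRing instInnerProductSpaceRealComplex completeSpace_of_cauSeq_isComplete CStarAlgebra.toCompleteSpace DiscreteUniformity.instCompleteSpace NonUnitalCStarAlgebra.toCompleteSpace RCLike.toCompleteSpace TopologicalSpace.UpgradedIsCompletelyMetrizableSpace.toCompleteSpace TopologicalSpace.UpgradedIsCompletelyPseudoMetrizableSpace.toCompleteSpace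 NonUnitalNormedRing.toNorm NonUnitalSeminormedRing.toNorm NormedCommGroup.toNorm NormedRing.toNorm SeminormedRing.toNorm pseudoEMetricSpacePi BiheytingAlgebra.toCoheytingAlgebra BiheytingAlgebra.toHeytingAlgebra BooleanAlgebra.toGeneralizedBooleanAlgebra Order.Coframe.toCoheytingAlgebra StarSubalgebra.commCStarAlgebra CompleteLinearOrder.toLinearOrder ConditionallyCompleteLinearOrder.toLinearOrder LinearOrderedAddCommGroupWithTop.toLinearOrder LinearOrderedAddCommMonoidWithTop.toLinearOrder LinearOrderedCommMonoidWithZero.toLinearOrder Fintype.decidablePiFintype instPosMulMonoWithZeroOfMulLeftMono StarSubalgebra.cstarAlgebra ChainCompletePartialOrder.instOfCompleteLattice ChainCompletePartialOrder.instOmegaCompletePartialOrder ChainCompletePartialOrder.toPartialOrder CompletePartialOrder.toOmegaCompletePartialOrder OmegaCompletePartialOrder.toPartialOrder Pi.mulOneClass Pi.normedAddCommGroup Group.instTorsor MonCat.monoidObj RingHomClass.toLinearMapClassNNRat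 RingHomClass.toLinearMapClassRat instOrderTopologyOrderDual MonoidWithZero.toMulActionWithZero instIsLeftCancelAddOfAddLeftReflectLE Int.decidableLELE Int.decidableLELT Int.decidableLTLE Int.decidableLTLT List.instDecidableMemOfLawfulBEq Fin.instBiheytingAlgebra Pi.subtractionMonoid SeminormedGroup.toPseudoMetricSpace CoheytingAlgebra.toGeneralizedCoheytingAlgebra GeneralizedBooleanAlgebra.toGeneralizedCoheytingAlgebra HeytingAlgebra.toGeneralizedHeytingAlgebra OrderAddMonoidHom.instAddMonoidHomClass instNonUnitalAlgHomClassOfNonUnitalAlgEquivClass DiscreteUniformity.instDiscreteTopology Finite.instDiscreteTopology Subsingleton.discreteTopology Pi.instLattice instIndiscreteTopology instIndiscreteTopologyOfSubsingleton CanonicallyOrderedAdd.toMulLeftMono CanonicallyOrderedMul.toMulLeftMono IdemSemiring.toMulLeftMono IsOrderedCancelMonoid.toIsOrderedMonoid IsOrderedMonoid.toIsOrderedCancelMonoid LinearOrderedCommMonoidWithZero.toIsOrderedMonoid instDenselyOrderedForall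 Set.instAddRightMono instIsDedekindDomainOfIsDomainOfIsDedekindRing IsDedekindDomainDvr.isDedekindDomain String.Slice.Pos.instLinearOrderPackage Pi.instOrderTop Std.LinearOrderPackage.toPartialOrderPackage Std.PartialOrderPackage.toPreorderPackage instIsModuleTopology IsModuleTopology.instSubsingleton IsTopologicalTorsor.toContinuousSMul ModuleFilterBasis.continuousSMul EReal.instMulPosReflectLT RingCat.instRingObjForgetRingHomCarrier Int.instStarRing SubfieldClass.toNormedField MulSemiringActionSemiHomClass.toDistribMulActionSemiHomClass Pi.monoidWithZero instNoMinOrderForallOfNonempty Pi.addZeroClass instSMulCommClassOfIsScalarTower RCLike.algebraMapCoe instMulActionSemiHomClassMulActionHom instContinuousSMulForall instConditionallyCompletePartialOrderSup AddOpposite.instAddZero NonUnitalStarSubalgebra.nonUnitalCStarAlgebra NonUnitalStarSubalgebra.nonUnitalCommCStarAlgebra Fin.instCoheytingAlgebra Fin.instHeytingAlgebra instIsEmptySubtype Subtype.finite LinearOrderedAddCommGroupWithTop.toSubtractionMonoid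 instMulPosMonoWithZeroOfMulRightMono instCompleteSpaceSubtypeMemSubmoduleOfIsClosedCoe instSubsingletonSubtype_mathlib Subtype.fintype Ideal.IsMaximal.isClosed ESeminormedAddCommMonoid.toAddCommMonoid IsTopologicalSemiring.toContinuousAdd AddMonCat.addMonoidObj CStarAlgebra.toNormedAlgebra Pi.isOrderedAddMonoid RCLike.instNormSMulClassInt Pi.normedAddGroup ENormedCommMonoid.toESeminormedCommMonoid NormedCommGroup.toENormedCommMonoid continuousSub_of_discreteTopology continuousSub_of_indiscreteTopology instBEqOfDecidableEq Int.instLawfulBEq Std.PreorderPackage.toBEq AddCancelCommMonoid.toAddCancelMonoid AddCancelMonoid.toAddLeftCancelMonoid AddLeftCancelMonoid.toAddMonoid AddRightCancelMonoid.toAddMonoid ENormedAddCommMonoid.toENormedAddMonoid ENormedAddMonoid.toESeminormedAddMonoid NormedAddGroup.toENormedAddMonoid instInfiniteOfUncountable instIsDomain instNontrivialOfCharZero CharZero.infinite Denumerable.instInfinite DivisionRing.isDomain DivisionRing.toNontrivial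 EuclideanDomain.instIsDomain EuclideanDomain.toNontrivial Field.instIsLocalRing Field.isDomain Infinite.instNontrivial IsAlgClosed.instInfinite IsDedekindDomain.toIsDomain IsDiscreteValuationRing.toIsLocalRing IsDomain.of_isSimpleRing IsDomain.toNontrivial IsLocalRing.toNontrivial IsOrderedRing.toIsStrictOrderedRing IsSimpleAddGroup.toNontrivial IsSimpleGroup.toNontrivial IsSimpleOrder.toNontrivial IsSimpleRing.instNontrivial IsStrictOrderedRing.isDomain IsStrictOrderedRing.toNontrivial LinearOrderedAddCommGroupWithTop.toNontrivial NoMaxOrder.infinite NoMinOrder.infinite NontriviallyNormedField.infinite ValuationRing.isLocalRing instNonemptyOfMonad CommRing.toGrindCommRing Field.toGrindField Ring.toGrindRing Pi.commMagma instNatCastNat Pi.instBotForall TopologicalSpace.Compacts.instSetLike EReal.instPosMulReflectLT countable_of_linear_succ_pred_arch Countable.of_linearOrder_locallyFiniteOrder Denumerable.toEncodable Encodable.countable IsEmpty.toEncodable Pi.continuousMul'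 Matrix.instIntCastOfZero Matrix.instNatCastOfZero Matrix.SpecialLinearGroup.hasCoeToMatrix Matrix.UnitaryGroup.coeMatrix BooleanAlgebra.toDistribLattice CompleteLattice.toLattice CompleteLattice.toPartialOrder' CompleteSemilatticeSup.toPartialOrder ConditionallyCompleteLattice.toLattice ConditionallyCompletePartialOrderInf.toPartialOrder GeneralizedBooleanAlgebra.toDistribLattice GeneralizedCoheytingAlgebra.toDistribLattice GeneralizedCoheytingAlgebra.toLattice GeneralizedHeytingAlgebra.toDistribLattice GeneralizedHeytingAlgebra.toLattice IdemSemiring.toSemilatticeSup LinearOrder.toLattice Order.Coframe.toDistribLattice Order.Frame.toDistribLattice Subsingleton.to_countable AddCommGroup.toGrindIntModule CommSemiring.toGrindCommSemiring Semiring.toGrindSemiring instClosedIicTopologyOrderDual boolToProp instIsWellOrderOfIsEmpty instLocallyCompactSpaceOfPrespectralSpace instPrespectralSpaceOfNoetherianSpace isWellOrder_gt AlexandrovDiscrete.toLocallyCompactSpace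 DiscreteTopology.toAlexandrovDiscrete Finite.toAlexandrovDiscrete Finite.to_wellFoundedGT IndiscreteTopology.toAlexandrovDiscrete IsWellOrder.toIsWellFounded SpectralSpace.toPrespectralSpace TopologicalSpace.instNoetherianSpaceOfIndiscreteTopology WellFounded.instIsWellFoundedOnFun TopologicalSpace.Finite.to_noetherianSpace TopologicalSpace.Opens.instFinite TopologicalSpace.Opens.instSetLike TopologicalSpace.Opens.instUniqueOfIsEmpty instInhabitedOfMonad CategoryTheory.isConnected_of_nonempty_and_subsingleton CommGroup.toDivisionCommMonoid Group.toDivInvMonoid Group.toDivisionMonoid Nontrivial.to_nonempty Preorder.smallCategory Torsor.nonempty Unique.instInhabited CategoryTheory.Groupoid.toCategory CategoryTheory.IsConnected.is_nonempty CategoryTheory.StrictBicategory.category Pi.opensMeasurableSpace_of_subsingleton bot_nonempty top_nonempty AddCommMonoid.toGrindNatModule BooleanAlgebra.toBot BooleanAlgebra.toBoundedOrder BooleanAlgebra.toTop BoundedOrder.toOrderBot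 BoundedOrder.toOrderTop CoheytingAlgebra.toBoundedOrder CoheytingAlgebra.toOrderTop CompleteLattice.toBoundedOrder CompletePartialOrder.toOrderBot ConditionallyCompleteLinearOrderBot.toOrderBot GeneralizedBooleanAlgebra.toBot GeneralizedBooleanAlgebra.toOrderBot GeneralizedCoheytingAlgebra.toOrderBot GeneralizedHeytingAlgebra.toOrderTop HeytingAlgebra.toBoundedOrder IdemSemiring.toOrderBot LinearOrderedAddCommGroupWithTop.toOrderTop LinearOrderedAddCommMonoidWithTop.toOrderTop LinearOrderedCommMonoidWithZero.toOrderBot NormedAddTorsor.toAddTorsor' OrderBot.toBot Pi.instOne Pi.complete ValuationClass.toMonoidWithZeroHomClass Pi.isOrderedRing IsDedekindDomain.isDedekindDomainDvr IsDedekindDomain.toIsDedekindRing IsIsometricSMul.to_continuousConstSMul IsUniformGroup.instUniformContinuousConstSMul NormedGroup.to_isIsometricSMul Ring.uniformContinuousConstSMul instPolishSpaceOfSeparableSpaceOfIsCompletelyMetrizableSpace UpgradedStandardBorel.toPolishSpace CancelCommMonoid.toCancelMonoid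 CancelCommMonoid.toCommMonoid CancelCommMonoid.toLeftCancelMonoid CancelMonoid.toLeftCancelMonoid CancelMonoid.toRightCancelMonoid CommGroup.toCancelCommMonoid CommGroup.toCommMonoid CommMonoidWithZero.toCommMonoid DivisionCommMonoid.toCommMonoid ENormedCommMonoid.toENormedMonoid ENormedMonoid.toESeminormedMonoid ESeminormedCommMonoid.toCommMonoid ESeminormedCommMonoid.toESeminormedMonoid ESeminormedMonoid.toMonoid Group.toCancelMonoid LeftCancelMonoid.toMonoid MulZeroClass.negZeroClass NormedGroup.toENormedMonoid RightCancelMonoid.toMonoid GradedMonoid.GradeZero.commMonoid GradedMonoid.GradeZero.monoid AbsoluteValue.zeroHomClass MulEquivClass.toMonoidWithZeroHomClass MulRingSeminormClass.toMonoidWithZeroHomClass Pi.hasDistribNeg Matrix.instAddCommGroupWithOne Matrix.instAddCommMonoidWithOne Matrix.instAddGroupWithOne Matrix.instAddMonoidWithOne Matrix.instNonAssocRing Matrix.instRing Matrix.nonAssocSemiring Zero.ofOfNat0 Pi.existsAddOfLe Part.ofOptionDecidable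 Module.complexToReal CanonicallyOrderedAdd.toMulRightMono IdemSemiring.toMulRightMono IsOrderedAddMonoid.toAddRightMono IsOrderedMonoid.toMulRightMono instClosedIciTopologyOrderDual instLindelofSpaceOfSigmaCompactSpace Countable.LindelofSpace DiscreteTopology.secondCountableTopology_of_countable Finite.toSecondCountableTopology HereditarilyLindelof.to_Lindelof PolishSpace.toSecondCountableTopology SecondCountableTopology.toHereditarilyLindelof TopologicalSpace.instSecondCountableTopologyOfLindelofSpaceOfPseudoMetrizableSpace UniformSpace.secondCountable_of_separable TopologicalSpace.Countable.to_separableSpace SeparationQuotient.instContinuousSub instDecidableRelLe Std.instDecidableLE IsScalarTower.complexToReal instNoMaxOrderForallOfNonempty IsSepClosed.isAlgClosed_of_perfectField IsSepClosed.of_isAlgClosed Algebra.IsFiniteSplit.instOfIsSepClosedOfEssFiniteTypeOfFormallyEtale AlgHom.instRingHomCompTripleComp instUniqueAddUnitsOfSubsingleton CanonicallyOrderedCommMonoid.toUniqueAddUnits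 LieGroup.toContMDiffMul Matrix.SpecialLinearGroup.instCoeInt UniformSpace.Completion.instNormedFieldOfCompletableTopField Pi.instZeroLEOneClass RCLike.toDecidableEq Pi.instCompl One.ofOfNat1 Pi.orderClosedTopology' infSet_to_nonempty instTopologicalSpaceFin supSet_to_nonempty CompleteSemilatticeInf.toInfSet ConditionallyCompleteLattice.toInfSet ConditionallyCompleteLattice.toSupSet ConditionallyCompletePartialOrderSup.toSupSet Convex.instPathConnectedSpace Fin.addCommGroup Fin.addCommMonoid Fin.instBoundedOrder Fin.instInhabited Fin.instNontrivial Fin.instPartialOrder IrreducibleSpace.connectedSpace IrreducibleSpace.toNonempty NormedSpace.instPathConnectedSpace One.instNonempty PathConnectedSpace.connectedSpace Zero.instNonempty Ordinal.instNeZeroOne instRingHomSurjectiveForallEvalRingHom Subsingleton.to_isCancelMulZero compactSpace_of_completeLinearOrder instCompactSpace Finite.compactSpace SpectralSpace.toCompactSpace Subsingleton.compactSpace TopologicalSpace.NoetherianSpace.compactSpace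 PolishSpace.toIsCompletelyMetrizableSpace SpectralSpace.toT0Space T6Space.toT0Space TopologicalSpace.IsCompletelyMetrizableSpace.of_completeSpace_metrizable AddHom.addHomClass ContinuousLinearMap.toNormedRing NormedSpace.complexToReal MeasureTheory.OuterMeasure.instOuterMeasureClass Pi.distribSMul' Ordinal.instPosMulStrictMono Pi.topologicalAddGroup instLindelofSpaceOfCompactSpace sigmaCompactSpace_of_locallyCompact_secondCountable EMetric.instIsCountablyGeneratedUniformity SeparableWeaklyLocallyCompactGroup.sigmaCompactSpace Subsingleton.lindelofSpace Pi.instIsRightCancelAdd Pi.semigroup MonoidWithZeroHomClass.toZeroHomClass StrictOrderedSemiring.toPosSMulStrictMonoNat Pi.distribSMul Pi.involutiveNeg ContinuousLinearMap.toSeminormedRing EquivLike.toEmbeddingLike Pi.measurableSub₂ instR1Space instRegularSpaceOfWeaklyLocallyCompactSpaceOfR1Space instSecondCountableTopologyOfOrderTopologyOfCountable instT3Space instT4SpaceOfMetrizableSpace instT4SpaceOfT1SpaceOfNormalSpace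 instWeaklyLocallyCompactSpaceOfCompactSpace CompletableTopField.toT0Space EMetric.secondCountable_of_sigmaCompact EMetricSpace.instT0Space IsTopologicalAddGroup.regularSpace IsTopologicalGroup.regularSpace MetricSpace.instT0Space MetricSpace.toIsCompletelyMetrizableSpace OrderTopology.t5Space PseudoMetricSpace.toIsCompletelPseudoMetrizableSpace T1Space.t0Space T2Space.r1Space T2Space.t1Space T3Space.toRegularSpace T3Space.toT0Space T4Space.t3Space T4Space.toT1Space T5Space.toT4Space TopologicalSpace.instSecondCountableTopologyOfCountableOfFirstCountableTopology TopologicalSpace.metrizableSpace_of_t3_secondCountable UniformSpace.pseudoMetrizableSpace UniformSpace.to_regularSpace ValuedRing.separated WeaklyLocallyCompactSpace.locallyCompactSpace TopologicalSpace.DiscreteTopology.metrizableSpace TopologicalSpace.IndiscreteTopology.pseudoMetrizableSpace TopologicalSpace.IsCompletelyMetrizableSpace.MetrizableSpace TopologicalSpace.IsCompletelyMetrizableSpace.discrete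 TopologicalSpace.IsCompletelyMetrizableSpace.toIsCompletelyPseudoMetrizableSpace TopologicalSpace.IsCompletelyPseudoMetrizableSpace.PseudoMetrizableSpace TopologicalSpace.IsCompletelyPseudoMetrizableSpace.of_completeSpace_pseudometrizable TopologicalSpace.MetrizableSpace.toPseudoMetrizableSpace TopologicalSpace.MetrizableSpace.toT0Space TopologicalSpace.PseudoMetrizableSpace.of_regularSpace_secondCountableTopology TopologicalSpace.PseudoMetrizableSpace.regularSpace TopologicalSpace.PseudoMetrizableSpace.toMetrizableSpace OrderDual.instIsOrderedModule instIsReducedForall Set.instNoZeroDivisors MeasureTheory.Measure.IsHaarMeasure.toIsFiniteMeasureOnCompacts Pi.t2Space Pi.addCommMagma MeasureTheory.Measure.instSFiniteFstOfProd instT1SpaceOfDiscreteTopology instT1SpaceOfT0SpaceOfR0Space instT2SpaceOfR1SpaceOfT0Space DiscreteTopology.toT2Space OrderClosedTopology.to_t2Space T25Space.t2Space T3Space.t25Space instContMDiffMulOfSomeENatTopOfLEInfty Pi.divisionCommMonoid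 NNReal.instContinuousInv₀ Real.instIntCast Pi.negZeroClass Pi.unique Pi.uniqueOfIsEmpty WithLp.instUnique Algebra.IsQuadraticExtension.toFree Algebra.Smooth.flat Module.FaithfullyFlat.of_isIntegral_of_isDomain Module.Free.self SubfieldClass.toField SubringClass.toNormedCommRing decidableEq_of_subsingleton MulActionWithZero.toMulAction MulDistribMulAction.toMulAction MulSemiringAction.toMulDistribMulAction instCStarAlgebraForall instCommCStarAlgebraForall Pi.normedCommutativeRing Fin.instNeZeroHAddNatOfNat_mathlib MeasureTheory.instSFiniteOfCountable Pi.continuousAdd' MeasureTheory.isLocallyFiniteMeasure_of_isFiniteMeasureOnCompacts MeasureTheory.Measure.instRegularOfIsAddHaarMeasureOfCompactSpace MeasureTheory.Measure.instRegularOfIsHaarMeasureOfCompactSpace MeasureTheory.Measure.InnerRegularCompactLTTop.instRegularOfBorelSpaceOfR1SpaceOfIsFiniteMeasure MeasureTheory.Measure.Regular.of_sigmaCompactSpace_of_isLocallyFiniteMeasure MeasureTheory.Measure.Regular.toIsFiniteMeasureOnCompacts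 OrderDual.instSemifield -- iprune

set_option linter.all false

section

section

namespace Vale.Agent.P224

open Filter Topology Matrix

variable {m : ℕ}

lemma J2.cast {g : ℝ → ℝ} {a b c a' b' c' : ℝ} (h : J2 g a b c) (ha : a = a') (hb : b = b')
    (hc : c = c') : J2 g a' b' c' := by
  subst ha hb hc
  exact h

lemma J2.dot {u v : ℝ → Fin m → ℝ} {a b c a' b' c' : Fin m → ℝ}
    (hu : ∀ i, J2 (fun t => u t i) (a i) (b i) (c i))
    (hv : ∀ i, J2 (fun t => v t i) (a' i) (b' i) (c' i)) :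
    J2 (fun t => u t ⬝ᵥ v t) (∑ i, a i * a' i) (∑ i, (a i * b' i + b i * a' i))
      (∑ i, (a i * c' i + b i * b' i + c i * a' i)) := by
  unfold dotProduct
  exact J2.sum Finset.univ fun i _ => (hu i).mul (hv i)

lemma J2.mulVec {Φ : ℝ → Matrix (Fin m) (Fin m) ℝ} {v : ℝ → Fin m → ℝ}
    {A B C : Fin m → Fin m → ℝ} {a b c : Fin m → ℝ}
    (hΦ : ∀ i j, J2 (fun t => Φ t i j) (A i j) (B i j) (C i j))
    (hv : ∀ i, J2 (fun t => v t i) (a i) (b i) (c i)) (i : Fin m) :
    J2 (fun t => (Φ t *ᵥ v t) i) (∑ j, A i j * a j) (∑ j, (A i j * b j + B i j * a j))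
      (∑ j, (A i j * c j + B i j * b j + C i j * a j)) := by
  unfold Matrix.mulVec
  exact J2.dot (fun j => hΦ i j) hv

/-- the computation of the second-order terms along a coordinate line -/
lemma jet_calc (k : Fin m) (l : Fin m → ℝ) (T Fk : Fin m → Fin m → ℝ) (P : Fin m → ℝ)
    (c0 s0 s1 s2 : ℝ) (Φ : ℝ → Matrix (Fin m) (Fin m) ℝ) (p x w : ℝ → Fin m → ℝ)
    (f s a W r2 : ℝ → ℝ)
    (hΦ : ∀ i j, J2 (fun t => Φ t i j) (if i = j then l i else 0) (T i j) (Fk i j))
    (hp : ∀ i, J2 (fun t => p t i) 0 (if i = k then l k else 0) (P i))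
    (hf : J2 f 0 0 c0) (hs : J2 s s0 s1 s2)
    (hx : ∀ i t, x t i = if i = k then t else 0)
    (ha : ∀ t, a t = f t - x t ⬝ᵥ p t) (hw : ∀ t, w t = p t - a t • x t)
    (hW : ∀ t, W t = 1 + p t ⬝ᵥ p t + a t ^ 2) (hr : ∀ t, r2 t = 1 + x t ⬝ᵥ x t + f t ^ 2)
    (h1 : ∀ᶠ t in 𝓝 0, W t * ((Φ t).trace + x t ⬝ᵥ (Φ t *ᵥ x t)) = w t ⬝ᵥ (Φ t *ᵥ w t))
    (h2 : ∀ᶠ t in 𝓝 0, s t * W t ^ 3 = r2 t * (W t ^ 2 * ((Φ t * Φ t).trace +
        2 * ((Φ t *ᵥ x t) ⬝ᵥ (Φ t *ᵥ x t)) + (x t ⬝ᵥ (Φ t *ᵥ x t)) ^ 2) -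
        2 * W t * ((Φ t *ᵥ w t) ⬝ᵥ (Φ t *ᵥ w t) + (x t ⬝ᵥ (Φ t *ᵥ w t)) ^ 2) +
        (w t ⬝ᵥ (Φ t *ᵥ w t)) ^ 2)) (hl : ∑ i, l i = 0) :
    (∑ i, Fk i i + l k = l k ^ 3) ∧ s0 = ∑ i, l i ^ 2 ∧
    3 * s0 * l k ^ 2 + s2 = s0 + 2 * s0 * l k ^ 2 + 2 * l k ^ 2 + ∑ i, ∑ j, T i j * T j i
      + 2 * ∑ i, l i * Fk i i - 2 * l k ^ 4 := by
  have jx : ∀ i, J2 (fun t => x t i) 0 (if i = k then 1 else 0) 0 := by
    intro i
    simp only [hx]
    by_cases h : i = k
    · simp only [h, if_true]; exact J2.id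
    · simp only [h, if_false]; exact J2.const 0
  have jxp : J2 (fun t => x t ⬝ᵥ p t) 0 0 (l k) := by
    refine (J2.dot jx hp).cast ?_ ?_ ?_ <;> simp
  have ja : J2 a 0 0 (c0 - l k) := by
    have h := hf.sub jxp
    refine (h.cast (by ring) (by ring) rfl).congr ?_
    filter_upwards with t
    rw [ha t]
  have jw : ∀ i, J2 (fun t => w t i) 0 (if i = k then l k else 0) (P i) := by
    intro i
    have h := (hp i).sub (ja.mul (jx i))
    refine (h.cast (by ring) (by ring) (by ring)).congr ?_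
    filter_upwards with t
    simp only [hw t, Pi.sub_apply, Pi.smul_apply, smul_eq_mul]
  have jpp : J2 (fun t => p t ⬝ᵥ p t) 0 0 (l k ^ 2) := by
    refine (J2.dot hp hp).cast ?_ ?_ ?_ <;> simp [pow_two]
  have ja2 : J2 (fun t => a t ^ 2) 0 0 0 := by
    refine ((ja.mul ja).cast (by ring) (by ring) (by ring)).congr ?_
    filter_upwards with t
    ring
  have jW : J2 W 1 0 (l k ^ 2) := by
    refine ((((J2.const 1).add jpp).add ja2).cast (by ring) (by ring) (by ring)).congr ?_
    filter_upwards with t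
    rw [hW t]
  have jxx : J2 (fun t => x t ⬝ᵥ x t) 0 0 1 := by
    refine (J2.dot jx jx).cast ?_ ?_ ?_ <;> simp
  have jf2 : J2 (fun t => f t ^ 2) 0 0 0 := by
    refine ((hf.mul hf).cast (by ring) (by ring) (by ring)).congr ?_
    filter_upwards with t
    ring
  have jr : J2 r2 1 0 1 := by
    refine ((((J2.const 1).add jxx).add jf2).cast (by ring) (by ring) (by ring)).congr ?_
    filter_upwards with t
    rw [hr t]
  have jΦx : ∀ i, J2 (fun t => (Φ t *ᵥ x t) i) 0 (if i = k then l k else 0) (T i k) := by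
    intro i
    refine (J2.mulVec hΦ jx i).cast ?_ ?_ ?_
    · simp only [mul_zero, Finset.sum_const_zero]
    · simp only [mul_ite, mul_one, mul_zero, add_zero, Finset.sum_ite_eq', Finset.mem_univ,
        if_true]
      by_cases h : i = k
      · simp [h]
      · simp [h]
    · simp only [mul_zero, mul_ite, mul_one, zero_add, add_zero, Finset.sum_ite_eq', Finset.mem_univ, ↓reduceIte]
  have jΦw : ∀ i, ∃ c, J2 (fun t => (Φ t *ᵥ w t) i) 0 (if i = k then l k ^ 2 else 0) c := by
    intro i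
    refine ⟨_, (J2.mulVec hΦ jw i).cast ?_ ?_ rfl⟩
    · simp only [mul_zero, Finset.sum_const_zero]
    · simp only [mul_ite, mul_zero, add_zero, Finset.sum_ite_eq', Finset.mem_univ, if_true]
      by_cases h : i = k
      · simp [h, pow_two]
      · simp [h]
  choose cw hcw using jΦw
  have jxΦx : J2 (fun t => x t ⬝ᵥ (Φ t *ᵥ x t)) 0 0 (l k) := by
    refine (J2.dot jx jΦx).cast ?_ ?_ ?_ <;> simp
  have jΦxΦx : J2 (fun t => (Φ t *ᵥ x t) ⬝ᵥ (Φ t *ᵥ x t)) 0 0 (l k ^ 2) := by
    refine (J2.dot jΦx jΦx).cast ?_ ?_ ?_ <;> simp [pow_two]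
  have jΦwΦw : J2 (fun t => (Φ t *ᵥ w t) ⬝ᵥ (Φ t *ᵥ w t)) 0 0 (l k ^ 4) := by
    refine (J2.dot hcw hcw).cast ?_ ?_ ?_
    · simp
    · simp
    · simp only [zero_mul, mul_ite, ite_mul, mul_zero, zero_add, add_zero, Finset.sum_ite_eq', Finset.mem_univ, ↓reduceIte]
      ring
  have jxΦw : J2 (fun t => x t ⬝ᵥ (Φ t *ᵥ w t)) 0 0 (l k ^ 2) := by
    refine (J2.dot jx hcw).cast ?_ ?_ ?_ <;> simp
  have jwΦw : J2 (fun t => w t ⬝ᵥ (Φ t *ᵥ w t)) 0 0 (l k ^ 3) := by
    refine (J2.dot jw hcw).cast ?_ ?_ ?_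
    · simp
    · simp
    · simp only [zero_mul, mul_ite, ite_mul, mul_zero, zero_add, add_zero, Finset.sum_ite_eq', Finset.mem_univ, ↓reduceIte]
      ring
  have jtr : J2 (fun t => (Φ t).trace) 0 (∑ i, T i i) (∑ i, Fk i i) := by
    have h := J2.sum Finset.univ (fun i _ => hΦ i i)
    refine (h.cast ?_ rfl rfl)
    simpa only [↓reduceIte] using hl
  have jtr2 : J2 (fun t => (Φ t * Φ t).trace) (∑ i, l i ^ 2)
      (∑ i, 2 * (l i * T i i)) (∑ i, ∑ j, T i j * T j i + 2 * ∑ i, l i * Fk i i) := by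
    have h : J2 (fun t => ∑ i, ∑ j, Φ t i j * Φ t j i) _ _ _ :=
      J2.sum Finset.univ (fun i _ => J2.sum Finset.univ (fun j _ => (hΦ i j).mul (hΦ j i)))
    refine (h.cast ?_ ?_ ?_).congr ?_
    · simp only [mul_ite, ite_mul, zero_mul, mul_zero, Finset.sum_ite_eq', Finset.mem_univ, ↓reduceIte, pow_two]
    · simp only [ite_mul, zero_mul, mul_ite, mul_zero, Finset.sum_add_distrib, Finset.sum_ite_eq, Finset.mem_univ, if_true, Finset.sum_ite_eq']
      rw [← Finset.sum_add_distrib]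
      apply Finset.sum_congr rfl
      intro i _
      ring
    · simp only [ite_mul, zero_mul, mul_ite, mul_zero, Finset.sum_add_distrib,
        Finset.sum_ite_eq, Finset.sum_ite_eq', Finset.mem_univ, if_true]
      rw [Finset.mul_sum]
      have : ∑ i, Fk i i * l i = ∑ i, l i * Fk i i :=
        Finset.sum_congr rfl fun i _ => mul_comm _ _
      rw [this]
      have h3 : ∑ i, 2 * (l i * Fk i i) = ∑ i, l i * Fk i i + ∑ i, l i * Fk i i := by
        rw [← Finset.sum_add_distrib]
        apply Finset.sum_congr rfl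
        intro i _
        ring
      rw [h3]
      ring
    · filter_upwards with t
      simp only [trace, diag_apply, Matrix.mul_apply]
  -- first identity
  have k1 : J2 (fun t => W t * ((Φ t).trace + x t ⬝ᵥ (Φ t *ᵥ x t))) 0 (∑ i, T i i)
      (∑ i, Fk i i + l k) := by
    refine (jW.mul (jtr.add jxΦx)).cast ?_ ?_ ?_ <;> ring
  have k2 := (k1.congr h1).unique jwΦw
  -- second identity
  have sq : ∀ {g : ℝ → ℝ} {b c : ℝ}, J2 g 0 0 c → J2 (fun t => g t ^ 2) 0 0 0 := by
    intro g b c hg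
    refine ((hg.mul hg).cast (by ring) (by ring) (by ring)).congr ?_
    filter_upwards with t
    ring
  have jW2 : J2 (fun t => W t ^ 2) 1 0 (2 * l k ^ 2) := by
    refine ((jW.mul jW).cast (by ring) (by ring) (by ring)).congr ?_
    filter_upwards with t
    ring
  have jW3 : J2 (fun t => W t ^ 3) 1 0 (3 * l k ^ 2) := by
    refine ((jW2.mul jW).cast (by ring) (by ring) (by ring)).congr ?_
    filter_upwards with t
    ring
  have jL := hs.mul jW3
  have jxx2 : J2 (fun t => (x t ⬝ᵥ (Φ t *ᵥ x t)) ^ 2) 0 0 0 := sq (b := 0) jxΦx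
  have jxw2 : J2 (fun t => (x t ⬝ᵥ (Φ t *ᵥ w t)) ^ 2) 0 0 0 := sq (b := 0) jxΦw
  have jww2 : J2 (fun t => (w t ⬝ᵥ (Φ t *ᵥ w t)) ^ 2) 0 0 0 := sq (b := 0) jwΦw
  have jR := jr.mul (((jW2.mul ((jtr2.add ((J2.const 2).mul jΦxΦx)).add jxx2)).sub
    (((J2.const 2).mul jW).mul (jΦwΦw.add jxw2))).add jww2)
  have k3 := (jL.congr h2).unique jR
  obtain ⟨e0, -, e2⟩ := k3
  refine ⟨k2.2.2, ?_, ?_⟩
  · linear_combination e0
  · have e0' : s0 = ∑ i, l i ^ 2 := by linear_combination e0
    rw [e0'] at e2 ⊢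
    linear_combination e2

end Vale.Agent.P224
end
end

section

section

namespace Vale.Agent.P224

open MeasureTheory Metric Set Matrix Filter
open scoped RealInnerProductSpace ContDiff Topology

variable {m : ℕ} {p ν : EuclideanSpace ℝ (Fin (m + 2))}
  {e : Fin m → EuclideanSpace ℝ (Fin (m + 2))}
  {φ c g : EuclideanSpace ℝ (Fin m) → ℝ}
  {X : EuclideanSpace ℝ (Fin m) → EuclideanSpace ℝ (Fin (m + 2))}
  {T : Set (EuclideanSpace ℝ (Fin m))}

lemma pr_comm (hT : IsOpen T) (hg : ContDiffOn ℝ ∞ g T) {x : EuclideanSpace ℝ (Fin m)}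
    (hx : x ∈ T) (i j : Fin m) : pr (pr g i) j x = pr (pr g j) i x := by
  have hc : ContDiffAt ℝ ∞ g x := hg.contDiffAt (hT.mem_nhds hx)
  have hsym : IsSymmSndFDerivAt ℝ g x := hc.isSymmSndFDerivAt (by
    simp only [minSmoothness_of_isRCLikeNormedField]; norm_cast)
  have hd : DifferentiableAt ℝ (fderiv ℝ g) x := by
    have h1 : ContDiffOn ℝ ∞ (fderiv ℝ g) T := hg.fderiv_of_isOpen hT (by norm_cast)
    exact diffAt_of_contDiffOn hT h1 hx
  have e : ∀ i j, pr (pr g i) j x = fderiv ℝ (fderiv ℝ g) x (EuclideanSpace.single j 1)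
      (EuclideanSpace.single i 1) := by
    intro i j
    unfold pr
    rw [fderiv_clm_apply hd (differentiableAt_const _)]
    simp only [fderiv_fun_const, Pi.zero_apply, ContinuousLinearMap.comp_zero, zero_add, ContinuousLinearMap.flip_apply]
  rw [e, e]
  exact hsym _ _

lemma pr_congr (hT : IsOpen T) {g h : EuclideanSpace ℝ (Fin m) → ℝ} (hgh : ∀ x ∈ T, g x = h x)
    {x : EuclideanSpace ℝ (Fin m)} (hx : x ∈ T) (i : Fin m) : pr g i x = pr h i x := by
  have : g =ᶠ[𝓝 x] h := by
    filter_upwards [hT.mem_nhds hx] with v hv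
    exact hgh v hv
  unfold pr
  rw [this.fderiv_eq]

lemma pr_comm4 (hT : IsOpen T) (hg : ContDiffOn ℝ ∞ g T) {x : EuclideanSpace ℝ (Fin m)}
    (hx : x ∈ T) (i k : Fin m) :
    pr (pr (pr (pr g i) i) k) k x = pr (pr (pr (pr g k) k) i) i x := by
  have h3 : ∀ (g : EuclideanSpace ℝ (Fin m) → ℝ), ContDiffOn ℝ ∞ g T → ∀ x ∈ T,
      pr (pr (pr g i) i) k x = pr (pr (pr g k) i) i x := by
    intro g hg x hx
    rw [pr_comm hT (contDiffOn_pr hT hg i) hx]
    exact pr_congr hT (fun y hy => pr_comm hT hg hy i k) hx i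
  have h4 : pr (pr (pr (pr g i) i) k) k x = pr (pr (pr (pr g k) i) i) k x :=
    pr_congr hT (h3 g hg) hx k
  rw [h4, h3 _ (contDiffOn_pr hT hg k) x hx]

lemma hasDerivAt_line (hT : IsOpen T) (hg : ContDiffOn ℝ ∞ g T) (k : Fin m) {t : ℝ}
    (ht : t • EuclideanSpace.single k (1 : ℝ) ∈ T) :
    HasDerivAt (fun t : ℝ => g (t • EuclideanSpace.single k (1 : ℝ)))
      (pr g k (t • EuclideanSpace.single k (1 : ℝ))) t := by
  have h1 : HasDerivAt (fun t : ℝ => t • EuclideanSpace.single k (1 : ℝ))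
      (EuclideanSpace.single k (1 : ℝ)) t := by
    have := (hasDerivAt_id t).smul_const (EuclideanSpace.single k (1 : ℝ))
    simpa only [id_eq, one_smul] using this
  exact (diffAt_of_contDiffOn hT hg ht).hasFDerivAt.comp_hasDerivAt t h1

lemma eventually_line_mem (hT : IsOpen T) (h0 : (0 : EuclideanSpace ℝ (Fin m)) ∈ T) (k : Fin m) :
    ∀ᶠ t : ℝ in 𝓝 0, t • EuclideanSpace.single k (1 : ℝ) ∈ T := by
  have hc : Continuous (fun t : ℝ => t • EuclideanSpace.single k (1 : ℝ)) := by fun_prop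
  have : Tendsto (fun t : ℝ => t • EuclideanSpace.single k (1 : ℝ)) (𝓝 0)
      (𝓝 (0 : EuclideanSpace ℝ (Fin m))) := by
    have := hc.tendsto 0
    rwa [zero_smul] at this
  exact this.eventually (hT.mem_nhds h0)

lemma J2_line (hT : IsOpen T) (h0 : (0 : EuclideanSpace ℝ (Fin m)) ∈ T)
    (hg : ContDiffOn ℝ ∞ g T) (k : Fin m) :
    J2 (fun t : ℝ => g (t • EuclideanSpace.single k (1 : ℝ))) (g 0) (pr g k 0)
      (pr (pr g k) k 0 / 2) := by
  have h1 : ∀ᶠ t : ℝ in 𝓝 0, HasDerivAt (fun t : ℝ => g (t • EuclideanSpace.single k (1 : ℝ)))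
      (pr g k (t • EuclideanSpace.single k (1 : ℝ))) t := by
    filter_upwards [eventually_line_mem hT h0 k] with t ht
    exact hasDerivAt_line hT hg k ht
  have h2 : HasDerivAt (fun t : ℝ => pr g k (t • EuclideanSpace.single k (1 : ℝ)))
      (pr (pr g k) k ((0 : ℝ) • EuclideanSpace.single k (1 : ℝ))) 0 :=
    hasDerivAt_line hT (contDiffOn_pr hT hg k) k (by rw [zero_smul]; exact h0)
  have := J2.of_deriv h1 h2
  simpa using this

/-- Simons' identity at the origin of a projective graph. -/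
theorem simons_graph (hf : IsFrame p ν e) (hT : IsOpen T)
    (h0 : (0 : EuclideanSpace ℝ (Fin m)) ∈ T) (hc : ContDiffOn ℝ ∞ c T)
    (hφ : ContDiffOn ℝ ∞ φ T) (hX : ∀ x ∈ T, X x = c x • graphY p ν e φ x)
    (hunit : ∀ x ∈ T, ‖X x‖ = 1) (s : EuclideanSpace ℝ (Fin m) → ℝ)
    (hφ0 : φ 0 = 0) (hd0 : ∀ i, pr φ i 0 = 0) (l : Fin m → ℝ)
    (hl : ∀ i j, pr (pr φ j) i 0 = if i = j then l i else 0)
    (hmin : ∀ x ∈ T, ∀ n : EuclideanSpace ℝ (Fin (m + 2)), ‖n‖ = 1 → ⟪X x, n⟫ = 0 →
      (∀ i, ⟪D1 X i x, n⟫ = 0) →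
      ((Matrix.gram ℝ (fun i => D1 X i x))⁻¹ * Matrix.of fun i j => ⟪D2 X i j x, n⟫).trace = 0 ∧
      (((Matrix.gram ℝ (fun i => D1 X i x))⁻¹ * Matrix.of fun i j => ⟪D2 X i j x, n⟫) *
      ((Matrix.gram ℝ (fun i => D1 X i x))⁻¹ * Matrix.of fun i j => ⟪D2 X i j x, n⟫)).trace = s x)
    (s1 s2 : Fin m → ℝ)
    (hs : ∀ k, J2 (fun t : ℝ => s (t • EuclideanSpace.single k (1 : ℝ))) (s 0) (s1 k) (s2 k)) :
    s 0 = ∑ i, l i ^ 2 ∧
    ∑ k, s2 k = ∑ k, ∑ i, ∑ j, pr (pr (pr φ j) i) k 0 ^ 2 + m * s 0 - s 0 ^ 2 := by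
  -- the two identities on T
  have hid : ∀ x ∈ T, ∀ (d w : Fin m → ℝ) (a W r2 : ℝ) (Φ : Matrix (Fin m) (Fin m) ℝ),
      d = (fun i => pr φ i x) → a = φ x - (x : Fin m → ℝ) ⬝ᵥ d → W = 1 + d ⬝ᵥ d + a ^ 2 →
      r2 = 1 + (x : Fin m → ℝ) ⬝ᵥ x + φ x ^ 2 → w = d - a • (x : Fin m → ℝ) →
      Φ = (Matrix.of fun i j => pr (pr φ j) i x) →
      W * (Φ.trace + (x : Fin m → ℝ) ⬝ᵥ (Φ *ᵥ x)) = w ⬝ᵥ (Φ *ᵥ w) ∧
      s x * W ^ 3 = r2 * (W ^ 2 * ((Φ * Φ).trace +
        2 * ((Φ *ᵥ x) ⬝ᵥ (Φ *ᵥ x)) + ((x : Fin m → ℝ) ⬝ᵥ (Φ *ᵥ x)) ^ 2) -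
        2 * W * ((Φ *ᵥ w) ⬝ᵥ (Φ *ᵥ w) + ((x : Fin m → ℝ) ⬝ᵥ (Φ *ᵥ w)) ^ 2) +
        (w ⬝ᵥ (Φ *ᵥ w)) ^ 2) := by
    intro x hx d w a W r2 Φ hd ha hW hr hw hΦ
    obtain ⟨n, -, hn1, hn2, hn3, hcr, hG, hH⟩ := graph_forms hf hT hc hφ hX hunit hx d
      ((x : Fin m → ℝ) + φ x • d) a W r2 hd ha hW hr rfl
    obtain ⟨t1, t2⟩ := hmin x hx n hn1 hn2 hn3
    have hΦs : Φᵀ = Φ := by
      rw [hΦ]
      ext i j
      simp only [transpose_apply, of_apply]
      exact pr_comm hT hφ hx i j
    exact graph_eqs (x : Fin m → ℝ) Φ _ _ hΦs d _ w (φ x) a W r2 (c x) (s x) ha hW hr rfl hw hcr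
      hG (by rw [hH, hΦ]) t1 t2
  -- jets along each line
  have hlin : ∀ k, (∑ i, pr (pr (pr (pr φ i) i) k) k 0 / 2 + l k = l k ^ 3) ∧
      3 * s 0 * l k ^ 2 + s2 k = s 0 + 2 * s 0 * l k ^ 2 + 2 * l k ^ 2 +
      ∑ i, ∑ j, pr (pr (pr φ j) i) k 0 * pr (pr (pr φ i) j) k 0
      + 2 * ∑ i, l i * (pr (pr (pr (pr φ i) i) k) k 0 / 2) - 2 * l k ^ 4 ∧
      s 0 = ∑ i, l i ^ 2 := by
    intro k
    set ln : ℝ → EuclideanSpace ℝ (Fin m) := fun t => t • EuclideanSpace.single k (1 : ℝ) with hln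
    have hmem := eventually_line_mem hT h0 k
    have hΦs : ∀ i j, ContDiffOn ℝ ∞ (pr (pr φ j) i) T := fun i j =>
      contDiffOn_pr hT (contDiffOn_pr hT hφ j) i
    have jΦ : ∀ i j, J2 (fun t => (Matrix.of fun i j => pr (pr φ j) i (ln t)) i j)
        (if i = j then l i else 0) (pr (pr (pr φ j) i) k 0)
        (pr (pr (pr (pr φ j) i) k) k 0 / 2) := by
      intro i j
      have := J2_line hT h0 (hΦs i j) k
      rw [hl] at this
      exact this
    have jp : ∀ i, J2 (fun t => (fun i => pr φ i (ln t)) i) 0 (if i = k then l k else 0)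
        (pr (pr (pr φ i) k) k 0 / 2) := by
      intro i
      have h1 := J2_line hT h0 (contDiffOn_pr hT hφ i) k
      rw [hd0, hl] at h1
      refine h1.cast rfl ?_ rfl
      by_cases hik : i = k
      · simp [hik]
      · simp [hik, Ne.symm hik]
    have jf : J2 (fun t => φ (ln t)) 0 0 (pr (pr φ k) k 0 / 2) := by
      have h1 := J2_line hT h0 hφ k
      rw [hφ0, hd0] at h1
      exact h1
    have hl0 : ∑ i, l i = 0 := by
      have h1 := (hid 0 h0 _ _ _ _ _ _ rfl rfl rfl rfl rfl rfl).1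
      have hz : ((0 : EuclideanSpace ℝ (Fin m)) : Fin m → ℝ) = 0 := rfl
      have hdz : (fun i => pr φ i 0) = 0 := by
        funext i
        exact hd0 i
      rw [hz, hdz] at h1
      simp only [dotProduct_zero, add_zero, hφ0, sub_self, zero_pow (two_ne_zero), mulVec_zero, one_mul, smul_zero] at h1
      rw [Matrix.trace] at h1
      simpa only [hl, diag_apply, of_apply, ↓reduceIte] using h1
    have hx : ∀ i t, (fun t => ((ln t : EuclideanSpace ℝ (Fin m)) : Fin m → ℝ)) t i
        = if i = k then t else 0 := by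
      intro i t
      simp [hln]
    have key := jet_calc k l (fun i j => pr (pr (pr φ j) i) k 0)
      (fun i j => pr (pr (pr (pr φ j) i) k) k 0 / 2) (fun i => pr (pr (pr φ i) k) k 0 / 2)
      (pr (pr φ k) k 0 / 2) (s 0) (s1 k) (s2 k)
      (fun t => Matrix.of fun i j => pr (pr φ j) i (ln t)) (fun t i => pr φ i (ln t))
      (fun t => ((ln t : EuclideanSpace ℝ (Fin m)) : Fin m → ℝ))
      (fun t => (fun i => pr φ i (ln t)) - (φ (ln t) - ((ln t : EuclideanSpace ℝ (Fin m)) :
        Fin m → ℝ) ⬝ᵥ (fun i => pr φ i (ln t))) • ((ln t : EuclideanSpace ℝ (Fin m)) :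
        Fin m → ℝ))
      (fun t => φ (ln t)) (fun t => s (ln t))
      (fun t => φ (ln t) - ((ln t : EuclideanSpace ℝ (Fin m)) :
        Fin m → ℝ) ⬝ᵥ (fun i => pr φ i (ln t)))
      (fun t => 1 + (fun i => pr φ i (ln t)) ⬝ᵥ (fun i => pr φ i (ln t)) +
        (φ (ln t) - ((ln t : EuclideanSpace ℝ (Fin m)) :
        Fin m → ℝ) ⬝ᵥ (fun i => pr φ i (ln t))) ^ 2)
      (fun t => 1 + ((ln t : EuclideanSpace ℝ (Fin m)) :
        Fin m → ℝ) ⬝ᵥ ((ln t : EuclideanSpace ℝ (Fin m)) :
        Fin m → ℝ) + φ (ln t) ^ 2)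
      jΦ jp jf (hs k) hx (fun t => rfl) (fun t => rfl) (fun t => rfl) (fun t => rfl)
      (by
        filter_upwards [hmem] with t ht
        exact (hid (ln t) ht _ _ _ _ _ _ rfl rfl rfl rfl rfl rfl).1)
      (by
        filter_upwards [hmem] with t ht
        exact (hid (ln t) ht _ _ _ _ _ _ rfl rfl rfl rfl rfl rfl).2) hl0
    exact ⟨key.1, key.2.2, key.2.1⟩
  -- m could be zero only if the statement is trivial
  rcases Nat.eq_zero_or_pos m with hm | hm
  · subst hm
    have hz : s 0 = 0 := by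
      have := (hid 0 h0 _ _ _ _ _ _ rfl rfl rfl rfl rfl rfl).2
      simpa [dotProduct, Matrix.trace, hφ0] using this
    simp only [hz, Finset.univ_eq_empty, Finset.sum_empty, Finset.sum_const_zero, CharP.cast_eq_zero, mul_zero, add_zero, ne_eq, OfNat.ofNat_ne_zero, not_false_eq_true, zero_pow, sub_self, and_self]
  have hs0 : s 0 = ∑ i, l i ^ 2 := (hlin ⟨0, hm⟩).2.2
  refine ⟨hs0, ?_⟩
  have hsum := Finset.sum_congr rfl (fun k (_ : k ∈ Finset.univ) => (hlin k).2.1)
  have hT2 : ∀ k, ∑ i, ∑ j, pr (pr (pr φ j) i) k 0 * pr (pr (pr φ i) j) k 0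
      = ∑ i, ∑ j, pr (pr (pr φ j) i) k 0 ^ 2 := by
    intro k
    apply Finset.sum_congr rfl
    intro i _
    apply Finset.sum_congr rfl
    intro j _
    have : pr (pr (pr φ i) j) k 0 = pr (pr (pr φ j) i) k 0 :=
      pr_congr hT (fun y hy => pr_comm hT hφ hy i j) h0 k
    rw [this, pow_two]
  have hF : ∑ k, ∑ i, l i * (pr (pr (pr (pr φ i) i) k) k 0 / 2)
      = ∑ i, l i * (l i ^ 3 - l i) := by
    rw [Finset.sum_comm]
    apply Finset.sum_congr rfl
    intro i _
    rw [← Finset.mul_sum]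
    congr 1
    rw [← (hlin i).1]
    have : ∑ k, pr (pr (pr (pr φ i) i) k) k 0 / 2 = ∑ k, pr (pr (pr (pr φ k) k) i) i 0 / 2 := by
      apply Finset.sum_congr rfl
      intro k _
      rw [pr_comm4 hT hφ h0]
    rw [this]
    ring
  simp only [hT2, Finset.sum_add_distrib, Finset.sum_sub_distrib, ← Finset.mul_sum,
    Finset.sum_const, Finset.card_univ, Fintype.card_fin, nsmul_eq_mul] at hsum
  rw [hF, ← hs0] at hsum
  have h5 : ∑ i, l i * (l i ^ 3 - l i) = ∑ i, l i ^ 4 - s 0 := by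
    rw [hs0, ← Finset.sum_sub_distrib]
    apply Finset.sum_congr rfl
    intro i _
    ring
  rw [h5] at hsum
  linear_combination hsum

end Vale.Agent.P224
end
end

section

section

namespace Vale.Agent.P224

open MeasureTheory Metric Set Matrix Filter
open scoped RealInnerProductSpace ContDiff Topology

variable {m : ℕ} {p ν : EuclideanSpace ℝ (Fin (m + 2))}
  {e : Fin m → EuclideanSpace ℝ (Fin (m + 2))}
  {f : EuclideanSpace ℝ (Fin m) → EuclideanSpace ℝ (Fin (m + 2))}
  {T : Set (EuclideanSpace ℝ (Fin m))}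

lemma IsFrame.expand (hf : IsFrame p ν e) (v : EuclideanSpace ℝ (Fin (m + 2))) :
    v = ⟪v, p⟫ • p + ∑ i, ⟪v, e i⟫ • e i + ⟪v, ν⟫ • ν := by
  set q : Fin m ⊕ Fin 2 → EuclideanSpace ℝ (Fin (m + 2)) := Sum.elim e ![p, ν] with hq
  have ho : Orthonormal ℝ q := by
    rw [orthonormal_iff_ite]
    intro s t
    rcases s with s | s <;> rcases t with t | t
    · simp [hq, hf.ee]
    · fin_cases t <;> simp [hq, hf.ep, hf.en]
    · fin_cases s <;> simp [hq, hf.pe, hf.ne]
    · fin_cases s <;> fin_cases t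
      · simpa only [hq, Fin.zero_eta, Fin.isValue, Sum.elim_inr, cons_val_zero, inner_self_eq_norm_sq_to_K,     Real.ringHom_apply, ↓reduceIte, sq_eq_one_iff] using hf.pp
      · simp [hq, hf.pn]
      · simp only [hq, Fin.mk_one, Fin.isValue, Sum.elim_inr, cons_val_one, cons_val_fin_one, Fin.zero_eta, cons_val_zero, hf.np, Sum.inr.injEq, one_ne_zero, ↓reduceIte]
      · simpa only [hq, Fin.mk_one, Fin.isValue, Sum.elim_inr, cons_val_one, cons_val_fin_one,     inner_self_eq_norm_sq_to_K, Real.ringHom_apply, ↓reduceIte, sq_eq_one_iff] using hf.nn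
  have hcard : Fintype.card (Fin m ⊕ Fin 2) = Module.finrank ℝ (EuclideanSpace ℝ (Fin (m + 2))) := by
    simp only [Fintype.card_sum, Fintype.card_fin, finrank_euclideanSpace, Nat.add_left_cancel_iff]
  have hspan : ⊤ ≤ Submodule.span ℝ (Set.range q) := by
    have : Nonempty (Fin m ⊕ Fin 2) := ⟨Sum.inr 0⟩
    have := (basisOfOrthonormalOfCardEqFinrank ho hcard).span_eq
    rw [coe_basisOfOrthonormalOfCardEqFinrank] at this
    exact this.ge
  have hb := (OrthonormalBasis.mk ho hspan).sum_repr' v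
  simp only [OrthonormalBasis.coe_mk, Fintype.sum_sum_type, Fin.sum_univ_two] at hb
  simp only [hq, Sum.elim_inl, Sum.elim_inr, Matrix.cons_val_zero, Matrix.cons_val_one] at hb
  conv_lhs => rw [← hb]
  rw [real_inner_comm v p, real_inner_comm v ν]
  have : ∀ i, ⟪e i, v⟫ = ⟪v, e i⟫ := fun i => real_inner_comm _ _
  simp only [this]
  abel

/-- Every immersed hypersurface is locally a projective graph over its tangent space, in
coordinates which diagonalise the second fundamental form. -/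
theorem exists_graph (h : Imm f T) {u0 : EuclideanSpace ℝ (Fin m)} (hu0 : u0 ∈ T) :
    ∃ (p ν : EuclideanSpace ℝ (Fin (m + 2))) (e : Fin m → EuclideanSpace ℝ (Fin (m + 2)))
      (σ : EuclideanSpace ℝ (Fin m) → EuclideanSpace ℝ (Fin m))
      (T' : Set (EuclideanSpace ℝ (Fin m))) (c φ : EuclideanSpace ℝ (Fin m) → ℝ) (l : Fin m → ℝ),
      IsFrame p ν e ∧ IsOpen T' ∧ 0 ∈ T' ∧ ContDiffOn ℝ ∞ σ T' ∧ σ 0 = u0 ∧ MapsTo σ T' T ∧
      ContDiffOn ℝ ∞ c T' ∧ ContDiffOn ℝ ∞ φ T' ∧
      (∀ x ∈ T', f (σ x) = c x • graphY p ν e φ x) ∧ φ 0 = 0 ∧ (∀ i, pr φ i 0 = 0) ∧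
      (∀ i j, pr (pr φ j) i 0 = if i = j then l i else 0) ∧
      (∀ x ∈ T', IsUnit (Jac σ x).det) ∧ p = f u0 ∧ ν = nu f u0 ∧
      (∀ i, e i = ∑ b, Jac σ 0 b i • D1 f b u0) := by
  obtain ⟨P, κ, hPG, hPH⟩ := exists_simul_diag (G f u0) (H f u0) (h.G_posDef hu0) (h.H_symm hu0)
  set p := f u0 with hp
  set ν := nu f u0 with hν
  set e : Fin m → EuclideanSpace ℝ (Fin (m + 2)) := fun j => ∑ b, P b j • D1 f b u0 with he
  have hee : ∀ i j, ⟪e i, e j⟫ = if i = j then 1 else 0 := by
    intro i j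
    have h1 := congrFun (congrFun hPG i) j
    rw [Matrix.one_apply] at h1
    rw [← h1]
    simp only [he, sum_inner, inner_sum, inner_smul_left, inner_smul_right, conj_trivial,
      Matrix.mul_apply, transpose_apply, G, gram_apply, Finset.sum_mul]
    apply Finset.sum_congr rfl
    intro b _
    rw [Finset.mul_sum]
    apply Finset.sum_congr rfl
    intro a _
    ring
  have hf : IsFrame p ν e := by
    refine ⟨?_, ?_, ?_, ?_, ?_, hee⟩
    · rw [real_inner_self_eq_norm_sq, h.unit u0 hu0]; norm_num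
    · rw [real_inner_self_eq_norm_sq, h.norm_nu hu0]; norm_num
    · rw [real_inner_comm]; exact Imm.inner_nu_f u0
    · intro i
      simp only [he, sum_inner, inner_smul_left]
      apply Finset.sum_eq_zero
      intro b _
      rw [h.inner_D1_f hu0, mul_zero]
    · intro i
      simp only [he, sum_inner, inner_smul_left]
      apply Finset.sum_eq_zero
      intro b _
      rw [real_inner_comm, Imm.inner_nu_D1, mul_zero]
  -- the projection
  set T1 : Set (EuclideanSpace ℝ (Fin m)) := {u ∈ T | 0 < ⟪f u, p⟫} with hT1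
  have hcp : ContDiffOn ℝ ∞ (fun u => ⟪f u, p⟫) T := h.smooth.inner ℝ contDiffOn_const
  have hT1o : IsOpen T1 := by
    have := hcp.continuousOn.isOpen_inter_preimage h.isOpen isOpen_Ioi (t := Ioi 0)
    exact this
  have hu1 : u0 ∈ T1 := by
    refine ⟨hu0, ?_⟩
    rw [← hp, hf.pp]; norm_num
  set Ψ : EuclideanSpace ℝ (Fin m) → EuclideanSpace ℝ (Fin m) :=
    fun u => WithLp.toLp 2 (fun i => ⟪f u, e i⟫ / ⟪f u, p⟫) with hΨ
  have hΨs : ContDiffOn ℝ ∞ Ψ T1 := by
    rw [contDiffOn_euclidean]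
    intro i
    have h1 : ContDiffOn ℝ ∞ (fun u => ⟪f u, e i⟫) T1 :=
      (h.smooth.inner ℝ contDiffOn_const).mono (fun u hu => hu.1)
    exact h1.div (hcp.mono (fun u hu => hu.1)) (fun u hu => hu.2.ne')
  have hΨ0 : Ψ u0 = 0 := by
    ext i
    simp only [hΨ]
    rw [← hp, hf.pe, zero_div]
    rfl
  have hfd : DifferentiableAt ℝ f u0 := h.diffAt hu0
  have hΨd : DifferentiableAt ℝ Ψ u0 := diffAt_of_contDiffOn hT1o hΨs hu1
  have hΨc : ∀ i v, (fderiv ℝ Ψ u0 v) i = ⟪fderiv ℝ f u0 v, e i⟫ := by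
    intro i v
    have h1 : HasFDerivAt (fun u => Ψ u i)
        ((EuclideanSpace.proj (𝕜 := ℝ) i).comp (fderiv ℝ Ψ u0)) u0 :=
      (EuclideanSpace.proj (𝕜 := ℝ) i).hasFDerivAt.comp u0 hΨd.hasFDerivAt
    have h2 : HasFDerivAt (fun u => ⟪f u, p⟫) (fderiv ℝ (fun u => ⟪f u, p⟫) u0) u0 :=
      (diffAt_of_contDiffOn h.isOpen hcp hu0).hasFDerivAt
    have h3 := h1.mul h2
    have h4 : (fun u => Ψ u i * ⟪f u, p⟫) =ᶠ[𝓝 u0] fun u => ⟪f u, e i⟫ := by
      filter_upwards [hT1o.mem_nhds hu1] with u hu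
      simp only [hΨ]
      exact div_mul_cancel₀ _ hu.2.ne'
    have h5 := congrArg (fun A : EuclideanSpace ℝ (Fin m) →L[ℝ] ℝ => A v) h3.fderiv
    simp only [_root_.add_apply, _root_.smul_apply, ContinuousLinearMap.comp_apply] at h5
    have h6 : fderiv ℝ ((fun u => Ψ u i) * fun u => ⟪f u, p⟫) u0 v
        = ⟪fderiv ℝ f u0 v, e i⟫ := by
      have : ((fun u => Ψ u i) * fun u => ⟪f u, p⟫) =ᶠ[𝓝 u0] fun u => ⟪f u, e i⟫ := h4
      rw [this.fderiv_eq, fderiv_inner_apply ℝ hfd (differentiableAt_const _)]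
      simp only [fderiv_fun_const, Pi.zero_apply, _root_.zero_apply, inner_zero_right, zero_add]
    have h8 : Ψ u0 i = 0 := by rw [hΨ0]; rfl
    rw [h6, h8, ← hp, hf.pp] at h5
    simp only [zero_smul, zero_add, one_smul] at h5
    simpa only [PiLp.proj_apply] using h5.symm
  have hinj : Function.Injective (fderiv ℝ Ψ u0) := by
    rw [injective_iff_map_eq_zero]
    intro v hv
    apply h.inj u0 hu0
    rw [map_zero]
    rw [hf.expand (fderiv ℝ f u0 v)]
    have h1 : ∀ i, ⟪fderiv ℝ f u0 v, e i⟫ = 0 := by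
      intro i
      rw [← hΨc, hv]
      rfl
    have h2 : ⟪fderiv ℝ f u0 v, p⟫ = 0 := by
      rw [fderiv_eq_sum, sum_inner]
      apply Finset.sum_eq_zero
      intro b _
      rw [inner_smul_left, hp, h.inner_D1_f hu0, mul_zero]
    have h3 : ⟪fderiv ℝ f u0 v, ν⟫ = 0 := by
      rw [fderiv_eq_sum, sum_inner]
      apply Finset.sum_eq_zero
      intro b _
      rw [inner_smul_left, real_inner_comm, hν, Imm.inner_nu_D1, mul_zero]
    simp only [h2, zero_smul, h1, Finset.sum_const_zero, add_zero, h3]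
  set A : EuclideanSpace ℝ (Fin m) ≃L[ℝ] EuclideanSpace ℝ (Fin m) :=
    (LinearEquiv.ofInjectiveEndo (fderiv ℝ Ψ u0).toLinearMap hinj).toContinuousLinearEquiv with hA
  have hAc : (A : EuclideanSpace ℝ (Fin m) →L[ℝ] EuclideanSpace ℝ (Fin m)) = fderiv ℝ Ψ u0 := by
    ext v
    simp only [hA, ContinuousLinearEquiv.coe_coe, LinearEquiv.coe_toContinuousLinearEquiv', LinearEquiv.coe_ofInjectiveEndo, ContinuousLinearMap.coe_coe]
  have hΨat : ContDiffAt ℝ ∞ Ψ u0 := hΨs.contDiffAt (hT1o.mem_nhds hu1)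
  have hΨA : HasFDerivAt Ψ (A : EuclideanSpace ℝ (Fin m) →L[ℝ] EuclideanSpace ℝ (Fin m)) u0 := by
    rw [hAc]; exact hΨd.hasFDerivAt
  set E := hΨat.toOpenPartialHomeomorph Ψ hΨA (by norm_num) with hE
  have hEc : ∀ u, E u = Ψ u := fun u => rfl
  have hEu : u0 ∈ E.source := ContDiffAt.mem_toOpenPartialHomeomorph_source hΨat hΨA (by norm_num)
  -- invertibility set
  set S0 : Set (EuclideanSpace ℝ (Fin m)) := {u ∈ T1 | fderiv ℝ Ψ u ∈
    Set.range ((↑) : (EuclideanSpace ℝ (Fin m) ≃L[ℝ] EuclideanSpace ℝ (Fin m)) →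
      (EuclideanSpace ℝ (Fin m) →L[ℝ] EuclideanSpace ℝ (Fin m)))} with hS0
  have hS0o : IsOpen S0 := by
    have h1 : ContDiffOn ℝ ∞ (fderiv ℝ Ψ) T1 := hΨs.fderiv_of_isOpen hT1o (by norm_cast)
    exact h1.continuousOn.isOpen_inter_preimage hT1o ContinuousLinearEquiv.isOpen
  have hS0u : u0 ∈ S0 := ⟨hu1, ⟨A, hAc⟩⟩
  set T' : Set (EuclideanSpace ℝ (Fin m)) := E.target ∩ E.symm ⁻¹' S0 with hT'
  have hT'o : IsOpen T' := E.symm.isOpen_inter_preimage hS0o
  have h00 : E u0 = 0 := by rw [hEc, hΨ0]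
  have hsymm0 : E.symm 0 = u0 := by rw [← h00]; exact E.left_inv hEu
  have h0T : (0 : EuclideanSpace ℝ (Fin m)) ∈ T' := by
    refine ⟨?_, ?_⟩
    · rw [← h00]; exact E.map_source hEu
    · rw [mem_preimage, hsymm0]; exact hS0u
  have hσ : ContDiffOn ℝ ∞ E.symm T' := by
    intro x hx
    obtain ⟨hx1, hx2, ⟨B, hB⟩⟩ := hx
    apply ContDiffAt.contDiffWithinAt
    apply E.contDiffAt_symm hx1 (f₀' := B)
    · have : DifferentiableAt ℝ Ψ (E.symm x) := diffAt_of_contDiffOn hT1o hΨs hx2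
      have h3 := this.hasFDerivAt
      rw [← hB] at h3
      exact h3
    · exact hΨs.contDiffAt (hT1o.mem_nhds hx2)
  have hmaps : MapsTo E.symm T' T := fun x hx => hx.2.1.1
  set c : EuclideanSpace ℝ (Fin m) → ℝ := fun x => ⟪f (E.symm x), p⟫ with hc
  set φ : EuclideanSpace ℝ (Fin m) → ℝ := fun x => ⟪f (E.symm x), ν⟫ / ⟪f (E.symm x), p⟫ with hφ
  have hXs : ContDiffOn ℝ ∞ (fun x => f (E.symm x)) T' := h.smooth.comp hσ hmaps
  have hcs : ContDiffOn ℝ ∞ c T' := hXs.inner ℝ contDiffOn_const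
  have hc0 : ∀ x ∈ T', 0 < c x := fun x hx => hx.2.1.2
  have hφs : ContDiffOn ℝ ∞ φ T' :=
    (hXs.inner ℝ contDiffOn_const).div hcs (fun x hx => (hc0 x hx).ne')
  have hgraph : ∀ x ∈ T', f (E.symm x) = c x • graphY p ν e φ x := by
    intro x hx
    have h1 : Ψ (E.symm x) = x := by rw [← hEc]; exact E.right_inv hx.1
    have h2 : ∀ i, ⟪f (E.symm x), e i⟫ = c x * x i := by
      intro i
      have h3 : Ψ (E.symm x) i = x i := by rw [h1]
      simp only [hΨ] at h3
      rw [← h3]
      have := (hc0 x hx).ne'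
      simp only [hc] at this ⊢
      (clear * - this; field_simp)
    conv_lhs => rw [hf.expand (f (E.symm x))]
    unfold graphY
    simp only [h2, smul_add, Finset.smul_sum, smul_smul]
    congr 2
    simp only [hφ, hc]
    have := (hc0 x hx).ne'
    simp only [hc] at this
    (clear * - this; field_simp)
  have hc00 : c 0 = 1 := by simp only [hc, hsymm0]; rw [← hp]; exact hf.pp
  have hφ00 : φ 0 = 0 := by
    simp only [hφ, hsymm0]; rw [← hp, hf.pn, zero_div]
  have hY0 : graphY p ν e φ 0 = p := by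
    unfold graphY
    simp only [PiLp.zero_apply, zero_smul, Finset.sum_const_zero, add_zero, hφ00]
  have hσ0 : ContDiffAt ℝ ∞ E.symm 0 := hσ.contDiffAt (hT'o.mem_nhds h0T)
  have hfat : ContDiffAt ℝ ∞ f (E.symm 0) := by
    rw [hsymm0]; exact h.smooth.contDiffAt (h.isOpen.mem_nhds hu0)
  have hD1X : ∀ i, D1 (fun x => f (E.symm x)) i 0 = ∑ b, Jac E.symm 0 b i • D1 f b u0 := by
    intro i
    have := D1_comp (g := fun x => f (E.symm x)) (hσ0.differentiableAt (by norm_num))
      (hfat.differentiableAt (by norm_num)) (EventuallyEq.refl _ _) i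
    rw [hsymm0] at this
    exact this
  have hD1g : ∀ i, D1 (fun x => f (E.symm x)) i 0 = pr c i 0 • p + (e i + pr φ i 0 • ν) := by
    intro i
    have := D1_graph (p := p) (ν := ν) (e := e) hT'o hcs hφs hgraph h0T i
    rw [hY0, hc00, one_smul] at this
    exact this
  have hφ1 : ∀ i, pr φ i 0 = 0 := by
    intro i
    have h1 : ⟪D1 (fun x => f (E.symm x)) i 0, ν⟫ = 0 := by
      rw [hD1X, sum_inner]
      apply Finset.sum_eq_zero
      intro b _
      rw [inner_smul_left, real_inner_comm, hν, Imm.inner_nu_D1, mul_zero]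
    rw [hD1g] at h1
    simp only [inner_add_left, inner_smul_left, conj_trivial, hf.pn, hf.en, hf.nn] at h1
    linarith only [h1]
  have hc1 : ∀ i, pr c i 0 = 0 := by
    intro i
    have h1 : ⟪D1 (fun x => f (E.symm x)) i 0, p⟫ = 0 := by
      rw [hD1X, sum_inner]
      apply Finset.sum_eq_zero
      intro b _
      rw [inner_smul_left, hp, h.inner_D1_f hu0, mul_zero]
    rw [hD1g] at h1
    simp only [inner_add_left, inner_smul_left, conj_trivial, hf.pp, hf.ep, hf.np] at h1
    linarith only [h1]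
  have hei : ∀ i, e i = ∑ b, Jac E.symm 0 b i • D1 f b u0 := by
    intro i
    rw [← hD1X, hD1g, hφ1, hc1]
    simp only [zero_smul, add_zero, zero_add]
  have hJP : Jac E.symm 0 = P := by
    ext b i
    have h1 : ∑ b, (Jac E.symm 0 b i - P b i) • D1 f b u0 = 0 := by
      simp only [sub_smul, Finset.sum_sub_distrib]
      rw [← hei]
      simp only [he, sub_self]
    have h2 := (Fintype.linearIndependent_iff.mp (h.linearIndependent hu0)) _ h1 b
    linarith only [h2]
  have hunit : ∀ x ∈ T', ‖f (E.symm x)‖ = 1 := fun x hx => h.unit _ (hmaps hx)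
  have hHess : ∀ i j, pr (pr φ j) i 0 = if i = j then κ i else 0 := by
    intro i j
    have hdz : (0 : Fin m → ℝ) = (fun i => pr φ i 0) := by
      funext i; exact (hφ1 i).symm
    have hz : ((0 : EuclideanSpace ℝ (Fin m)) : Fin m → ℝ) = 0 := rfl
    obtain ⟨n, hn, -, -, -, -, -, hH⟩ := graph_forms hf hT'o hcs hφs hgraph hunit h0T
      0 _ 0 1 1 hdz (by rw [hφ00]; simp only [WithLp.ofLp_zero, dotProduct_zero, sub_self]) (by simp only [dotProduct_zero, add_zero, ne_eq, OfNat.ofNat_ne_zero, not_false_eq_true, zero_pow]) (by rw [hφ00, hz]; simp only [dotProduct_zero, add_zero, ne_eq, OfNat.ofNat_ne_zero, not_false_eq_true, zero_pow]) rfl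
    have hnν : n = ν := by rw [hn]; simp only [Real.sqrt_one, inv_one, zero_smul, sub_zero, Pi.zero_apply, Finset.sum_const_zero, one_smul]
    rw [hnν, hc00] at hH
    have h2 := (forms_comp (g := fun x => f (E.symm x)) hσ0 hfat (EventuallyEq.refl _ _) ν
      (by
        intro b
        rw [hsymm0, real_inner_comm, hν]
        exact Imm.inner_nu_D1 _ b)).2
    rw [h2, hJP, hsymm0] at hH
    have h3 : (Matrix.of fun i j => ⟪D2 f i j u0, ν⟫) = H f u0 := rfl
    rw [h3, hPH] at hH
    have h4 := congrFun (congrFun hH i) j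
    simp only [diagonal_apply, Real.sqrt_one, inv_one, mul_one, one_smul, of_apply] at h4
    exact h4.symm
  have hJu : ∀ x ∈ T', IsUnit (Jac E.symm x).det := by
    intro x hx
    rw [isUnit_iff_ne_zero]
    intro h0
    have hσx : ContDiffAt ℝ ∞ E.symm x := hσ.contDiffAt (hT'o.mem_nhds hx)
    have hfx : ContDiffAt ℝ ∞ f (E.symm x) :=
      h.smooth.contDiffAt (h.isOpen.mem_nhds (hmaps hx))
    have h1 := (forms_comp (g := fun x => f (E.symm x)) hσx hfx (EventuallyEq.refl _ _) 0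
      (by intro b; simp only [inner_zero_right])).1
    obtain ⟨n, -, -, -, -, hcr, hG, -⟩ := graph_forms hf hT'o hcs hφs hgraph hunit hx
      _ _ _ _ _ rfl rfl rfl rfl rfl
    have h2 := congrArg Matrix.det (h1.symm.trans hG)
    rw [det_mul, det_mul, h0, mul_zero, det_smul] at h2
    set d : Fin m → ℝ := fun i => pr φ i x with hd
    set a := φ x - (x : Fin m → ℝ) ⬝ᵥ d with ha
    have hW0 : (1 + d ⬝ᵥ d + a ^ 2) ≠ 0 := by
      have : 0 ≤ d ⬝ᵥ d := by
        unfold dotProduct
        exact Finset.sum_nonneg fun i _ => mul_self_nonneg _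
      (clear * - this; positivity)
    have hr0 : (1 + (x : Fin m → ℝ) ⬝ᵥ x + φ x ^ 2) ≠ 0 := by
      have : 0 ≤ (x : Fin m → ℝ) ⬝ᵥ x := by
        unfold dotProduct
        exact Finset.sum_nonneg fun i _ => mul_self_nonneg _
      (clear * - this; positivity)
    have hinv := graph_inv (x : Fin m → ℝ) d (φ x) a (1 + (x : Fin m → ℝ) ⬝ᵥ x + φ x ^ 2)
      (1 + d ⬝ᵥ d + a ^ 2) _ _ rfl rfl rfl rfl rfl hr0 hW0
    have h3 := congrArg Matrix.det hinv
    rw [det_mul, det_one] at h3
    have h4 : (c x ^ 2) ^ Fintype.card (Fin m) ≠ 0 :=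
      pow_ne_zero _ (pow_ne_zero _ (hc0 x hx).ne')
    rcases mul_eq_zero.mp h2.symm with h5 | h5
    · exact h4 h5
    · rw [h5, zero_mul] at h3
      exact zero_ne_one h3
  exact ⟨p, ν, e, E.symm, T', c, φ, κ, hf, hT'o, h0T, hσ, hsymm0, hmaps, hcs, hφs, hgraph, hφ00,
    hφ1, hHess, hJu, rfl, rfl, hei⟩

end Vale.Agent.P224
end
end

section

section

namespace Vale.Agent.P224

open MeasureTheory Metric Set Matrix Filter
open scoped RealInnerProductSpace ContDiff Topology

variable {m : ℕ} {f : EuclideanSpace ℝ (Fin m) → EuclideanSpace ℝ (Fin (m + 2))}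
  {T : Set (EuclideanSpace ℝ (Fin m))}

/-- the traces of the fundamental forms for all unit normals -/
def Traces (f : EuclideanSpace ℝ (Fin m) → EuclideanSpace ℝ (Fin (m + 2)))
    (u : EuclideanSpace ℝ (Fin m)) (a b : ℝ) : Prop :=
  ∀ n : EuclideanSpace ℝ (Fin (m + 2)), ‖n‖ = 1 → ⟪f u, n⟫ = 0 → (∀ i, ⟪D1 f i u, n⟫ = 0) →
    ((Matrix.gram ℝ (fun i => D1 f i u))⁻¹ * Matrix.of fun i j => ⟪D2 f i j u, n⟫).trace = a ∧
    (((Matrix.gram ℝ (fun i => D1 f i u))⁻¹ * Matrix.of fun i j => ⟪D2 f i j u, n⟫) *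
      ((Matrix.gram ℝ (fun i => D1 f i u))⁻¹ * Matrix.of fun i j => ⟪D2 f i j u, n⟫)).trace = b

lemma Traces.comp {σ : EuclideanSpace ℝ (Fin m) → EuclideanSpace ℝ (Fin m)}
    {x : EuclideanSpace ℝ (Fin m)} {a b : ℝ} (hσ : ContDiffAt ℝ ∞ σ x)
    (hf : ContDiffAt ℝ ∞ f (σ x)) (hJ : IsUnit (Jac σ x).det) (h : Traces f (σ x) a b) :
    Traces (fun v => f (σ v)) x a b := by
  intro n hn1 hn2 hn3
  have hD : ∀ i, D1 (fun v => f (σ v)) i x = ∑ b, Jac σ x b i • D1 f b (σ x) := fun i =>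
    D1_comp (g := fun v => f (σ v)) (hσ.differentiableAt (by (clear * -; norm_num)))
      (hf.differentiableAt (by norm_num)) (EventuallyEq.refl _ _) i
  have hv : (fun b => ⟪D1 f b (σ x), n⟫) = 0 := by
    apply Matrix.eq_zero_of_mulVec_eq_zero (M := (Jac σ x)ᵀ)
    · rw [det_transpose]; exact hJ.ne_zero
    · funext i
      have h1 := hn3 i
      rw [hD, sum_inner] at h1
      simp only [inner_smul_left, conj_trivial] at h1
      simpa only [mulVec, dotProduct, transpose_apply, Pi.zero_apply] using h1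
  have hn : ∀ b, ⟪D1 f b (σ x), n⟫ = 0 := fun b => congrFun hv b
  obtain ⟨t1, t2⟩ := h n hn1 hn2 hn
  obtain ⟨g1, g2⟩ := forms_comp (g := fun v => f (σ v)) hσ hf (EventuallyEq.refl _ _) n hn
  have hc := trace_conj_forms (Jac σ x) (Matrix.gram ℝ (fun i => D1 f i (σ x)))
    (Matrix.of fun i j => ⟪D2 f i j (σ x), n⟫) hJ
  rw [g1, g2]
  exact ⟨hc.1.trans t1, hc.2.trans t2⟩

/-- Simons' identity for a hypersurface whose squared second fundamental form is constant. -/
theorem simons_const (h : Imm f T) {u0 : EuclideanSpace ℝ (Fin m)} (hu0 : u0 ∈ T) (S : ℝ)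
    (hS : ∀ u ∈ T, Traces f u 0 S) : m * S ≤ S ^ 2 := by
  obtain ⟨p, ν, e, σ, T', c, φ, l, hf, hT'o, h0T, hσ, hσ0, hmaps, hcs, hφs, hgraph, hφ00, hφ1,
    hHess, hJu, -, -, -⟩ := exists_graph h hu0
  have hunit : ∀ x ∈ T', ‖f (σ x)‖ = 1 := fun x hx => h.unit _ (hmaps hx)
  have key := simons_graph (X := fun x => f (σ x)) hf hT'o h0T hcs hφs hgraph hunit
    (fun _ => S) hφ00 hφ1 l hHess
    (by
      intro x hx
      exact Traces.comp (hσ.contDiffAt (hT'o.mem_nhds hx))
        (h.smooth.contDiffAt (h.isOpen.mem_nhds (hmaps hx))) (hJu x hx) (hS _ (hmaps hx)))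
    (fun _ => 0) (fun _ => 0) (fun _ => J2.const S)
  have h1 := key.2
  simp only [Finset.sum_const_zero] at h1
  have h2 : 0 ≤ ∑ k, ∑ i, ∑ j, pr (pr (pr φ j) i) k (0 : EuclideanSpace ℝ (Fin m)) ^ 2 :=
    Finset.sum_nonneg fun k _ => Finset.sum_nonneg fun i _ => Finset.sum_nonneg fun j _ =>
      sq_nonneg _
  linarith only [h1, h2]

end Vale.Agent.P224
end
end

section

section

namespace Vale.Agent.P224.FV

open MeasureTheory Set Real Filter
open scoped Topology

/-- the one dimensional argument -/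
theorem one_dim {J B a b : ℝ → ℝ} {L φ₁ κ : ℝ}
    (hJ : ∀ φ ∈ Ioo (-(π / 2)) (π / 2), HasDerivAt J (-(sin φ * a φ)) φ)
    (hB : ∀ φ ∈ Ioo (-(π / 2)) (π / 2), HasDerivAt B (b φ) φ)
    (hab : ∀ φ ∈ Ioo (-(π / 2)) (π / 2), |b φ| ≤ a φ)
    (h1 : φ₁ ∈ Ioo 0 (π / 2))
    (hκ0 : 0 ≤ κ) (hκ1 : κ ≤ 2 * sin φ₁)
    (hint : ∫ φ in (0 : ℝ)..φ₁, cos φ * B φ ≤ κ * B φ₁)
    (hL : ∀ ε > 0, ∀ᶠ φ in 𝓝[<] (π / 2), L - ε ≤ J φ)
    (hJB : ∀ ε > 0, ∀ᶠ φ in 𝓝[<] (π / 2), |J φ - B φ| ≤ ε) :
    (1 + sin φ₁ - κ) * L ≤ J 0 := by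
  have hpi := pi_pos
  have hsub : ∀ φ, φ ∈ Icc 0 φ₁ → φ ∈ Ioo (-(π / 2)) (π / 2) := fun φ hφ =>
    ⟨by have := hφ.1; linarith only [hpi, this], by have := hφ.2; have := h1.2; (clear J B a b L κ hJ hB hab hκ0 hκ1 hint hL hJB hpi; linarith)⟩
  have hsub2 : ∀ φ, φ ∈ Ico φ₁ (π / 2) → φ ∈ Ioo (-(π / 2)) (π / 2) := fun φ hφ =>
    ⟨by have := hφ.1; have := h1.1; (clear J B a b L κ hJ hB hab hκ0 hκ1 hint hL hJB hsub; linarith), hφ.2⟩
  have hS0 : 0 < sin φ₁ := sin_pos_of_pos_of_lt_pi h1.1 (by have := h1.2; linarith only [hpi, this])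
  have hS1 : sin φ₁ ≤ 1 := sin_le_one _
  -- first interval
  have hBc : ContinuousOn B (Icc 0 φ₁) := fun φ hφ =>
    (hB φ (hsub φ hφ)).continuousAt.continuousWithinAt
  have hstep1 : J φ₁ + sin φ₁ * B φ₁ - ∫ φ in (0 : ℝ)..φ₁, cos φ * B φ ≤ J 0 := by
    have hcB : ContinuousOn (fun φ => cos φ * B φ) (Icc 0 φ₁) :=
      (continuous_cos.continuousOn).mul hBc
    have hanti : AntitoneOn (fun φ => J φ + sin φ * B φ - ∫ ψ in (0 : ℝ)..φ, cos ψ * B ψ)
        (Icc 0 φ₁) := by
      apply antitoneOn_of_deriv_nonpos (convex_Icc 0 φ₁)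
      · apply ContinuousOn.sub
        · apply ContinuousOn.add
          · exact fun φ hφ => (hJ φ (hsub φ hφ)).continuousAt.continuousWithinAt
          · exact (continuous_sin.continuousOn).mul hBc
        · have hp := intervalIntegral.continuousOn_primitive_interval'
            (μ := volume) (a := (0 : ℝ)) (b₁ := 0) (b₂ := φ₁)
            (hcB.intervalIntegrable_of_Icc h1.1.le) left_mem_uIcc
          rwa [uIcc_of_le h1.1.le] at hp
      · intro φ hφ
        rw [interior_Icc] at hφ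
        have hφ' : φ ∈ Icc 0 φ₁ := Ioo_subset_Icc_self hφ
        have hd : HasDerivAt (fun φ => J φ + sin φ * B φ - ∫ ψ in (0 : ℝ)..φ, cos ψ * B ψ)
            (-(sin φ * a φ) + (cos φ * B φ + sin φ * b φ) - cos φ * B φ) φ := by
          refine ((hJ φ (hsub φ hφ')).add ((hasDerivAt_sin φ).mul (hB φ (hsub φ hφ')))).sub ?_
          apply intervalIntegral.integral_hasDerivAt_right
          · exact (hcB.mono (Icc_subset_Icc_right hφ.2.le)).intervalIntegrable_of_Icc hφ.1.le
          · have : ContinuousOn (fun φ => cos φ * B φ) (Ioo 0 φ₁) := hcB.mono Ioo_subset_Icc_self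
            exact this.stronglyMeasurableAtFilter isOpen_Ioo φ hφ
          · exact (hcB.continuousAt (Icc_mem_nhds hφ.1 hφ.2))
        exact (hd.differentiableAt).differentiableWithinAt
      · intro φ hφ
        rw [interior_Icc] at hφ
        have hφ' : φ ∈ Icc 0 φ₁ := Ioo_subset_Icc_self hφ
        have hd : HasDerivAt (fun φ => J φ + sin φ * B φ - ∫ ψ in (0 : ℝ)..φ, cos ψ * B ψ)
            (-(sin φ * a φ) + (cos φ * B φ + sin φ * b φ) - cos φ * B φ) φ := by
          refine ((hJ φ (hsub φ hφ')).add ((hasDerivAt_sin φ).mul (hB φ (hsub φ hφ')))).sub ?_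
          apply intervalIntegral.integral_hasDerivAt_right
          · exact (hcB.mono (Icc_subset_Icc_right hφ.2.le)).intervalIntegrable_of_Icc hφ.1.le
          · have : ContinuousOn (fun φ => cos φ * B φ) (Ioo 0 φ₁) := hcB.mono Ioo_subset_Icc_self
            exact this.stronglyMeasurableAtFilter isOpen_Ioo φ hφ
          · exact (hcB.continuousAt (Icc_mem_nhds hφ.1 hφ.2))
        rw [hd.deriv]
        have h2 := hab φ (hsub φ hφ')
        have h3 : 0 < sin φ := sin_pos_of_pos_of_lt_pi hφ.1 (by have := hφ.2; have := h1.2; (clear J B a b L κ hJ hB hab hκ0 hκ1 hint hL hJB hsub hsub2 hS0 hS1 hBc hcB hφ' hd h2; linarith))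
        have h4 : b φ ≤ a φ := (le_abs_self _).trans h2
        nlinarith only [h3, h4]
    have := hanti (left_mem_Icc.mpr h1.1.le) (right_mem_Icc.mpr h1.1.le) h1.1.le
    simp only [sin_zero, zero_mul, add_zero, intervalIntegral.integral_same, sub_zero] at this
    exact this
  -- second interval
  have hstep2 : ∀ σ : ℝ, |σ| ≤ sin φ₁ → AntitoneOn (fun φ => J φ + σ * B φ) (Ico φ₁ (π / 2)) := by
    intro σ hσ
    apply antitoneOn_of_deriv_nonpos (convex_Ico φ₁ (π / 2))
    · exact fun φ hφ => ((hJ φ (hsub2 φ hφ)).continuousAt.add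
        ((hB φ (hsub2 φ hφ)).continuousAt.const_mul σ)).continuousWithinAt
    · intro φ hφ
      rw [interior_Ico] at hφ
      have hφ' : φ ∈ Ico φ₁ (π / 2) := Ioo_subset_Ico_self hφ
      exact ((hJ φ (hsub2 φ hφ')).add
        ((hB φ (hsub2 φ hφ')).const_mul σ)).differentiableAt.differentiableWithinAt
    · intro φ hφ
      rw [interior_Ico] at hφ
      have hφ' : φ ∈ Ico φ₁ (π / 2) := Ioo_subset_Ico_self hφ
      have hd := ((hJ φ (hsub2 φ hφ')).fun_add ((hB φ (hsub2 φ hφ')).const_mul σ))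
      rw [hd.deriv]
      have h2 := hab φ (hsub2 φ hφ')
      have h3 : sin φ₁ ≤ sin φ := sin_le_sin_of_le_of_le_pi_div_two (by linarith only [hpi, h1.1])
        hφ.2.le hφ.1.le
      have h4 : σ * b φ ≤ sin φ * a φ := by
        calc σ * b φ ≤ |σ * b φ| := le_abs_self _
          _ = |σ| * |b φ| := abs_mul _ _
          _ ≤ sin φ * a φ := mul_le_mul (hσ.trans h3) h2 (abs_nonneg _) (hS0.le.trans h3)
      linarith only [h4]
  -- limits
  have hlim : ∀ σ : ℝ, |σ| ≤ sin φ₁ → (1 + σ) * L ≤ J φ₁ + σ * B φ₁ := by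
    intro σ hσ
    have hσ1 : |σ| ≤ 1 := hσ.trans hS1
    have h1σ : 0 ≤ 1 + σ := by have := (abs_le.mp hσ1).1; linarith only [this]
    apply le_of_forall_pos_le_add
    intro ε hε
    have e1 := hL (ε / 4) (by (clear * - hε; positivity))
    have e2 := hJB (ε / 4) (by (clear * - hε; positivity))
    have e3 : ∀ᶠ φ in 𝓝[<] (π / 2), φ ∈ Ioo φ₁ (π / 2) := Ioo_mem_nhdsLT h1.2
    obtain ⟨φ, k1, k2, k3⟩ := (e1.and (e2.and e3)).exists
    have h5 := hstep2 σ hσ (left_mem_Ico.mpr h1.2) (Ioo_subset_Ico_self k3) k3.1.le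
    simp only at h5
    have h6 : (1 + σ) * (L - ε / 4) ≤ (1 + σ) * J φ := mul_le_mul_of_nonneg_left k1 h1σ
    have h7 : |σ * (J φ - B φ)| ≤ 1 * (ε / 4) := by
      rw [abs_mul]
      exact mul_le_mul hσ1 k2 (abs_nonneg _) zero_le_one
    have h8 := le_abs_self (σ * (J φ - B φ))
    have h9 : 1 + σ ≤ 2 := by have := (abs_le.mp hσ1).2; linarith only [this]
    nlinarith only [hε, h5, h6, h7, h8, h9]
  have hc : |sin φ₁ - κ| ≤ sin φ₁ := by
    rw [abs_le]; constructor <;> linarith only [hκ0, hκ1]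
  have h5 := hlim (sin φ₁ - κ) hc
  linarith only [hint, hstep1, h5]

end Vale.Agent.P224.FV
end
end

section

section

/-!
Schur's lemma for symmetric operators which commute with a set of isometries up to signs.
-/

namespace Vale.Agent.P224.Sym

open Module
open scoped RealInnerProductSpace

variable {W : Type*} [NormedAddCommGroup W] [InnerProductSpace ℝ W] [FiniteDimensional ℝ W]

/-- a vector fixed up to sign by an irreducible set of isometries vanishes -/
lemma vec_zero (hd : 2 ≤ finrank ℝ W) (G : Set (W ≃ₗᵢ[ℝ] W))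
    (hirr : ∀ U : Submodule ℝ W, (∀ g ∈ G, ∀ u ∈ U, g u ∈ U) → U = ⊥ ∨ U = ⊤) {v : W}
    (hv : ∀ g ∈ G, g v = v ∨ g v = -v) : v = 0 := by
  rcases hirr (ℝ ∙ v) (by
    intro g hg u hu
    obtain ⟨c, rfl⟩ := Submodule.mem_span_singleton.mp hu
    rw [map_smul]
    apply Submodule.smul_mem
    rcases hv g hg with h | h
    · rw [h]; exact Submodule.mem_span_singleton_self v
    · rw [h]; exact Submodule.neg_mem _ (Submodule.mem_span_singleton_self v)) with h | h
  · exact Submodule.span_singleton_eq_bot.mp h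
  · exfalso
    have h1 : finrank ℝ (ℝ ∙ v) ≤ 1 := by
      have := finrank_span_le_card (R := ℝ) ({v} : Set W)
      simpa only [ge_iff_le, Set.toFinset_singleton, Finset.card_singleton] using this
    rw [h, finrank_top] at h1
    omega

/-- a symmetric traceless operator commuting up to sign with an irreducible set of isometries -/
lemma op_zero (hd : 1 ≤ finrank ℝ W) (G S : Set (W ≃ₗᵢ[ℝ] W))
    (hirr : ∀ U : Submodule ℝ W, (∀ g ∈ G, ∀ u ∈ U, g u ∈ U) → U = ⊥ ∨ U = ⊤)
    (hsq : ∀ U : Submodule ℝ W, (∀ g ∈ S, ∀ u ∈ U, g u ∈ U) → 2 * finrank ℝ U ≠ finrank ℝ W)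
    (T : W →ₗ[ℝ] W) (hT : T.IsSymmetric) (htr : LinearMap.trace ℝ W T = 0)
    (hG : ∀ g ∈ G, (∀ a, T (g a) = g (T a)) ∨ (∀ a, T (g a) = -g (T a)))
    (hS : ∀ g ∈ S, ∀ a, T (g a) = g (T a)) : T = 0 := by
  have hnt : Nontrivial W := Module.nontrivial_of_finrank_pos (R := ℝ) (by omega)
  have hcomm : ∀ g ∈ G, ∀ a, T (T (g a)) = g (T (T a)) := by
    intro g hg a
    rcases hG g hg with h | h
    · rw [h, h]
    · rw [h, map_neg, h, neg_neg]
  -- an eigenvalue of `T ∘ T`
  have hTT : (T ∘ₗ T).IsSymmetric := fun x y => by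
    rw [LinearMap.comp_apply, LinearMap.comp_apply, hT, hT]
  obtain ⟨l, hl⟩ : ∃ l : ℝ, Module.End.HasEigenvalue (T ∘ₗ T) l :=
    ⟨_, hTT.hasEigenvalue_iSup_of_finiteDimensional⟩
  have htop : Module.End.eigenspace (T ∘ₗ T) l = ⊤ := by
    rcases hirr (Module.End.eigenspace (T ∘ₗ T) l) (by
      intro g hg u hu
      rw [Module.End.mem_eigenspace_iff, LinearMap.comp_apply] at hu ⊢
      rw [hcomm g hg, hu, map_smul]) with h | h
    · exact absurd h hl
    · exact h
  have hTl : ∀ a, T (T a) = l • a := by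
    intro a
    have : a ∈ Module.End.eigenspace (T ∘ₗ T) l := htop ▸ Submodule.mem_top
    rwa [Module.End.mem_eigenspace_iff, LinearMap.comp_apply] at this
  have hnorm : ∀ a, ⟪T a, T a⟫ = l * ⟪a, a⟫ := by
    intro a
    rw [hT a (T a), hTl, real_inner_smul_right]
  have hl0 : 0 ≤ l := by
    obtain ⟨a, ha⟩ := exists_ne (0 : W)
    have h1 : 0 < ⟪a, a⟫ := real_inner_self_pos.mpr ha
    have h2 : 0 ≤ ⟪T a, T a⟫ := real_inner_self_nonneg
    rw [hnorm a] at h2
    exact nonneg_of_mul_nonneg_left h2 h1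
  rcases hl0.eq_or_lt with h0 | h0
  · ext a
    have := hnorm a
    rw [← h0, zero_mul] at this
    simpa only [LinearMap.zero_apply, inner_self_eq_norm_sq_to_K, Real.ringHom_apply, ne_eq, OfNat.ofNat_ne_zero,     not_false_eq_true, pow_eq_zero_iff, norm_eq_zero] using this
  · exfalso
    set c := Real.sqrt l with hc
    have hc0 : 0 < c := Real.sqrt_pos.mpr h0
    have hcc : c * c = l := Real.mul_self_sqrt h0.le
    set P : W →ₗ[ℝ] W := (1 / 2 : ℝ) • LinearMap.id + (1 / (2 * c)) • T with hP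
    have hPa : ∀ a, P a = (1 / 2 : ℝ) • a + (1 / (2 * c)) • T a := fun a => by
      rw [hP]; simp only [one_div, mul_inv_rev, LinearMap.add_apply, LinearMap.smul_apply, LinearMap.id_coe, id_eq]
    have hPP : ∀ a, P (P a) = P a := by
      intro a
      rw [hPa (P a), hPa a, map_add, map_smul, map_smul, hTl, ← hcc]
      simp only [smul_add, smul_smul]
      have e1 : 1 / (2 * c) * (1 / (2 * c) * (c * c)) = (1 / 4 : ℝ) := by
        field_simp; norm_num
      rw [e1]
      module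
    have hproj : LinearMap.IsProj (LinearMap.range P) P :=
      ⟨fun a => LinearMap.mem_range_self P a, by
        rintro _ ⟨a, rfl⟩
        exact hPP a⟩
    have htrP : LinearMap.trace ℝ W P = finrank ℝ (LinearMap.range P) := hproj.trace
    have htrP' : LinearMap.trace ℝ W P = (1 / 2 : ℝ) * finrank ℝ W := by
      rw [hP, map_add, map_smul, map_smul, htr, LinearMap.trace_id]
      simp only [one_div, smul_eq_mul, mul_inv_rev, mul_zero, add_zero]
    refine hsq (LinearMap.range P) ?_ ?_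
    · rintro g hg _ ⟨a, rfl⟩
      refine ⟨g a, ?_⟩
      rw [hPa, hPa, hS g hg]
      simp only [map_add, map_smul]
    · have : (2 * finrank ℝ (LinearMap.range P) : ℝ) = finrank ℝ W := by
        rw [← htrP, htrP']; ring
      exact_mod_cast this

end Vale.Agent.P224.Sym
end
end

section

section

namespace Vale.Agent.P224

open scoped Manifold ContDiff RealInnerProductSpace Topology
open MeasureTheory Metric Module Set Filter

variable {V W M : Type*} [NormedAddCommGroup V] [InnerProductSpace ℝ V] [FiniteDimensional ℝ V]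
  [NormedAddCommGroup W] [InnerProductSpace ℝ W] [FiniteDimensional ℝ W]
  [TopologicalSpace M] [ChartedSpace V M] {F : M → W}

omit [InnerProductSpace ℝ V] [FiniteDimensional ℝ V] in
lemma transition_contDiffAt [NormedSpace ℝ V] [IsManifold 𝓘(ℝ, V) ∞ M] (x y : M)
    (hy : y ∈ (chartAt V x).source) :
    ContDiffAt ℝ ∞ ((chartAt V x) ∘ (chartAt V y).symm) (chartAt V y y) := by
  set φ := chartAt V x with hφ
  set χ := chartAt V y with hχ
  have hys : y ∈ χ.source := mem_chart_source _ y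
  have h1 : ContMDiffAt 𝓘(ℝ, V) 𝓘(ℝ, V) ∞ χ.symm (χ y) :=
    contMDiffOn_chart_symm.contMDiffAt (χ.open_target.mem_nhds (χ.map_source hys))
  have hinv : χ.symm (χ y) = y := χ.left_inv hys
  have h2 : ContMDiffAt 𝓘(ℝ, V) 𝓘(ℝ, V) ∞ φ (χ.symm (χ y)) := by
    rw [hinv]
    exact contMDiffOn_chart.contMDiffAt (φ.open_source.mem_nhds hy)
  have h3 := h2.comp (χ y) h1
  exact h3.contDiffAt

/-- The geometric quantities at a point, computed in an arbitrary chart of the atlas. -/
lemma pointwise [IsManifold 𝓘(ℝ, V) ∞ M] (hW : finrank ℝ W = finrank ℝ V + 2)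
    (hF : SphImm V F) (x : M) {u : V} (hu : u ∈ (chartAt V x).target)
    (n : W) (hn1 : ‖n‖ = 1) (hn2 : ⟪rep F x u, n⟫ = 0)
    (hn3 : ∀ i, ⟪pd (rep F x) i u, n⟫ = 0) :
    IsUnitNormal V F ((chartAt V x).symm u) n ∧
    meanCurv V F ((chartAt V x).symm u) n =
      ((metricMat (rep F x) u)⁻¹ * sffMat (rep F x) u n).trace ∧
    normSqA V F ((chartAt V x).symm u) n =
      (((metricMat (rep F x) u)⁻¹ * sffMat (rep F x) u n) *
        ((metricMat (rep F x) u)⁻¹ * sffMat (rep F x) u n)).trace := by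
  set φ := chartAt V x with hφ
  set y := φ.symm u with hy
  have hys : y ∈ φ.source := φ.map_target hu
  have hφy : φ y = u := φ.right_inv hu
  set χ := chartAt V y with hχ
  have hyχ : y ∈ χ.source := mem_chart_source _ y
  set w := χ y with hw
  have hinv : χ.symm w = y := χ.left_inv hyχ
  have hwT : w ∈ χ.target := χ.map_source hyχ
  have hσ : ContDiffAt ℝ ∞ (φ ∘ χ.symm) w := transition_contDiffAt x y hys
  have hσw : (φ ∘ χ.symm) w = u := by simp only [Function.comp_apply, hinv, hφy]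
  have hImmf := immV_rep hF x
  have hImmg := immV_rep hF y
  -- transported objects
  set σ : EuclideanSpace ℝ (Fin (finrank ℝ V)) → EuclideanSpace ℝ (Fin (finrank ℝ V)) :=
    fun v => iV V ((φ ∘ χ.symm) ((iV V).symm v)) with hσdef
  have hσ' : ContDiffAt ℝ ∞ σ (iV V w) := by
    have h1 : ContDiffAt ℝ ∞ (φ ∘ χ.symm) ((iV V).symm (iV V w)) := by
      rw [(iV V).symm_apply_apply]; exact hσ
    have h2 : ContDiffAt ℝ ∞ ((φ ∘ χ.symm) ∘ (iV V).symm) (iV V w) :=
      h1.comp _ (iV V).symm.contDiff.contDiffAt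
    exact (iV V).contDiff.contDiffAt.comp _ h2
  have hσw' : σ (iV V w) = iV V u := by
    simp only [hσdef, (iV V).symm_apply_apply, hσw]
  have hf : ContDiffAt ℝ ∞ (tr hW (rep F x)) (σ (iV V w)) := by
    rw [hσw']
    have hI := hImmf.imm hW
    apply hI.smooth.contDiffAt (hI.isOpen.mem_nhds _)
    rw [mem_preimage, (iV V).symm_apply_apply]
    exact hu
  have hg : tr hW (rep F y) =ᶠ[𝓝 (iV V w)] tr hW (rep F x) ∘ σ := by
    have h1 : ∀ᶠ v in 𝓝 w, χ.symm v ∈ φ.source := by
      have : ContinuousAt χ.symm w := χ.continuousAt_symm hwT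
      apply this.eventually_mem
      rw [hinv]
      exact φ.open_source.mem_nhds hys
    have h2 : Tendsto (iV V).symm (𝓝 (iV V w)) (𝓝 w) := by
      have := (iV V).symm.continuous.tendsto (iV V w)
      rwa [(iV V).symm_apply_apply] at this
    filter_upwards [h2.eventually h1] with v hv
    simp only [tr, hσdef, Function.comp_apply, (iV V).symm_apply_apply]
    unfold rep
    rw [← hφ, ← hχ, φ.left_inv hv]
  have hn3' : ∀ b, ⟪D1 (tr hW (rep F x)) b (σ (iV V w)), iW hW n⟫ = 0 := by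
    intro b
    rw [hσw', D1_tr]
    unfold tr
    rw [(iW hW).inner_map_map, (iV V).symm_apply_apply]
    exact hn3 b
  obtain ⟨hG, hH⟩ := forms_comp hσ' hf hg (iW hW n) hn3'
  rw [hσw'] at hG hH
  have hGx : Matrix.gram ℝ (fun i => D1 (tr hW (rep F x)) i (iV V u)) = metricMat (rep F x) u :=
    G_tr hW (rep F x) u
  have hGy : Matrix.gram ℝ (fun i => D1 (tr hW (rep F y)) i (iV V w)) = metricMat (rep F y) w :=
    G_tr hW (rep F y) w
  rw [sff_tr, sff_tr] at hH
  rw [hGx, hGy] at hG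
  have hσd : DifferentiableAt ℝ σ (iV V w) := hσ'.differentiableAt (by norm_num)
  have hfd : DifferentiableAt ℝ (tr hW (rep F x)) (σ (iV V w)) := hf.differentiableAt (by norm_num)
  have hD1 : ∀ i, ⟪pd (rep F y) i w, n⟫ = 0 := by
    intro i
    have h1 : ⟪D1 (tr hW (rep F y)) i (iV V w), iW hW n⟫ = 0 := by
      rw [D1_comp hσd hfd hg, sum_inner]
      apply Finset.sum_eq_zero
      intro b _
      rw [inner_smul_left, hn3', mul_zero]
    rw [D1_tr] at h1
    unfold tr at h1
    rw [(iW hW).inner_map_map, (iV V).symm_apply_apply] at h1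
    exact h1
  have hFy : rep F x u = F y := rfl
  have hdetg : (metricMat (rep F y) w).det ≠ 0 := by
    rw [← hGy]
    have hmem : iV V w ∈ (iV V).symm ⁻¹' χ.target := by
      rw [mem_preimage, (iV V).symm_apply_apply]; exact hwT
    exact ((hImmg.imm hW).G_posDef hmem).det_pos.ne'
  have hB : IsUnit (Jac σ (iV V w)).det := by
    rw [isUnit_iff_ne_zero]
    intro h0
    apply hdetg
    rw [hG, Matrix.det_mul, h0, mul_zero]
  have htr := trace_conj_forms (Jac σ (iV V w)) (metricMat (rep F x) u)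
    (sffMat (rep F x) u n) hB
  have hshape : shapeMat (rep F y) w n = (metricMat (rep F y) w)⁻¹ * sffMat (rep F y) w n := rfl
  refine ⟨⟨hn1, by rw [← hFy]; exact hn2, hD1⟩, ?_, ?_⟩
  · unfold meanCurv
    rw [← hχ, ← hw, hshape, hG, hH]
    exact htr.1
  · unfold normSqA
    rw [← hχ, ← hw, hshape, hG, hH, pow_two]
    exact htr.2

/-- the unit normal in the chart at x -/
noncomputable def nuW (hW : finrank ℝ W = finrank ℝ V + 2) (f : V → W) (u : V) : W :=
  (iW hW).symm (nu (tr hW f) (iV V u))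

lemma pointwise_nu [IsManifold 𝓘(ℝ, V) ∞ M] (hW : finrank ℝ W = finrank ℝ V + 2)
    (hF : SphImm V F) (x : M) {u : V} (hu : u ∈ (chartAt V x).target) :
    IsUnitNormal V F ((chartAt V x).symm u) (nuW hW (rep F x) u) ∧
    meanCurv V F ((chartAt V x).symm u) (nuW hW (rep F x) u) =
      ((G (tr hW (rep F x)) (iV V u))⁻¹ * H (tr hW (rep F x)) (iV V u)).trace ∧
    normSqA V F ((chartAt V x).symm u) (nuW hW (rep F x) u) =
      (((G (tr hW (rep F x)) (iV V u))⁻¹ * H (tr hW (rep F x)) (iV V u)) *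
        ((G (tr hW (rep F x)) (iV V u))⁻¹ * H (tr hW (rep F x)) (iV V u))).trace := by
  have hI := (immV_rep hF x).imm hW
  have hmem : iV V u ∈ (iV V).symm ⁻¹' (chartAt V x).target := by
    rw [mem_preimage, (iV V).symm_apply_apply]; exact hu
  have hinner : ∀ g : V → W, ⟪g u, nuW hW (rep F x) u⟫
      = ⟪tr hW g (iV V u), nu (tr hW (rep F x)) (iV V u)⟫ := by
    intro g
    unfold nuW tr
    rw [← (iW hW).inner_map_map, (iW hW).apply_symm_apply, (iV V).symm_apply_apply]
  have h1 : ‖nuW hW (rep F x) u‖ = 1 := by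
    unfold nuW
    rw [(iW hW).symm.norm_map]
    exact hI.norm_nu hmem
  have h2 : ⟪rep F x u, nuW hW (rep F x) u⟫ = 0 := by
    rw [hinner, real_inner_comm]
    exact Imm.inner_nu_f _
  have h3 : ∀ i, ⟪pd (rep F x) i u, nuW hW (rep F x) u⟫ = 0 := by
    intro i
    rw [hinner (pd (rep F x) i), real_inner_comm, ← D1_tr]
    exact Imm.inner_nu_D1 _ i
  have hsff : sffMat (rep F x) u (nuW hW (rep F x) u) = H (tr hW (rep F x)) (iV V u) := by
    rw [← sff_tr hW]
    unfold nuW H
    rw [(iW hW).apply_symm_apply]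
  have hG : metricMat (rep F x) u = G (tr hW (rep F x)) (iV V u) := (G_tr hW (rep F x) u).symm
  have := pointwise hW hF x hu (nuW hW (rep F x) u) h1 h2 h3
  rw [hsff, hG] at this
  exact this

lemma ballVol_pos (m : ℕ) : 0 < ballVol m := by
  unfold ballVol
  have := Real.Gamma_pos_of_pos (s := (m : ℝ) / 2 + 2) (by (clear * -; positivity))
  have := Real.pi_pos
  (clear * -; (clear * -; positivity))

theorem main_A [MeasurableSpace V] [BorelSpace V] [MeasurableSpace M] [BorelSpace M]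
    [IsManifold 𝓘(ℝ, V) ∞ M] [CompactSpace M] [Nonempty M]
    (hV : 2 ≤ finrank ℝ V) (hW : finrank ℝ W = finrank ℝ V + 2) (hF : SphImm V F)
    (hmin : ∀ x n, IsUnitNormal V F x n → meanCurv V F x n = 0)
    (hA : ∀ x n, IsUnitNormal V F x n → (finrank ℝ V : ℝ) ≤ normSqA V F x n) :
    ENNReal.ofReal (leastClifford (finrank ℝ V)) ≤ volM V F univ := by
  set m := finrank ℝ V with hm
  have hb0 := ballVol_pos m
  rcases (leastClifford_nonneg m).eq_or_lt with h0 | h0
  · rw [← h0]; simp only [ENNReal.ofReal_zero, zero_le]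
  have key := ball_le hW hF univ MeasurableSet.univ (ballVol m / leastClifford m) 0
    (by
      intro x u hu _ κ hκ
      obtain ⟨h1, h2, h3⟩ := pointwise_nu hW hF x hu
      have hsum : ∑ i, κ i = 0 := by rw [← hκ.1, ← h2]; exact hmin _ _ h1
      have hsq : (m : ℝ) ≤ ∑ i, κ i ^ 2 := by rw [← hκ.2.1, ← h3]; exact hA _ _ h1
      rw [le_div_iff₀ h0]
      exact J_le hV κ hsum hsq)
    (by
      intro x u hu hx
      exact absurd (mem_univ _) hx)
  simp only [ENNReal.ofReal_zero, zero_mul, add_zero] at key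
  have h1 : ENNReal.ofReal (ballVol m) ≠ 0 := by
    rw [ne_eq, ENNReal.ofReal_eq_zero, not_le]; exact hb0
  have h2 : ENNReal.ofReal (ballVol m / leastClifford m)
      = ENNReal.ofReal (ballVol m) / ENNReal.ofReal (leastClifford m) :=
    ENNReal.ofReal_div_of_pos h0
  rw [h2] at key
  have h3 : ENNReal.ofReal (leastClifford m) ≠ 0 := by
    rw [ne_eq, ENNReal.ofReal_eq_zero, not_le]; exact h0
  have h4 : ENNReal.ofReal (ballVol m) * ENNReal.ofReal (leastClifford m) ≤
      ENNReal.ofReal (ballVol m) * volM V F univ := by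
    calc ENNReal.ofReal (ballVol m) * ENNReal.ofReal (leastClifford m)
        ≤ (ENNReal.ofReal (ballVol m) / ENNReal.ofReal (leastClifford m) * volM V F univ) *
          ENNReal.ofReal (leastClifford m) := by (clear hF hmin hV hW hA hm hb0 h0 h1 h2 h3; gcongr)
      _ = (ENNReal.ofReal (ballVol m) / ENNReal.ofReal (leastClifford m) *
          ENNReal.ofReal (leastClifford m)) * volM V F univ := by ring
      _ = _ := by
          rw [ENNReal.div_mul_cancel h3 ENNReal.ofReal_ne_top]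
  exact (ENNReal.mul_le_mul_iff_right h1 ENNReal.ofReal_ne_top).mp h4

end Vale.Agent.P224
end
end

section

section

namespace Vale.Agent.P224.FV

open Matrix MeasureTheory Module Function Set
open scoped RealInnerProductSpace Topology ContDiff Manifold

set_option linter.unusedSectionVars false

section

variable {V W M : Type*} [NormedAddCommGroup V] [InnerProductSpace ℝ V] [FiniteDimensional ℝ V]
  [NormedAddCommGroup W] [InnerProductSpace ℝ W] [FiniteDimensional ℝ W]
  {X : Type*} [NormedAddCommGroup X] [NormedSpace ℝ X]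
  [TopologicalSpace M] [ChartedSpace V M]

lemma fderiv_vW (f : V → W) (a : W) (u : V) : fderiv ℝ f u (vW f a u) = lT f a u := by
  simp only [vW, lT, map_sum, map_smul, lP]

lemma inner_fderiv_sub_lT {f : V → W} {u : V} (h : Function.Injective (fderiv ℝ f u)) (a : W)
    (v : V) : ⟪fderiv ℝ f u v, a - lT f a u⟫ = 0 := by
  have hv : v = ∑ i, (stdOrthonormalBasis ℝ V).repr v i • stdOrthonormalBasis ℝ V i :=
    ((stdOrthonormalBasis ℝ V).sum_repr v).symm
  rw [hv, map_sum, sum_inner]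
  refine Finset.sum_eq_zero fun i _ => ?_
  rw [map_smul, inner_smul_left]
  have : ⟪fderiv ℝ f u (stdOrthonormalBasis ℝ V i), a - lT f a u⟫ = 0 := by
    have h1 := inner_lT (lG_det_pos h).ne' a i
    rw [inner_sub_right]
    change ⟪lP f i u, a⟫ - ⟪lP f i u, lT f a u⟫ = 0
    rw [h1, real_inner_comm, sub_self]
  rw [this, mul_zero]

lemma eq_of_proj {S : Submodule ℝ W} {a t₁ t₂ : W} (h1 : t₁ ∈ S) (h2 : t₂ ∈ S)
    (o1 : ∀ s ∈ S, ⟪s, a - t₁⟫ = 0) (o2 : ∀ s ∈ S, ⟪s, a - t₂⟫ = 0) : t₁ = t₂ := by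
  have h3 : t₁ - t₂ ∈ S := S.sub_mem h1 h2
  have h4 : ⟪t₁ - t₂, t₁ - t₂⟫ = 0 := by
    have := o1 _ h3
    have h5 := o2 _ h3
    have h6 : t₁ - t₂ = (a - t₂) - (a - t₁) := by abel
    rw [h6] at this h5 ⊢
    rw [inner_sub_right, h5, this]; simp
  exact sub_eq_zero.mp (inner_self_eq_zero.mp h4)

variable (V) in
/-- derivative of h at p in the direction of the tangential part of a -/
noncomputable def dl (F : M → W) (a : W) (h : M → X) (p : M) : X :=
  fderiv ℝ (rep (V := V) h p) (chartAt V p p) (vW (rep (V := V) F p) a (chartAt V p p))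

lemma rep_contDiffOn [IsManifold 𝓘(ℝ, V) ∞ M] {n : ℕ∞} {h : M → X}
    (hh : ContMDiff 𝓘(ℝ, V) 𝓘(ℝ, X) n h) (x : M) :
    ContDiffOn ℝ n (rep (V := V) h x) (chartAt V x).target := by
  rw [← contMDiffOn_iff_contDiffOn]
  have : ContMDiffOn 𝓘(ℝ, V) 𝓘(ℝ, V) n (chartAt V x).symm (chartAt V x).target :=
    (contMDiffOn_chart_symm (n := ∞)).of_le (by exact_mod_cast le_top)
  exact hh.comp_contMDiffOn this

lemma rep_comp (h : M → X) {x p : M} (hp : p ∈ (chartAt V x).source) :
    rep (V := V) h p =ᶠ[𝓝 (chartAt V p p)]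
      rep (V := V) h x ∘ ((chartAt V x) ∘ (chartAt V p).symm) := by
  have hps : p ∈ (chartAt V p).source := mem_chart_source _ p
  have h1 : ∀ᶠ v in 𝓝 (chartAt V p p), (chartAt V p).symm v ∈ (chartAt V x).source := by
    have : ContinuousAt (chartAt V p).symm (chartAt V p p) :=
      (chartAt V p).continuousAt_symm ((chartAt V p).map_source hps)
    apply this.eventually_mem
    rw [(chartAt V p).left_inv hps]
    exact (chartAt V x).open_source.mem_nhds hp
  filter_upwards [h1] with v hv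
  simp only [Function.comp_apply, rep]
  rw [(chartAt V x).left_inv hv]

lemma trans_apply (x p : M) :
    ((chartAt V x) ∘ (chartAt V p).symm) (chartAt V p p) = chartAt V x p := by
  simp only [Function.comp_apply]
  rw [(chartAt V p).left_inv (mem_chart_source _ p)]

lemma fderiv_rep_comp [IsManifold 𝓘(ℝ, V) ∞ M] {h : M → X} {x p : M}
    (hp : p ∈ (chartAt V x).source)
    (hd : DifferentiableAt ℝ (rep (V := V) h x) (chartAt V x p)) :
    fderiv ℝ (rep (V := V) h p) (chartAt V p p)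
      = (fderiv ℝ (rep (V := V) h x) (chartAt V x p)).comp
        (fderiv ℝ ((chartAt V x) ∘ (chartAt V p).symm) (chartAt V p p)) := by
  rw [(rep_comp h hp).fderiv_eq]
  have h1 : DifferentiableAt ℝ ((chartAt V x) ∘ (chartAt V p).symm) (chartAt V p p) :=
    (transition_contDiffAt x p hp).differentiableAt (by norm_num)
  rw [← trans_apply (V := V) x p] at hd
  rw [fderiv_comp _ hd h1, trans_apply]

lemma trans_vW [IsManifold 𝓘(ℝ, V) ∞ M] {F : M → W} (hF : SphImm V F) (a : W) {x p : M}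
    (hp : p ∈ (chartAt V x).source) :
    fderiv ℝ ((chartAt V x) ∘ (chartAt V p).symm) (chartAt V p p)
      (vW (rep (V := V) F p) a (chartAt V p p)) = vW (rep (V := V) F x) a (chartAt V x p) := by
  have hx := immV_rep hF x
  have hpp := immV_rep hF p
  have hpT : chartAt V p p ∈ (chartAt V p).target :=
    (chartAt V p).map_source (mem_chart_source _ p)
  have hxT : chartAt V x p ∈ (chartAt V x).target := (chartAt V x).map_source hp
  have hd : DifferentiableAt ℝ (rep (V := V) F x) (chartAt V x p) :=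
    (hx.smooth.contDiffAt (hx.isOpen.mem_nhds hxT)).differentiableAt (by norm_num)
  have hc := fderiv_rep_comp hp hd
  have hix := hx.inj _ hxT
  have hip := hpp.inj _ hpT
  apply hix
  have e1 : fderiv ℝ (rep (V := V) F x) (chartAt V x p)
      (fderiv ℝ ((chartAt V x) ∘ (chartAt V p).symm) (chartAt V p p)
      (vW (rep (V := V) F p) a (chartAt V p p))) = lT (rep (V := V) F p) a (chartAt V p p) := by
    rw [← fderiv_vW, hc]
    rfl
  rw [e1, fderiv_vW]
  -- ranges agree
  have hr : LinearMap.range (fderiv ℝ (rep (V := V) F p) (chartAt V p p)).toLinearMap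
      = LinearMap.range (fderiv ℝ (rep (V := V) F x) (chartAt V x p)).toLinearMap := by
    apply Submodule.eq_of_le_of_finrank_eq
    · rw [hc]
      rintro _ ⟨v, rfl⟩
      exact ⟨_, rfl⟩
    · rw [LinearMap.finrank_range_of_inj hip, LinearMap.finrank_range_of_inj hix]
  apply eq_of_proj (S := LinearMap.range (fderiv ℝ (rep (V := V) F x) (chartAt V x p)).toLinearMap)
    (a := a)
  · rw [← hr, ← fderiv_vW]
    exact ⟨_, rfl⟩
  · rw [← fderiv_vW]
    exact ⟨_, rfl⟩
  · rw [← hr]
    rintro _ ⟨v, rfl⟩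
    exact inner_fderiv_sub_lT hip a v
  · rintro _ ⟨v, rfl⟩
    exact inner_fderiv_sub_lT hix a v

/-- chart independence -/
lemma dl_eq [IsManifold 𝓘(ℝ, V) ∞ M] {F : M → W} (hF : SphImm V F) (a : W) {h : M → X} {x p : M}
    (hp : p ∈ (chartAt V x).source)
    (hd : DifferentiableAt ℝ (rep (V := V) h x) (chartAt V x p)) :
    dl V F a h p = fderiv ℝ (rep (V := V) h x) (chartAt V x p)
      (vW (rep (V := V) F x) a (chartAt V x p)) := by
  unfold dl
  rw [fderiv_rep_comp hp hd, ContinuousLinearMap.comp_apply, trans_vW hF a hp]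

lemma rep_differentiableAt [IsManifold 𝓘(ℝ, V) ∞ M] {h : M → X}
    (hh : ContMDiff 𝓘(ℝ, V) 𝓘(ℝ, X) ∞ h) (x : M) {u : V} (hu : u ∈ (chartAt V x).target) :
    DifferentiableAt ℝ (rep (V := V) h x) u :=
  ((rep_contDiffOn hh x).contDiffAt ((chartAt V x).open_target.mem_nhds hu)).differentiableAt
    (by norm_num)

lemma rep_diff_self [IsManifold 𝓘(ℝ, V) ∞ M] {h : M → X}
    (hh : ContMDiff 𝓘(ℝ, V) 𝓘(ℝ, X) ∞ h) (x : M) :
    DifferentiableAt ℝ (rep (V := V) h x) (chartAt V x x) :=
  rep_differentiableAt hh x ((chartAt V x).map_source (mem_chart_source _ x))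

/-- the local data of a minimal immersion -/
lemma locMin_rep [IsManifold 𝓘(ℝ, V) ∞ M] (hW : finrank ℝ W = finrank ℝ V + 2) {F : M → W}
    (hF : SphImm V F) (hmin : ∀ x n, IsUnitNormal V F x n → meanCurv V F x n = 0) (x : M) :
    LocMin (rep (V := V) F x) (chartAt V x).target := by
  have hI := immV_rep hF x
  refine ⟨hI.isOpen, hI.smooth, hI.unit, hI.inj, ?_⟩
  intro u hu n hn1 hn2 hn3
  obtain ⟨h1, h2, -⟩ := pointwise hW hF x hu n hn1 hn2 hn3
  rw [hmin _ _ h1, Matrix.trace] at h2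
  simp only [Matrix.diag_apply, Matrix.mul_apply] at h2
  rw [h2]
  refine Finset.sum_congr rfl fun i _ => Finset.sum_congr rfl fun j _ => ?_
  have hsm : ContDiffAt ℝ 2 (rep (V := V) F x) u :=
    (hI.smooth.contDiffAt (hI.isOpen.mem_nhds hu)).of_le (by norm_cast)
  rw [lQ_symm hsm i j]
  rfl

/-- the derivative field is continuous -/
lemma continuous_dl [IsManifold 𝓘(ℝ, V) ∞ M] {F : M → W} (hF : SphImm V F) (a : W) {h : M → X}
    (hh : ContMDiff 𝓘(ℝ, V) 𝓘(ℝ, X) ∞ h) : Continuous (dl V F a h) := by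
  rw [continuous_iff_continuousAt]
  intro x
  have hI := immV_rep hF x
  have hxs : x ∈ (chartAt V x).source := mem_chart_source _ x
  have hxT : chartAt V x x ∈ (chartAt V x).target := (chartAt V x).map_source hxs
  have h1 : dl V F a h =ᶠ[𝓝 x] fun p => fderiv ℝ (rep (V := V) h x) (chartAt V x p)
      (vW (rep (V := V) F x) a (chartAt V x p)) := by
    filter_upwards [(chartAt V x).open_source.mem_nhds hxs] with p hp
    exact dl_eq hF a hp (rep_differentiableAt hh x ((chartAt V x).map_source hp))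
  refine ContinuousAt.congr ?_ h1.symm
  have hφ : ContinuousAt (chartAt V x) x := (chartAt V x).continuousAt hxs
  have hsm : ContDiffAt ℝ 1 (rep (V := V) F x) (chartAt V x x) :=
    (hI.smooth.contDiffAt (hI.isOpen.mem_nhds hxT)).of_le (by exact_mod_cast le_top)
  have hhm : ContDiffAt ℝ 1 (rep (V := V) h x) (chartAt V x x) :=
    ((rep_contDiffOn hh x).contDiffAt ((chartAt V x).open_target.mem_nhds hxT)).of_le
      (by exact_mod_cast le_top)
  have hc1 : ContinuousAt (fderiv ℝ (rep (V := V) h x)) (chartAt V x x) :=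
    (hhm.fderiv_right (m := 0) (by norm_num)).continuousAt
  have hc2 : ContinuousAt (vW (rep (V := V) F x) a) (chartAt V x x) := by
    have : ContDiffAt ℝ 0 (vW (rep (V := V) F x) a) (chartAt V x x) := by
      unfold vW
      exact ContDiffAt.sum fun i _ =>
        (contDiffAt_lW (n := 0) hsm (lG_det_pos (hI.inj _ hxT)).ne' a i).smul contDiffAt_const
    exact this.continuousAt
  have hc3 : ContinuousAt (fun u => fderiv ℝ (rep (V := V) h x) u
      (vW (rep (V := V) F x) a u)) (chartAt V x x) := hc1.clm_apply hc2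
  exact ContinuousAt.comp (f := chartAt V x) hc3 hφ

end

end Vale.Agent.P224.FV
end
end

section

section

namespace Vale.Agent.P224.FV

open Matrix MeasureTheory Module Function Set
open scoped RealInnerProductSpace Topology ContDiff Manifold

set_option linter.unusedSectionVars false

section

variable {V W M : Type*} [NormedAddCommGroup V] [InnerProductSpace ℝ V] [FiniteDimensional ℝ V]
  [NormedAddCommGroup W] [InnerProductSpace ℝ W] [FiniteDimensional ℝ W]
  [TopologicalSpace M] [ChartedSpace V M]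

/-- dimension count -/
lemma eq_zero_of_orth (hW : finrank ℝ W = finrank ℝ V + 2) (L : V →ₗ[ℝ] W)
    (hL : Function.Injective L) {f n z : W} (hf : ‖f‖ = 1) (hn : ‖n‖ = 1) (hfn : ⟪f, n⟫ = 0)
    (h1 : ∀ v, ⟪L v, f⟫ = 0) (h2 : ∀ v, ⟪L v, n⟫ = 0) (h3 : ∀ v, ⟪L v, z⟫ = 0)
    (hzf : ⟪f, z⟫ = 0) (hzn : ⟪n, z⟫ = 0) : z = 0 := by
  by_contra hz
  have hff : ⟪f, f⟫ = 1 := by rw [real_inner_self_eq_norm_sq, hf]; norm_num
  have hnn : ⟪n, n⟫ = 1 := by rw [real_inner_self_eq_norm_sq, hn]; norm_num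
  have hzz : ⟪z, z⟫ ≠ 0 := fun h => hz (inner_self_eq_zero.mp h)
  let T : (V × ℝ × ℝ × ℝ) →ₗ[ℝ] W :=
    { toFun := fun q => L q.1 + q.2.1 • f + q.2.2.1 • n + q.2.2.2 • z
      map_add' := by
        intro q r
        simp only [Prod.fst_add, Prod.snd_add, map_add, add_smul]
        abel
      map_smul' := by
        intro c q
        simp only [Prod.smul_fst, Prod.smul_snd, map_smul, smul_add, smul_smul, smul_eq_mul,
          RingHom.id_apply] }
  have hT : Function.Injective T := by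
    rw [injective_iff_map_eq_zero]
    rintro ⟨v, α, β, γ⟩ h
    have h0 : L v + α • f + β • n + γ • z = 0 := h
    have e1 := congrArg (fun w => ⟪w, f⟫) h0
    have e2 := congrArg (fun w => ⟪w, n⟫) h0
    have e3 := congrArg (fun w => ⟪w, z⟫) h0
    have hnf : ⟪n, f⟫ = 0 := by rw [real_inner_comm]; exact hfn
    have hzf' : ⟪z, f⟫ = 0 := by rw [real_inner_comm]; exact hzf
    have hzn' : ⟪z, n⟫ = 0 := by rw [real_inner_comm]; exact hzn
    simp only [inner_add_left, h1, real_inner_smul_left, hff, mul_one, zero_add, hnf, mul_zero, add_zero, hzf', inner_zero_left, h2, hfn, hnn, hzn', h3, hzf, hzn] at e1 e2 e3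
    have hγ : γ = 0 := (mul_eq_zero.mp e3).resolve_right hzz
    rw [e1, e2, hγ] at h0
    simp only [zero_smul, add_zero] at h0
    have hv : v = 0 := by
      apply hL; rw [h0, map_zero]
    rw [hv, e1, e2, hγ]
    rfl
  have := LinearMap.finrank_le_finrank_of_injective hT
  simp only [finrank_prod, finrank_self] at this
  omega

/-- a unit normal is normal in every chart -/
lemma normal_rep [IsManifold 𝓘(ℝ, V) ∞ M] {F : M → W} (hF : SphImm V F) {N : M → W}
    (hN : ∀ x, IsUnitNormal V F x (N x)) (p : M) {v : V} (hv : v ∈ (chartAt V p).target) (w : V) :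
    ⟪fderiv ℝ (rep (V := V) F p) v w, rep (V := V) N p v⟫ = 0 := by
  set x := (chartAt V p).symm v with hx
  have hxs : x ∈ (chartAt V p).source := (chartAt V p).map_target hv
  have hpx : chartAt V p x = v := (chartAt V p).right_inv hv
  have hIp := immV_rep hF p
  have hIx := immV_rep hF x
  have hxT : chartAt V x x ∈ (chartAt V x).target :=
    (chartAt V x).map_source (mem_chart_source _ x)
  have hd : DifferentiableAt ℝ (rep (V := V) F p) (chartAt V p x) := by
    rw [hpx]
    exact (hIp.smooth.contDiffAt (hIp.isOpen.mem_nhds hv)).differentiableAt (by norm_num)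
  have hc := fderiv_rep_comp (x := p) (p := x) hxs hd
  rw [hpx] at hc
  have hr : LinearMap.range (fderiv ℝ (rep (V := V) F x) (chartAt V x x)).toLinearMap
      = LinearMap.range (fderiv ℝ (rep (V := V) F p) v).toLinearMap := by
    apply Submodule.eq_of_le_of_finrank_eq
    · rw [hc]
      rintro _ ⟨v, rfl⟩
      exact ⟨_, rfl⟩
    · rw [LinearMap.finrank_range_of_inj (hIx.inj _ hxT),
        LinearMap.finrank_range_of_inj (hIp.inj _ hv)]
  have hmem : fderiv ℝ (rep (V := V) F p) v w ∈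
      LinearMap.range (fderiv ℝ (rep (V := V) F x) (chartAt V x x)).toLinearMap := by
    rw [hr]; exact ⟨w, rfl⟩
  obtain ⟨z, hz⟩ := hmem
  have hz' : fderiv ℝ (rep (V := V) F x) (chartAt V x x) z = fderiv ℝ (rep (V := V) F p) v w := hz
  rw [← hz']
  have hN1 := (hN x).2.2
  have hv : z = ∑ i, (stdOrthonormalBasis ℝ V).repr z i • stdOrthonormalBasis ℝ V i :=
    ((stdOrthonormalBasis ℝ V).sum_repr z).symm
  rw [hv, map_sum, sum_inner]
  refine Finset.sum_eq_zero fun i _ => ?_
  rw [map_smul, inner_smul_left]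
  have : ⟪fderiv ℝ (rep (V := V) F x) (chartAt V x x) (stdOrthonormalBasis ℝ V i),
      rep (V := V) N p v⟫ = 0 := hN1 i
  rw [this, mul_zero]

lemma inner_rep_F_fderiv {f : V → W} {T : Set V} (h : ImmV f T) {u : V} (hu : u ∈ T) (v : V) :
    ⟪fderiv ℝ f u v, f u⟫ = 0 := by
  have hd : DifferentiableAt ℝ f u :=
    (h.smooth.contDiffAt (h.isOpen.mem_nhds hu)).differentiableAt (by norm_num)
  have h1 : fderiv ℝ (fun v => ⟪f v, f v⟫) u = fderiv ℝ (fun _ => (1 : ℝ)) u := by
    apply Filter.EventuallyEq.fderiv_eq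
    filter_upwards [h.isOpen.mem_nhds hu] with v hv
    rw [real_inner_self_eq_norm_sq, h.unit v hv]; norm_num
  have h2 := congrArg (fun L => L v) h1
  simp only [fderiv_inner_apply ℝ hd hd, fderiv_fun_const] at h2
  simp only [Pi.zero_apply, _root_.zero_apply] at h2
  rw [real_inner_comm (fderiv ℝ f u v) (f u)] at h2
  linarith only [h2]

/-- the tangential derivative of F -/
lemma dl_F [IsManifold 𝓘(ℝ, V) ∞ M] (hW : finrank ℝ W = finrank ℝ V + 2) {F : M → W}
    (hF : SphImm V F) {N : M → W} (hN : ∀ x, IsUnitNormal V F x (N x)) (a : W) (p : M) :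
    dl V F a F p = a - ⟪a, F p⟫ • F p - ⟪a, N p⟫ • N p := by
  have hI := immV_rep hF p
  have hpT : chartAt V p p ∈ (chartAt V p).target :=
    (chartAt V p).map_source (mem_chart_source _ p)
  have hFp : rep (V := V) F p (chartAt V p p) = F p := by
    unfold rep; rw [(chartAt V p).left_inv (mem_chart_source _ p)]
  have hNp : rep (V := V) N p (chartAt V p p) = N p := by
    unfold rep; rw [(chartAt V p).left_inv (mem_chart_source _ p)]
  obtain ⟨hn1, hn2, -⟩ := hN p
  have hff : ⟪F p, F p⟫ = 1 := by rw [real_inner_self_eq_norm_sq, hF.unit]; norm_num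
  have hnn : ⟪N p, N p⟫ = 1 := by rw [real_inner_self_eq_norm_sq, hn1]; norm_num
  have hnf : ⟪N p, F p⟫ = 0 := by rw [real_inner_comm]; exact hn2
  have hLF : ∀ v, ⟪fderiv ℝ (rep (V := V) F p) (chartAt V p p) v, F p⟫ = 0 := by
    intro v
    have := inner_rep_F_fderiv hI hpT v
    rwa [hFp] at this
  have hLN : ∀ v, ⟪fderiv ℝ (rep (V := V) F p) (chartAt V p p) v, N p⟫ = 0 := by
    intro v
    have := normal_rep hF hN p hpT v
    rwa [hNp] at this
  have ht : dl V F a F p = lT (rep (V := V) F p) a (chartAt V p p) := fderiv_vW _ _ _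
  have htF : ⟪lT (rep (V := V) F p) a (chartAt V p p), F p⟫ = 0 := by
    rw [← fderiv_vW]; exact hLF _
  have htN : ⟪lT (rep (V := V) F p) a (chartAt V p p), N p⟫ = 0 := by
    rw [← fderiv_vW]; exact hLN _
  rw [ht]
  set t := lT (rep (V := V) F p) a (chartAt V p p) with htdef
  have hz : a - t - ⟪a, F p⟫ • F p - ⟪a, N p⟫ • N p = 0 := by
    apply eq_zero_of_orth hW
      (fderiv ℝ (rep (V := V) F p) (chartAt V p p)).toLinearMap (hI.inj _ hpT)
      (hF.unit p) hn1 hn2 hLF hLN
    · intro v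
      have h1 := inner_fderiv_sub_lT (hI.inj _ hpT) a v
      have h2 := hLF v
      have h3 := hLN v
      simp only [ContinuousLinearMap.coe_coe]
      rw [inner_sub_right, inner_sub_right, inner_smul_right, inner_smul_right, h1, h2, h3]
      ring
    · rw [inner_sub_right, inner_sub_right, inner_sub_right, inner_smul_right, inner_smul_right,
        hff, hn2, real_inner_comm t, htF, real_inner_comm a]
      ring
    · rw [inner_sub_right, inner_sub_right, inner_sub_right, inner_smul_right, inner_smul_right,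
        hnf, hnn, real_inner_comm t, htN, real_inner_comm a]
      ring
  have : a - ⟪a, F p⟫ • F p - ⟪a, N p⟫ • N p - t = 0 := by
    rw [← hz]; abel
  rw [sub_eq_zero] at this
  exact this.symm

/-- symmetry of the second fundamental form -/
lemma dl_N_symm [IsManifold 𝓘(ℝ, V) ∞ M] (hW : finrank ℝ W = finrank ℝ V + 2) {F : M → W}
    (hF : SphImm V F) {N : M → W} (hNs : ContMDiff 𝓘(ℝ, V) 𝓘(ℝ, W) ∞ N)
    (hN : ∀ x, IsUnitNormal V F x (N x)) (a b : W) (p : M) :
    ⟪dl V F a N p, b⟫ = ⟪dl V F b N p, a⟫ := by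
  have hI := immV_rep hF p
  have hpT : chartAt V p p ∈ (chartAt V p).target :=
    (chartAt V p).map_source (mem_chart_source _ p)
  have hFp : rep (V := V) F p (chartAt V p p) = F p := by
    unfold rep; rw [(chartAt V p).left_inv (mem_chart_source _ p)]
  have hNp : rep (V := V) N p (chartAt V p p) = N p := by
    unfold rep; rw [(chartAt V p).left_inv (mem_chart_source _ p)]
  set f := rep (V := V) F p with hf
  set ν := rep (V := V) N p with hν
  set u := chartAt V p p with hu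
  have hT := hI.isOpen.mem_nhds hpT
  have hfs : ContDiffAt ℝ 2 f u := (hI.smooth.contDiffAt hT).of_le (by norm_cast)
  have hfd : DifferentiableAt ℝ f u := hfs.differentiableAt (by norm_num)
  have hνd : DifferentiableAt ℝ ν u := rep_diff_self hNs p
  -- derivative of nu is orthogonal to f and nu
  have h1 : ∀ w, ⟪fderiv ℝ ν u w, f u⟫ = 0 := by
    intro w
    have e1 : fderiv ℝ (fun v => ⟪ν v, f v⟫) u = fderiv ℝ (fun _ => (0 : ℝ)) u := by
      apply Filter.EventuallyEq.fderiv_eq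
      filter_upwards with v
      rw [real_inner_comm]
      exact (hN _).2.1
    have h2 := congrArg (fun L => L w) e1
    simp only [fderiv_inner_apply ℝ hνd hfd, fderiv_fun_const] at h2
    simp only [Pi.zero_apply, _root_.zero_apply] at h2
    rw [real_inner_comm _ (ν u), normal_rep hF hN p hpT w, zero_add] at h2
    exact h2
  have h2 : ∀ w, ⟪fderiv ℝ ν u w, ν u⟫ = 0 := by
    intro w
    have e1 : fderiv ℝ (fun v => ⟪ν v, ν v⟫) u = fderiv ℝ (fun _ => (1 : ℝ)) u := by
      apply Filter.EventuallyEq.fderiv_eq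
      filter_upwards with v
      rw [real_inner_self_eq_norm_sq]
      have : ‖ν v‖ = 1 := (hN _).1
      rw [this]; norm_num
    have h2 := congrArg (fun L => L w) e1
    simp only [fderiv_inner_apply ℝ hνd hνd, fderiv_fun_const] at h2
    simp only [Pi.zero_apply, _root_.zero_apply] at h2
    rw [real_inner_comm (fderiv ℝ ν u w) (ν u)] at h2
    linarith only [h2]
  -- the second fundamental form
  have h3 : ∀ w w', ⟪fderiv ℝ ν u w, fderiv ℝ f u w'⟫
      = - ⟪ν u, fderiv ℝ (fderiv ℝ f) u w w'⟫ := by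
    intro w w'
    have hfd2 : DifferentiableAt ℝ (fderiv ℝ f) u :=
      (hfs.fderiv_right (m := 1) (by norm_num)).differentiableAt (by norm_num)
    have hPd : HasFDerivAt (fun v => fderiv ℝ f v w')
        ((ContinuousLinearMap.apply ℝ W w').comp (fderiv ℝ (fderiv ℝ f) u)) u :=
      (ContinuousLinearMap.apply ℝ W w').hasFDerivAt.comp u hfd2.hasFDerivAt
    have e1 : fderiv ℝ (fun v => ⟪ν v, fderiv ℝ f v w'⟫) u = fderiv ℝ (fun _ => (0 : ℝ)) u := by
      apply Filter.EventuallyEq.fderiv_eq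
      filter_upwards [hT] with v hv
      rw [real_inner_comm]
      exact normal_rep hF hN p hv w'
    have h2 := congrArg (fun L => L w) e1
    simp only [fderiv_inner_apply ℝ hνd hPd.differentiableAt, hPd.fderiv, fderiv_fun_const] at h2
    simp only [Pi.zero_apply, _root_.zero_apply, ContinuousLinearMap.comp_apply,
      ContinuousLinearMap.apply_apply] at h2
    linarith only [h2]
  have hsymm : ∀ w w', fderiv ℝ (fderiv ℝ f) u w w' = fderiv ℝ (fderiv ℝ f) u w' w :=
    hfs.isSymmSndFDerivAt (by simp)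
  -- decomposition
  have key : ∀ a b : W, ⟪dl V F a N p, b⟫
      = ⟪fderiv ℝ ν u (vW f a u), fderiv ℝ f u (vW f b u)⟫ := by
    intro a b
    have hb := dl_F hW hF hN b p
    have hb' : dl V F b F p = fderiv ℝ f u (vW f b u) := rfl
    have hb2 : b = fderiv ℝ f u (vW f b u) + ⟪b, F p⟫ • F p + ⟪b, N p⟫ • N p := by
      rw [← hb', hb]; abel
    have ha : dl V F a N p = fderiv ℝ ν u (vW f a u) := rfl
    rw [ha]
    conv_lhs => rw [hb2]
    rw [inner_add_right, inner_add_right, inner_smul_right, inner_smul_right, ← hFp, ← hNp,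
      h1, h2]
    ring
  rw [key a b, key b a, h3, h3, hsymm]

end

end Vale.Agent.P224.FV
end
end

section

section

namespace Vale.Agent.P224.FV

open Matrix MeasureTheory Module Function Set
open scoped RealInnerProductSpace Topology ContDiff Manifold

set_option linter.unusedSectionVars false

section

variable {V W M : Type*} [NormedAddCommGroup V] [InnerProductSpace ℝ V] [FiniteDimensional ℝ V]
  [NormedAddCommGroup W] [InnerProductSpace ℝ W] [FiniteDimensional ℝ W]
  {X : Type*} [NormedAddCommGroup X] [NormedSpace ℝ X]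
  [TopologicalSpace M] [ChartedSpace V M]

end

end Vale.Agent.P224.FV
end
end

section

section

namespace Vale.Agent.P224.FV

open Matrix MeasureTheory Module Function Set
open scoped RealInnerProductSpace Topology ContDiff Manifold

set_option linter.unusedSectionVars false

section

variable {V W M : Type*} [NormedAddCommGroup V] [InnerProductSpace ℝ V] [FiniteDimensional ℝ V]
  [NormedAddCommGroup W] [InnerProductSpace ℝ W] [FiniteDimensional ℝ W]
  {X : Type*} [NormedAddCommGroup X] [NormedSpace ℝ X]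
  [TopologicalSpace M] [ChartedSpace V M]

end

end Vale.Agent.P224.FV
end
end

section

section

namespace Vale.Agent.P224

open scoped Manifold ContDiff RealInnerProductSpace Topology ENNReal
open MeasureTheory Metric Module Set Filter

variable {V W M : Type*} [NormedAddCommGroup V] [InnerProductSpace ℝ V] [FiniteDimensional ℝ V]
  [NormedAddCommGroup W] [InnerProductSpace ℝ W] [FiniteDimensional ℝ W]
  [TopologicalSpace M] [ChartedSpace V M] {F : M → W}

omit [FiniteDimensional ℝ W] in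
lemma gram_comp_det (A : V →L[ℝ] W) (T : V →L[ℝ] V) :
    (Matrix.gram ℝ (fun i => A (T (stdOrthonormalBasis ℝ V i)))).det =
      T.det ^ 2 * (Matrix.gram ℝ (fun i => A (stdOrthonormalBasis ℝ V i))).det := by
  set b := (stdOrthonormalBasis ℝ V).toBasis with hb
  set N := LinearMap.toMatrix b b (T : V →ₗ[ℝ] V) with hN
  have hT : ∀ i, T (stdOrthonormalBasis ℝ V i) = ∑ k, N k i • stdOrthonormalBasis ℝ V k := by
    intro i
    have h1 := (b.sum_repr (T (stdOrthonormalBasis ℝ V i))).symm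
    rw [h1]
    apply Finset.sum_congr rfl
    intro k _
    rw [hN, LinearMap.toMatrix_apply]
    simp [hb]
  have hG : Matrix.gram ℝ (fun i => A (T (stdOrthonormalBasis ℝ V i))) =
      N.transpose * Matrix.gram ℝ (fun i => A (stdOrthonormalBasis ℝ V i)) * N := by
    ext i j
    rw [Matrix.gram_apply, hT, hT]
    simp only [map_sum, map_smul, inner_sum, inner_smul_right, sum_inner, inner_smul_left, conj_trivial, Matrix.mul_apply, Matrix.transpose_apply, Matrix.gram_apply, Finset.sum_mul]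
    apply Finset.sum_congr rfl
    intro k _
    rw [Finset.mul_sum]
    apply Finset.sum_congr rfl
    intro l _
    ring
  have hd : N.det = T.det := LinearMap.det_toMatrix b (T : V →ₗ[ℝ] V)
  rw [hG, Matrix.det_mul, Matrix.det_mul, Matrix.det_transpose, hd]
  ring

/-- the measure in a chart -/
noncomputable def chartMeas [MeasurableSpace V] [BorelSpace V] [MeasurableSpace M] (F : M → W)
    (x : M) : Measure M :=
  ((volume.withDensity fun u : V =>
    ENNReal.ofReal (Real.sqrt (metricMat (rep F x) u).det)).restrict (chartAt V x).target).map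
      (chartAt V x).symm

section

variable [MeasurableSpace V] [BorelSpace V] [MeasurableSpace M] [BorelSpace M]

omit [FiniteDimensional ℝ W] in
lemma chartMeas_apply (x : M) {E : Set M} (hE : MeasurableSet E) :
    chartMeas (V := V) F x E = ∫⁻ u in (chartAt V x).target ∩ (chartAt V x).symm ⁻¹' E,
      ENNReal.ofReal (Real.sqrt (metricMat (rep F x) u).det) := by
  have hms := measurable_chart_preimage (V := V) x hE
  set φ := chartAt V x with hφ
  have hae : AEMeasurable φ.symm ((volume.withDensity fun u : V =>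
    ENNReal.ofReal (Real.sqrt (metricMat (rep F x) u).det)).restrict φ.target) :=
    φ.continuousOn_symm.aemeasurable φ.open_target.measurableSet
  unfold chartMeas
  rw [← hφ, Measure.map_apply_of_aemeasurable hae hE,
      Measure.restrict_apply' φ.open_target.measurableSet, inter_comm, withDensity_apply _ hms]

/-- Transition invariance. -/
lemma chartMeas_eq [IsManifold 𝓘(ℝ, V) ∞ M] (hF : SphImm V F) (x y : M) {E : Set M}
    (hE : MeasurableSet E) (hx : E ⊆ (chartAt V x).source) (hy : E ⊆ (chartAt V y).source) :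
    chartMeas (V := V) F x E = chartMeas (V := V) F y E := by
  rw [chartMeas_apply x hE, chartMeas_apply y hE]
  set φ := chartAt V x with hφ
  set χ := chartAt V y with hχ
  set τ : V → V := φ ∘ χ.symm with hτ
  set s : Set V := χ.target ∩ χ.symm ⁻¹' E with hs
  have hsm : MeasurableSet s := measurable_chart_preimage (V := V) y hE
  have himg : φ.target ∩ φ.symm ⁻¹' E = τ '' s := by
    ext u
    constructor
    · rintro ⟨hu, huE⟩
      have huE' : φ.symm u ∈ E := huE
      refine ⟨χ (φ.symm u), ⟨χ.map_source (hy huE'), ?_⟩, ?_⟩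
      · rw [mem_preimage, χ.left_inv (hy huE')]; exact huE'
      · simp only [hτ, Function.comp_apply]
        rw [χ.left_inv (hy huE'), φ.right_inv hu]
    · rintro ⟨v, ⟨hv, hvE⟩, rfl⟩
      have hvE' : χ.symm v ∈ E := hvE
      refine ⟨φ.map_source (hx hvE'), ?_⟩
      rw [mem_preimage]
      simp only [hτ, Function.comp_apply]
      rw [φ.left_inv (hx hvE')]
      exact hvE'
  have hcd : ∀ v ∈ s, ContDiffAt ℝ ∞ τ v := by
    intro v hv
    have hvE' : χ.symm v ∈ E := hv.2
    have h1 : ContMDiffAt 𝓘(ℝ, V) 𝓘(ℝ, V) ∞ χ.symm v :=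
      contMDiffOn_chart_symm.contMDiffAt (χ.open_target.mem_nhds hv.1)
    have h2 : ContMDiffAt 𝓘(ℝ, V) 𝓘(ℝ, V) ∞ φ (χ.symm v) :=
      contMDiffOn_chart.contMDiffAt (φ.open_source.mem_nhds (hx hvE'))
    exact (h2.comp v h1).contDiffAt
  have hder : ∀ v ∈ s, HasFDerivWithinAt τ (fderiv ℝ τ v) s v := fun v hv =>
    ((hcd v hv).differentiableAt (by norm_num)).hasFDerivAt.hasFDerivWithinAt
  have hinj : InjOn τ s := by
    intro v hv v' hv' h
    simp only [hτ, Function.comp_apply] at h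
    have h1 : χ.symm v = χ.symm v' := φ.injOn (hx hv.2) (hx hv'.2) h
    exact χ.symm.injOn hv.1 hv'.1 h1
  rw [himg, lintegral_image_eq_lintegral_abs_det_fderiv_mul volume hsm hder hinj]
  apply setLIntegral_congr_fun hsm
  intro v hv
  have hvE' : χ.symm v ∈ E := hv.2
  -- the metric
  have hev : rep F y =ᶠ[𝓝 v] rep F x ∘ τ := by
    have h1 : ∀ᶠ v' in 𝓝 v, χ.symm v' ∈ φ.source := by
      have : ContinuousAt χ.symm v := χ.continuousAt_symm hv.1
      exact this.eventually_mem (φ.open_source.mem_nhds (hx hvE'))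
    filter_upwards [h1] with v' hv'
    simp only [Function.comp_apply, hτ]
    unfold rep
    rw [← hφ, ← hχ, φ.left_inv hv']
  have hfd : DifferentiableAt ℝ (rep F x) (τ v) := by
    have hI := immV_rep hF x
    have hmem : τ v ∈ φ.target := φ.map_source (hx hvE')
    exact (hI.smooth.differentiableOn (by norm_num)).differentiableAt (hI.isOpen.mem_nhds hmem)
  have hτd : DifferentiableAt ℝ τ v := (hcd v hv).differentiableAt (by norm_num)
  have hDF : fderiv ℝ (rep F y) v = (fderiv ℝ (rep F x) (τ v)).comp (fderiv ℝ τ v) := by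
    rw [hev.fderiv_eq, fderiv_comp v hfd hτd]
  have hmat : (metricMat (rep F y) v).det =
      (fderiv ℝ τ v).det ^ 2 * (metricMat (rep F x) (τ v)).det := by
    have := gram_comp_det (fderiv ℝ (rep F x) (τ v)) (fderiv ℝ τ v)
    rw [← show (metricMat (rep F y) v) = Matrix.gram ℝ (fun i => (fderiv ℝ (rep F x) (τ v))
      ((fderiv ℝ τ v) (stdOrthonormalBasis ℝ V i))) by
        unfold metricMat pd
        rw [hDF]
        rfl] at this
    exact this
  beta_reduce
  rw [hmat, Real.sqrt_mul (sq_nonneg _), Real.sqrt_sq_eq_abs, ENNReal.ofReal_mul (abs_nonneg _)]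

lemma chartMeas_compl (x : M) : chartMeas (V := V) F x ((chartAt V x).source)ᶜ = 0 := by
  rw [chartMeas_apply x (chartAt V x).open_source.measurableSet.compl]
  have : (chartAt V x).target ∩ (chartAt V x).symm ⁻¹' ((chartAt V x).source)ᶜ = ∅ := by
    ext u
    simp only [mem_inter_iff, mem_preimage, mem_compl_iff, mem_empty_iff_false, iff_false, not_and,
      not_not]
    intro hu
    exact (chartAt V x).map_target hu
  rw [this]
  simp only [Measure.restrict_empty, lintegral_zero_measure]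

lemma chartMeas_restrict (x : M) : (chartMeas (V := V) F x).restrict (chartAt V x).source =
    chartMeas (V := V) F x := by
  apply Measure.restrict_eq_self_of_ae_mem
  rw [ae_iff]
  exact chartMeas_compl x

/-- The volume measure restricted to a chart domain is the measure in the chart. -/
theorem volM_restrict_source [IsManifold 𝓘(ℝ, V) ∞ M] (hF : SphImm V F) (x : M) :
    (volM V F).restrict (chartAt V x).source = chartMeas (V := V) F x := by
  have hvol : volM V F = ⨆ y : M, chartMeas (V := V) F y := rfl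
  have hsm : MeasurableSet (chartAt V x).source := (chartAt V x).open_source.measurableSet
  apply le_antisymm
  · have h1 : volM V F ≤ chartMeas (V := V) F x + (volM V F).restrict ((chartAt V x).source)ᶜ := by
      conv_lhs => rw [hvol]
      apply iSup_le
      intro y
      rw [Measure.le_iff]
      intro E hE
      have h2 : chartMeas (V := V) F y E ≤ chartMeas (V := V) F y (E ∩ (chartAt V x).source) +
          chartMeas (V := V) F y (E ∩ ((chartAt V x).source)ᶜ) := by
        rw [← Set.sdiff_eq, measure_inter_add_sdiff _ hsm]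
      refine h2.trans ?_
      rw [Measure.add_apply, Measure.restrict_apply hE]
      refine add_le_add ?_ ?_
      · -- first piece
        have h3 : chartMeas (V := V) F y (E ∩ (chartAt V x).source) =
            chartMeas (V := V) F y (E ∩ (chartAt V x).source ∩ (chartAt V y).source) := by
          conv_lhs => rw [← chartMeas_restrict (V := V) (F := F) y]
          rw [Measure.restrict_apply (hE.inter hsm)]
        rw [h3, ← chartMeas_eq hF x y ((hE.inter hsm).inter
          (chartAt V y).open_source.measurableSet) (fun z hz => hz.1.2) (fun z hz => hz.2)]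
        exact measure_mono (fun z hz => hz.1.1)
      · rw [hvol]
        exact (le_iSup (fun y : M => chartMeas (V := V) F y) y) _
    calc (volM V F).restrict (chartAt V x).source
        ≤ (chartMeas (V := V) F x + (volM V F).restrict ((chartAt V x).source)ᶜ).restrict
          (chartAt V x).source := Measure.restrict_mono_measure h1 _
      _ = chartMeas (V := V) F x := by
          rw [Measure.restrict_add, Measure.restrict_restrict hsm, chartMeas_restrict,
            inter_compl_self, Measure.restrict_empty, add_zero]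
  · rw [← chartMeas_restrict x]
    exact Measure.restrict_mono_measure (le_iSup (fun y : M => chartMeas (V := V) F y) x) _

lemma measurable_rep_det [IsManifold 𝓘(ℝ, V) ∞ M] (hF : SphImm V F) (x : M) :
    ContinuousOn (fun u : V => Real.sqrt (metricMat (rep F x) u).det) (chartAt V x).target := by
  have hI := immV_rep hF x
  apply Real.continuous_sqrt.comp_continuousOn
  apply (continuous_id.matrix_det).comp_continuousOn
  apply continuousOn_matrix
  intro i j
  have h1 : ContinuousOn (fderiv ℝ (rep F x)) (chartAt V x).target :=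
    hI.smooth.continuousOn_fderiv_of_isOpen hI.isOpen (by norm_num)
  exact (h1.clm_apply continuousOn_const).inner (𝕜 := ℝ) (h1.clm_apply continuousOn_const)

/-- The volume is finite. -/
theorem isFiniteMeasure_volM [IsManifold 𝓘(ℝ, V) ∞ M] [CompactSpace M] (hF : SphImm V F) :
    IsFiniteMeasure (volM V F) := by
  have hloc : ∀ x : M, ∃ U : Set M, IsOpen U ∧ x ∈ U ∧ volM V F U < ⊤ := by
    intro x
    set φ := chartAt V x with hφ
    have hxs := mem_chart_source V x
    have hut : φ x ∈ φ.target := φ.map_source hxs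
    obtain ⟨r, hr, hball⟩ := Metric.isOpen_iff.mp φ.open_target _ hut
    have hcb : closedBall (φ x) (r / 2) ⊆ φ.target :=
      (closedBall_subset_ball (by (clear * - hr; linarith))).trans hball
    set U : Set M := φ.source ∩ φ ⁻¹' ball (φ x) (r / 2) with hU
    have hUo : IsOpen U := φ.isOpen_inter_preimage isOpen_ball
    refine ⟨U, hUo, ⟨hxs, mem_ball_self (by linarith only [hr])⟩, ?_⟩
    have h1 : volM V F U = chartMeas (V := V) F x U := by
      rw [← volM_restrict_source hF x, Measure.restrict_apply hUo.measurableSet,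
        inter_eq_self_of_subset_left inter_subset_left]
    rw [h1, chartMeas_apply x hUo.measurableSet]
    have h2 : φ.target ∩ φ.symm ⁻¹' U ⊆ closedBall (φ x) (r / 2) := by
      rintro u ⟨hu, hu2⟩
      have := hu2.2
      rw [mem_preimage, φ.right_inv hu] at this
      exact ball_subset_closedBall this
    have hc := (measurable_rep_det hF x).mono hcb
    obtain ⟨C, hC⟩ := (isCompact_closedBall (φ x) (r / 2)).exists_bound_of_continuousOn hc
    calc ∫⁻ u in φ.target ∩ φ.symm ⁻¹' U, ENNReal.ofReal (Real.sqrt (metricMat (rep F x) u).det)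
        ≤ ∫⁻ u in closedBall (φ x) (r / 2),
          ENNReal.ofReal (Real.sqrt (metricMat (rep F x) u).det) := lintegral_mono_set h2
      _ ≤ ∫⁻ _ in closedBall (φ x) (r / 2), ENNReal.ofReal C := by
          apply setLIntegral_mono' isClosed_closedBall.measurableSet
          intro u hu
          apply ENNReal.ofReal_le_ofReal
          have := hC u hu
          exact (le_abs_self _).trans this
      _ = ENNReal.ofReal C * volume (closedBall (φ x) (r / 2)) := by
          rw [setLIntegral_const]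
      _ < ⊤ := ENNReal.mul_lt_top ENNReal.ofReal_lt_top measure_closedBall_lt_top
  choose U hUo hxU hfin using hloc
  obtain ⟨t, ht⟩ := (isCompact_univ (X := M)).elim_nhds_subcover U
    (fun x _ => (hUo x).mem_nhds (hxU x))
  refine ⟨?_⟩
  calc volM V F univ ≤ volM V F (⋃ x ∈ t, U x) := measure_mono ht.2
    _ ≤ ∑ x ∈ t, volM V F (U x) := measure_biUnion_finset_le _ _
    _ < ⊤ := ENNReal.sum_lt_top.mpr fun x _ => hfin x

/-- Nonempty open sets have positive volume. -/
theorem volM_pos_of_isOpen [IsManifold 𝓘(ℝ, V) ∞ M] (hW : finrank ℝ W = finrank ℝ V + 2)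
    (hF : SphImm V F) {U : Set M}
    (hU : IsOpen U) (hne : U.Nonempty) : 0 < volM V F U := by
  obtain ⟨x, hx⟩ := hne
  refine lt_of_lt_of_le ?_ (chartMeasure_le (V := V) (F := F) x hU.measurableSet)
  set φ := chartAt V x with hφ
  have hxs := mem_chart_source V x
  set s : Set V := φ.target ∩ φ.symm ⁻¹' U with hs
  have hso : IsOpen s := φ.symm.isOpen_inter_preimage hU
  have hsne : s.Nonempty := ⟨φ x, φ.map_source hxs, by rw [mem_preimage, φ.left_inv hxs]; exact hx⟩
  have hsT : s ⊆ φ.target := inter_subset_left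
  rw [pos_iff_ne_zero]
  intro h0
  have hae : AEMeasurable (fun u : V => ENNReal.ofReal (Real.sqrt (metricMat (rep F x) u).det))
      (volume.restrict s) :=
    (((measurable_rep_det hF x).mono hsT).aemeasurable hso.measurableSet).ennreal_ofReal
  rw [lintegral_eq_zero_iff' hae] at h0
  have h1 : ∀ᵐ u ∂(volume.restrict s), u ∈ (∅ : Set V) := by
    filter_upwards [h0, self_mem_ae_restrict hso.measurableSet] with u hu hus
    exfalso
    have hI := (immV_rep hF x).imm hW
    have hmem : iV V u ∈ (iV V).symm ⁻¹' φ.target := by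
      rw [mem_preimage, (iV V).symm_apply_apply]; exact hsT hus
    have hpos : 0 < (metricMat (rep F x) u).det := by
      rw [← G_tr hW (rep F x) u]
      exact (hI.G_posDef hmem).det_pos
    have h2 : 0 < ENNReal.ofReal (Real.sqrt (metricMat (rep F x) u).det) := by
      rw [ENNReal.ofReal_pos]
      exact Real.sqrt_pos.mpr hpos
    have h3 : ENNReal.ofReal (Real.sqrt (metricMat (rep F x) u).det) = 0 := hu
    rw [h3] at h2
    exact lt_irrefl _ h2
  have h2 : volume s = 0 := by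
    have h3 : volume.restrict s univ = 0 := by
      have := h1
      rw [ae_iff] at this
      simpa only [MeasurableSet.univ, Measure.restrict_apply, univ_inter, mem_empty_iff_false, not_false_eq_true,     ofPred_true] using this
    simpa only [MeasurableSet.univ, Measure.restrict_apply, univ_inter] using h3
  exact (hso.measure_pos volume hsne).ne' h2

end

end Vale.Agent.P224
end
end

section

section

/-!
Sign colourings of the complement of a closed hypersurface of a star shaped domain.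
-/

namespace Vale.Agent.P224.TwoSide

open Set Filter Metric
open scoped Topology

variable {E : Type*} [NormedAddCommGroup E] [NormedSpace ℝ E]

/-- g is a local defining function of C near y -/
structure GoodAt (C : Set E) (g : E → ℝ) (y : E) : Prop where
  smooth : ContDiffAt ℝ 1 g y
  zero : ∀ᶠ z in 𝓝 y, (g z = 0 ↔ z ∈ C)
  reg : g y = 0 → fderiv ℝ g y ≠ 0

lemma GoodAt.neg {C : Set E} {g : E → ℝ} {y : E} (h : GoodAt C g y) :
    GoodAt C (fun z => - g z) y where
  smooth := h.smooth.neg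
  zero := by
    filter_upwards [h.zero] with z hz
    rw [neg_eq_zero]; exact hz
  reg := by
    intro h0 h1
    rw [neg_eq_zero] at h0
    rw [fderiv_fun_neg, neg_eq_zero] at h1
    exact h.reg h0 h1

lemma GoodAt.eventually {C : Set E} {g : E → ℝ} {y : E} (h : GoodAt C g y) :
    ∀ᶠ z in 𝓝 y, GoodAt C g z := by
  have h1 : ∀ᶠ z in 𝓝 y, ContDiffAt ℝ 1 g z := h.smooth.eventually (by simp)
  have h2 := h.zero.eventually_nhds
  have h3 : ∀ᶠ z in 𝓝 y, g z = 0 → fderiv ℝ g z ≠ 0 := by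
    by_cases h0 : g y = 0
    · have hc : ContinuousAt (fderiv ℝ g) y :=
        (h.smooth.fderiv_right (m := 0) (by (clear * -; norm_num))).continuousAt
      filter_upwards [hc.eventually_ne (h.reg h0)] with z hz _ using hz
    · filter_upwards [h.smooth.continuousAt.eventually_ne h0] with z hz hz0
      exact absurd hz0 hz
  filter_upwards [h1, h2, h3] with z a b c using ⟨a, b, c⟩

lemma GoodAt.frequently {C : Set E} {g : E → ℝ} {y : E} (h : GoodAt C g y) :
    ∃ᶠ z in 𝓝 y, g z ≠ 0 := by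
  intro h0
  simp only [not_not] at h0
  have h1 : g =ᶠ[𝓝 y] fun _ => (0 : ℝ) := h0
  apply h.reg h1.eq_of_nhds
  rw [h1.fderiv_eq]
  simp only [fderiv_fun_const, Pi.zero_apply]

/-- there is a direction in which both differentials do not vanish -/
lemma exists_dir {L1 L2 : E →L[ℝ] ℝ} (h1 : L1 ≠ 0) (h2 : L2 ≠ 0) : ∃ w, 0 < L1 w ∧ L2 w ≠ 0 := by
  obtain ⟨a, ha⟩ : ∃ a, L1 a ≠ 0 := by
    by_contra h
    push Not at h
    exact h1 (by ext1 x; simpa only [zero_apply] using h x)
  obtain ⟨b, hb⟩ : ∃ b, L2 b ≠ 0 := by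
    by_contra h
    push Not at h
    exact h2 (by ext1 x; simpa only [zero_apply] using h x)
  have h : ∃ w, L1 w ≠ 0 ∧ L2 w ≠ 0 := by
    by_cases h3 : L2 a = 0
    · by_cases h4 : L1 b = 0
      · refine ⟨a + b, ?_, ?_⟩
        · rw [map_add, h4, add_zero]; exact ha
        · rw [map_add, h3, zero_add]; exact hb
      · exact ⟨b, h4, hb⟩
    · exact ⟨a, ha, h3⟩
  obtain ⟨w, hw1, hw2⟩ := h
  rcases lt_or_gt_of_ne hw1 with h3 | h3
  · exact ⟨-w, by rw [map_neg]; linarith only [h3], by rw [map_neg]; simpa only [ne_eq, neg_eq_zero] using hw2⟩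
  · exact ⟨w, h3, hw2⟩

/-- lower growth bound in a direction -/
lemma growth {g : E → ℝ} {y w : E} (hs : ContDiffAt ℝ 1 g y) (hw : 0 < fderiv ℝ g y w) :
    ∃ c > 0, ∃ δ > 0, ∀ z ∈ ball y δ, ∀ s : ℝ, 0 ≤ s → z + s • w ∈ ball y δ →
      g z + c * s ≤ g (z + s • w) := by
  have hc : ContinuousAt (fun z => fderiv ℝ g z w) y :=
    (hs.fderiv_right (m := 0) (by norm_num)).continuousAt.clm_apply continuousAt_const
  set c := fderiv ℝ g y w / 2 with hcdef
  have h1 : ∀ᶠ z in 𝓝 y, c < fderiv ℝ g z w := hc.eventually (lt_mem_nhds (by linarith only [hw, hcdef]))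
  have h2 : ∀ᶠ z in 𝓝 y, ContDiffAt ℝ 1 g z := hs.eventually (by simp)
  obtain ⟨δ, hδ, hball⟩ := Metric.eventually_nhds_iff_ball.mp (h1.and h2)
  refine ⟨c, by (clear * - hw; (clear * - hw; positivity)), δ, hδ, ?_⟩
  intro z hz s hs0 hzs
  rcases hs0.eq_or_lt with h0 | h0
  · rw [← h0]; simp
  -- the function r ↦ g (z + r w) - c r is monotone on [0, s]
  have hseg : ∀ r ∈ Icc 0 s, z + r • w ∈ ball y δ := by
    intro r hr
    have hconv := (convex_ball y δ) hz hzs (a := 1 - r / s) (b := r / s)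
      (by rw [sub_nonneg, div_le_one h0]; exact hr.2) (div_nonneg hr.1 h0.le) (by ring)
    have e : (1 - r / s) • z + (r / s) • (z + s • w) = z + r • w := by
      rw [smul_add, smul_smul, div_mul_cancel₀ _ h0.ne', sub_smul, one_smul]
      abel
    rwa [e] at hconv
  have hder : ∀ r ∈ Icc 0 s, HasDerivAt (fun r : ℝ => g (z + r • w) - c * r)
      (fderiv ℝ g (z + r • w) w - c) r := by
    intro r hr
    have hd : DifferentiableAt ℝ g (z + r • w) :=
      (hball _ (hseg r hr)).2.differentiableAt (by norm_num)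
    have h3 : HasDerivAt (fun r : ℝ => z + r • w) w r := by
      simpa using ((hasDerivAt_id r).smul_const w).const_add z
    have h4 := hd.hasFDerivAt.comp_hasDerivAt r h3
    have h5 : HasDerivAt (fun r : ℝ => c * r) c r := by
      simpa using (hasDerivAt_id r).const_mul c
    exact h4.sub h5
  have hmono : MonotoneOn (fun r : ℝ => g (z + r • w) - c * r) (Icc 0 s) := by
    refine monotoneOn_of_deriv_nonneg (convex_Icc 0 s) ?_ ?_ ?_
    · exact fun r hr => (hder r hr).continuousAt.continuousWithinAt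
    · intro r hr
      rw [interior_Icc] at hr
      exact (hder r ⟨hr.1.le, hr.2.le⟩).differentiableAt.differentiableWithinAt
    · intro r hr
      rw [interior_Icc] at hr
      rw [(hder r ⟨hr.1.le, hr.2.le⟩).deriv]
      have := (hball _ (hseg r ⟨hr.1.le, hr.2.le⟩)).1
      linarith only [this]
  have := hmono ⟨le_rfl, hs0⟩ ⟨hs0, le_rfl⟩ hs0
  simp only [zero_smul, add_zero, mul_zero, sub_zero] at this
  linarith only [this]

/-- comparison of positive signs -/
lemma pos_of_pos {g₁ g₂ : E → ℝ} {C : Set E} {y w : E} (h1 : GoodAt C g₁ y) (h2 : GoodAt C g₂ y)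
    (h01 : g₁ y = 0) (hw1 : 0 < fderiv ℝ g₁ y w) (hw2 : 0 < fderiv ℝ g₂ y w) :
    ∀ᶠ z in 𝓝 y, (0 < g₁ z → 0 < g₂ z) ∧ (g₁ z < 0 → g₂ z < 0) := by
  obtain ⟨c₁, hc₁, δ₁, hδ₁, hg₁⟩ := growth h1.smooth hw1
  obtain ⟨c₂, hc₂, δ₂, hδ₂, hg₂⟩ := growth h2.smooth hw2
  obtain ⟨δ₃, hδ₃, hg₃⟩ := Metric.eventually_nhds_iff_ball.mp
    ((h1.zero.and h2.zero).and (h1.smooth.eventually (by simp)))
  set δ := min (min δ₁ δ₂) δ₃ with hδ
  have hδ0 : 0 < δ := by (clear * - hδ₁ hδ₂ hδ₃; (clear * - hδ₁ hδ₂ hδ₃; positivity))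
  have hw0 : w ≠ 0 := by
    intro h; rw [h, map_zero] at hw1; exact lt_irrefl _ hw1
  have hwn : 0 < ‖w‖ := norm_pos_iff.mpr hw0
  set S := δ / 2 / ‖w‖ with hS
  have hS0 : 0 < S := by (clear * - hδ₁ hδ₂ hδ₃ hw0; positivity)
  have e1 : ∀ᶠ z in 𝓝 y, z ∈ ball y (δ / 2) := ball_mem_nhds y (by (clear * - hδ₁ hδ₂ hδ₃; positivity))
  have e2 : ∀ᶠ z in 𝓝 y, |g₁ z| < c₁ * S := by
    have : ContinuousAt (fun z => |g₁ z|) y := h1.smooth.continuousAt.abs
    apply this.eventually (gt_mem_nhds _)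
    change |g₁ y| < c₁ * S
    rw [h01, abs_zero]; (clear * - hc₁ hδ₁ hδ₂ hδ₃ hw0; positivity)
  filter_upwards [e1, e2] with z hz1 hz2
  have hmem : ∀ s : ℝ, |s| ≤ S → z + s • w ∈ ball y δ := by
    intro s hs
    rw [mem_ball, dist_eq_norm] at hz1 ⊢
    have h3 : ‖s • w‖ ≤ δ / 2 := by
      rw [norm_smul, Real.norm_eq_abs]
      calc |s| * ‖w‖ ≤ S * ‖w‖ := by (clear * - hs hw0; gcongr)
        _ = δ / 2 := by rw [hS]; (clear * - hw0 hδ0; field_simp)
    calc ‖z + s • w - y‖ = ‖(z - y) + s • w‖ := by congr 1; abel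
      _ ≤ ‖z - y‖ + ‖s • w‖ := norm_add_le _ _
      _ < δ := by linarith only [hz1, h3]
  have hb1 : ∀ q ∈ ball y δ, q ∈ ball y δ₁ := fun q hq =>
    ball_subset_ball ((min_le_left _ _).trans (min_le_left _ _)) hq
  have hb2 : ∀ q ∈ ball y δ, q ∈ ball y δ₂ := fun q hq =>
    ball_subset_ball ((min_le_left _ _).trans (min_le_right _ _)) hq
  have hb3 : ∀ q ∈ ball y δ, q ∈ ball y δ₃ := fun q hq =>
    ball_subset_ball (min_le_right _ _) hq
  have hz0 : z ∈ ball y δ := by
    have := hmem 0 (by simpa only [abs_zero] using hS0.le)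
    simpa using this
  have hcont : ContinuousOn (fun s : ℝ => g₁ (z + s • w)) (Icc (-S) S) := by
    intro s hs
    have hq := hb3 _ (hmem s (abs_le.mpr hs))
    have h4 : ContinuousAt g₁ (z + s • w) := (hg₃ _ hq).2.continuousAt
    have h5 : ContinuousAt (fun s : ℝ => z + s • w) s := by (clear * -; (clear * -; fun_prop))
    exact (ContinuousAt.comp (f := fun s : ℝ => z + s • w) h4 h5).continuousWithinAt
  constructor
  · intro hpos
    -- go backwards
    have h3 : g₁ (z + (-S) • w) + c₁ * S ≤ g₁ z := by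
      have h6 := hg₁ (z + (-S) • w) (hb1 _ (hmem _ (by rw [abs_neg, abs_of_pos hS0]))) S hS0.le
        (by
          have : z + (-S) • w + S • w = z := by rw [neg_smul]; abel
          rw [this]; exact hb1 _ hz0)
      have : z + (-S) • w + S • w = z := by rw [neg_smul]; abel
      rwa [this] at h6
    have h4 : g₁ (z + (-S) • w) ≤ 0 := by
      have := (abs_lt.mp hz2).2
      linarith only [h3, this]
    have hiv := intermediate_value_Icc (show -S ≤ 0 by linarith only [hS0])
      (hcont.mono (Icc_subset_Icc le_rfl hS0.le))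
    simp only [zero_smul, add_zero] at hiv
    obtain ⟨s, hs, hs0⟩ := hiv ⟨h4, hpos.le⟩
    simp only at hs0
    have hq := hmem s (abs_le.mpr ⟨hs.1, hs.2.trans hS0.le⟩)
    have hq3 := (hg₃ _ (hb3 _ hq)).1
    have h7 : g₂ (z + s • w) = 0 := hq3.2.mpr (hq3.1.mp hs0)
    have hs1 : s ≠ 0 := by
      intro h; rw [h] at hs0; simp at hs0; linarith only [hpos, hs0]
    have h8 := hg₂ (z + s • w) (hb2 _ hq) (-s) (by linarith only [hs.2]) (by
      have : z + s • w + (-s) • w = z := by rw [neg_smul]; abel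
      rw [this]; exact hb2 _ hz0)
    have h9 : z + s • w + (-s) • w = z := by rw [neg_smul]; abel
    rw [h9, h7] at h8
    have : 0 < c₂ * (-s) := mul_pos hc₂ (by
      have := lt_of_le_of_ne hs.2 hs1
      linarith only [this])
    linarith only [h8, this]
  · intro hneg
    have h3 : g₁ z + c₁ * S ≤ g₁ (z + S • w) :=
      hg₁ z (hb1 _ hz0) S hS0.le (hb1 _ (hmem _ (by rw [abs_of_pos hS0])))
    have h4 : 0 ≤ g₁ (z + S • w) := by
      have := (abs_lt.mp hz2).1
      linarith only [h3, this]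
    have hiv := intermediate_value_Icc (show (0 : ℝ) ≤ S by linarith only [hS0])
      (hcont.mono (Icc_subset_Icc (by linarith only [hS0]) le_rfl))
    simp only [zero_smul, add_zero] at hiv
    obtain ⟨s, hs, hs0⟩ := hiv ⟨hneg.le, h4⟩
    simp only at hs0
    have hq := hmem s (abs_le.mpr ⟨by linarith only [hS0, hs.1], hs.2⟩)
    have hq3 := (hg₃ _ (hb3 _ hq)).1
    have h7 : g₂ (z + s • w) = 0 := hq3.2.mpr (hq3.1.mp hs0)
    have hs1 : s ≠ 0 := by
      intro h; rw [h] at hs0; simp at hs0; linarith only [hneg, hs0]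
    have h8 := hg₂ z (hb2 _ hz0) s hs.1 (hb2 _ hq)
    rw [h7] at h8
    have : 0 < c₂ * s := mul_pos hc₂ (lt_of_le_of_ne hs.1 (Ne.symm hs1))
    linarith only [h8, this]

/-- two local defining functions have the same signs up to a global sign -/
lemma sign_cases {g₁ g₂ : E → ℝ} {C : Set E} {y : E} (h1 : GoodAt C g₁ y) (h2 : GoodAt C g₂ y) :
    (∀ᶠ z in 𝓝 y, Real.sign (g₁ z) = Real.sign (g₂ z)) ∨
    (∀ᶠ z in 𝓝 y, Real.sign (g₁ z) = - Real.sign (g₂ z)) := by
  have hz1 := h1.zero.self_of_nhds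
  have hz2 := h2.zero.self_of_nhds
  have hc1 := h1.smooth.continuousAt
  have hc2 := h2.smooth.continuousAt
  by_cases hy : g₁ y = 0
  · have hy2 : g₂ y = 0 := hz2.mpr (hz1.mp hy)
    obtain ⟨w, hw1, hw2⟩ := exists_dir (h1.reg hy) (h2.reg hy2)
    rcases lt_or_gt_of_ne hw2 with h3 | h3
    · right
      have h4 : 0 < fderiv ℝ (fun z => - g₂ z) y w := by
        rw [fderiv_fun_neg]
        simp only [_root_.neg_apply]
        linarith only [h3]
      filter_upwards [pos_of_pos h1 h2.neg hy hw1 h4, h1.zero, h2.zero] with z hz a b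
      rw [← Real.sign_neg]
      rcases lt_trichotomy (g₁ z) 0 with h | h | h
      · rw [Real.sign_of_neg h, Real.sign_of_neg (hz.2 h)]
      · have : g₂ z = 0 := b.mpr (a.mp h)
        rw [h, this]; simp
      · rw [Real.sign_of_pos h, Real.sign_of_pos (hz.1 h)]
    · left
      filter_upwards [pos_of_pos h1 h2 hy hw1 h3, h1.zero, h2.zero] with z hz a b
      rcases lt_trichotomy (g₁ z) 0 with h | h | h
      · rw [Real.sign_of_neg h, Real.sign_of_neg (hz.2 h)]
      · have : g₂ z = 0 := b.mpr (a.mp h)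
        rw [h, this]
      · rw [Real.sign_of_pos h, Real.sign_of_pos (hz.1 h)]
  · have hy2 : g₂ y ≠ 0 := fun h => hy (hz1.mpr (hz2.mp h))
    rcases lt_or_gt_of_ne hy with a | a <;> rcases lt_or_gt_of_ne hy2 with b | b
    · left
      filter_upwards [hc1.eventually (gt_mem_nhds a), hc2.eventually (gt_mem_nhds b)] with z p q
      rw [Real.sign_of_neg p, Real.sign_of_neg q]
    · right
      filter_upwards [hc1.eventually (gt_mem_nhds a), hc2.eventually (lt_mem_nhds b)] with z p q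
      rw [Real.sign_of_neg p, Real.sign_of_pos q]
    · right
      filter_upwards [hc1.eventually (lt_mem_nhds a), hc2.eventually (gt_mem_nhds b)] with z p q
      rw [Real.sign_of_pos p, Real.sign_of_neg q]; norm_num
    · left
      filter_upwards [hc1.eventually (lt_mem_nhds a), hc2.eventually (lt_mem_nhds b)] with z p q
      rw [Real.sign_of_pos p, Real.sign_of_pos q]

/-- c is a colouring on O -/
def IsCol (C O : Set E) (c : E → ℝ) : Prop :=
  ∀ y ∈ O, ∃ g, GoodAt C g y ∧ ∀ᶠ z in 𝓝 y, c z = Real.sign (g z)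

lemma IsCol.mono {C O O' : Set E} {c : E → ℝ} (h : IsCol C O c) (hO : O' ⊆ O) : IsCol C O' c :=
  fun y hy => h y (hO hy)

lemma IsCol.neg {C O : Set E} {c : E → ℝ} (h : IsCol C O c) : IsCol C O (fun z => - c z) := by
  intro y hy
  obtain ⟨g, hg, hc⟩ := h y hy
  refine ⟨fun z => - g z, hg.neg, ?_⟩
  filter_upwards [hc] with z hz
  rw [Real.sign_neg, hz]

/-- uniqueness of colourings -/
lemma IsCol.unique {C O : Set E} {c₁ c₂ : E → ℝ} (h1 : IsCol C O c₁) (h2 : IsCol C O c₂)
    (hO : IsPreconnected O) : (∀ y ∈ O, c₁ y = c₂ y) ∨ (∀ y ∈ O, c₁ y = - c₂ y) := by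
  set U : Set E := {y | ∀ᶠ z in 𝓝 y, c₁ z = c₂ z} with hU
  set U' : Set E := {y | ∀ᶠ z in 𝓝 y, c₁ z = - c₂ z} with hU'
  have hUo : IsOpen U := isOpen_setOfPred_eventually_nhds
  have hU'o : IsOpen U' := isOpen_setOfPred_eventually_nhds
  have hcov : O ⊆ U ∪ U' := by
    intro y hy
    obtain ⟨g₁, hg₁, hc₁⟩ := h1 y hy
    obtain ⟨g₂, hg₂, hc₂⟩ := h2 y hy
    rcases sign_cases hg₁ hg₂ with h | h
    · left
      change ∀ᶠ z in 𝓝 y, c₁ z = c₂ z
      filter_upwards [hc₁, hc₂, h] with z a b c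
      rw [a, b, c]
    · right
      change ∀ᶠ z in 𝓝 y, c₁ z = - c₂ z
      filter_upwards [hc₁, hc₂, h] with z a b c
      rw [a, b, c]
  have hdisj : O ∩ (U ∩ U') = ∅ := by
    rw [eq_empty_iff_forall_notMem]
    rintro y ⟨hy, hyU, hyU'⟩
    obtain ⟨g₁, hg₁, hc₁⟩ := h1 y hy
    obtain ⟨z, hz1, hz2, hz3, hz4⟩ := (hg₁.frequently.and_eventually
      (hc₁.and (hyU.and hyU'))).exists
    have h5 : c₁ z = 0 := by linarith
    rw [h5] at hz2
    exact hz1 (Real.sign_eq_zero_iff.mp hz2.symm)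
  rcases (isPreconnected_iff_subset_of_disjoint.mp hO) U U' hUo hU'o hcov hdisj with h | h
  · left
    intro y hy
    exact (h hy).self_of_nhds
  · right
    intro y hy
    exact (h hy).self_of_nhds

/-- gluing of two colourings -/
lemma glue {C O₁ O₂ : Set E} {c₁ c₂ : E → ℝ} (hO₁ : IsOpen O₁) (hO₂ : IsOpen O₂)
    (h1 : IsCol C O₁ c₁) (h2 : IsCol C O₂ c₂) (hc : IsPreconnected (O₁ ∩ O₂)) :
    ∃ c, IsCol C (O₁ ∪ O₂) c := by
  classical
  have key : ∀ c₂ : E → ℝ, IsCol C O₂ c₂ → (∀ y ∈ O₁ ∩ O₂, c₁ y = c₂ y) →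
      ∃ c, IsCol C (O₁ ∪ O₂) c := by
    intro c₂ h2 heq
    refine ⟨fun z => if z ∈ O₁ then c₁ z else c₂ z, ?_⟩
    rintro y (hy | hy)
    · obtain ⟨g, hg, hcg⟩ := h1 y hy
      refine ⟨g, hg, ?_⟩
      filter_upwards [hcg, hO₁.mem_nhds hy] with z a b
      rw [if_pos b, a]
    · obtain ⟨g, hg, hcg⟩ := h2 y hy
      refine ⟨g, hg, ?_⟩
      filter_upwards [hcg, hO₂.mem_nhds hy] with z a b
      by_cases hz : z ∈ O₁
      · rw [if_pos hz, heq z ⟨hz, b⟩, a]
      · rw [if_neg hz, a]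
  rcases (h1.mono inter_subset_left).unique (h2.mono inter_subset_right) hc with h | h
  · exact key c₂ h2 h
  · exact key _ h2.neg h

/-- colourings along segments -/
lemma exists_segment {C : Set E} {p y : E}
    (hloc : ∀ z ∈ segment ℝ p y, ∃ g, GoodAt C g z) :
    ∃ δ > 0, ∃ c, IsCol C (thickening δ (segment ℝ p y)) c := by
  -- local colourings on open sets
  set U : E → Set E := fun z => {q | ∃ O, IsOpen O ∧ q ∈ O ∧ ∃ c, IsCol C O c} with hU
  have hcomp : IsCompact (segment ℝ p y) := by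
    rw [segment_eq_image_lineMap]
    exact isCompact_Icc.image AffineMap.lineMap_continuous
  have hO : ∀ z ∈ segment ℝ p y, ∃ O, IsOpen O ∧ z ∈ O ∧ ∃ c, IsCol C O c := by
    intro z hz
    obtain ⟨g, hg⟩ := hloc z hz
    obtain ⟨O, hOs, hOo, hzO⟩ := _root_.eventually_nhds_iff.mp hg.eventually
    exact ⟨O, hOo, hzO, fun z => Real.sign (g z), fun q hq => ⟨g, hOs q hq, by simp⟩⟩
  choose! O hOo hzO c hcol using hO
  obtain ⟨δ, hδ, hleb⟩ := lebesgue_number_lemma_of_metric (c := fun z : segment ℝ p y => O z)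
    hcomp (fun z => hOo z z.2) (fun z hz => mem_iUnion.mpr ⟨⟨z, hz⟩, hzO z hz⟩)
  have hball : ∀ z ∈ segment ℝ p y, ∃ c, IsCol C (ball z δ) c := by
    intro z hz
    obtain ⟨i, hi⟩ := hleb z hz
    exact ⟨c i, (hcol i i.2).mono hi⟩
  obtain ⟨n, hn⟩ := exists_nat_gt (‖y - p‖ / (δ / 2))
  have hn0 : 0 < (n : ℝ) := lt_of_le_of_lt (by (clear * - hδ; (clear * - hδ; positivity))) hn
  set γ : ℝ → E := fun t => p + t • (y - p) with hγ
  have hγmem : ∀ t, 0 ≤ t → t ≤ 1 → γ t ∈ segment ℝ p y := by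
    intro t h0 h1
    rw [segment_eq_image']
    exact ⟨t, ⟨h0, h1⟩, rfl⟩
  refine ⟨δ / 2, by (clear * - hδ; positivity), ?_⟩
  have hind : ∀ k : ℕ, k ≤ n →
      ∃ c, IsCol C (thickening (δ / 2) (segment ℝ p (γ (k / n)))) c := by
    intro k
    induction k with
    | zero =>
      intro _
      obtain ⟨c, hc⟩ := hball p (left_mem_segment ℝ p y)
      refine ⟨c, hc.mono ?_⟩
      have : segment ℝ p (γ ((0 : ℕ) / n)) = {p} := by
        simp [hγ, segment_same]
      rw [this, thickening_singleton]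
      exact ball_subset_ball (by linarith only [hδ])
    | succ k ih =>
      intro hk
      obtain ⟨c₁, hc₁⟩ := ih (by omega)
      have hk0 : (0 : ℝ) ≤ k / n := by (clear * - hn0; (clear * - hn0; positivity))
      have hkn : ((k + 1 : ℕ) : ℝ) / n ≤ 1 := by
        rw [div_le_one hn0]; exact_mod_cast hk
      have hkk : (k : ℝ) / n ≤ ((k + 1 : ℕ) : ℝ) / n := by
        gcongr; omega
      obtain ⟨c₂, hc₂⟩ := hball (γ (k / n)) (hγmem _ hk0 (hkk.trans hkn))
      have hconv : Convex ℝ (thickening (δ / 2) (segment ℝ p (γ (k / n))) ∩ ball (γ (k / n)) δ) :=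
        ((convex_segment _ _).thickening _).inter (convex_ball _ _)
      obtain ⟨c₃, hc₃⟩ := glue isOpen_thickening isOpen_ball hc₁ hc₂ hconv.isPreconnected
      refine ⟨c₃, hc₃.mono ?_⟩
      intro q hq
      rw [mem_thickening_iff] at hq
      obtain ⟨z, hz, hqz⟩ := hq
      rw [segment_eq_image'] at hz
      obtain ⟨t, ht, rfl⟩ := hz
      have e1 : p + t • (γ (((k + 1 : ℕ) : ℝ) / n) - p) = γ (t * (((k + 1 : ℕ) : ℝ) / n)) := by
        simp only [hγ, add_sub_cancel_left, smul_smul]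
      simp only [e1] at hqz
      set s := t * (((k + 1 : ℕ) : ℝ) / n) with hs
      have hs0 : 0 ≤ s := mul_nonneg ht.1 (by (clear * - hn0; (clear * - hn0; positivity)))
      have hs1 : s ≤ ((k + 1 : ℕ) : ℝ) / n := by
        calc s ≤ 1 * (((k + 1 : ℕ) : ℝ) / n) := by
              rw [hs]; gcongr; exact ht.2
          _ = _ := one_mul _
      by_cases hsk : s ≤ k / n
      · left
        rw [mem_thickening_iff]
        refine ⟨γ s, ?_, hqz⟩
        rw [segment_eq_image']
        rcases eq_or_lt_of_le hk0 with h0 | h0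
        · refine ⟨0, ⟨le_rfl, zero_le_one⟩, ?_⟩
          have : s = 0 := le_antisymm (by rw [h0]; exact hsk) hs0
          simp only [hγ, add_sub_cancel_left, zero_smul, add_zero, this]
        · refine ⟨s / (k / n), ⟨div_nonneg hs0 hk0, (div_le_one h0).mpr hsk⟩, ?_⟩
          simp only [hγ, add_sub_cancel_left, smul_smul]
          rw [div_mul_cancel₀ _ h0.ne']
      · right
        push Not at hsk
        rw [mem_ball]
        have h5 : dist (γ s) (γ (k / n)) ≤ δ / 2 := by
          rw [dist_eq_norm]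
          have : γ s - γ (k / n) = (s - k / n) • (y - p) := by
            simp only [hγ]
            rw [sub_smul]
            abel
          rw [this, norm_smul, Real.norm_eq_abs, abs_of_pos (by linarith only [hsk])]
          have h6 : s - k / n ≤ 1 / n := by
            have : ((k + 1 : ℕ) : ℝ) / n = k / n + 1 / n := by push_cast; ring
            linarith only [hs1, this]
          have h7 : ‖y - p‖ ≤ n * (δ / 2) := by
            rw [div_lt_iff₀ (by positivity)] at hn
            exact hn.le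
          calc (s - k / n) * ‖y - p‖ ≤ 1 / n * (n * (δ / 2)) := by
                apply mul_le_mul h6 h7 (norm_nonneg _) (by (clear * - hn0; positivity))
            _ = δ / 2 := by (clear * - hn0 hδ; (clear * - hn0 hδ; field_simp))
        calc dist q (γ (k / n)) ≤ dist q (γ s) + dist (γ s) (γ (k / n)) := dist_triangle _ _ _
          _ < δ := by linarith only [hqz, h5]
  obtain ⟨c', hc'⟩ := hind n le_rfl
  refine ⟨c', ?_⟩
  have : γ (n / n) = y := by
    rw [div_self hn0.ne']
    simp only [hγ, one_smul, add_sub_cancel]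
  rwa [this] at hc'

/-- a star shaped domain has a global colouring -/
theorem exists_global {C D : Set E} {p : E} (hD : IsOpen D) (hp : p ∉ C)
    (hstar : ∀ y ∈ D, segment ℝ p y ⊆ D) (hloc : ∀ z ∈ D, ∃ g, GoodAt C g z) :
    ∃ c, IsCol C D c := by
  have hseg : ∀ y ∈ D, ∃ δ > 0, ∃ c, IsCol C (thickening δ (segment ℝ p y)) c ∧ c p = 1 := by
    intro y hy
    obtain ⟨δ, hδ, c, hc⟩ := exists_segment (C := C) (p := p) (y := y)
      (fun z hz => hloc z (hstar y hy hz))
    have hpm : p ∈ thickening δ (segment ℝ p y) :=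
      self_subset_thickening hδ _ (left_mem_segment ℝ p y)
    obtain ⟨g, hg, hcg⟩ := hc p hpm
    have h1 : g p ≠ 0 := fun h => hp (hg.zero.self_of_nhds.mp h)
    have h2 := hcg.self_of_nhds
    rcases lt_or_gt_of_ne h1 with h | h
    · refine ⟨δ, hδ, _, hc.neg, ?_⟩
      rw [h2, Real.sign_of_neg h]; norm_num
    · refine ⟨δ, hδ, c, hc, ?_⟩
      rw [h2, Real.sign_of_pos h]
  choose! δ hδ c hc hcp using hseg
  refine ⟨fun y => c y y, ?_⟩
  intro y hy
  have hyt : y ∈ thickening (δ y) (segment ℝ p y) :=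
    self_subset_thickening (hδ y hy) _ (right_mem_segment ℝ p y)
  obtain ⟨g, hg, hcg⟩ := hc y hy y hyt
  refine ⟨g, hg, ?_⟩
  filter_upwards [hcg, hD.mem_nhds hy, isOpen_thickening.mem_nhds hyt] with y' h1 h2 h3
  have hpt : ∀ z ∈ D, p ∈ thickening (δ z) (segment ℝ p z) := fun z hz =>
    self_subset_thickening (hδ z hz) _ (left_mem_segment ℝ p z)
  have hconv : Convex ℝ (thickening (δ y) (segment ℝ p y) ∩ thickening (δ y') (segment ℝ p y')) :=
    ((convex_segment _ _).thickening _).inter ((convex_segment _ _).thickening _)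
  have hy't : y' ∈ thickening (δ y') (segment ℝ p y') :=
    self_subset_thickening (hδ y' h2) _ (right_mem_segment ℝ p y')
  rcases ((hc y hy).mono inter_subset_left).unique ((hc y' h2).mono inter_subset_right)
    hconv.isPreconnected with h | h
  · rw [← h y' ⟨h3, hy't⟩, h1]
  · exfalso
    have := h p ⟨hpt y hy, hpt y' h2⟩
    rw [hcp y hy, hcp y' h2] at this
    norm_num at this

end Vale.Agent.P224.TwoSide
end
end

section

section

/-!
The cone over an embedded hypersurface of the sphere has local defining functions.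
-/

namespace Vale.Agent.P224.TwoSide

open Set Filter Metric Module
open scoped Topology RealInnerProductSpace ContDiff Manifold

variable {V W M : Type*} [NormedAddCommGroup V] [InnerProductSpace ℝ V] [FiniteDimensional ℝ V]
  [NormedAddCommGroup W] [InnerProductSpace ℝ W] [FiniteDimensional ℝ W]
  [TopologicalSpace M] [ChartedSpace V M] {F : M → W}

/-- the open cone over the image -/
def cone (F : M → W) : Set W := {y | ∃ r : ℝ, 0 < r ∧ ∃ x, y = r • F x}

omit [FiniteDimensional ℝ V] [InnerProductSpace ℝ V] [ChartedSpace V M] [NormedAddCommGroup V]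
  [TopologicalSpace M] [FiniteDimensional ℝ W] in
lemma normalize_mem (hu : ∀ x, ‖F x‖ = 1) {z : W} (hz : z ∈ cone F) :
    ∃ x, ‖z‖⁻¹ • z = F x ∧ z = ‖z‖ • F x := by
  obtain ⟨r, hr, x, rfl⟩ := hz
  have : ‖r • F x‖ = r := by rw [norm_smul, hu, mul_one, Real.norm_of_nonneg hr.le]
  refine ⟨x, ?_, ?_⟩
  · rw [this, smul_smul, inv_mul_cancel₀ hr.ne', one_smul]
  · rw [this]

omit [FiniteDimensional ℝ V] [InnerProductSpace ℝ V] [ChartedSpace V M] [NormedAddCommGroup V]
  [FiniteDimensional ℝ W] in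
lemma continuousAt_normalize {y : W} (hy : y ≠ 0) : ContinuousAt (fun z : W => ‖z‖⁻¹ • z) y :=
  (continuousAt_id.norm.inv₀ (norm_ne_zero_iff.mpr hy)).smul continuousAt_id

omit [FiniteDimensional ℝ V] [InnerProductSpace ℝ V] [ChartedSpace V M] [NormedAddCommGroup V]
  [FiniteDimensional ℝ W] in
lemma goodAt_off [CompactSpace M] (hc : Continuous F) (hu : ∀ x, ‖F x‖ = 1) {y : W} (hy : y ≠ 0)
    (hyc : y ∉ cone F) : GoodAt (cone F) (fun _ => 1) y where
  smooth := contDiffAt_const
  zero := by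
    have hK : IsClosed (range F) := (isCompact_range hc).isClosed
    have h1 : ‖y‖⁻¹ • y ∉ range F := by
      rintro ⟨x, hx⟩
      apply hyc
      refine ⟨‖y‖, norm_pos_iff.mpr hy, x, ?_⟩
      rw [hx, smul_smul, mul_inv_cancel₀ (norm_ne_zero_iff.mpr hy), one_smul]
    filter_upwards [(continuousAt_normalize hy).eventually (hK.isOpen_compl.mem_nhds h1)] with z hz
    constructor
    · intro h; norm_num at h
    · intro h
      obtain ⟨x, hx, -⟩ := normalize_mem hu h
      exact absurd ⟨x, hx.symm⟩ hz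
  reg := by intro h; norm_num at h

lemma goodAt_on [IsManifold 𝓘(ℝ, V) ∞ M] [CompactSpace M]
    (hW : finrank ℝ W = finrank ℝ V + 2) (hF : SphImm V F) (hinj : Function.Injective F)
    {y : W} (hyc : y ∈ cone F) : ∃ g, GoodAt (cone F) g y := by
  obtain ⟨r₀, hr₀, x₀, rfl⟩ := hyc
  have hI := immV_rep hF x₀
  set φ := chartAt V x₀ with hφ
  have hxs : x₀ ∈ φ.source := mem_chart_source _ x₀
  have hxT : φ x₀ ∈ φ.target := φ.map_source hxs
  set f : V → W := rep F x₀ with hf
  have hfx : f (φ x₀) = F x₀ := by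
    rw [hf]; unfold rep; rw [φ.left_inv hxs]
  obtain ⟨hν, -, -⟩ := pointwise_nu hW hF x₀ hxT
  rw [φ.left_inv hxs] at hν
  set n₀ := nuW hW (rep F x₀) (φ x₀) with hn₀
  obtain ⟨hn1, hn2, hn3⟩ := hν
  have hfd : HasFDerivAt f (fderiv ℝ f (φ x₀)) (φ x₀) :=
    ((hI.smooth.contDiffAt (hI.isOpen.mem_nhds hxT)).differentiableAt (by norm_num)).hasFDerivAt
  have hL1 : ∀ v, ⟪fderiv ℝ f (φ x₀) v, n₀⟫ = 0 := by
    intro v
    have hv : v = ∑ i, (stdOrthonormalBasis ℝ V).repr v i • stdOrthonormalBasis ℝ V i :=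
      ((stdOrthonormalBasis ℝ V).sum_repr v).symm
    rw [hv, map_sum, sum_inner]
    refine Finset.sum_eq_zero fun i _ => ?_
    rw [map_smul, inner_smul_left]
    have : ⟪fderiv ℝ f (φ x₀) (stdOrthonormalBasis ℝ V i), n₀⟫ = 0 := hn3 i
    rw [this, mul_zero]
  have hL2 : ∀ v, ⟪fderiv ℝ f (φ x₀) v, F x₀⟫ = 0 := by
    intro v
    have h1 : fderiv ℝ (fun v => ⟪f v, f v⟫) (φ x₀) = fderiv ℝ (fun _ => (1 : ℝ)) (φ x₀) := by
      apply Filter.EventuallyEq.fderiv_eq
      filter_upwards [hI.isOpen.mem_nhds hxT] with v hv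
      rw [real_inner_self_eq_norm_sq, hI.unit v hv]; norm_num
    have h2 := congrArg (fun L => L v) h1
    simp only [fderiv_inner_apply ℝ hfd.differentiableAt hfd.differentiableAt,
      fderiv_fun_const] at h2
    simp only [Pi.zero_apply, _root_.zero_apply] at h2
    rw [real_inner_comm (fderiv ℝ f (φ x₀) v) (f (φ x₀)), hfx] at h2
    linarith only [h2]
  -- the parametrisation of a neighbourhood
  set Θ : V × ℝ × ℝ → W := fun q => q.2.1 • f q.1 + q.2.2 • n₀ with hΘ
  set L : V × ℝ × ℝ →L[ℝ] W :=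
    (r₀ • (fderiv ℝ f (φ x₀)).comp (ContinuousLinearMap.fst ℝ V (ℝ × ℝ))
      + ((ContinuousLinearMap.fst ℝ ℝ ℝ).comp
          (ContinuousLinearMap.snd ℝ V (ℝ × ℝ))).smulRight (f (φ x₀)))
      + ((ContinuousLinearMap.snd ℝ ℝ ℝ).comp
          (ContinuousLinearMap.snd ℝ V (ℝ × ℝ))).smulRight n₀ with hL
  have hder : HasFDerivAt Θ L (φ x₀, r₀, 0) := by
    have h1 : HasFDerivAt (fun q : V × ℝ × ℝ => q.2.1)
        ((ContinuousLinearMap.fst ℝ ℝ ℝ).comp (ContinuousLinearMap.snd ℝ V (ℝ × ℝ)))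
        (φ x₀, r₀, 0) := ((ContinuousLinearMap.fst ℝ ℝ ℝ).comp
          (ContinuousLinearMap.snd ℝ V (ℝ × ℝ))).hasFDerivAt
    have h2 : HasFDerivAt (fun q : V × ℝ × ℝ => q.2.2)
        ((ContinuousLinearMap.snd ℝ ℝ ℝ).comp (ContinuousLinearMap.snd ℝ V (ℝ × ℝ)))
        (φ x₀, r₀, 0) := ((ContinuousLinearMap.snd ℝ ℝ ℝ).comp
          (ContinuousLinearMap.snd ℝ V (ℝ × ℝ))).hasFDerivAt
    have h3 : HasFDerivAt (fun q : V × ℝ × ℝ => f q.1)
        ((fderiv ℝ f (φ x₀)).comp (ContinuousLinearMap.fst ℝ V (ℝ × ℝ))) (φ x₀, r₀, 0) :=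
      HasFDerivAt.comp (φ x₀, r₀, (0 : ℝ)) (g := f) (f := fun q : V × ℝ × ℝ => q.1) hfd
        (ContinuousLinearMap.hasFDerivAt (ContinuousLinearMap.fst ℝ V (ℝ × ℝ)))
    exact (h1.fun_smul h3).add (h2.smul_const n₀)
  have hLinj : Function.Injective L := by
    rw [injective_iff_map_eq_zero]
    rintro ⟨v, α, β⟩ h
    have h0 : r₀ • fderiv ℝ f (φ x₀) v + α • F x₀ + β • n₀ = 0 := by
      rw [← hfx]; exact h
    have hFF : ⟪F x₀, F x₀⟫ = 1 := by rw [real_inner_self_eq_norm_sq, hF.unit]; norm_num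
    have hnn : ⟪n₀, n₀⟫ = 1 := by rw [real_inner_self_eq_norm_sq, hn1]; norm_num
    have hnF : ⟪n₀, F x₀⟫ = 0 := by rw [real_inner_comm]; exact hn2
    have e1 := congrArg (fun w => ⟪w, F x₀⟫) h0
    have e2 := congrArg (fun w => ⟪w, n₀⟫) h0
    simp only [inner_add_left, real_inner_smul_left, hL2, mul_zero, hFF, mul_one, zero_add, hnF, add_zero, inner_zero_left, hL1, hn2, hnn] at e1 e2
    rw [e1, e2] at h0
    simp only [zero_smul, add_zero] at h0
    have h1 := (smul_eq_zero.mp h0).resolve_left hr₀.ne'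
    have hv : v = 0 := hI.inj _ hxT (by rw [map_zero]; exact h1)
    rw [hv, e1, e2]
    rfl
  have hdim : finrank ℝ (V × ℝ × ℝ) = finrank ℝ W := by
    simp only [finrank_prod, finrank_self]
    (clear * - hW; (clear * - hW; omega))
  set L' : (V × ℝ × ℝ) ≃L[ℝ] W :=
    (LinearMap.linearEquivOfInjective L.toLinearMap hLinj hdim).toContinuousLinearEquiv with hL'
  have hL'L : (L' : V × ℝ × ℝ →L[ℝ] W) = L := by
    apply ContinuousLinearMap.ext
    intro q
    rfl
  have hder' : HasFDerivAt Θ (L' : V × ℝ × ℝ →L[ℝ] W) (φ x₀, r₀, 0) := by rw [hL'L]; exact hder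
  have hΘs : ContDiffAt ℝ 1 Θ (φ x₀, r₀, 0) := by
    have h1 : ContDiffAt ℝ 1 f (φ x₀) :=
      (hI.smooth.contDiffAt (hI.isOpen.mem_nhds hxT)).of_le (by exact_mod_cast le_top)
    have h3 : ContDiffAt ℝ 1 (fun q : V × ℝ × ℝ => f q.1) (φ x₀, r₀, 0) :=
      ContDiffAt.comp (φ x₀, r₀, (0 : ℝ)) (g := f) (f := fun q : V × ℝ × ℝ => q.1) h1
        contDiffAt_fst
    exact ((contDiffAt_snd.fst).smul h3).add ((contDiffAt_snd.snd).smul contDiffAt_const)
  set e := hΘs.toOpenPartialHomeomorph Θ hder' (by norm_num) with he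
  have hes : (φ x₀, r₀, (0 : ℝ)) ∈ e.source := hΘs.mem_toOpenPartialHomeomorph_source hder' (by norm_num)
  have hecoe : (e : V × ℝ × ℝ → W) = Θ := hΘs.toOpenPartialHomeomorph_coe hder' (by norm_num)
  have hinv : ContDiffAt ℝ 1 e.symm (Θ (φ x₀, r₀, 0)) := by
    have := hΘs.to_localInverse hder' (by norm_num)
    exact this
  have hΘ0 : Θ (φ x₀, r₀, 0) = r₀ • F x₀ := by
    simp only [hΘ, zero_smul, add_zero, hfx]
  refine ⟨fun z => (e.symm z).2.2, ?_, ?_, ?_⟩
  · rw [← hΘ0]
    exact hinv.snd.snd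
  · have hey : e (φ x₀, r₀, 0) = r₀ • F x₀ := by rw [hecoe, hΘ0]
    have hyt : r₀ • F x₀ ∈ e.target := by rw [← hey]; exact e.map_source hes
    have hsy : e.symm (r₀ • F x₀) = (φ x₀, r₀, 0) := by rw [← hey, e.left_inv hes]
    have hsc : ContinuousAt e.symm (r₀ • F x₀) := e.continuousAt_symm hyt
    have a1 : ∀ᶠ z in 𝓝 (r₀ • F x₀), z ∈ e.target := e.open_target.mem_nhds hyt
    have a2 : ∀ᶠ z in 𝓝 (r₀ • F x₀), (e.symm z).1 ∈ φ.target := by
      have : ContinuousAt (fun z => (e.symm z).1) (r₀ • F x₀) := hsc.fst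
      apply this.eventually_mem
      rw [hsy]
      exact φ.open_target.mem_nhds hxT
    have a3 : ∀ᶠ z in 𝓝 (r₀ • F x₀), 0 < (e.symm z).2.1 := by
      have : ContinuousAt (fun z => (e.symm z).2.1) (r₀ • F x₀) := hsc.snd.fst
      apply this.eventually (lt_mem_nhds _)
      change 0 < (e.symm (r₀ • F x₀)).2.1
      rw [hsy]
      exact hr₀
    -- a neighbourhood in M × ℝ
    have b1 : ∀ᶠ q : M × ℝ in 𝓝 (x₀, r₀), q.1 ∈ φ.source ∧ (φ q.1, q.2, (0 : ℝ)) ∈ e.source := by
      have c1 : ∀ᶠ q : M × ℝ in 𝓝 (x₀, r₀), q.1 ∈ φ.source :=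
        continuousAt_fst.eventually_mem (φ.open_source.mem_nhds hxs)
      have c2 : ContinuousAt (fun q : M × ℝ => (φ q.1, q.2, (0 : ℝ))) (x₀, r₀) := by
        have : ContinuousAt (fun q : M × ℝ => φ q.1) (x₀, r₀) :=
          ContinuousAt.comp (f := fun q : M × ℝ => q.1) (φ.continuousAt hxs) continuousAt_fst
        exact this.prodMk (continuousAt_snd.prodMk continuousAt_const)
      exact c1.and (c2.eventually_mem (e.open_source.mem_nhds hes))
    rw [nhds_prod_eq] at b1
    obtain ⟨U, hU, R, hR, hUR⟩ := eventually_prod_iff.mp b1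
    have hemb : Topology.IsClosedEmbedding F := hF.smooth.continuous.isClosedEmbedding hinj
    have hU' : U ∈ comap F (𝓝 (F x₀)) := by
      rw [← hemb.isInducing.nhds_eq_comap]; exact hU
    obtain ⟨A, hA, hAU⟩ := hU'
    have hy0 : r₀ • F x₀ ≠ 0 := by
      intro h
      have := congrArg norm h
      rw [norm_smul, hF.unit, mul_one, norm_zero, norm_eq_zero] at this
      exact hr₀.ne' this
    have hny : ‖r₀ • F x₀‖ = r₀ := by rw [norm_smul, hF.unit, mul_one, Real.norm_of_nonneg hr₀.le]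
    have a4 : ∀ᶠ z in 𝓝 (r₀ • F x₀), ‖z‖⁻¹ • z ∈ A := by
      apply (continuousAt_normalize hy0).eventually_mem
      rw [hny, smul_smul, inv_mul_cancel₀ hr₀.ne', one_smul]
      exact hA
    have a5 : ∀ᶠ z in 𝓝 (r₀ • F x₀), R ‖z‖ := by
      have : ContinuousAt (fun z : W => ‖z‖) (r₀ • F x₀) := continuousAt_id.norm
      apply this.eventually
      change ∀ᶠ y in 𝓝 ‖r₀ • F x₀‖, R y
      rw [hny]
      exact hR
    filter_upwards [a1, a2, a3, a4, a5] with z h1 h2 h3 h4 h5
    constructor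
    · intro h0
      have h6 : e (e.symm z) = z := e.right_inv h1
      rw [hecoe] at h6
      simp only [hΘ] at h6
      rw [h0, zero_smul, add_zero] at h6
      exact ⟨_, h3, φ.symm (e.symm z).1, h6.symm⟩
    · intro hz
      obtain ⟨x, hx1, hx2⟩ := normalize_mem hF.unit hz
      have hxU : U x := hAU (by
        change F x ∈ A
        rw [← hx1]; exact h4)
      obtain ⟨h6, h7⟩ := hUR hxU h5
      have h8 : e (φ x, ‖z‖, 0) = z := by
        rw [hecoe]
        simp only [hΘ, zero_smul, add_zero]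
        conv_rhs => rw [hx2]
        congr 1
        rw [hf]; unfold rep; rw [φ.left_inv h6]
      rw [← h8, e.left_inv h7]
  · intro _ h0
    have hgd : HasFDerivAt (fun z => (e.symm z).2.2) (0 : W →L[ℝ] ℝ) (r₀ • F x₀ + (0 : ℝ) • n₀) := by
      rw [zero_smul, add_zero, ← h0]
      have : ContDiffAt ℝ 1 (fun z => (e.symm z).2.2) (r₀ • F x₀) := by
        rw [← hΘ0]
        exact hinv.snd.snd
      exact (this.differentiableAt (by norm_num)).hasFDerivAt
    have hcur : HasDerivAt (fun s : ℝ => r₀ • F x₀ + s • n₀) n₀ 0 := by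
      simpa only [hasDerivAt_const_add_iff, id_eq, one_smul] using     ((hasDerivAt_id (0 : ℝ)).smul_const n₀).const_add (r₀ • F x₀)
    have h1 := hgd.comp_hasDerivAt (0 : ℝ) hcur
    have h2 : ((fun z => (e.symm z).2.2) ∘ fun s : ℝ => r₀ • F x₀ + s • n₀) =ᶠ[𝓝 0] fun s => s := by
      have hc : ContinuousAt (fun s : ℝ => (φ x₀, r₀, s)) 0 := by fun_prop
      filter_upwards [hc.eventually_mem (e.open_source.mem_nhds hes)] with s hs
      have h3 : e (φ x₀, r₀, s) = r₀ • F x₀ + s • n₀ := by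
        rw [hecoe]
        simp only [hΘ, hfx]
      simp only [Function.comp_apply]
      rw [← h3, e.left_inv hs]
    have h4 := h1.congr_of_eventuallyEq h2.symm
    have h5 := h4.unique (hasDerivAt_id' (0 : ℝ))
    simp at h5

end Vale.Agent.P224.TwoSide
end
end

section

section

/-!
Linear isometries which preserve the image of an embedded hypersurface.
-/

namespace Vale.Agent.P224.Sym

open scoped Manifold ContDiff RealInnerProductSpace Topology ENNReal
open MeasureTheory Metric Module Set Filter Vale.Agent.P224 Vale.Agent.P224.FV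

set_option linter.unusedSectionVars false

variable {V W M : Type*} [NormedAddCommGroup V] [InnerProductSpace ℝ V] [FiniteDimensional ℝ V]
  [NormedAddCommGroup W] [InnerProductSpace ℝ W] [FiniteDimensional ℝ W]
  [TopologicalSpace M] [ChartedSpace V M] {F : M → W}

/-- a continuous map covering an isometry is smooth -/
theorem smooth_of_cover [IsManifold 𝓘(ℝ, V) ∞ M] (hF : SphImm V F) {σ : M → M}
    (hσ : Continuous σ) (g : W ≃ₗᵢ[ℝ] W) (hg : ∀ x, F (σ x) = g (F x)) :
    ContMDiff 𝓘(ℝ, V) 𝓘(ℝ, V) ∞ σ := by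
  intro y
  set z := σ y with hz
  set φ := chartAt V z with hφ
  have hzs : z ∈ φ.source := mem_chart_source _ z
  have hut : φ z ∈ φ.target := φ.map_source hzs
  have hI := immV_rep hF z
  have hcd : ContDiffAt ℝ ∞ (rep F z) (φ z) := hI.smooth.contDiffAt (hI.isOpen.mem_nhds hut)
  have hfd : HasFDerivAt (rep F z) (fderiv ℝ (rep F z) (φ z)) (φ z) :=
    (hcd.differentiableAt (by norm_num)).hasFDerivAt
  obtain ⟨L, hL⟩ := LinearMap.exists_leftInverse_of_injective
    (fderiv ℝ (rep F z) (φ z) : V →ₗ[ℝ] W) (LinearMap.ker_eq_bot.mpr (hI.inj _ hut))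
  set L' : W →L[ℝ] V := LinearMap.toContinuousLinearMap L with hL'
  have hLid : ∀ v, L' (fderiv ℝ (rep F z) (φ z) v) = v := fun v => congrArg (fun A => A v) hL
  set Φ : V → V := fun u => L' (rep F z u) with hΦ
  have hΦc : ContDiffAt ℝ ∞ Φ (φ z) := L'.contDiff.contDiffAt.comp _ hcd
  have hΦd : HasFDerivAt Φ ((ContinuousLinearEquiv.refl ℝ V : V ≃L[ℝ] V) : V →L[ℝ] V) (φ z) := by
    have h1 : HasFDerivAt Φ (L'.comp (fderiv ℝ (rep F z) (φ z))) (φ z) :=
      L'.hasFDerivAt.comp _ hfd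
    convert h1 using 1
    ext v
    simp only [ContinuousLinearEquiv.coe_refl, ContinuousLinearMap.id_apply, ContinuousLinearMap.comp_apply, hLid]
  have hn : (∞ : WithTop ℕ∞) ≠ 0 := by norm_num
  set Ψ := hΦc.localInverse hΦd hn with hΨ
  have hΨs : ContDiffAt ℝ ∞ Ψ (Φ (φ z)) := hΦc.to_localInverse hΦd hn
  have hΨi : ∀ᶠ u in 𝓝 (φ z), Ψ (Φ u) = u :=
    (hΦc.hasStrictFDerivAt' hΦd hn).eventually_left_inverse
  have hΦz : Φ (φ z) = L' (g (F y)) := by
    simp only [hΦ]
    unfold rep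
    rw [φ.left_inv hzs, ← hg y]
  -- the map in the chart
  have hev : (fun x => φ (σ x)) =ᶠ[𝓝 y] fun x => Ψ (L' (g (F x))) := by
    have h1 : ∀ᶠ x in 𝓝 y, σ x ∈ φ.source :=
      hσ.continuousAt.eventually_mem (φ.open_source.mem_nhds hzs)
    have h2 : ContinuousAt (fun x => φ (σ x)) y :=
      (φ.continuousAt hzs).comp (f := σ) hσ.continuousAt
    filter_upwards [h1, h2.eventually hΨi] with x hx1 hx2
    rw [← hx2]
    simp only [hΦ]
    unfold rep
    rw [φ.left_inv hx1, hg]
  have hsm : ContMDiffAt 𝓘(ℝ, V) 𝓘(ℝ, V) ∞ (fun x => Ψ (L' (g (F x)))) y := by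
    have h1 : ContMDiffAt 𝓘(ℝ, V) 𝓘(ℝ, V) ∞ (fun x => L' (g (F x))) y :=
      ((L'.contDiff.comp g.contDiff).comp_contMDiff hF.smooth) y
    rw [hΦz] at hΨs
    exact ContDiffAt.comp_contMDiffAt (f := fun x => L' (g (F x))) (g := Ψ) hΨs h1
  have hsm2 : ContMDiffAt 𝓘(ℝ, V) 𝓘(ℝ, V) ∞ (fun x => φ (σ x)) y := hsm.congr_of_eventuallyEq hev
  have hsy : ContMDiffAt 𝓘(ℝ, V) 𝓘(ℝ, V) ∞ φ.symm (φ (σ y)) :=
    contMDiffOn_chart_symm.contMDiffAt (φ.open_target.mem_nhds hut)
  have h3 : ContMDiffAt 𝓘(ℝ, V) 𝓘(ℝ, V) ∞ (fun x => φ.symm (φ (σ x))) y :=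
    ContMDiffAt.comp (x := y) (f := fun x => φ (σ x)) (g := φ.symm) hsy hsm2
  refine h3.congr_of_eventuallyEq ?_
  have h1 : ∀ᶠ x in 𝓝 y, σ x ∈ φ.source :=
    hσ.continuousAt.eventually_mem (φ.open_source.mem_nhds hzs)
  filter_upwards [h1] with x hx
  rw [φ.left_inv hx]

/-- the map in charts -/
lemma chart_data [IsManifold 𝓘(ℝ, V) ∞ M] (hF : SphImm V F) {σ : M → M}
    (hσ : ContMDiff 𝓘(ℝ, V) 𝓘(ℝ, V) ∞ σ) (g : W ≃ₗᵢ[ℝ] W) (hg : ∀ x, F (σ x) = g (F x))
    (x y : M) {v : V} (hv : v ∈ (chartAt V y).target)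
    (hx : σ ((chartAt V y).symm v) ∈ (chartAt V x).source) :
    ContDiffAt ℝ ∞ (fun v => chartAt V x (σ ((chartAt V y).symm v))) v ∧
    ∀ w, g (fderiv ℝ (rep F y) v w) = fderiv ℝ (rep F x) (chartAt V x (σ ((chartAt V y).symm v)))
      (fderiv ℝ (fun v => chartAt V x (σ ((chartAt V y).symm v))) v w) := by
  set φ := chartAt V x with hφ
  set χ := chartAt V y with hχ
  set τ : V → V := fun v => φ (σ (χ.symm v)) with hτ
  have h1 : ContMDiffAt 𝓘(ℝ, V) 𝓘(ℝ, V) ∞ χ.symm v :=
    contMDiffOn_chart_symm.contMDiffAt (χ.open_target.mem_nhds hv)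
  have h2 : ContMDiffAt 𝓘(ℝ, V) 𝓘(ℝ, V) ∞ φ (σ (χ.symm v)) :=
    contMDiffOn_chart.contMDiffAt (φ.open_source.mem_nhds hx)
  have h3 : ContMDiffAt 𝓘(ℝ, V) 𝓘(ℝ, V) ∞ (fun v => σ (χ.symm v)) v :=
    ContMDiffAt.comp (x := v) (f := χ.symm) (g := σ) (hσ _) h1
  have hτc : ContDiffAt ℝ ∞ τ v :=
    (ContMDiffAt.comp (x := v) (f := fun v => σ (χ.symm v)) (g := φ) h2 h3).contDiffAt
  refine ⟨hτc, ?_⟩
  have hτd : DifferentiableAt ℝ τ v := hτc.differentiableAt (by norm_num)
  have hev : (fun u => g (rep F y u)) =ᶠ[𝓝 v] fun u => rep F x (τ u) := by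
    have h1 : ∀ᶠ v' in 𝓝 v, σ (χ.symm v') ∈ φ.source := by
      have : ContinuousAt (fun v => σ (χ.symm v)) v := h3.continuousAt
      exact this.eventually_mem (φ.open_source.mem_nhds hx)
    filter_upwards [h1] with v' hv'
    simp only [hτ]
    unfold rep
    rw [← hφ, ← hχ, φ.left_inv hv', hg]
  have hI := immV_rep hF x
  have hmem : τ v ∈ φ.target := φ.map_source hx
  have hfd : DifferentiableAt ℝ (rep F x) (τ v) :=
    (hI.smooth.differentiableOn (by norm_num)).differentiableAt (hI.isOpen.mem_nhds hmem)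
  have hIy := immV_rep hF y
  have hfy : DifferentiableAt ℝ (rep F y) v :=
    (hIy.smooth.differentiableOn (by norm_num)).differentiableAt (hIy.isOpen.mem_nhds hv)
  intro w
  have e1 : fderiv ℝ (fun u => g (rep F y u)) v = (g : W ≃L[ℝ] W).toContinuousLinearMap.comp
      (fderiv ℝ (rep F y) v) :=
    ((g : W ≃L[ℝ] W).toContinuousLinearMap.hasFDerivAt.comp v hfy.hasFDerivAt).fderiv
  have e2 : fderiv ℝ (fun u => rep F x (τ u)) v = (fderiv ℝ (rep F x) (τ v)).comp (fderiv ℝ τ v) :=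
    (hfd.hasFDerivAt.comp v hτd.hasFDerivAt).fderiv
  have e3 := hev.fderiv_eq (𝕜 := ℝ)
  rw [e1, e2] at e3
  exact congrArg (fun A => A w) e3

section

variable [MeasurableSpace V] [BorelSpace V] [MeasurableSpace M] [BorelSpace M]

lemma chartMeas_image [IsManifold 𝓘(ℝ, V) ∞ M] (hF : SphImm V F) (σ : M ≃ₜ M)
    (hσ : ContMDiff 𝓘(ℝ, V) 𝓘(ℝ, V) ∞ σ) (g : W ≃ₗᵢ[ℝ] W) (hg : ∀ x, F (σ x) = g (F x))
    (x y : M) {E : Set M}
    (hE : MeasurableSet E) (hx : σ '' E ⊆ (chartAt V x).source) (hy : E ⊆ (chartAt V y).source) :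
    chartMeas (V := V) F x (σ '' E) = chartMeas (V := V) F y E := by
  have hE' : MeasurableSet (σ '' E) := σ.measurableEmbedding.measurableSet_image.mpr hE
  rw [chartMeas_apply x hE', chartMeas_apply y hE]
  set φ := chartAt V x with hφ
  set χ := chartAt V y with hχ
  set τ : V → V := fun v => φ (σ (χ.symm v)) with hτ
  set s : Set V := χ.target ∩ χ.symm ⁻¹' E with hs
  have hsm : MeasurableSet s := measurable_chart_preimage (V := V) y hE
  have hxE : ∀ v ∈ s, σ (χ.symm v) ∈ φ.source := fun v hv => hx ⟨_, hv.2, rfl⟩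
  have himg : φ.target ∩ φ.symm ⁻¹' (σ '' E) = τ '' s := by
    ext u
    constructor
    · rintro ⟨hu, z, hz, hzu⟩
      refine ⟨χ z, ⟨χ.map_source (hy hz), ?_⟩, ?_⟩
      · rw [mem_preimage, χ.left_inv (hy hz)]; exact hz
      · simp only [hτ]
        rw [χ.left_inv (hy hz), hzu, φ.right_inv hu]
    · rintro ⟨v, hv, rfl⟩
      refine ⟨φ.map_source (hxE v hv), ?_⟩
      rw [mem_preimage]
      simp only [hτ]
      rw [φ.left_inv (hxE v hv)]
      exact ⟨_, hv.2, rfl⟩
  have hdata := fun v (hv : v ∈ s) => chart_data hF hσ g hg x y hv.1 (hxE v hv)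
  have hder : ∀ v ∈ s, HasFDerivWithinAt τ (fderiv ℝ τ v) s v := fun v hv =>
    ((hdata v hv).1.differentiableAt (by norm_num)).hasFDerivAt.hasFDerivWithinAt
  have hinj : InjOn τ s := by
    intro v hv v' hv' h
    simp only [hτ] at h
    have h1 : χ.symm v = χ.symm v' := σ.injective (φ.injOn (hxE v hv) (hxE v' hv') h)
    exact χ.symm.injOn hv.1 hv'.1 h1
  rw [himg, lintegral_image_eq_lintegral_abs_det_fderiv_mul volume hsm hder hinj]
  apply setLIntegral_congr_fun hsm
  intro v hv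
  have hmat : (metricMat (rep F y) v).det =
      (fderiv ℝ τ v).det ^ 2 * (metricMat (rep F x) (τ v)).det := by
    have := gram_comp_det (fderiv ℝ (rep F x) (τ v)) (fderiv ℝ τ v)
    have e : metricMat (rep F y) v = Matrix.gram ℝ (fun i => (fderiv ℝ (rep F x) (τ v))
      ((fderiv ℝ τ v) (stdOrthonormalBasis ℝ V i))) := by
      unfold metricMat pd
      ext i j
      rw [Matrix.gram_apply, Matrix.gram_apply, ← (hdata v hv).2, ← (hdata v hv).2,
        g.inner_map_map]
    rw [e]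
    exact this
  beta_reduce
  rw [hmat, Real.sqrt_mul (sq_nonneg _), Real.sqrt_sq_eq_abs, ENNReal.ofReal_mul (abs_nonneg _)]

/-- the volume is invariant -/
theorem volM_image [IsManifold 𝓘(ℝ, V) ∞ M] [CompactSpace M] (hF : SphImm V F) (σ : M ≃ₜ M)
    (hσ : ContMDiff 𝓘(ℝ, V) 𝓘(ℝ, V) ∞ σ) (g : W ≃ₗᵢ[ℝ] W) (hg : ∀ x, F (σ x) = g (F x)) :
    MeasurePreserving σ (volM V F) (volM V F) := by
  refine ⟨σ.continuous.measurable, ?_⟩
  -- local equality
  set U : M → Set M := fun x => (chartAt V x).source ∩ σ.symm ⁻¹' (chartAt V (σ.symm x)).source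
    with hU
  have hUo : ∀ x, IsOpen (U x) := fun x =>
    (chartAt V x).open_source.inter ((chartAt V (σ.symm x)).open_source.preimage σ.symm.continuous)
  have hUx : ∀ x, x ∈ U x := fun x => ⟨mem_chart_source _ x, mem_chart_source _ (σ.symm x)⟩
  obtain ⟨t, ht⟩ := (isCompact_univ (X := M)).elim_nhds_subcover U
      (fun x _ => (hUo x).mem_nhds (hUx x))
  have hcov : ⋃ i : t, U i = univ := by
    apply eq_univ_of_forall
    intro x
    have := ht.2 (mem_univ x)
    simp only [mem_iUnion] at this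
    obtain ⟨z, hz, hxz⟩ := this
    exact mem_iUnion.mpr ⟨⟨z, hz⟩, hxz⟩
  rw [Measure.ext_iff_of_iUnion_eq_univ hcov]
  intro i
  ext E hE
  rw [Measure.restrict_apply hE, Measure.restrict_apply hE,
    Measure.map_apply σ.continuous.measurable (hE.inter (hUo i).measurableSet)]
  set S := σ ⁻¹' (E ∩ U i) with hS
  have hSm : MeasurableSet S :=
    σ.continuous.measurable (hE.inter (hUo i).measurableSet)
  have hSi : σ '' S = E ∩ U i := image_preimage_eq _ σ.surjective
  have h1 : S ⊆ (chartAt V (σ.symm i)).source := by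
    intro z hz
    have := hz.2.2
    rw [mem_preimage, σ.symm_apply_apply] at this
    exact this
  have h2 : σ '' S ⊆ (chartAt V (i : M)).source := by
    rw [hSi]
    exact fun z hz => hz.2.1
  have h3 := chartMeas_image hF σ hσ g hg i (σ.symm i) hSm h2 h1
  have h4 : ∀ (x : M) (A : Set M), MeasurableSet A → A ⊆ (chartAt V x).source →
      volM V F A = chartMeas (V := V) F x A := by
    intro x A hA hAs
    rw [← volM_restrict_source hF x, Measure.restrict_apply hA, inter_eq_self_of_subset_left hAs]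
  rw [h4 _ S hSm h1, ← h3, hSi]
  rw [hSi] at h2
  rw [h4 _ _ (hE.inter (hUo i).measurableSet) h2]

end

/-- unit normals are transported -/
theorem normal_image [IsManifold 𝓘(ℝ, V) ∞ M] (hF : SphImm V F) {σ : M → M}
    (hσ : ContMDiff 𝓘(ℝ, V) 𝓘(ℝ, V) ∞ σ) (g : W ≃ₗᵢ[ℝ] W) (hg : ∀ x, F (σ x) = g (F x))
    (x : M) (n : W) (hn : IsUnitNormal V F x n) : IsUnitNormal V F (σ x) (g n) := by
  obtain ⟨h1, h2, h3⟩ := hn
  refine ⟨by rw [g.norm_map, h1], by rw [hg, g.inner_map_map, h2], ?_⟩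
  have hxs : x ∈ (chartAt V x).source := mem_chart_source _ x
  have hxt : chartAt V x x ∈ (chartAt V x).target := (chartAt V x).map_source hxs
  have hx1 : σ ((chartAt V x).symm (chartAt V x x)) ∈ (chartAt V (σ x)).source := by
    rw [(chartAt V x).left_inv hxs]; exact mem_chart_source _ (σ x)
  obtain ⟨-, hd⟩ := chart_data hF hσ g hg (σ x) x hxt hx1
  rw [(chartAt V x).left_inv hxs] at hd
  set T := fderiv ℝ (fun v => chartAt V (σ x) (σ ((chartAt V x).symm v))) (chartAt V x x) with hT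
  have hIx := immV_rep hF x
  have hTinj : Function.Injective T := by
    intro v v' hvv
    apply hIx.inj _ hxt
    apply g.injective
    rw [hd, hd, hvv]
  have hTs : Function.Surjective T :=
    LinearMap.surjective_of_injective (f := (T : V →ₗ[ℝ] V)) hTinj
  intro i
  obtain ⟨w, hw⟩ := hTs (stdOrthonormalBasis ℝ V i)
  have e : pd (rep F (σ x)) i (chartAt V (σ x) (σ x)) = g (fderiv ℝ (rep F x) (chartAt V x x) w) := by
    rw [hd, hw]; rfl
  rw [e, g.inner_map_map]
  have hv : w = ∑ i, (stdOrthonormalBasis ℝ V).repr w i • stdOrthonormalBasis ℝ V i :=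
    ((stdOrthonormalBasis ℝ V).sum_repr w).symm
  rw [hv, map_sum, sum_inner]
  refine Finset.sum_eq_zero fun j _ => ?_
  rw [map_smul, inner_smul_left]
  have : ⟪fderiv ℝ (rep F x) (chartAt V x x) (stdOrthonormalBasis ℝ V j), n⟫ = 0 := h3 j
  rw [this, mul_zero]

/-- the covering homeomorphism -/
theorem exists_cover [T2Space M] [CompactSpace M] [IsManifold 𝓘(ℝ, V) ∞ M] (hF : SphImm V F)
    (hinj : Function.Injective F) (g : W ≃ₗᵢ[ℝ] W) (hg : g '' range F = range F) :
    ∃ σ : M ≃ₜ M, ∀ x, F (σ x) = g (F x) := by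
  have hce : Topology.IsClosedEmbedding F := hF.smooth.continuous.isClosedEmbedding hinj
  set h : M ≃ₜ range F := hce.isEmbedding.toHomeomorph with hh
  have hhx : ∀ x, (h x : W) = F x := fun x => rfl
  set G : range F ≃ₜ range F := g.toHomeomorph.subtype (p := fun w => w ∈ range F)
    (q := fun w => w ∈ range F) (by
      intro w
      constructor
      · intro hw
        rw [← hg]
        exact ⟨w, hw, rfl⟩
      · intro hw
        have h1 : g w ∈ g '' range F := by rw [hg]; exact hw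
        obtain ⟨w', hw', e⟩ := h1
        rwa [← g.injective e]) with hG
  have hGx : ∀ w : range F, (G w : W) = g w := fun w => rfl
  refine ⟨h.trans (G.trans h.symm), fun x => ?_⟩
  have : (h (h.symm (G (h x))) : W) = g (F x) := by
    rw [h.apply_symm_apply, hGx, hhx]
  rw [hhx] at this
  exact this

end Vale.Agent.P224.Sym
end
end

section

section

/-!
Reflections which preserve the image of an embedded hypersurface preserve its sides.
-/

namespace Vale.Agent.P224.Sym

open scoped Manifold ContDiff RealInnerProductSpace Topology ENNReal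
open MeasureTheory Metric Module Set Filter Vale.Agent.P224 Vale.Agent.P224.FV

set_option linter.unusedSectionVars false

section
variable {W : Type*} [NormedAddCommGroup W] [InnerProductSpace ℝ W] [FiniteDimensional ℝ W]

lemma refl_fix {e w : W} (h : ⟪w, e⟫ = 0) : (ℝ ∙ e)ᗮ.reflection w = w := by
  apply Submodule.reflection_mem_subspace_eq_self
  rw [Submodule.mem_orthogonal_singleton_iff_inner_left]
  exact h

lemma refl_self (e : W) : (ℝ ∙ e)ᗮ.reflection e = -e :=
  Submodule.reflection_orthogonalComplement_singleton_eq_neg e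

lemma refl_inner (e w : W) : ⟪(ℝ ∙ e)ᗮ.reflection w, e⟫ = -⟪w, e⟫ := by
  rw [← (ℝ ∙ e)ᗮ.reflection.inner_map_map, Submodule.reflection_reflection, refl_self,
    inner_neg_right]

lemma refl_anti {e n w : W} (hn : n = -(ℝ ∙ e)ᗮ.reflection n) (hn0 : n ≠ 0) (hw : ⟪w, n⟫ = 0) :
    ⟪w, e⟫ = 0 := by
  by_cases he : e = 0
  · rw [he, inner_zero_right]
  have hee : ⟪e, e⟫ ≠ 0 := fun h => he (inner_self_eq_zero.mp h)
  set c := ⟪n, e⟫ / ⟪e, e⟫ with hc
  have h1 : ⟪n - c • e, e⟫ = 0 := by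
    rw [inner_sub_left, real_inner_smul_left, hc, div_mul_cancel₀ _ hee, sub_self]
  have h2 := refl_fix h1
  rw [map_sub, map_smul, refl_self, smul_neg, sub_neg_eq_add] at h2
  have h3 : (ℝ ∙ e)ᗮ.reflection n = -n := by
    rw [eq_neg_iff_add_eq_zero, add_comm, ← eq_neg_iff_add_eq_zero]; exact hn
  rw [h3] at h2
  have h4 : n = c • e := by
    have h5 : n - c • e = -(n - c • e) := by
      rw [neg_sub, ← h2]; abel
    have h6 : (2 : ℝ) • (n - c • e) = 0 := by
      rw [two_smul]
      nth_rewrite 1 [h5]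
      exact neg_add_cancel _
    exact sub_eq_zero.mp ((smul_eq_zero.mp h6).resolve_left two_ne_zero)
  have hc0 : c ≠ 0 := by
    rintro h
    rw [h, zero_smul] at h4
    exact hn0 h4
  rw [h4, real_inner_smul_right] at hw
  exact (mul_eq_zero.mp hw).resolve_left hc0

end

variable {V W M : Type*} [NormedAddCommGroup V] [InnerProductSpace ℝ V] [FiniteDimensional ℝ V]
  [NormedAddCommGroup W] [InnerProductSpace ℝ W] [FiniteDimensional ℝ W]
  [TopologicalSpace M] [ChartedSpace V M] {F : M → W}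

/-- local injectivity of a smooth map with injective derivative -/
lemma loc_inj {f : V → W} {u : V} (hf : ContDiffAt ℝ ∞ f u)
    (hi : Function.Injective (fderiv ℝ f u)) : ∃ Ψ : W → V, ∀ᶠ v in 𝓝 u, Ψ (f v) = v := by
  have hfd : HasFDerivAt f (fderiv ℝ f u) u := (hf.differentiableAt (by norm_num)).hasFDerivAt
  obtain ⟨L, hL⟩ := LinearMap.exists_leftInverse_of_injective
    (fderiv ℝ f u : V →ₗ[ℝ] W) (LinearMap.ker_eq_bot.mpr hi)
  set L' : W →L[ℝ] V := LinearMap.toContinuousLinearMap L with hL'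
  have hLid : ∀ v, L' (fderiv ℝ f u v) = v := fun v => congrArg (fun A => A v) hL
  set Φ : V → V := fun u => L' (f u) with hΦ
  have hΦc : ContDiffAt ℝ ∞ Φ u := L'.contDiff.contDiffAt.comp _ hf
  have hΦd : HasFDerivAt Φ ((ContinuousLinearEquiv.refl ℝ V : V ≃L[ℝ] V) : V →L[ℝ] V) u := by
    have h1 : HasFDerivAt Φ (L'.comp (fderiv ℝ f u)) u := L'.hasFDerivAt.comp _ hfd
    convert h1 using 1
    ext v
    simp only [ContinuousLinearEquiv.coe_refl, ContinuousLinearMap.id_apply, ContinuousLinearMap.comp_apply, hLid]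
  have hn : (∞ : WithTop ℕ∞) ≠ 0 := by norm_num
  exact ⟨fun w => hΦc.localInverse hΦd hn (L' w),
    (hΦc.hasStrictFDerivAt' hΦd hn).eventually_left_inverse⟩

/-- a reflection cannot exchange the sides -/
theorem refl_not_neg [IsManifold 𝓘(ℝ, V) ∞ M] [ConnectedSpace M]
    (hF : SphImm V F) {N : M → W} (hN : ∀ x, IsUnitNormal V F x (N x))
    (hinj : Function.Injective F)
    (σ : M ≃ₜ M) (e : W)
    (hg : ∀ x, F (σ x) = (ℝ ∙ e)ᗮ.reflection (F x)) (hne : ∃ x, ⟪F x, e⟫ ≠ 0)
    (hs : ∀ x, N (σ x) = -(ℝ ∙ e)ᗮ.reflection (N x)) : False := by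
  have hFc : Continuous F := hF.smooth.continuous
  set Z : Set M := {x | ⟪F x, e⟫ = 0} with hZ
  have hZc : IsClosed Z := isClosed_eq (hFc.inner continuous_const) continuous_const
  have hflip : ∀ x, ⟪F (σ x), e⟫ = -⟪F x, e⟫ := fun x => by rw [hg, refl_inner]
  have hZo : IsOpen Z := by
    rw [isOpen_iff_mem_nhds]
    intro x₀ hx₀
    have hσ0 : σ x₀ = x₀ := hinj (by rw [hg]; exact refl_fix hx₀)
    have hn := hs x₀
    rw [hσ0] at hn
    have hNx := hN x₀
    have hn0 : N x₀ ≠ 0 := by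
      intro h
      have := hNx.1
      rw [h, norm_zero] at this
      norm_num at this
    set φ := chartAt V x₀ with hφ
    have hxs : x₀ ∈ φ.source := mem_chart_source _ x₀
    have hut : φ x₀ ∈ φ.target := φ.map_source hxs
    have hI := immV_rep hF x₀
    have hcd : ContDiffAt ℝ ∞ (rep F x₀) (φ x₀) := hI.smooth.contDiffAt (hI.isOpen.mem_nhds hut)
    -- the tangent space is fixed
    have htan : ∀ w, (ℝ ∙ e)ᗮ.reflection (fderiv ℝ (rep F x₀) (φ x₀) w)
        = fderiv ℝ (rep F x₀) (φ x₀) w := by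
      intro w
      apply refl_fix
      apply refl_anti hn hn0
      have hv : w = ∑ i, (stdOrthonormalBasis ℝ V).repr w i • stdOrthonormalBasis ℝ V i :=
        ((stdOrthonormalBasis ℝ V).sum_repr w).symm
      rw [hv, map_sum, sum_inner]
      refine Finset.sum_eq_zero fun j _ => ?_
      rw [map_smul, inner_smul_left]
      have : ⟪fderiv ℝ (rep F x₀) (φ x₀) (stdOrthonormalBasis ℝ V j), N x₀⟫ = 0 := hNx.2.2 j
      rw [this, mul_zero]
    set Q : V → W := fun v => rep F x₀ v + (ℝ ∙ e)ᗮ.reflection (rep F x₀ v) with hQ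
    have hQc : ContDiffAt ℝ ∞ Q (φ x₀) :=
      hcd.add ((ℝ ∙ e)ᗮ.reflection.contDiff.contDiffAt.comp _ hcd)
    have hfd : HasFDerivAt (rep F x₀) (fderiv ℝ (rep F x₀) (φ x₀)) (φ x₀) :=
      (hcd.differentiableAt (by norm_num)).hasFDerivAt
    have hQd : HasFDerivAt Q (fderiv ℝ (rep F x₀) (φ x₀) +
        ((ℝ ∙ e)ᗮ.reflection : W ≃L[ℝ] W).toContinuousLinearMap.comp
          (fderiv ℝ (rep F x₀) (φ x₀))) (φ x₀) :=
      hfd.add (((ℝ ∙ e)ᗮ.reflection : W ≃L[ℝ] W).toContinuousLinearMap.hasFDerivAt.comp _ hfd)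
    have hQi : Function.Injective (fderiv ℝ Q (φ x₀)) := by
      rw [hQd.fderiv]
      intro a b hab
      apply hI.inj _ hut
      have h2 : ∀ w, (fderiv ℝ (rep F x₀) (φ x₀) +
        ((ℝ ∙ e)ᗮ.reflection : W ≃L[ℝ] W).toContinuousLinearMap.comp
          (fderiv ℝ (rep F x₀) (φ x₀))) w = (2 : ℝ) • fderiv ℝ (rep F x₀) (φ x₀) w := by
        intro w
        rw [two_smul]
        exact congrArg (fun z => fderiv ℝ (rep F x₀) (φ x₀) w + z) (htan w)
      rw [h2, h2] at hab
      exact smul_right_injective W two_ne_zero hab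
    obtain ⟨Ψ, hΨ⟩ := loc_inj hQc hQi
    have e1 : ∀ᶠ x in 𝓝 x₀, x ∈ φ.source := φ.open_source.mem_nhds hxs
    have e2 : ∀ᶠ x in 𝓝 x₀, Ψ (Q (φ x)) = φ x := (φ.continuousAt hxs).eventually hΨ
    have hσc : Tendsto σ (𝓝 x₀) (𝓝 x₀) := by
      have := σ.continuous.tendsto x₀
      rwa [hσ0] at this
    filter_upwards [e1, e2, hσc.eventually e1, hσc.eventually e2] with x a1 a2 b1 b2
    have hQx : Q (φ (σ x)) = Q (φ x) := by
      simp only [hQ]
      unfold rep
      rw [← hφ, φ.left_inv a1, φ.left_inv b1, hg, Submodule.reflection_reflection, add_comm]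
    have h3 : φ (σ x) = φ x := by rw [← b2, hQx, a2]
    have h4 : σ x = x := φ.injOn b1 a1 h3
    have h5 := hflip x
    rw [h4] at h5
    change ⟪F x, e⟫ = 0
    linarith only [h5]
  have hZne : Z.Nonempty := by
    obtain ⟨x, hx⟩ := hne
    have hpc : IsPreconnected (range fun x => ⟪F x, e⟫) :=
      isPreconnected_range (hFc.inner continuous_const)
    have h0 : (0 : ℝ) ∈ range fun x => ⟪F x, e⟫ := by
      rcases lt_or_gt_of_ne hx with h | h
      · exact hpc.ordConnected.out ⟨x, rfl⟩ ⟨σ x, rfl⟩ ⟨h.le, by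
          change 0 ≤ ⟪F (σ x), e⟫
          rw [hflip]; (clear * - h; linarith)⟩
      · exact hpc.ordConnected.out ⟨σ x, rfl⟩ ⟨x, rfl⟩ ⟨by
          change ⟪F (σ x), e⟫ ≤ 0
          rw [hflip]; linarith only [h], h.le⟩
    obtain ⟨z, hz⟩ := h0
    exact ⟨z, hz⟩
  have hZu : Z = univ := IsClopen.eq_univ ⟨hZc, hZo⟩ hZne
  obtain ⟨x, hx⟩ := hne
  exact hx (by have : x ∈ Z := hZu ▸ mem_univ x; exact this)

end Vale.Agent.P224.Sym
end
end

section

section

namespace Vale.Agent.P224.FV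

open Real Set Filter MeasureTheory
open scoped Topology RealInnerProductSpace

set_option linter.unusedSectionVars false

section

variable {X : Type*} [MeasurableSpace X] {E : Type*} [NormedAddCommGroup E]
  [InnerProductSpace ℝ E] [FiniteDimensional ℝ E] [MeasurableSpace E] [BorelSpace E]
  {μ : Measure X} [IsFiniteMeasure μ] {m : ℕ} {p n : X → E}

lemma JJ_zero : JJ μ m p 0 = μ.real univ ^ 2 := by
  unfold JJ cf
  simp only [cos_zero, sin_zero, mul_zero, sub_zero, div_one, one_pow]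
  rw [integral_const, smul_eq_mul, mul_one, ← univ_prod_univ, measureReal_prod_prod]
  ring

/-- the comparison structure for the normal correlation -/
lemma Pts.cmp (h : Pts p n) (hm : 1 ≤ m) {c φ₁ : ℝ} (hφ₁ : φ₁ ∈ Ioo 0 (π / 2))
    (hA0 : 0 ≤ (0 - c) * bb μ m p n 0) (hA1 : 0 ≤ (1 + m - c) * bb μ m p n 1)
    (hrec : ∀ j : ℕ, ((j : ℝ) + m) * (j + m + 1) * bb μ m p n j
      ≤ (((j : ℝ) + 2) ^ 2 + m * (j + 2) - c) * bb μ m p n (j + 2))
    {f f1 f2 : ℝ → ℝ} (hf : ∀ φ, HasDerivAt f (f1 φ) φ) (hf1 : ∀ φ, HasDerivAt f1 (f2 φ) φ)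
    (hfpos : ∀ φ ∈ Ioc 0 φ₁, 0 < f φ)
    (hineq : ∀ φ ∈ Ioo 0 φ₁, cos φ ^ 2 * sin φ ^ 2 * f2 φ
      + cos φ * sin φ * (m + cos φ ^ 2) * f1 φ
      + (m * sin φ ^ 2 - c * cos φ ^ 2) * f φ ≤ 0) :
    Cmp m c φ₁ (fun φ => ps (bb μ m p n) (sin φ))
      (fun φ => ps (fun j => (j : ℝ) * bb μ m p n j) (sin φ))
      (fun φ => ps (fun j => (j : ℝ) * ((j : ℝ) * bb μ m p n j)) (sin φ)) f f1 f2 where
  hm := hm
  h1 := hφ₁
  T0c := (h.bb_PG hm).continuousOn_sin.mono fun φ hφ => ⟨hφ.1, hφ.2.trans_lt hφ₁.2⟩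
  T1c := (h.bb_PG hm).mul_id.continuousOn_sin.mono fun φ hφ => ⟨hφ.1, hφ.2.trans_lt hφ₁.2⟩
  fc := fun φ _ => (hf φ).continuousAt.continuousWithinAt
  f1c := fun φ _ => (hf1 φ).continuousAt.continuousWithinAt
  T0d := fun φ hφ => (h.bb_PG hm).deriv_sin ⟨hφ.1, hφ.2.trans hφ₁.2⟩
  T1d := fun φ hφ => (h.bb_PG hm).mul_id.deriv_sin ⟨hφ.1, hφ.2.trans hφ₁.2⟩
  fd := fun φ _ => hf φ
  f1d := fun φ _ => hf1 φ
  T0n := fun φ hφ => ps_nonneg h.bb_nonneg
    (sin_nonneg_of_nonneg_of_le_pi hφ.1 (by (clear * - hφ hφ₁; linarith only [hφ.2, hφ₁.2, pi_pos])))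
  fpos := hfpos
  ineqT := fun φ hφ => by
    have hs0 : 0 < sin φ := sin_pos_of_pos_of_lt_pi hφ.1 (by linarith only [hφ.2, hφ₁.2, pi_pos])
    have hs1 := (abs_lt.mp (abs_sin_lt_one (φ := φ)
      ⟨by linarith only [hφ.1, pi_pos], hφ.2.trans hφ₁.2⟩)).2
    have := ineqT_of_rec (h.bb_PG hm) hA0 hA1 hrec hs0.le hs1
    have e : 1 - sin φ ^ 2 = cos φ ^ 2 := by have := sin_sq_add_cos_sq φ; linarith only [this]
    rw [e] at this
    exact this
  ineqf := hineq

/-- the general bound -/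
theorem TwoPt.bound (h : TwoPt μ m p n) (hm : 1 ≤ m) {c φ₁ : ℝ} (hφ₁ : φ₁ ∈ Ioo 0 (π / 2))
    (hA0 : 0 ≤ (0 - c) * bb μ m p n 0) (hA1 : 0 ≤ (1 + m - c) * bb μ m p n 1)
    (hrec : ∀ j : ℕ, ((j : ℝ) + m) * (j + m + 1) * bb μ m p n j
      ≤ (((j : ℝ) + 2) ^ 2 + m * (j + 2) - c) * bb μ m p n (j + 2))
    {f f1 f2 : ℝ → ℝ} (hf : ∀ φ, HasDerivAt f (f1 φ) φ) (hf1 : ∀ φ, HasDerivAt f1 (f2 φ) φ)
    (hfpos : ∀ φ ∈ Ioc 0 φ₁, 0 < f φ)
    (hineq : ∀ φ ∈ Ioo 0 φ₁, cos φ ^ 2 * sin φ ^ 2 * f2 φ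
      + cos φ * sin φ * (m + cos φ ^ 2) * f1 φ
      + (m * sin φ ^ 2 - c * cos φ ^ 2) * f φ ≤ 0)
    {I κ : ℝ} (hI : ∫ φ in (0 : ℝ)..φ₁, cos φ * f φ = I) (hκ : κ = I / f φ₁)
    (hκ0 : 0 ≤ κ) (hκ1 : κ ≤ 2 * sin φ₁) {L : ℝ}
    (hL : ∀ ε > 0, ∀ᶠ φ in 𝓝[<] (π / 2), L - ε ≤ JJ μ m p φ)
    (hJB : ∀ ε > 0, ∀ᶠ φ in 𝓝[<] (π / 2), |JJ μ m p φ - BB μ m p n φ| ≤ ε) :
    (1 + sin φ₁ - κ) * L ≤ μ.real univ ^ 2 := by
  have hc := (h.cmp hm hφ₁ hA0 hA1 hrec hf hf1 hfpos hineq).integral_le
  obtain ⟨a, b, hab⟩ := h.main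
  rw [← JJ_zero (m := m) (p := p)]
  have hφsub : ∀ φ ∈ Icc 0 φ₁, φ ∈ Ioo (-(π / 2)) (π / 2) := fun φ hφ =>
    ⟨by linarith only [hφ.1, pi_pos], hφ.2.trans_lt hφ₁.2⟩
  refine one_dim (fun φ hφ => (hab φ hφ).1) (fun φ hφ => (hab φ hφ).2.1)
    (fun φ hφ => (hab φ hφ).2.2) hφ₁ hκ0 hκ1 ?_ hL hJB
  rw [h.BB_eq hm (hφsub φ₁ (right_mem_Icc.mpr hφ₁.1.le))]
  rw [hI, ← hκ] at hc
  refine le_trans (le_of_eq ?_) hc
  apply intervalIntegral.integral_congr
  intro φ hφ
  rw [uIcc_of_le hφ₁.1.le] at hφ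
  simp only
  rw [h.BB_eq hm (hφsub φ hφ)]

end

end Vale.Agent.P224.FV
end
end

section

section

namespace Vale.Agent.P224.FV

open Real Set Filter MeasureTheory
open scoped Topology RealInnerProductSpace

set_option linter.unusedSectionVars false

/-- the comparison function -/
noncomputable def cfun (α β γ φ : ℝ) : ℝ :=
  α * (cos φ - cos φ ^ 2) + β * (cos φ - cos φ ^ 3) + γ * (cos φ - cos φ ^ 4)

/-- its derivative -/
noncomputable def cfun1 (α β γ φ : ℝ) : ℝ :=
  α * (-sin φ + 2 * cos φ * sin φ) + β * (-sin φ + 3 * cos φ ^ 2 * sin φ)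
    + γ * (-sin φ + 4 * cos φ ^ 3 * sin φ)

/-- its second derivative -/
noncomputable def cfun2 (α β γ φ : ℝ) : ℝ :=
  α * (-cos φ - 2 * sin φ ^ 2 + 2 * cos φ ^ 2)
    + β * (-cos φ - 6 * cos φ * sin φ ^ 2 + 3 * cos φ ^ 3)
    + γ * (-cos φ - 12 * cos φ ^ 2 * sin φ ^ 2 + 4 * cos φ ^ 4)

lemma hasDerivAt_cfun (α β γ φ : ℝ) : HasDerivAt (cfun α β γ) (cfun1 α β γ φ) φ := by
  have hc := Real.hasDerivAt_cos φ
  unfold cfun cfun1
  refine (((((hc.fun_sub (hc.fun_pow 2)).const_mul α).fun_add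
    ((hc.fun_sub (hc.fun_pow 3)).const_mul β)).fun_add
    ((hc.fun_sub (hc.fun_pow 4)).const_mul γ))).congr_deriv ?_
  simp only [Nat.add_one_sub_one, pow_one]
  push_cast
  ring

lemma hasDerivAt_cfun1 (α β γ φ : ℝ) : HasDerivAt (cfun1 α β γ) (cfun2 α β γ φ) φ := by
  have hc := Real.hasDerivAt_cos φ
  have hs := Real.hasDerivAt_sin φ
  unfold cfun1 cfun2
  refine (((((hs.fun_neg.fun_add ((hc.const_mul 2).fun_mul hs)).const_mul α).fun_add
    ((hs.fun_neg.fun_add (((hc.fun_pow 2).const_mul 3).fun_mul hs)).const_mul β)).fun_add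
    ((hs.fun_neg.fun_add (((hc.fun_pow 3).const_mul 4).fun_mul hs)).const_mul γ))).congr_deriv ?_
  simp only [Nat.add_one_sub_one, pow_one]
  push_cast
  ring

lemma cfun_pi_div_three (α β γ : ℝ) :
    cfun α β γ (π / 3) = α / 4 + β * (3 / 8) + γ * (7 / 16) := by
  unfold cfun
  rw [cos_pi_div_three]; ring

lemma integral_cfun (α β γ : ℝ) :
    ∫ φ in (0 : ℝ)..(π / 3), cos φ * cfun α β γ φ
      = α * (π / 6 - √3 / 4) + β * (π / 24 + √3 / 64) + γ * (π / 6 - 29 * √3 / 160) := by
  have h3 : √3 * √3 = 3 := mul_self_sqrt (by norm_num)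
  have hint : ∀ x ∈ uIcc 0 (π / 3), HasDerivAt (fun φ =>
      α * ((φ / 2 + sin φ * cos φ / 2) - (sin φ - sin φ ^ 3 / 3))
      + β * ((φ / 2 + sin φ * cos φ / 2) - (3 * φ / 8 + 3 * (sin φ * cos φ) / 8
        + sin φ * cos φ ^ 3 / 4))
      + γ * ((φ / 2 + sin φ * cos φ / 2) - (sin φ - 2 * sin φ ^ 3 / 3 + sin φ ^ 5 / 5)))
      (cos x * cfun α β γ x) x := by
    intro x _
    have hc := Real.hasDerivAt_cos x
    have hs := Real.hasDerivAt_sin x
    have hid := hasDerivAt_id x
    have hS : sin x ^ 2 = 1 - cos x ^ 2 := by have := sin_sq_add_cos_sq x; linarith only [this]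
    have d1 : HasDerivAt (fun φ => φ / 2 + sin φ * cos φ / 2)
        (1 / 2 + (cos x * cos x + sin x * -sin x) / 2) x :=
      (hid.div_const 2).fun_add ((hs.fun_mul hc).div_const 2)
    have d2 : HasDerivAt (fun φ => sin φ - sin φ ^ 3 / 3)
        (cos x - (3 * sin x ^ 2 * cos x) / 3) x := by
      refine (hs.fun_sub ((hs.fun_pow 3).div_const 3)).congr_deriv ?_
      simp only [Nat.add_one_sub_one]; push_cast; ring
    have d3 : HasDerivAt (fun φ => 3 * φ / 8 + 3 * (sin φ * cos φ) / 8 + sin φ * cos φ ^ 3 / 4)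
        (3 * 1 / 8 + 3 * (cos x * cos x + sin x * -sin x) / 8
          + (cos x * cos x ^ 3 + sin x * (3 * cos x ^ 2 * -sin x)) / 4) x := by
      refine (((hid.const_mul 3).div_const 8).fun_add
        (((hs.fun_mul hc).const_mul 3).div_const 8)).fun_add
        ((hs.fun_mul (hc.fun_pow 3)).div_const 4) |>.congr_deriv ?_
      simp only [Nat.add_one_sub_one]; push_cast; ring
    have d4 : HasDerivAt (fun φ => sin φ - 2 * sin φ ^ 3 / 3 + sin φ ^ 5 / 5)
        (cos x - 2 * (3 * sin x ^ 2 * cos x) / 3 + (5 * sin x ^ 4 * cos x) / 5) x := by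
      refine ((hs.fun_sub (((hs.fun_pow 3).const_mul 2).div_const 3)).fun_add
        ((hs.fun_pow 5).div_const 5)).congr_deriv ?_
      simp only [Nat.add_one_sub_one]; push_cast; ring
    refine ((((d1.fun_sub d2).const_mul α).fun_add ((d1.fun_sub d3).const_mul β)).fun_add
      ((d1.fun_sub d4).const_mul γ)).congr_deriv ?_
    unfold cfun
    have hS4 : sin x ^ 4 = (1 - cos x ^ 2) ^ 2 := by
      calc sin x ^ 4 = (sin x ^ 2) ^ 2 := by ring
        _ = _ := by rw [hS]
    have hS1 : sin x * -sin x = -(1 - cos x ^ 2) := by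
      calc sin x * -sin x = -(sin x ^ 2) := by ring
        _ = _ := by rw [hS]
    have hS2 : sin x * (3 * cos x ^ 2 * -sin x) = -(3 * cos x ^ 2 * (1 - cos x ^ 2)) := by
      calc sin x * (3 * cos x ^ 2 * -sin x) = -(3 * cos x ^ 2 * sin x ^ 2) := by ring
        _ = _ := by rw [hS]
    rw [hS1, hS2, hS4, hS]
    ring
  rw [intervalIntegral.integral_eq_sub_of_hasDerivAt hint
    ((by unfold cfun; (clear * -; fun_prop) : Continuous fun x => cos x * cfun α β γ x).intervalIntegrable _ _)]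
  rw [cos_pi_div_three, sin_pi_div_three, sin_zero, cos_zero]
  have e3 : (√3 / 2) ^ 3 = 3 * √3 / 8 := by
    calc (√3 / 2) ^ 3 = (√3 * √3) * √3 / 8 := by ring
      _ = _ := by rw [h3]
  have e5 : (√3 / 2) ^ 5 = 9 * √3 / 32 := by
    calc (√3 / 2) ^ 5 = (√3 * √3) * (√3 * √3) * √3 / 32 := by ring
      _ = _ := by rw [h3]; ring
  rw [e3, e5]
  ring

section

variable {X : Type*} [MeasurableSpace X] {E : Type*} [NormedAddCommGroup E]
  [InnerProductSpace ℝ E] [FiniteDimensional ℝ E] [MeasurableSpace E] [BorelSpace E]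
  {μ : Measure X} [IsFiniteMeasure μ] {m : ℕ} {p n : X → E}

/-- two vanishing moments -/
theorem TwoPt.bound_two (h : TwoPt μ m p n) (hm : 1 ≤ m) (hE : Module.finrank ℝ E = m + 2)
    (h0 : RR μ p n 0 = 0) (h1 : RR μ p n 1 = 0) {α β γ C : ℝ}
    (hpos : ∀ u : ℝ, 1 / 2 ≤ u → u < 1 → 0 < α + β * (1 + u) + γ * (1 + u + u ^ 2))
    (hineq : ∀ u : ℝ, 1 / 2 < u → u < 1 →
      0 ≤ α * (6 * u ^ 2 + 10 * u + 2 - m) + 12 * β * u * (1 + u) ^ 2
        + γ * u * (2 * m + 6 + (m + 24) * u + 40 * u ^ 2 + 20 * u ^ 3))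
    (hC : C = 1 + √3 / 2 - (α * (π / 6 - √3 / 4) + β * (π / 24 + √3 / 64)
      + γ * (π / 6 - 29 * √3 / 160)) / (α / 4 + β * (3 / 8) + γ * (7 / 16)))
    (hC1 : 1 - √3 / 2 ≤ C) (hC2 : C ≤ 1 + √3 / 2) {L : ℝ}
    (hL : ∀ ε > 0, ∀ᶠ φ in 𝓝[<] (π / 2), L - ε ≤ JJ μ m p φ)
    (hJB : ∀ ε > 0, ∀ᶠ φ in 𝓝[<] (π / 2), |JJ μ m p φ - BB μ m p n φ| ≤ ε) :
    C * L ≤ μ.real univ ^ 2 := by
  have hpi := pi_pos
  have hφ₁ : π / 3 ∈ Ioo 0 (π / 2) := ⟨by positivity, by linarith only [hpi]⟩
  have hcos : ∀ φ ∈ Ioc 0 (π / 3), 1 / 2 ≤ cos φ ∧ cos φ < 1 := by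
    intro φ hφ
    constructor
    · rw [← cos_pi_div_three]
      exact cos_le_cos_of_nonneg_of_le_pi hφ.1.le (by linarith only [hpi]) hφ.2
    · rw [← cos_zero]
      exact cos_lt_cos_of_nonneg_of_le_pi le_rfl (by linarith only [hpi, hφ.2]) hφ.1
  have key := h.bound hm (c := 2 * ((m : ℝ) + 2)) hφ₁
    (by unfold bb; rw [h0]; simp only [zero_sub, mul_zero, Std.le_refl])
    (by unfold bb; rw [h1]; simp only [mul_zero, Std.le_refl])
    (fun j => h.bb_rec2 hm hE h0 h1 j)
    (hasDerivAt_cfun α β γ) (hasDerivAt_cfun1 α β γ)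
    (by
      intro φ hφ
      obtain ⟨hc1, hc2⟩ := hcos φ hφ
      have := hpos _ hc1 hc2
      have e : cfun α β γ φ = cos φ * (1 - cos φ) *
          (α + β * (1 + cos φ) + γ * (1 + cos φ + cos φ ^ 2)) := by
        unfold cfun; ring
      rw [e]
      have h3 : 0 < 1 - cos φ := by linarith only [hc2]
      have h4 : 0 < cos φ := by linarith only [hc1]
      (clear * - hc1 hc2 this; (clear * - hc1 hc2 this; (clear * - hc1 hc2 this; positivity))))
    (by
      intro φ hφ
      obtain ⟨hc1, hc2⟩ := hcos φ ⟨hφ.1, hφ.2.le⟩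
      have hc1' : 1 / 2 < cos φ := by
        rw [← cos_pi_div_three]
        exact cos_lt_cos_of_nonneg_of_le_pi hφ.1.le (by linarith only [hpi]) hφ.2
      have h5 := hineq _ hc1' hc2
      have hS : sin φ ^ 2 = 1 - cos φ ^ 2 := by have := sin_sq_add_cos_sq φ; linarith only [this]
      have e : cos φ ^ 2 * sin φ ^ 2 * cfun2 α β γ φ
          + cos φ * sin φ * (m + cos φ ^ 2) * cfun1 α β γ φ
          + (m * sin φ ^ 2 - 2 * ((m : ℝ) + 2) * cos φ ^ 2) * cfun α β γ φ
          = -(cos φ ^ 2 * (1 - cos φ) ^ 2 * (α * (6 * cos φ ^ 2 + 10 * cos φ + 2 - m)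
            + 12 * β * cos φ * (1 + cos φ) ^ 2
            + γ * cos φ * (2 * m + 6 + (m + 24) * cos φ + 40 * cos φ ^ 2 + 20 * cos φ ^ 3))) := by
        have e1 : cos φ * sin φ * (m + cos φ ^ 2) * cfun1 α β γ φ
            = cos φ * (m + cos φ ^ 2) * sin φ ^ 2 * (α * (-1 + 2 * cos φ)
              + β * (-1 + 3 * cos φ ^ 2) + γ * (-1 + 4 * cos φ ^ 3)) := by
          unfold cfun1; ring
        rw [e1]
        unfold cfun2 cfun
        rw [hS]
        ring
      rw [e]
      have : 0 ≤ cos φ ^ 2 * (1 - cos φ) ^ 2 * (α * (6 * cos φ ^ 2 + 10 * cos φ + 2 - m)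
            + 12 * β * cos φ * (1 + cos φ) ^ 2
            + γ * cos φ * (2 * m + 6 + (m + 24) * cos φ + 40 * cos φ ^ 2 + 20 * cos φ ^ 3)) := by
        (clear * - hc1 hc2 h5; positivity)
      linarith only [this])
    (integral_cfun α β γ) (κ := 1 + √3 / 2 - C)
    (by rw [cfun_pi_div_three, hC]; ring)
    (by linarith only [hC2])
    (by rw [sin_pi_div_three]; linarith only [hC1])
    hL hJB
  rw [sin_pi_div_three] at key
  have e : 1 + √3 / 2 - (1 + √3 / 2 - C) = C := by ring
  rwa [e] at key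

lemma sqrt3_bounds : 1.73205 < √3 ∧ √3 < 1.732051 := by
  constructor
  · rw [show (1.73205 : ℝ) = √(1.73205 ^ 2) by rw [sqrt_sq (by (clear * -; norm_num))]]
    exact sqrt_lt_sqrt (by (clear * -; norm_num)) (by norm_num)
  · rw [show (1.732051 : ℝ) = √(1.732051 ^ 2) by rw [sqrt_sq (by norm_num)]]
    exact sqrt_lt_sqrt (by norm_num) (by (clear * -; norm_num))

/-- case m = 2 -/
theorem TwoPt.bound_m2 (h : TwoPt μ 2 p n) (hE : Module.finrank ℝ E = 2 + 2)
    (h0 : RR μ p n 0 = 0) (h1 : RR μ p n 1 = 0) {L : ℝ} (hL0 : 0 ≤ L)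
    (hL : ∀ ε > 0, ∀ᶠ φ in 𝓝[<] (π / 2), L - ε ≤ JJ μ 2 p φ)
    (hJB : ∀ ε > 0, ∀ᶠ φ in 𝓝[<] (π / 2), |JJ μ 2 p φ - BB μ 2 p n φ| ≤ ε) :
    1.584 * L ≤ μ.real univ ^ 2 := by
  obtain ⟨s1, s2⟩ := sqrt3_bounds
  have p1 := pi_gt_d6
  have p2 := pi_lt_d6
  have key := h.bound_two (by norm_num) hE h0 h1 (α := 2) (β := -1.35) (γ := 0.35)
    (by intro u hu hu1; nlinarith only [hu1])
    (by
      intro u hu hu1
      have e : (2 : ℝ) * (6 * u ^ 2 + 10 * u + 2 - (2 : ℕ)) + 12 * (-1.35) * u * (1 + u) ^ 2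
        + 0.35 * u * (2 * (2 : ℕ) + 6 + ((2 : ℕ) + 24) * u + 40 * u ^ 2 + 20 * u ^ 3)
        = u * (7.3 - 11.3 * u - 2.2 * u ^ 2 + 7 * u ^ 3) := by push_cast; ring
      rw [e]
      have : 0 ≤ 7.3 - 11.3 * u - 2.2 * u ^ 2 + 7 * u ^ 3 := by
        linarith only [hu1, sq_nonneg (u - 0.84), mul_nonneg (by linarith : (0 : ℝ) ≤ u) (sq_nonneg (u - 0.84))]
      (clear * - hu this; positivity))
    rfl
    (by
      rw [show (2 : ℝ) / 4 + -1.35 * (3 / 8) + 0.35 * (7 / 16) = 0.146875 by norm_num,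
        le_sub_iff_add_le, ← le_sub_iff_add_le', div_le_iff₀ (by norm_num)]
      linarith only [s1, p2])
    (by
      rw [show (2 : ℝ) / 4 + -1.35 * (3 / 8) + 0.35 * (7 / 16) = 0.146875 by norm_num,
        sub_le_self_iff]
      apply div_nonneg _ (by norm_num)
      linarith only [s2, p1])
    hL hJB
  refine le_trans (mul_le_mul_of_nonneg_right ?_ hL0) key
  rw [show (2 : ℝ) / 4 + -1.35 * (3 / 8) + 0.35 * (7 / 16) = 0.146875 by norm_num,
        le_sub_iff_add_le, ← le_sub_iff_add_le', div_le_iff₀ (by norm_num)]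
  linarith only [s1, p2]

end

end Vale.Agent.P224.FV
end
end

section

section

/-!
A lower bound for the two point conformal volume and the resulting bound for balanced data.
-/

namespace Vale.Agent.P224.FV

open Real Set Filter MeasureTheory
open scoped Topology RealInnerProductSpace

set_option linter.unusedSectionVars false

/-- the one dimensional argument with a lower bound for J -/
theorem one_dim2 {J B a b f P q : ℝ → ℝ} {L φ₁ : ℝ}
    (hJ : ∀ φ ∈ Ioo (-(π / 2)) (π / 2), HasDerivAt J (-(sin φ * a φ)) φ)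
    (hB : ∀ φ ∈ Ioo (-(π / 2)) (π / 2), HasDerivAt B (b φ) φ)
    (hab : ∀ φ ∈ Ioo (-(π / 2)) (π / 2), |b φ| ≤ a φ)
    (h1 : φ₁ ∈ Ioo 0 (π / 2))
    (hf0 : f 0 = 1) (hP0 : P 0 = 0) (hf : ∀ φ, HasDerivAt f (-(sin φ * q φ)) φ)
    (hP : ∀ φ, HasDerivAt P (q φ) φ)
    (hlow : ∀ φ ∈ Ioc 0 φ₁, J 0 * f φ ≤ J φ)
    (hL : ∀ ε > 0, ∀ᶠ φ in 𝓝[<] (π / 2), L - ε ≤ J φ)
    (hJB : ∀ ε > 0, ∀ᶠ φ in 𝓝[<] (π / 2), |J φ - B φ| ≤ ε) :
    (1 + sin φ₁) * L ≤ (P φ₁ * sin φ₁ + f φ₁) * J 0 + sin φ₁ * B 0 := by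
  have hpi := pi_pos
  have hsub : ∀ φ, φ ∈ Icc 0 φ₁ → φ ∈ Ioo (-(π / 2)) (π / 2) := fun φ hφ =>
    ⟨by have := hφ.1; linarith only [hpi, this], by have := hφ.2; have := h1.2; (clear J B a b f P q L hJ hB hab hf0 hP0 hf hP hlow hL hJB hpi; linarith)⟩
  have hsub2 : ∀ φ, φ ∈ Ico φ₁ (π / 2) → φ ∈ Ioo (-(π / 2)) (π / 2) := fun φ hφ =>
    ⟨by have := hφ.1; have := h1.1; linarith, hφ.2⟩
  have hS0 : 0 < sin φ₁ := sin_pos_of_pos_of_lt_pi h1.1 (by have := h1.2; linarith)
  have hS1 : sin φ₁ ≤ 1 := sin_le_one _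
  have h00 : (0 : ℝ) ∈ Ioo (-(π / 2)) (π / 2) := ⟨by linarith only [hpi], by linarith only [hpi]⟩
  -- first interval
  set H : ℝ → ℝ := fun φ => B φ - J 0 * P φ + (J φ - J 0 * f φ) / sin φ with hH
  have hHd : ∀ φ ∈ Ioc 0 φ₁, ∃ D, HasDerivAt H D φ ∧ D ≤ 0 := by
    intro φ hφ
    have hφ' := hsub φ ⟨hφ.1.le, hφ.2⟩
    have hs : 0 < sin φ := sin_pos_of_pos_of_lt_pi hφ.1 (by linarith only [hpi, hφ'.2])
    have hc : 0 < cos φ := cos_pos_of_mem_Ioo hφ'
    have hd := ((hB φ hφ').fun_sub ((hP φ).const_mul (J 0))).fun_add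
      (((hJ φ hφ').fun_sub ((hf φ).const_mul (J 0))).fun_div (hasDerivAt_sin φ) hs.ne')
    refine ⟨_, hd, ?_⟩
    have hE := hlow φ hφ
    have hba : b φ ≤ a φ := (le_abs_self _).trans (hab φ hφ')
    have e : b φ - J 0 * q φ + ((-(sin φ * a φ) - J 0 * -(sin φ * q φ)) * sin φ
        - (J φ - J 0 * f φ) * cos φ) / sin φ ^ 2
        = b φ - a φ - (J φ - J 0 * f φ) * cos φ / sin φ ^ 2 := by
      field_simp
      ring
    rw [e]
    have : 0 ≤ (J φ - J 0 * f φ) * cos φ / sin φ ^ 2 := by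
      have : 0 ≤ J φ - J 0 * f φ := by linarith only [hE]
      (clear * - hE hc hs; (clear * - hE hc hs; (clear * - hE hc hs; positivity)))
    linarith only [hba, this]
  have hHanti : AntitoneOn H (Ioc 0 φ₁) := by
    apply antitoneOn_of_deriv_nonpos (convex_Ioc 0 φ₁)
    · intro φ hφ
      obtain ⟨D, hD, -⟩ := hHd φ hφ
      exact hD.continuousAt.continuousWithinAt
    · intro φ hφ
      rw [interior_Ioc] at hφ
      obtain ⟨D, hD, -⟩ := hHd φ ⟨hφ.1, hφ.2.le⟩
      exact hD.differentiableAt.differentiableWithinAt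
    · intro φ hφ
      rw [interior_Ioc] at hφ
      obtain ⟨D, hD, hD0⟩ := hHd φ ⟨hφ.1, hφ.2.le⟩
      rw [hD.deriv]; exact hD0
  have hHlim : Tendsto H (𝓝[>] 0) (𝓝 (B 0)) := by
    have t1 : Tendsto (fun φ => B φ - J 0 * P φ) (𝓝[>] 0) (𝓝 (B 0 - J 0 * P 0)) :=
      ((hB 0 h00).continuousAt.tendsto.sub
        ((hP 0).continuousAt.tendsto.const_mul (J 0))).mono_left nhdsWithin_le_nhds
    have d1 : HasDerivAt (fun φ => J φ - J 0 * f φ) 0 0 := by
      refine ((hJ 0 h00).fun_sub ((hf 0).const_mul (J 0))).congr_deriv ?_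
      simp
    have d2 : HasDerivAt sin 1 0 := by simpa using hasDerivAt_sin 0
    have s1 := (hasDerivAt_iff_tendsto_slope.mp d1).mono_left
      (nhdsWithin_mono 0 (fun x (hx : x ∈ Ioi (0 : ℝ)) => (ne_of_gt hx : x ∈ ({0} : Set ℝ)ᶜ)))
    have s2 := (hasDerivAt_iff_tendsto_slope.mp d2).mono_left
      (nhdsWithin_mono 0 (fun x (hx : x ∈ Ioi (0 : ℝ)) => (ne_of_gt hx : x ∈ ({0} : Set ℝ)ᶜ)))
    have s3 := s1.div s2 one_ne_zero
    have s4 : Tendsto (fun φ => (J φ - J 0 * f φ) / sin φ) (𝓝[>] 0) (𝓝 (0 / 1)) := by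
      refine s3.congr' ?_
      filter_upwards [self_mem_nhdsWithin] with φ hφ
      have hφ0 : (φ : ℝ) ≠ 0 := ne_of_gt hφ
      simp only [Pi.div_apply, slope, sub_zero, hf0, mul_one, sub_self, vsub_eq_sub, smul_eq_mul, sin_zero]
      (clear * - hφ0; (clear * - hφ0; field_simp))
    have := t1.add s4
    simpa only [hP0, mul_zero, sub_zero, div_one, add_zero] using this
  have hH1 : H φ₁ ≤ B 0 := by
    apply ge_of_tendsto hHlim
    filter_upwards [Ioo_mem_nhdsGT h1.1] with φ hφ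
    exact hHanti ⟨hφ.1, hφ.2.le⟩ (right_mem_Ioc.mpr h1.1) hφ.2.le
  -- second interval
  have hG : AntitoneOn (fun φ => sin φ₁ * B φ + J φ) (Ico φ₁ (π / 2)) := by
    apply antitoneOn_of_deriv_nonpos (convex_Ico φ₁ (π / 2))
    · exact fun φ hφ => (((hB φ (hsub2 φ hφ)).continuousAt.const_mul _).add
        (hJ φ (hsub2 φ hφ)).continuousAt).continuousWithinAt
    · intro φ hφ
      rw [interior_Ico] at hφ
      have hφ' := hsub2 φ (Ioo_subset_Ico_self hφ)
      exact (((hB φ hφ').const_mul _).add (hJ φ hφ')).differentiableAt.differentiableWithinAt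
    · intro φ hφ
      rw [interior_Ico] at hφ
      have hφ' := hsub2 φ (Ioo_subset_Ico_self hφ)
      have hd := ((hB φ hφ').const_mul (sin φ₁)).fun_add (hJ φ hφ')
      rw [hd.deriv]
      have h3 : sin φ₁ ≤ sin φ := sin_le_sin_of_le_of_le_pi_div_two (by linarith only [hpi, h1.1])
        hφ.2.le hφ.1.le
      have h4 : b φ ≤ a φ := (le_abs_self _).trans (hab φ hφ')
      have h5 : 0 ≤ a φ := (abs_nonneg _).trans (hab φ hφ')
      have h6 : sin φ₁ * b φ ≤ sin φ₁ * a φ := mul_le_mul_of_nonneg_left h4 hS0.le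
      have h7 : sin φ₁ * a φ ≤ sin φ * a φ := mul_le_mul_of_nonneg_right h3 h5
      linarith only [h6, h7]
  have hH2 : sin φ₁ * B φ₁ + J φ₁ ≤ (P φ₁ * sin φ₁ + f φ₁) * J 0 + sin φ₁ * B 0 := by
    have h2 := mul_le_mul_of_nonneg_left hH1 hS0.le
    simp only [hH] at h2
    have e : sin φ₁ * (B φ₁ - J 0 * P φ₁ + (J φ₁ - J 0 * f φ₁) / sin φ₁)
        = sin φ₁ * B φ₁ - J 0 * P φ₁ * sin φ₁ + (J φ₁ - J 0 * f φ₁) := by
      (clear * - hS0; (clear * - hS0; field_simp))
    rw [e] at h2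
    linarith only [h2]
  apply le_of_forall_pos_le_add
  intro ε hε
  have e1 := hL (ε / 3) (by (clear * - hε; positivity))
  have e2 := hJB (ε / 3) (by (clear * - hε; positivity))
  have e3 : ∀ᶠ φ in 𝓝[<] (π / 2), φ ∈ Ioo φ₁ (π / 2) := Ioo_mem_nhdsLT h1.2
  obtain ⟨φ, k1, k2, k3⟩ := (e1.and (e2.and e3)).exists
  have h5 := hG (left_mem_Ico.mpr h1.2) (Ioo_subset_Ico_self k3) k3.1.le
  simp only at h5
  have k4 : L - 2 * (ε / 3) ≤ B φ := by
    have := (abs_le.mp k2).2
    linarith only [k1, this]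
  have k5 : sin φ₁ * (L - 2 * (ε / 3)) ≤ sin φ₁ * B φ := mul_le_mul_of_nonneg_left k4 hS0.le
  have k6 : sin φ₁ * (2 * (ε / 3)) ≤ 1 * (2 * (ε / 3)) :=
    mul_le_mul_of_nonneg_right hS1 (by (clear * - hε; positivity))
  linarith only [hH2, k1, h5, k5, k6]

section

variable {X : Type*} [MeasurableSpace X] {E : Type*} [NormedAddCommGroup E]
  [InnerProductSpace ℝ E] [FiniteDimensional ℝ E] [MeasurableSpace E] [BorelSpace E]
  {μ : Measure X} [IsFiniteMeasure μ] {m : ℕ} {p n : X → E}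

/-- the lower bound for the two point conformal volume -/
theorem Pts.JJ_ge (h : Pts p n) (hm : 1 ≤ m) (hE : Module.finrank ℝ E = m + 2) {φ : ℝ}
    (hφ : φ ∈ Ioo 0 (π / 2)) :
    μ.real univ ^ 2 * (cos φ * (1 + 1 / (m + 2) * sin φ ^ 2)) ≤ JJ μ m p φ := by
  have hpi := pi_pos
  rcases isEmpty_or_nonempty X with hX | ⟨⟨x₀⟩⟩
  · have : μ = 0 := Subsingleton.elim _ _
    subst this
    unfold JJ
    simp only [measureReal_zero, Pi.zero_apply, ne_eq, OfNat.ofNat_ne_zero, not_false_eq_true, zero_pow, one_div, zero_mul, Measure.prod_zero, integral_zero_measure, Std.le_refl]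
  set α : ℝ := 1 / (m + 2) with hα
  have hα0 : 0 < α := by rw [hα]; (clear * - hm; (clear * - hm; positivity))
  have hαm : α * (m + 2) = 1 := by rw [hα]; (clear * - hm; field_simp)
  -- the constant field
  have h' : Pts p (fun _ => p x₀) := ⟨h.mp, measurable_const, h.np, fun _ => h.np x₀⟩
  have hJB : ∀ ψ, BB μ m p (fun _ => p x₀) ψ = JJ μ m p ψ := by
    intro ψ
    unfold BB JJ
    simp only [real_inner_self_eq_norm_sq, h.np, one_pow, one_mul]
  have hsub : ∀ ψ ∈ Icc 0 φ, ψ ∈ Ioo (-(π / 2)) (π / 2) := fun ψ hψ =>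
    ⟨by linarith only [hpi, hψ.1], by linarith only [hψ.2, hφ.2]⟩
  have hfp : ∀ ψ ∈ Icc 0 φ, 0 < cos ψ * (1 + α * sin ψ ^ 2) := fun ψ hψ =>
    mul_pos (cos_pos_of_mem_Ioo (hsub ψ hψ)) (by (clear * - hm; (clear * - hm; positivity)))
  have hcmp := h'.cmp (μ := μ) hm (c := 0) hφ (by simp)
    (by
      rw [sub_zero]
      exact mul_nonneg (by positivity) (h'.bb_nonneg 1))
    (fun j => h'.bb_rec0 hm hE j)
    (f := fun φ => cos φ * (1 + α * sin φ ^ 2))
    (f1 := fun φ => -sin φ * (1 + α * sin φ ^ 2) + cos φ * (α * (2 * sin φ * cos φ)))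
    (f2 := fun φ => -cos φ * (1 + α * sin φ ^ 2) + -sin φ * (α * (2 * sin φ * cos φ))
      + (-sin φ * (α * (2 * sin φ * cos φ))
        + cos φ * (α * (2 * cos φ * cos φ + 2 * sin φ * -sin φ))))
    (fun φ => ((Real.hasDerivAt_cos φ).fun_mul ((((Real.hasDerivAt_sin φ).fun_pow 2).const_mul
      α).const_add 1)).congr_deriv (by
        simp only [Nat.add_one_sub_one, pow_one]; push_cast; ring))
    (fun φ => (((Real.hasDerivAt_sin φ).fun_neg.fun_mul
      ((((Real.hasDerivAt_sin φ).fun_pow 2).const_mul α).const_add 1)).fun_add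
      ((Real.hasDerivAt_cos φ).fun_mul ((((Real.hasDerivAt_sin φ).const_mul 2).fun_mul
        (Real.hasDerivAt_cos φ)).const_mul α))).congr_deriv (by
        simp only [Nat.add_one_sub_one, pow_one]; push_cast; ring))
    (fun ψ hψ => hfp ψ ⟨hψ.1.le, hψ.2⟩)
    (by
      intro ψ hψ
      have hc := cos_pos_of_mem_Ioo (hsub ψ (Ioo_subset_Icc_self hψ))
      have e : cos ψ ^ 2 * sin ψ ^ 2 * (-cos ψ * (1 + α * sin ψ ^ 2)
          + -sin ψ * (α * (2 * sin ψ * cos ψ)) + (-sin ψ * (α * (2 * sin ψ * cos ψ))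
            + cos ψ * (α * (2 * cos ψ * cos ψ + 2 * sin ψ * -sin ψ))))
          + cos ψ * sin ψ * (m + cos ψ ^ 2) * (-sin ψ * (1 + α * sin ψ ^ 2)
            + cos ψ * (α * (2 * sin ψ * cos ψ)))
          + (m * sin ψ ^ 2 - 0 * cos ψ ^ 2) * (cos ψ * (1 + α * sin ψ ^ 2))
          = -(12 * α * (cos ψ ^ 3 * sin ψ ^ 4)) := by
        linear_combination (4 * α * cos ψ ^ 3 * sin ψ ^ 2) * sin_sq_add_cos_sq ψ
          + (2 * cos ψ ^ 3 * sin ψ ^ 2) * hαm
      rw [e]
      have : 0 ≤ 12 * α * (cos ψ ^ 3 * sin ψ ^ 4) := by (clear * - hm hc; (clear * - hm hc; (clear * - hm hc; positivity)))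
      linarith only [this])
  have hmono := hcmp.ratio
  have heq : ∀ ψ ∈ Icc 0 φ, cos ψ ^ m * ps (bb μ m p fun _ => p x₀) (sin ψ) = JJ μ m p ψ := by
    intro ψ hψ
    rw [← h'.BB_eq hm (hsub ψ hψ), hJB]
  have hcont : ContinuousOn (fun ψ => cos ψ ^ m * ps (bb μ m p fun _ => p x₀) (sin ψ) /
      (cos ψ * (1 + α * sin ψ ^ 2))) (Icc 0 φ) :=
    (((continuous_cos.pow m).continuousOn).mul hcmp.T0c).div hcmp.fc fun ψ hψ => (hfp ψ hψ).ne'
  have h0 : μ.real univ ^ 2 = cos 0 ^ m * ps (bb μ m p fun _ => p x₀) (sin 0) /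
      (cos 0 * (1 + α * sin 0 ^ 2)) := by
    rw [heq 0 (left_mem_Icc.mpr hφ.1.le), JJ_zero, cos_zero, sin_zero]
    norm_num
  have hlim : Tendsto (fun ψ => cos ψ ^ m * ps (bb μ m p fun _ => p x₀) (sin ψ) /
      (cos ψ * (1 + α * sin ψ ^ 2))) (𝓝[>] 0) (𝓝 (μ.real univ ^ 2)) := by
    rw [h0]
    have h1 := (hcont 0 (left_mem_Icc.mpr hφ.1.le)).tendsto
    refine h1.mono_left ?_
    rw [nhdsWithin_le_iff]
    filter_upwards [Ioo_mem_nhdsGT hφ.1] with ψ hψ
    exact ⟨hψ.1.le, hψ.2.le⟩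
  have key : μ.real univ ^ 2 ≤ JJ μ m p φ / (cos φ * (1 + α * sin φ ^ 2)) := by
    apply le_of_tendsto hlim
    filter_upwards [Ioo_mem_nhdsGT hφ.1] with ψ hψ
    have := hmono ⟨hψ.1, hψ.2.le⟩ (right_mem_Ioc.mpr hφ.1) hψ.2.le
    simp only at this
    rwa [heq φ (right_mem_Icc.mpr hφ.1.le)] at this
  rwa [le_div_iff₀ (hfp φ (right_mem_Icc.mpr hφ.1.le))] at key

/-- the vanishing zeroth moment -/
theorem TwoPt.bound_low (h : TwoPt μ m p n) (hm : 1 ≤ m) (hE : Module.finrank ℝ E = m + 2)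
    (h0 : RR μ p n 0 = 0) {φ₁ : ℝ} (hφ₁ : φ₁ ∈ Ioo 0 (π / 2)) {L : ℝ}
    (hL : ∀ ε > 0, ∀ᶠ φ in 𝓝[<] (π / 2), L - ε ≤ JJ μ m p φ)
    (hJB : ∀ ε > 0, ∀ᶠ φ in 𝓝[<] (π / 2), |JJ μ m p φ - BB μ m p n φ| ≤ ε) :
    (1 + sin φ₁) * L ≤ (((1 - 1 / (m + 2) / 2) * φ₁ - 3 / 2 * (1 / (m + 2)) * (sin φ₁ * cos φ₁))
      * sin φ₁ + cos φ₁ * (1 + 1 / (m + 2) * sin φ₁ ^ 2)) * μ.real univ ^ 2 := by
  set α : ℝ := 1 / (m + 2) with hα
  obtain ⟨a, b, hab⟩ := h.main
  have key := one_dim2 (f := fun φ => cos φ * (1 + α * sin φ ^ 2))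
    (P := fun φ => (1 - α / 2) * φ - 3 / 2 * α * (sin φ * cos φ))
    (q := fun φ => 1 - 2 * α + 3 * α * sin φ ^ 2)
    (fun φ hφ => (hab φ hφ).1) (fun φ hφ => (hab φ hφ).2.1)
    (fun φ hφ => (hab φ hφ).2.2) hφ₁ (by simp) (by simp only [mul_zero, sin_zero, cos_zero, mul_one, sub_self])
    (fun φ => ((Real.hasDerivAt_cos φ).fun_mul ((((Real.hasDerivAt_sin φ).fun_pow 2).const_mul
      α).const_add 1)).congr_deriv (by
        have hS : cos φ ^ 2 = 1 - sin φ ^ 2 := by have := sin_sq_add_cos_sq φ; linarith only [this]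
        simp only [Nat.add_one_sub_one, pow_one]
        push_cast
        linear_combination (2 * α * sin φ) * hS))
    (fun φ => (((hasDerivAt_id' φ).const_mul (1 - α / 2)).fun_sub
      (((Real.hasDerivAt_sin φ).fun_mul (Real.hasDerivAt_cos φ)).const_mul
        (3 / 2 * α))).congr_deriv (by
        have hS : cos φ ^ 2 = 1 - sin φ ^ 2 := by have := sin_sq_add_cos_sq φ; linarith only [this]
        linear_combination (-(3 / 2) * α) * hS))
    (by
      intro φ hφ
      rw [JJ_zero]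
      exact h.JJ_ge hm hE ⟨hφ.1, hφ.2.trans_lt hφ₁.2⟩) hL hJB
  have hB0 : BB μ m p n 0 = 0 := by
    have : BB μ m p n 0 = RR μ p n 0 := by
      rw [RR_eq]
      unfold BB cf
      simp only [cos_zero, sin_zero, mul_zero, sub_zero, ne_eq, one_ne_zero, not_false_eq_true, div_self, one_pow, mul_one, pow_zero, one_mul]
    rw [this, h0]
  rw [JJ_zero, hB0, mul_zero, add_zero] at key
  exact key

end

end Vale.Agent.P224.FV
end
end

section

section

/-!
Balanced data have at least 95 percent of the least Clifford volume.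
-/

namespace Vale.Agent.P224.FV

open Real Set Filter MeasureTheory
open scoped Topology RealInnerProductSpace

set_option linter.unusedSectionVars false

lemma evenRatio_mono (k j : ℕ) : evenRatio (k + 2 * j) ≤ evenRatio k := by
  induction j with
  | zero => simp
  | succ j ih =>
    rw [show k + 2 * (j + 1) = (k + 2 * j) + 2 by ring]
    exact (evenRatio_anti _).trans ih

lemma even_group {k k0 : ℕ} (hk0 : 1 ≤ k0) (h : k0 ≤ k) (hpar : k % 2 = k0 % 2) {ρ : ℝ}
    (hρ : evenRatio k0 ≤ ρ) : leastClifford (2 * k) ≤ ρ * sphereVol (2 * k) := by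
  obtain ⟨j, rfl⟩ : ∃ j, k = k0 + 2 * j := ⟨(k - k0) / 2, by (clear * - h hpar; omega)⟩
  exact even_bound (by omega) ((evenRatio_mono k0 j).trans hρ)

lemma evenRatio_eight' : evenRatio 8 ≤ 1.43639 := by
  rw [show (8 : ℕ) = 6 + 2 by norm_num, evenRatio_rec, evenRatio_six]
  (clear * -; (clear * -; norm_num))

lemma evenRatio_zero : evenRatio 0 = 2 := by
  have h := evenRatio_rec 0
  rw [show 0 + 2 = 2 by norm_num, evenRatio_two] at h
  norm_num at h
  linarith only [h]

lemma evenRatio_twenty : evenRatio 20 ≤ 1.42308 := by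
  rw [show (20 : ℕ) = 6 + 2 + 2 + 2 + 2 + 2 + 2 + 2 by norm_num]
  simp only [evenRatio_rec, evenRatio_zero]
  norm_num

lemma evenRatio_nine : evenRatio 9 ≤ 1.43393 := by
  rw [show (9 : ℕ) = 5 + 2 + 2 by norm_num]
  simp only [evenRatio_rec, evenRatio_one]
  have := Real.pi_lt_d6
  norm_num
  linarith only [this]

lemma evenRatio_twentyone : evenRatio 21 ≤ 1.42266 := by
  rw [show (21 : ℕ) = 5 + 2 + 2 + 2 + 2 + 2 + 2 + 2 + 2 by norm_num]
  simp only [evenRatio_rec, evenRatio_one]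
  have := Real.pi_lt_d6
  norm_num
  (clear * - this; linarith)

lemma odd_group {k K : ℕ} (hK : K ≤ k) (hk : 1 ≤ k) {B C : ℝ} (hB : 0 ≤ B)
    (hC : Real.exp (1 / (2 * (K : ℝ) + 1) + 1 / (2 * (K : ℝ) + 1) ^ 2) ≤ C)
    (h : 4 * C ≤ B ^ 4) : leastClifford (2 * k + 1) ≤ B * sphereVol (2 * k + 1) :=
  odd_bound hk (oddRatio_le hB hK (by linarith only [hC, h]))

lemma kap_le {m M : ℕ} (h : m ≤ M) : 1.7854 - 0.64269 / ((m : ℝ) + 2)
    ≤ 1.7854 - 0.64269 / ((M : ℝ) + 2) := by
  have : (m : ℝ) ≤ M := by exact_mod_cast h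
  (clear * - this; (clear * - this; gcongr))

lemma kap_le' (m : ℕ) : 1.7854 - 0.64269 / ((m : ℝ) + 2) ≤ 1.7854 := by
  have : (0 : ℝ) ≤ 0.64269 / ((m : ℝ) + 2) := by (clear * -; (clear * -; positivity))
  linarith only [this]

lemma group_fin {m M : ℕ} {ρ : ℝ} (hρ : 0 ≤ ρ) (h1 : leastClifford m ≤ ρ * sphereVol m)
    (h : m ≤ M) (h2 : ρ * (1.7854 - 0.64269 / ((M : ℝ) + 2)) ≤ 2.54127) :
    ∃ ρ : ℝ, 0 ≤ ρ ∧ leastClifford m ≤ ρ * sphereVol m ∧
      ρ * (1.7854 - 0.64269 / ((m : ℝ) + 2)) ≤ 2.54127 :=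
  ⟨ρ, hρ, h1, (mul_le_mul_of_nonneg_left (kap_le h) hρ).trans h2⟩

lemma group_inf {m : ℕ} {ρ : ℝ} (hρ : 0 ≤ ρ) (h1 : leastClifford m ≤ ρ * sphereVol m)
    (h2 : ρ * 1.7854 ≤ 2.54127) :
    ∃ ρ : ℝ, 0 ≤ ρ ∧ leastClifford m ≤ ρ * sphereVol m ∧
      ρ * (1.7854 - 0.64269 / ((m : ℝ) + 2)) ≤ 2.54127 :=
  ⟨ρ, hρ, h1, (mul_le_mul_of_nonneg_left (kap_le' m) hρ).trans h2⟩

/-- upper bounds for the least Clifford volume -/
theorem exists_ratio (m : ℕ) (hm : 4 ≤ m) : ∃ ρ : ℝ, 0 ≤ ρ ∧
    leastClifford m ≤ ρ * sphereVol m ∧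
      ρ * (1.7854 - 0.64269 / ((m : ℝ) + 2)) ≤ 2.54127 := by
  have hp := Real.pi_lt_d6
  rcases Nat.even_or_odd' m with ⟨k, rfl | rfl⟩
  · rcases Nat.mod_two_eq_zero_or_one k with hk | hk
    · rcases Nat.lt_or_ge k 4 with h | h
      · obtain rfl : k = 2 := by omega
        exact group_fin (M := 4) (by (clear * -; norm_num))
          (even_bound (k := 2) (B := 1.5) (by norm_num) (by rw [evenRatio_two]; norm_num)) le_rfl
          (by norm_num)
      rcases Nat.lt_or_ge k 8 with h8 | h8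
      · exact group_fin (M := 12) (by norm_num)
          (even_group (k0 := 4) (by norm_num) h hk evenRatio_four.le) (by omega) (by (clear * -; (clear * -; norm_num)))
      rcases Nat.lt_or_ge k 20 with h20 | h20
      · exact group_fin (M := 36) (by norm_num)
          (even_group (k0 := 8) (by norm_num) h8 hk evenRatio_eight') (by omega) (by (clear * -; (clear * -; norm_num)))
      · exact group_inf (by norm_num)
          (even_group (k0 := 20) (by norm_num) h20 hk evenRatio_twenty) (by norm_num)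
    · rcases Nat.lt_or_ge k 5 with h | h
      · obtain rfl : k = 3 := by omega
        exact group_fin (M := 6) (ρ := 1.473) (by (clear * -; norm_num))
          (even_bound (k := 3) (by norm_num) (by rw [evenRatio_three]; linarith only [hp])) le_rfl
          (by norm_num)
      rcases Nat.lt_or_ge k 9 with h9 | h9
      · exact group_fin (M := 14) (ρ := 1.4497) (by norm_num)
          (even_group (k0 := 5) (by norm_num) h hk (by rw [evenRatio_five]; linarith only [hp])) (by (clear * - hk h h9; (clear * - hk h h9; omega)))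
          (by (clear * -; norm_num))
      rcases Nat.lt_or_ge k 21 with h21 | h21
      · exact group_fin (M := 38) (by norm_num)
          (even_group (k0 := 9) (by norm_num) h9 hk evenRatio_nine) (by omega) (by (clear * -; (clear * -; norm_num)))
      · exact group_inf (by norm_num)
          (even_group (k0 := 21) (by norm_num) h21 hk evenRatio_twentyone) (by norm_num)
  · rcases Nat.lt_or_ge k 3 with h | h
    · obtain rfl : k = 2 := by (clear * - hm h; omega)
      refine group_fin (M := 5) (ρ := 1.49) (by (clear * -; norm_num))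
        (odd_bound (k := 2) (by norm_num) ?_) le_rfl (by (clear * -; norm_num))
      have h4 := oddRatio_pow_four 2
      have h5 : oddRatio 2 ^ 4 ≤ 1.49 ^ 4 := by
        rw [h4]
        norm_num
      exact le_of_pow_le_pow_left₀ (by norm_num) (by norm_num) h5
    rcases Nat.lt_or_ge k 4 with h4 | h4
    · exact group_fin (M := 7) (ρ := 1.474) (by norm_num)
        (odd_group (K := 3) (C := 1.1785) h (by omega) (by norm_num)
          (exp_le_of 16 (by (clear * -; (clear * -; positivity))) (by norm_num) (by norm_num) (by norm_num) (by norm_num))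
          (by (clear * -; norm_num))) (by omega) (by (clear * -; norm_num))
    rcases Nat.lt_or_ge k 6 with h6 | h6
    · exact group_fin (M := 11) (ρ := 1.459) (by norm_num)
        (odd_group (K := 4) (C := 1.1325) h4 (by (clear * - h4 h6; omega)) (by (clear * -; norm_num))
          (exp_le_of 16 (by (clear * -; (clear * -; positivity))) (by (clear * -; norm_num)) (by norm_num) (by norm_num) (by norm_num))
          (by norm_num)) (by omega) (by (clear * -; norm_num))
    rcases Nat.lt_or_ge k 11 with h11 | h11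
    · exact group_fin (M := 21) (ρ := 1.4443) (by norm_num)
        (odd_group (K := 6) (C := 1.0875) h6 (by omega) (by (clear * -; norm_num))
          (exp_le_of 8 (by (clear * -; (clear * -; positivity))) (by norm_num) (by norm_num) (by norm_num) (by norm_num))
          (by norm_num)) (by (clear * - h6 h11; omega)) (by (clear * -; norm_num))
    rcases Nat.lt_or_ge k 35 with h35 | h35
    · exact group_fin (M := 69) (ρ := 1.4306) (by norm_num)
        (odd_group (K := 11) (C := 1.047) h11 (by omega) (by (clear * -; norm_num))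
          (exp_le_of 4 (by (clear * -; (clear * -; (clear * -; positivity)))) (by norm_num) (by norm_num) (by norm_num) (by norm_num))
          (by norm_num)) (by omega) (by (clear * -; (clear * -; norm_num)))
    · exact group_inf (ρ := 1.4205) (by norm_num)
        (odd_group (K := 35) (C := 1.017) h35 (by omega) (by (clear * -; (clear * -; (clear * -; norm_num))))
          (exp_le_of 2 (by (clear * -; (clear * -; positivity))) (by norm_num) (by norm_num) (by norm_num) (by norm_num))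
          (by norm_num)) (by norm_num)

/-- the constant for the angle pi / 4 -/
lemma const_four {m : ℕ} {S v : ℝ} (hv : 0 < v)
    (h : (1 + sin (π / 4)) * (S * v) ≤ (((1 - 1 / ((m : ℝ) + 2) / 2) * (π / 4)
      - 3 / 2 * (1 / ((m : ℝ) + 2)) * (sin (π / 4) * cos (π / 4)))
      * sin (π / 4) + cos (π / 4) * (1 + 1 / ((m : ℝ) + 2) * sin (π / 4) ^ 2)) * v ^ 2) :
    (1 + √2) * S ≤ (1.7854 - 0.64269 / ((m : ℝ) + 2)) * v := by
  have hp1 := Real.pi_gt_d6
  have hp2 := Real.pi_lt_d6
  rw [sin_pi_div_four, cos_pi_div_four] at h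
  have hs2 : √2 * √2 = 2 := mul_self_sqrt (by norm_num)
  have hs2p : 0 < √2 := by positivity
  set α : ℝ := 1 / ((m : ℝ) + 2) with hα
  have hα0 : 0 ≤ α := by rw [hα]; (clear * -; (clear * -; positivity))
  have e0 : (0.64269 : ℝ) / ((m : ℝ) + 2) = 0.64269 * α := by rw [hα]; ring
  have e1 : ((1 - α / 2) * (π / 4) - 3 / 2 * α * (√2 / 2 * (√2 / 2))) * (√2 / 2)
      + √2 / 2 * (1 + α * (√2 / 2) ^ 2)
      = √2 / 2 * (1 + π / 4 - α * (π / 8 + 1 / 4)) := by
    have : √2 / 2 * (√2 / 2) = 1 / 2 := by linarith only [hs2]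
    have h2 : (√2 / 2) ^ 2 = 1 / 2 := by rw [sq]; exact this
    rw [this, h2]; ring
  rw [e1] at h
  have h3 : √2 * ((1 + √2 / 2) * (S * v)) ≤ √2 * (√2 / 2 * (1 + π / 4 - α * (π / 8 + 1 / 4)) * v ^ 2) :=
    mul_le_mul_of_nonneg_left h hs2p.le
  have e2 : √2 * ((1 + √2 / 2) * (S * v)) = (1 + √2) * S * v := by
    calc √2 * ((1 + √2 / 2) * (S * v)) = (√2 + √2 * √2 / 2) * S * v := by ring
      _ = _ := by rw [hs2]; ring
  have e3 : √2 * (√2 / 2 * (1 + π / 4 - α * (π / 8 + 1 / 4)) * v ^ 2)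
      = (1 + π / 4 - α * (π / 8 + 1 / 4)) * v * v := by
    calc √2 * (√2 / 2 * (1 + π / 4 - α * (π / 8 + 1 / 4)) * v ^ 2)
        = (√2 * √2) / 2 * (1 + π / 4 - α * (π / 8 + 1 / 4)) * v * v := by ring
      _ = _ := by rw [hs2]; ring
  rw [e2, e3] at h3
  have h4 := le_of_mul_le_mul_right h3 hv
  refine h4.trans (mul_le_mul_of_nonneg_right ?_ hv.le)
  rw [e0]
  have : α * 0.64269 ≤ α * (π / 8 + 1 / 4) := mul_le_mul_of_nonneg_left (by linarith only [hp1]) hα0
  linarith only [hp2, this]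

/-- trigonometric values at 3 pi / 10 -/
lemma trig54 : sin (3 * π / 10) = (1 + √5) / 4 ∧ cos (3 * π / 10) ≤ 0.58779 ∧
    0.58778 ≤ cos (3 * π / 10) := by
  have h1 : sin (3 * π / 10) = (1 + √5) / 4 := by
    rw [← cos_pi_div_five, ← cos_pi_div_two_sub]
    congr 1
    ring
  have hc : 0 ≤ cos (3 * π / 10) := cos_nonneg_of_mem_Icc ⟨by (clear * -; linarith [pi_pos]), by linarith only [pi_pos]⟩
  have h2 : cos (3 * π / 10) ^ 2 = 1 - ((1 + √5) / 4) ^ 2 := by
    rw [← h1]
    have := sin_sq_add_cos_sq (3 * π / 10)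
    linarith only [this]
  have h5 : √5 * √5 = 5 := mul_self_sqrt (by norm_num)
  have h5a : √5 ≤ 2.2360680 := by
    rw [sqrt_le_left (by norm_num)]; norm_num
  have h5b : 2.2360679 ≤ √5 := by
    apply le_sqrt_of_sq_le; norm_num
  have h3 : cos (3 * π / 10) ^ 2 = (5 - √5) / 8 := by
    rw [h2]
    linear_combination (-1 / 16) * h5
  refine ⟨h1, ?_, ?_⟩
  · refine le_of_sq_le_sq ?_ (by norm_num)
    rw [h3]; norm_num; linarith only [h5b]
  · refine le_of_sq_le_sq ?_ hc
    rw [h3]; norm_num; linarith only [h5a]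

/-- the constant for the angle 3 pi / 10 -/
lemma const_54 {α K0 : ℝ} (hα0 : 0 ≤ α) (hα1 : α ≤ 1 / 4)
    (hK : ((1 - α / 2) * 0.942478 - 3 / 2 * α * 0.47551) * 0.809018
      + 0.58779 * (1 + α * 0.654511) ≤ K0) :
    ((1 - α / 2) * (3 * π / 10) - 3 / 2 * α * (sin (3 * π / 10) * cos (3 * π / 10)))
      * sin (3 * π / 10) + cos (3 * π / 10) * (1 + α * sin (3 * π / 10) ^ 2) ≤ K0 := by
  obtain ⟨h1, h2, h3⟩ := trig54
  have hp2 := Real.pi_lt_d6
  have h5a : √5 ≤ 2.2360680 := by
    rw [sqrt_le_left (by (clear * -; norm_num))]; norm_num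
  have h5b : 2.2360679 ≤ √5 := by
    apply le_sqrt_of_sq_le; norm_num
  set s := sin (3 * π / 10)
  set c := cos (3 * π / 10)
  have s1 : s ≤ 0.809018 := by rw [h1]; linarith only [h5a]
  have s2 : 0.809016 ≤ s := by rw [h1]; linarith only [h5b]
  have sc : 0.47551 ≤ s * c := by
    calc (0.47551 : ℝ) ≤ 0.809016 * 0.58778 := by norm_num
      _ ≤ s * c := by (clear * - s2 h3; gcongr)
  have ss : s ^ 2 ≤ 0.654511 := by
    calc s ^ 2 ≤ 0.809018 ^ 2 := by (clear * - s2 s1; (clear * - s2 s1; gcongr))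
      _ ≤ _ := by norm_num
  have a1 : (1 - α / 2) * (3 * π / 10) - 3 / 2 * α * (s * c)
      ≤ (1 - α / 2) * 0.942478 - 3 / 2 * α * 0.47551 := by
    have k1 : (1 - α / 2) * (3 * π / 10) ≤ (1 - α / 2) * 0.942478 :=
      mul_le_mul_of_nonneg_left (by linarith only [hp2]) (by linarith only [hα1])
    have k2 : 3 / 2 * α * 0.47551 ≤ 3 / 2 * α * (s * c) :=
      mul_le_mul_of_nonneg_left sc (by (clear * - hα0; (clear * - hα0; positivity)))
    linarith only [k1, k2]
  have a0 : 0 ≤ (1 - α / 2) * 0.942478 - 3 / 2 * α * 0.47551 := by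
    linarith only [hα1]
  have a2 : ((1 - α / 2) * (3 * π / 10) - 3 / 2 * α * (s * c)) * s
      ≤ ((1 - α / 2) * 0.942478 - 3 / 2 * α * 0.47551) * 0.809018 :=
    (mul_le_mul_of_nonneg_right a1 (by linarith only [h5b, h1])).trans (mul_le_mul_of_nonneg_left s1 a0)
  have a3 : c * (1 + α * s ^ 2) ≤ 0.58779 * (1 + α * 0.654511) := by
    have : α * s ^ 2 ≤ α * 0.654511 := mul_le_mul_of_nonneg_left ss hα0
    refine mul_le_mul h2 (by linarith only [this]) (by (clear * - hα0 s2; positivity)) (by norm_num)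
  linarith only [hK, a2, a3]

section

variable {X : Type*} [MeasurableSpace X] {E : Type*} [NormedAddCommGroup E]
  [InnerProductSpace ℝ E] [FiniteDimensional ℝ E] [MeasurableSpace E] [BorelSpace E]
  {μ : Measure X} [IsFiniteMeasure μ] {m : ℕ} {p n : X → E}

lemma fin54 {a K ρ S v s : ℝ} (hS : 0 ≤ S) (hv : 0 < v) (hs : 0.809 ≤ s)
    (ha : a ≤ ρ * S) (h : (1 + s) * (S * v) ≤ K * v ^ 2) (hK : 0.95 * ρ * K ≤ 1.809)
    (hK0 : 0 < K) : 0.95 * a ≤ v := by
  have h1 : (1 + s) * S * v ≤ K * v * v := by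
    calc _ = (1 + s) * (S * v) := by ring
      _ ≤ _ := h
      _ = _ := by ring
  have h2 := le_of_mul_le_mul_right h1 hv
  have h3 : 1.809 * S ≤ (1 + s) * S := mul_le_mul_of_nonneg_right (by linarith only [hs]) hS
  have h4 : K * (0.95 * (ρ * S)) ≤ K * v := by
    calc K * (0.95 * (ρ * S)) = 0.95 * ρ * K * S := by ring
      _ ≤ 1.809 * S := mul_le_mul_of_nonneg_right hK hS
      _ ≤ _ := h3.trans h2
  have h5 := le_of_mul_le_mul_left h4 hK0
  linarith only [ha, h5]

/-- balanced data: at least 95 percent of the least Clifford volume -/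
theorem TwoPt.bound_near (h : TwoPt μ m p n) (hm : 2 ≤ m) (hE : Module.finrank ℝ E = m + 2)
    (h0 : RR μ p n 0 = 0)
    (hL : ∀ ε > 0, ∀ᶠ φ in 𝓝[<] (π / 2), sphereVol m * μ.real univ - ε ≤ JJ μ m p φ)
    (hJB : ∀ ε > 0, ∀ᶠ φ in 𝓝[<] (π / 2), |JJ μ m p φ - BB μ m p n φ| ≤ ε)
    (hμ : 0 < μ.real univ) :
    0.95 * leastClifford m ≤ μ.real univ := by
  have hpi := pi_pos
  have hS := (sphereVol_pos' m).le
  have hp2 := Real.pi_lt_d6
  have h5a : √5 ≤ 2.2360680 := by
    rw [sqrt_le_left (by (clear * -; (clear * -; norm_num)))]; (clear * -; (clear * -; norm_num))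
  have h5b : 2.2360679 ≤ √5 := by
    apply le_sqrt_of_sq_le; norm_num
  rcases Nat.lt_or_ge m 4 with h4 | h4
  · have hφ : 3 * π / 10 ∈ Ioo 0 (π / 2) := ⟨by (clear * -; positivity), by linarith only [hpi]⟩
    have key := h.bound_low (by (clear * - hm hE h4; omega)) hE h0 hφ hL hJB
    have hs : 0.809 ≤ sin (3 * π / 10) := by rw [trig54.1]; linarith only [h5b]
    rcases Nat.lt_or_ge m 3 with h3 | h3
    · obtain rfl : m = 2 := by omega
      have hK := const_54 (α := 1 / ((2 : ℕ) + 2)) (K0 := 1.20690) (by (clear * -; norm_num)) (by norm_num)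
        (by (clear * -; (clear * -; norm_num)))
      have hr : leastClifford 2 ≤ 1.5708 * sphereVol 2 :=
        even_bound (k := 1) (by norm_num) (by rw [evenRatio_one]; linarith only [hp2])
      refine fin54 (K := 1.20690) hS hμ hs hr (key.trans ?_) (by norm_num) (by norm_num)
      exact mul_le_mul_of_nonneg_right hK (by positivity)
    · obtain rfl : m = 3 := by (clear * - hm hE h4 h3; (clear * - hm hE h4 h3; omega))
      have hK := const_54 (α := 1 / ((3 : ℕ) + 2)) (K0 := 1.23560) (by (clear * -; norm_num)) (by norm_num)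
        (by (clear * -; norm_num))
      have hr : leastClifford 3 ≤ 1.54 * sphereVol 3 := by
        refine odd_bound (k := 1) (by norm_num) ?_
        have h4 := oddRatio_pow_four 1
        have h5 : oddRatio 1 ^ 4 ≤ 1.54 ^ 4 := by
          rw [h4]
          norm_num
        exact le_of_pow_le_pow_left₀ (by norm_num) (by norm_num) h5
      refine fin54 (K := 1.23560) hS hμ hs hr (key.trans ?_) (by norm_num) (by norm_num)
      exact mul_le_mul_of_nonneg_right hK (by positivity)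
  · have hφ : π / 4 ∈ Ioo 0 (π / 2) := ⟨by positivity, by linarith only [hpi]⟩
    have key := const_four hμ (h.bound_low (by (clear * - hE h4; omega)) hE h0 hφ hL hJB)
    obtain ⟨ρ, hρ0, hρ1, hρ2⟩ := exists_ratio m h4
    have hs2 : 1.41421356 ≤ √2 := by
      apply le_sqrt_of_sq_le; (clear * -; (clear * -; norm_num))
    set κ : ℝ := 1.7854 - 0.64269 / ((m : ℝ) + 2) with hκ
    have hκ0 : 0 < κ := by
      have : (0.64269 : ℝ) / ((m : ℝ) + 2) ≤ 0.64269 / 2 := by
        gcongr
        linarith only []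
      rw [hκ]; linarith only [this]
    have h1 : κ * (0.95 * (ρ * sphereVol m)) ≤ κ * μ.real univ := by
      calc κ * (0.95 * (ρ * sphereVol m)) = 0.95 * (ρ * κ) * sphereVol m := by ring
        _ ≤ 0.95 * 2.54127 * sphereVol m := by (clear * - hρ2 hS; gcongr)
        _ ≤ (1 + √2) * sphereVol m := by gcongr; linarith only [hs2]
        _ ≤ _ := key
    have h2 := le_of_mul_le_mul_left h1 hκ0
    linarith only [hρ1, h2]

end

end Vale.Agent.P224.FV
end
end

section

section

namespace Vale.Agent.P224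

open scoped Manifold ContDiff RealInnerProductSpace Topology
open MeasureTheory Metric Module Set Filter

section local_part

variable {m : ℕ} {f : EuclideanSpace ℝ (Fin m) → EuclideanSpace ℝ (Fin (m + 2))}
  {T : Set (EuclideanSpace ℝ (Fin m))}

lemma eq_smul_nu (h : Imm f T) {u : EuclideanSpace ℝ (Fin m)} (hu : u ∈ T)
    (v : EuclideanSpace ℝ (Fin (m + 2))) (h1 : ⟪f u, v⟫ = 0) (h3 : ∀ i, ⟪D1 f i u, v⟫ = 0) :
    v = ⟪v, nu f u⟫ • nu f u := by
  obtain ⟨p, ν, e, σ, T', c, φ, l, hf, -, -, -, -, -, -, -, -, -, -, -, -, hp, hν, he⟩ :=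
    exists_graph h hu
  have hx := hf.expand v
  have h4 : ⟪v, p⟫ = 0 := by rw [real_inner_comm, hp]; exact h1
  have h5 : ∀ i, ⟪v, e i⟫ = 0 := by
    intro i
    rw [he, inner_sum]
    apply Finset.sum_eq_zero
    intro b _
    rw [inner_smul_right, real_inner_comm, h3, mul_zero]
  rw [h4, hν] at hx
  simp only [h5, zero_smul, Finset.sum_const_zero, add_zero, zero_add] at hx
  exact hx

/-- invariance of the traces -/
lemma trace_conj_gen {n : Type*} [Fintype n] [DecidableEq n] (B G H : Matrix n n ℝ)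
    (hB : IsUnit B.det) :
    (((B.transpose * G * B)⁻¹ * (B.transpose * H * B)).trace = (G⁻¹ * H).trace) ∧
    ((((B.transpose * G * B)⁻¹ * (B.transpose * H * B)) *
      ((B.transpose * G * B)⁻¹ * (B.transpose * H * B))).trace
      = ((G⁻¹ * H) * (G⁻¹ * H)).trace) := by
  have hBt : IsUnit (B.transpose).det := by rw [Matrix.det_transpose]; exact hB
  have e : (B.transpose * G * B)⁻¹ * (B.transpose * H * B) = B⁻¹ * (G⁻¹ * H) * B := by
    rw [Matrix.mul_inv_rev, Matrix.mul_inv_rev]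
    calc B⁻¹ * (G⁻¹ * (B.transpose)⁻¹) * (B.transpose * H * B)
        = B⁻¹ * G⁻¹ * ((B.transpose)⁻¹ * B.transpose) * H * B := by
          simp only [Matrix.mul_assoc]
      _ = _ := by
          rw [Matrix.nonsing_inv_mul _ hBt, Matrix.mul_one]
          simp only [Matrix.mul_assoc]
  rw [e]
  constructor
  · rw [Matrix.trace_mul_comm, ← Matrix.mul_assoc, Matrix.mul_nonsing_inv _ hB, Matrix.one_mul]
  · have : B⁻¹ * (G⁻¹ * H) * B * (B⁻¹ * (G⁻¹ * H) * B)
        = B⁻¹ * ((G⁻¹ * H) * (G⁻¹ * H)) * B := by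
      calc B⁻¹ * (G⁻¹ * H) * B * (B⁻¹ * (G⁻¹ * H) * B)
          = B⁻¹ * (G⁻¹ * H) * (B * B⁻¹) * (G⁻¹ * H) * B := by simp only [Matrix.mul_assoc]
        _ = _ := by
          rw [Matrix.mul_nonsing_inv _ hB, Matrix.mul_one]
          simp only [Matrix.mul_assoc]
    rw [this, Matrix.trace_mul_comm, ← Matrix.mul_assoc, Matrix.mul_nonsing_inv _ hB,
      Matrix.one_mul]

lemma H_eq_zero {n : Type*} [Fintype n] [DecidableEq n] (G H : Matrix n n ℝ) (hG : G.PosDef)
    (hH : H.transpose = H) (h0 : ((G⁻¹ * H) * (G⁻¹ * H)).trace = 0) : H = 0 := by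
  obtain ⟨P, κ, hPG, hPH⟩ := exists_simul_diag G H hG hH
  have hdet : P.det * P.det * G.det = 1 := by
    have := congrArg Matrix.det hPG
    rw [Matrix.det_mul, Matrix.det_mul, Matrix.det_transpose, Matrix.det_one] at this
    linarith only [this]
  have hPdet : P.det ≠ 0 := by
    intro h
    rw [h] at hdet
    simp only [mul_zero, zero_mul, zero_ne_one] at hdet
  have hPu : IsUnit P.det := isUnit_iff_ne_zero.mpr hPdet
  have htr := (trace_conj_gen P G H hPu).2
  rw [hPG, hPH, inv_one, Matrix.one_mul, Matrix.diagonal_mul_diagonal, Matrix.trace_diagonal,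
    h0] at htr
  have hκ : ∀ i, κ i = 0 := by
    intro i
    have h1 := (Finset.sum_eq_zero_iff_of_nonneg (fun i _ => mul_self_nonneg (κ i))).mp htr i
      (Finset.mem_univ i)
    exact mul_self_eq_zero.mp h1
  have hPt : IsUnit (P.transpose).det := by rw [Matrix.det_transpose]; exact hPu
  have hz : P.transpose * H * P = 0 := by
    rw [hPH]
    ext i j
    by_cases hij : i = j
    · subst hij; simp [hκ]
    · simp [hij]
  calc H = (P.transpose)⁻¹ * (P.transpose * H * P) * P⁻¹ := by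
        rw [Matrix.mul_assoc, Matrix.mul_assoc, Matrix.mul_assoc, Matrix.mul_nonsing_inv _ hPu,
          Matrix.mul_one, ← Matrix.mul_assoc, Matrix.nonsing_inv_mul _ hPt, Matrix.one_mul]
    _ = 0 := by rw [hz]; simp only [mul_zero, zero_mul]

lemma fderiv_nu_zero (h : Imm f T) {u : EuclideanSpace ℝ (Fin m)} (hu : u ∈ T)
    (hH : H f u = 0) : fderiv ℝ (nu f) u = 0 := by
  have hd : ∀ i, dnu f i u = 0 := by
    intro i
    have h1 := eq_smul_nu h hu (dnu f i u) (h.inner_f_dnu hu i) (by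
      intro j
      rw [h.inner_D1_dnu hu, hH]
      simp)
    rw [h1, real_inner_comm, h.inner_dnu_nu hu, zero_smul]
  ext1 v
  have hx : v = ∑ b, v b • EuclideanSpace.single b (1 : ℝ) := by
    ext j
    simp only [WithLp.ofLp_sum, WithLp.ofLp_smul, PiLp.ofLp_single, Finset.sum_apply, Pi.smul_apply, Pi.single_apply, smul_eq_mul, mul_ite, mul_one, mul_zero, Finset.sum_ite_eq, Finset.mem_univ, ↓reduceIte]
  rw [hx, map_sum]
  simp only [map_smul]
  apply Finset.sum_eq_zero
  intro b _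
  have := hd b
  unfold dnu at this
  rw [this, smul_zero]

end local_part

variable {V W M : Type*} [NormedAddCommGroup V] [InnerProductSpace ℝ V] [FiniteDimensional ℝ V]
  [NormedAddCommGroup W] [InnerProductSpace ℝ W] [FiniteDimensional ℝ W]
  [TopologicalSpace M] [ChartedSpace V M] {F : M → W}

/-- the traces in the chart at x -/
lemma traces_of_global [IsManifold 𝓘(ℝ, V) ∞ M] (hW : finrank ℝ W = finrank ℝ V + 2)
    (hF : SphImm V F) (a b : M → ℝ)
    (hm : ∀ x n, IsUnitNormal V F x n → meanCurv V F x n = a x)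
    (hs : ∀ x n, IsUnitNormal V F x n → normSqA V F x n = b x)
    (x : M) {u : V} (hu : u ∈ (chartAt V x).target) :
    Traces (tr hW (rep F x)) (iV V u) (a ((chartAt V x).symm u)) (b ((chartAt V x).symm u)) := by
  intro n hn1 hn2 hn3
  set n' : W := (iW hW).symm n with hn'
  have hni : iW hW n' = n := (iW hW).apply_symm_apply n
  have h1 : ‖n'‖ = 1 := by rw [hn', (iW hW).symm.norm_map]; exact hn1
  have h2 : ⟪rep F x u, n'⟫ = 0 := by
    rw [← (iW hW).inner_map_map, hni]
    have : tr hW (rep F x) (iV V u) = iW hW (rep F x u) := by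
      unfold tr; rw [(iV V).symm_apply_apply]
    rw [← this]; exact hn2
  have h3 : ∀ i, ⟪pd (rep F x) i u, n'⟫ = 0 := by
    intro i
    rw [← (iW hW).inner_map_map, hni]
    have := hn3 i
    rw [D1_tr] at this
    unfold tr at this
    rwa [(iV V).symm_apply_apply] at this
  obtain ⟨q1, q2, q3⟩ := pointwise hW hF x hu n' h1 h2 h3
  have hG : Matrix.gram ℝ (fun i => D1 (tr hW (rep F x)) i (iV V u)) = metricMat (rep F x) u :=
    G_tr hW (rep F x) u
  have hH := sff_tr hW (rep F x) u n'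
  rw [hni] at hH
  rw [hG, hH, ← q2, ← q3]
  exact ⟨hm _ _ q1, hs _ _ q1⟩

/-- uniqueness of the unit normal up to sign -/
lemma unitNormal_eq [IsManifold 𝓘(ℝ, V) ∞ M] (hW : finrank ℝ W = finrank ℝ V + 2)
    (hF : SphImm V F) (x : M) (n : W) (hn : IsUnitNormal V F x n) :
    ∃ ε : ℝ, ε ^ 2 = 1 ∧ n = ε • nuW hW (rep F x) (chartAt V x x) := by
  set u := chartAt V x x with hu
  have hut : u ∈ (chartAt V x).target := (chartAt V x).map_source (mem_chart_source _ x)
  have hxu : rep F x u = F x := by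
    unfold rep
    rw [hu, (chartAt V x).left_inv (mem_chart_source _ x)]
  have hI := (immV_rep hF x).imm hW
  have hmem : iV V u ∈ (iV V).symm ⁻¹' (chartAt V x).target := by
    rw [mem_preimage, (iV V).symm_apply_apply]; exact hut
  obtain ⟨h1, h2, h3⟩ := hn
  have h4 := eq_smul_nu hI hmem (iW hW n) (by
      have : tr hW (rep F x) (iV V u) = iW hW (F x) := by
        unfold tr; rw [(iV V).symm_apply_apply, hxu]
      rw [this, (iW hW).inner_map_map]; exact h2) (by
      intro i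
      rw [D1_tr]
      unfold tr
      rw [(iV V).symm_apply_apply, (iW hW).inner_map_map]; exact h3 i)
  set ε := ⟪iW hW n, nu (tr hW (rep F x)) (iV V u)⟫ with hε
  refine ⟨ε, ?_, ?_⟩
  · have h5 := congrArg norm h4
    rw [norm_smul, hI.norm_nu hmem, mul_one, (iW hW).norm_map, h1, Real.norm_eq_abs] at h5
    rw [← sq_abs, ← h5]; norm_num
  · have h5 := congrArg (iW hW).symm h4
    rw [(iW hW).symm_apply_apply, map_smul] at h5
    exact h5

/-- A minimal immersion with vanishing second fundamental form is contained in a hyperplane. -/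
lemma totally_geodesic [IsManifold 𝓘(ℝ, V) ∞ M] [ConnectedSpace M]
    (hW : finrank ℝ W = finrank ℝ V + 2) (hF : SphImm V F)
    (hs : ∀ x n, IsUnitNormal V F x n → normSqA V F x n = 0) :
    ∃ a : W, a ≠ 0 ∧ ∀ x, ⟪F x, a⟫ = 0 := by
  obtain ⟨x0⟩ : Nonempty M := inferInstance
  set N : M → W := fun x => nuW hW (rep F x) (chartAt V x x) with hN
  have hNn : ∀ x, IsUnitNormal V F x (N x) := by
    intro x
    have hut : chartAt V x x ∈ (chartAt V x).target :=
      (chartAt V x).map_source (mem_chart_source _ x)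
    have := (pointwise_nu hW hF x hut).1
    rwa [(chartAt V x).left_inv (mem_chart_source _ x)] at this
  set a := N x0 with ha
  -- local constancy
  have hloc : IsLocallyConstant (fun x => ⟪N x, a⟫ ^ 2) := by
    rw [IsLocallyConstant.iff_eventually_eq]
    intro x1
    set χ := chartAt V x1 with hχ
    set f := tr hW (rep F x1) with hf
    have hI := (immV_rep hF x1).imm hW
    have hu1 : χ x1 ∈ χ.target := χ.map_source (mem_chart_source _ x1)
    have hmem : iV V (χ x1) ∈ (iV V).symm ⁻¹' χ.target := by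
      rw [mem_preimage, (iV V).symm_apply_apply]; exact hu1
    obtain ⟨r, hr, hball⟩ := Metric.isOpen_iff.mp hI.isOpen _ hmem
    have hz : EqOn (fderiv ℝ (nu f)) 0 (ball (iV V (χ x1)) r) := by
      intro u hu
      have huT := hball hu
      apply fderiv_nu_zero hI huT
      apply H_eq_zero _ _ (hI.G_posDef huT) (hI.H_symm huT)
      have hut : (iV V).symm u ∈ χ.target := huT
      have h3 := pointwise_nu hW hF x1 hut
      rw [(iV V).apply_symm_apply] at h3
      rw [← hf] at h3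
      rw [← h3.2.2]
      exact hs _ _ h3.1
    have hconst : ∀ u ∈ ball (iV V (χ x1)) r, nu f u = nu f (iV V (χ x1)) := by
      intro u hu
      exact isOpen_ball.is_const_of_fderiv_eq_zero (convex_ball _ _).isPreconnected
        (fun v hv => (hI.diffAt_nu (hball hv)).differentiableWithinAt) hz hu (mem_ball_self hr)
    have hev : ∀ᶠ x in 𝓝 x1, x ∈ χ.source ∧ iV V (χ x) ∈ ball (iV V (χ x1)) r := by
      have h1 : ∀ᶠ x in 𝓝 x1, x ∈ χ.source := χ.open_source.mem_nhds (mem_chart_source _ x1)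
      have h2 : ContinuousAt (fun x => iV V (χ x)) x1 :=
        (iV V).continuous.continuousAt.comp (χ.continuousAt (mem_chart_source _ x1))
      exact h1.and (h2.eventually_mem (isOpen_ball.mem_nhds (mem_ball_self hr)))
    filter_upwards [hev] with x hx
    have hut : χ x ∈ χ.target := χ.map_source hx.1
    have h4 := (pointwise_nu hW hF x1 hut).1
    rw [χ.left_inv hx.1] at h4
    have h5 : nuW hW (rep F x1) (χ x) = N x1 := by
      unfold nuW
      rw [← hf, hconst _ hx.2]
      rfl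
    rw [h5] at h4
    obtain ⟨ε, hε, h6⟩ := unitNormal_eq hW hF x (N x1) h4
    have h7 : N x1 = ε • N x := h6
    rw [h7, inner_smul_left]
    simp only [conj_trivial]
    rw [mul_pow, hε, one_mul]
  have hone : ∀ x, ⟪N x, a⟫ ^ 2 = 1 := by
    intro x
    rw [hloc.apply_eq_of_preconnectedSpace x x0, ← ha, real_inner_self_eq_norm_sq, (hNn x0).1]
    norm_num
  have ha1 : ‖a‖ = 1 := (hNn x0).1
  refine ⟨a, ?_, ?_⟩
  · intro h0
    rw [h0] at ha1
    simp only [norm_zero, zero_ne_one] at ha1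
  · intro x
    have h1 := hone x
    have h2 := (hNn x).1
    -- a = ± N x
    have h3 : ‖a - ⟪N x, a⟫ • N x‖ ^ 2 = 0 := by
      rw [← real_inner_self_eq_norm_sq, inner_sub_left, inner_sub_right, inner_sub_right,
        inner_smul_left, inner_smul_right, inner_smul_left, inner_smul_right,
        real_inner_self_eq_norm_sq, real_inner_self_eq_norm_sq, ha1, h2,
        real_inner_comm (N x) a]
      simp only [conj_trivial]
      linarith only [h1]
    have h4 : a = ⟪N x, a⟫ • N x := by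
      have := norm_eq_zero.mp (pow_eq_zero_iff (two_ne_zero) |>.mp h3)
      exact sub_eq_zero.mp this
    rw [h4, inner_smul_right, (hNn x).2.1, mul_zero]

theorem main_CSC [MeasurableSpace V] [BorelSpace V] [MeasurableSpace M] [BorelSpace M]
    [IsManifold 𝓘(ℝ, V) ∞ M] [CompactSpace M] [ConnectedSpace M]
    (hV : 2 ≤ finrank ℝ V) (hW : finrank ℝ W = finrank ℝ V + 2) (hF : SphImm V F)
    (hmin : ∀ x n, IsUnitNormal V F x n → meanCurv V F x n = 0) (S : ℝ)
    (hS : ∀ x n, IsUnitNormal V F x n → normSqA V F x n = S)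
    (hng : ¬ ∃ a : W, a ≠ 0 ∧ ∀ x, ⟪F x, a⟫ = 0) :
    ENNReal.ofReal (leastClifford (finrank ℝ V)) ≤ volM V F univ := by
  set m := finrank ℝ V with hm
  obtain ⟨x0⟩ : Nonempty M := inferInstance
  have hu : chartAt V x0 x0 ∈ (chartAt V x0).target :=
    (chartAt V x0).map_source (mem_chart_source _ x0)
  have hI := (immV_rep hF x0).imm hW
  have hmem : iV V (chartAt V x0 x0) ∈ (iV V).symm ⁻¹' (chartAt V x0).target := by
    rw [mem_preimage, (iV V).symm_apply_apply]; exact hu
  have h1 : (m : ℝ) * S ≤ S ^ 2 := by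
    apply simons_const hI hmem S
    intro u huT
    have := traces_of_global hW hF (fun _ => 0) (fun _ => S) hmin hS x0
      (u := (iV V).symm u) huT
    rwa [(iV V).apply_symm_apply] at this
  have hS0 : 0 ≤ S := by
    obtain ⟨h2, -, h3⟩ := pointwise_nu hW hF x0 hu
    obtain ⟨κ, -, hκ, -⟩ := exists_kappa _ _ (hI.G_posDef hmem) (hI.H_symm hmem)
    rw [← hS _ _ h2, h3, hκ]
    exact Finset.sum_nonneg fun i _ => sq_nonneg _
  rcases hS0.eq_or_lt with h0 | h0
  · exfalso
    apply hng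
    apply totally_geodesic hW hF
    intro x n hn
    rw [hS x n hn, h0]
  · have h4 : (m : ℝ) ≤ S := by
      by_contra hlt
      push Not at hlt
      nlinarith only [h1, h0, hlt]
    exact main_A hV hW hF hmin (fun x n hn => by rw [hS x n hn]; exact h4)

end Vale.Agent.P224
end
end

section

section

namespace Vale.Agent.P224

open scoped Manifold ContDiff RealInnerProductSpace Topology
open MeasureTheory Metric Module Set Filter

lemma theta_formula_zero (k : ℕ) (hk : 1 ≤ k) :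
    Real.Gamma (((k : ℝ) + 1) / 2) * Real.sqrt Real.pi / 2 =
      Real.Gamma (((k : ℝ) + 2) / 2) / 2 *
        ∫ θ in Ioo (-Real.pi) Real.pi, max (Real.cos θ) 0 ^ k * max (Real.sin θ) 0 ^ 0 := by
  have h := polar_formula k 0 (fun s => Real.exp (- s))
  have e : ∫ z : EuclideanSpace ℝ (Fin 2), Real.exp (- (z 0 ^ 2 + z 1 ^ 2)) *
      (max (z 0) 0 ^ k * max (z 1) 0 ^ 0) =
      Real.Gamma (((k : ℝ) + 1) / 2) * Real.sqrt Real.pi / 2 := by
    rw [integral_E2 (fun p => Real.exp (- (p.1 ^ 2 + p.2 ^ 2)) * (max p.1 0 ^ k * max p.2 0 ^ 0))]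
    have : ∀ p : ℝ × ℝ, Real.exp (- (p.1 ^ 2 + p.2 ^ 2)) * (max p.1 0 ^ k * max p.2 0 ^ 0)
        = (Real.exp (- p.1 ^ 2) * max p.1 0 ^ k) * (Real.exp (- 1 * p.2 ^ 2)) := by
      intro p
      rw [neg_add, Real.exp_add, pow_zero, neg_one_mul]; ring
    simp_rw [this]
    rw [show (volume : Measure (ℝ × ℝ)) = (volume : Measure ℝ).prod volume from rfl,
      integral_prod_mul (fun x : ℝ => Real.exp (- x ^ 2) * max x 0 ^ k)
      (fun y : ℝ => Real.exp (- 1 * y ^ 2)), gauss_max k hk, integral_gaussian]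
    rw [div_one]
    ring
  rw [← e, h]
  have := gauss_Ioi (k + 0 + 1)
  rw [this]
  push_cast
  ring_nf

lemma disc_formula_zero (k : ℕ) (hk : 1 ≤ k) :
    ∫ z in closedBall (0 : EuclideanSpace ℝ (Fin 2)) 1, max (z 0) 0 ^ k =
      Real.Gamma (((k : ℝ) + 1) / 2) * Real.sqrt Real.pi /
        (2 * Real.Gamma ((k : ℝ) / 2 + 2)) := by
  have h := polar_formula k 0 (fun s => if s ≤ 1 then 1 else 0)
  have e1 : ∫ z in closedBall (0 : EuclideanSpace ℝ (Fin 2)) 1, max (z 0) 0 ^ k
      = ∫ z : EuclideanSpace ℝ (Fin 2), (if z 0 ^ 2 + z 1 ^ 2 ≤ 1 then (1 : ℝ) else 0) *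
        (max (z 0) 0 ^ k * max (z 1) 0 ^ 0) := by
    rw [← integral_indicator measurableSet_closedBall]
    congr 1
    funext z
    have : z ∈ closedBall (0 : EuclideanSpace ℝ (Fin 2)) 1 ↔ z 0 ^ 2 + z 1 ^ 2 ≤ 1 := by
      rw [mem_closedBall_zero_iff, EuclideanSpace.norm_eq, Real.sqrt_le_one]
      simp only [Real.norm_eq_abs, sq_abs, Fin.sum_univ_two, Fin.isValue]
    by_cases hz : z ∈ closedBall (0 : EuclideanSpace ℝ (Fin 2)) 1
    · rw [indicator_of_mem hz, if_pos (this.mp hz), one_mul, pow_zero, mul_one]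
    · rw [indicator_of_notMem hz, if_neg (fun h => hz (this.mpr h)), zero_mul]
  have e2 : ∫ r in Ioi (0 : ℝ), r ^ (k + 0 + 1) * (if r ^ 2 ≤ 1 then (1 : ℝ) else 0)
      = 1 / ((k : ℝ) + 2) := by
    have : ∫ r in Ioi (0 : ℝ), r ^ (k + 0 + 1) * (if r ^ 2 ≤ 1 then (1 : ℝ) else 0)
        = ∫ r in (0 : ℝ)..1, r ^ (k + 0 + 1) := by
      rw [intervalIntegral.integral_of_le zero_le_one, ← integral_indicator measurableSet_Ioi,
        ← integral_indicator measurableSet_Ioc]
      congr 1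
      funext r
      by_cases hr : 0 < r
      · rw [indicator_of_mem (by exact hr)]
        by_cases hr1 : r ≤ 1
        · rw [indicator_of_mem (by exact ⟨hr, hr1⟩), if_pos (by nlinarith only [hr1, hr]), mul_one]
        · rw [indicator_of_notMem (by intro h; exact hr1 h.2), if_neg (by push Not at *; nlinarith only [hr1]),
            mul_zero]
      · rw [indicator_of_notMem (by exact hr), indicator_of_notMem (by intro h; exact hr h.1)]
    rw [this, integral_pow]
    push_cast
    norm_num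
    ring_nf
  rw [e1, h, e2]
  have ht := theta_formula_zero k hk
  set Θ := ∫ θ in Ioo (-Real.pi) Real.pi, max (Real.cos θ) 0 ^ k * max (Real.sin θ) 0 ^ 0
  have hG : Real.Gamma ((k : ℝ) / 2 + 2)
      = ((k : ℝ) / 2 + 1) * Real.Gamma (((k : ℝ) + 2) / 2) := by
    rw [show (k : ℝ) / 2 + 2 = ((k : ℝ) / 2 + 1) + 1 by ring,
      Real.Gamma_add_one (by (clear * - hk; (clear * - hk; positivity)))]
    congr 2
    ring
  have hpos : 0 < Real.Gamma (((k : ℝ) + 2) / 2) := Real.Gamma_pos_of_pos (by positivity)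
  rw [hG]
  have hk' : (0 : ℝ) < (k : ℝ) + 2 := by positivity
  field_simp
  field_simp at ht
  linarith only [ht]

lemma J_zero {m : ℕ} (hm : 1 ≤ m) (κ : Fin m → ℝ) : J (fun i => 0 * κ i) = ballVol m / sphereVol m := by
  have h1 : J (fun i => 0 * κ i) = ∫ z in closedBall (0 : EuclideanSpace ℝ (Fin 2)) 1,
      max (z 0) 0 ^ m := by
    unfold J P
    simp only [Fin.isValue, zero_mul, mul_zero, sub_zero, Finset.prod_const, Finset.card_univ, Fintype.card_fin]
  rw [h1, disc_formula_zero m hm]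
  unfold ballVol sphereVol
  have g1 : 0 < Real.Gamma (((m : ℝ) + 1) / 2) := Real.Gamma_pos_of_pos (by (clear * - hm; (clear * - hm; positivity)))
  have g2 : 0 < Real.Gamma ((m : ℝ) / 2 + 2) := Real.Gamma_pos_of_pos (by positivity)
  have hπ := Real.pi_pos
  have h2 : Real.pi ^ (((m : ℝ) + 2) / 2) = Real.pi ^ (((m : ℝ) + 1) / 2) * Real.sqrt Real.pi := by
    rw [Real.sqrt_eq_rpow, ← Real.rpow_add hπ]
    congr 1
    ring
  rw [h2]
  have h3 : 0 < Real.pi ^ (((m : ℝ) + 1) / 2) := Real.rpow_pos_of_pos hπ _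
  (clear * - hm; (clear * - hm; field_simp))

lemma leastClifford_pos {m : ℕ} (hm : 2 ≤ m) : 0 < leastClifford m := by
  unfold leastClifford
  have hne : Nonempty (Set.Ico 1 m) := ⟨⟨1, by simp only [mem_Ico, Std.le_refl, true_and]; omega⟩⟩
  have hfin : Finite (Set.Ico 1 m) := (Set.finite_Ico 1 m).to_subtype
  obtain ⟨k, hk⟩ := exists_eq_ciInf_of_finite (f := fun k : Set.Ico 1 m => cliffordVol m k)
  rw [← hk]
  exact cliffordVol_pos k.2.1 k.2.2

variable {V W M : Type*} [NormedAddCommGroup V] [InnerProductSpace ℝ V] [FiniteDimensional ℝ V]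
  [NormedAddCommGroup W] [InnerProductSpace ℝ W] [FiniteDimensional ℝ W]
  [TopologicalSpace M] [ChartedSpace V M] {F : M → W}

omit [FiniteDimensional ℝ W] in
lemma normSqA_smul (F : M → W) (x : M) (n : W) (ε : ℝ) :
    normSqA V F x (ε • n) = ε ^ 2 * normSqA V F x n := by
  unfold normSqA
  have : shapeMat (rep F x) (chartAt V x x) (ε • n)
      = ε • shapeMat (rep F x) (chartAt V x x) n := by
    unfold shapeMat
    rw [← Matrix.mul_smul]
    congr 1
    ext i j
    simp only [inner_smul_right, Matrix.of_apply, Matrix.smul_apply, smul_eq_mul]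
  rw [this, smul_pow, Matrix.trace_smul, smul_eq_mul]

/-- the squared norm of the second fundamental form as a function -/
noncomputable def nS (hW : finrank ℝ W = finrank ℝ V + 2) (F : M → W) (x : M) : ℝ :=
  normSqA V F x (nuW hW (rep F x) (chartAt V x x))

lemma normSqA_eq_nS [IsManifold 𝓘(ℝ, V) ∞ M] (hW : finrank ℝ W = finrank ℝ V + 2)
    (hF : SphImm V F) {x : M} {n : W} (hn : IsUnitNormal V F x n) :
    normSqA V F x n = nS hW F x := by
  obtain ⟨ε, hε, h⟩ := unitNormal_eq hW hF x n hn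
  rw [h, normSqA_smul, hε, one_mul]
  rfl

lemma isUnitNormal_nuW [IsManifold 𝓘(ℝ, V) ∞ M] (hW : finrank ℝ W = finrank ℝ V + 2)
    (hF : SphImm V F) (x : M) : IsUnitNormal V F x (nuW hW (rep F x) (chartAt V x x)) := by
  have hut : chartAt V x x ∈ (chartAt V x).target :=
    (chartAt V x).map_source (mem_chart_source _ x)
  have := (pointwise_nu hW hF x hut).1
  rwa [(chartAt V x).left_inv (mem_chart_source _ x)] at this

lemma continuous_nS [IsManifold 𝓘(ℝ, V) ∞ M] (hW : finrank ℝ W = finrank ℝ V + 2)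
    (hF : SphImm V F) : Continuous (nS hW F) := by
  rw [continuous_iff_continuousAt]
  intro x1
  set χ := chartAt V x1 with hχ
  set f := tr hW (rep F x1) with hf
  have hI := (immV_rep hF x1).imm hW
  have hu1 : χ x1 ∈ χ.target := χ.map_source (mem_chart_source _ x1)
  have hmem : iV V (χ x1) ∈ (iV V).symm ⁻¹' χ.target := by
    rw [mem_preimage, (iV V).symm_apply_apply]; exact hu1
  have hev : (fun y => (((G f (iV V (χ y)))⁻¹ * H f (iV V (χ y))) *
        ((G f (iV V (χ y)))⁻¹ * H f (iV V (χ y)))).trace) =ᶠ[𝓝 x1] nS hW F := by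
    filter_upwards [χ.open_source.mem_nhds (mem_chart_source _ x1)] with y hy
    have hut : χ y ∈ χ.target := χ.map_source hy
    obtain ⟨h1, -, h3⟩ := pointwise_nu hW hF x1 hut
    rw [χ.left_inv hy] at h1 h3
    rw [← normSqA_eq_nS hW hF h1, h3]
  have hc : ContinuousOn (fun u => (((G f u)⁻¹ * H f u) * ((G f u)⁻¹ * H f u)).trace)
      ((iV V).symm ⁻¹' χ.target) := by
    have hG := hI.continuousOn_G
    have hH := hI.continuousOn_H
    have hGi : ContinuousOn (fun u => (G f u)⁻¹) ((iV V).symm ⁻¹' χ.target) := by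
      intro u hu
      have hdet : (G f u).det ≠ 0 := (hI.G_posDef hu).det_pos.ne'
      have h1 : ContinuousWithinAt (fun u => (G f u).det) ((iV V).symm ⁻¹' χ.target) u :=
        (continuous_id.matrix_det.continuousAt (x := G f u)).comp_continuousWithinAt (hG u hu)
      have h2 : ContinuousWithinAt (fun u => (G f u).adjugate) ((iV V).symm ⁻¹' χ.target) u :=
        (continuous_id.matrix_adjugate.continuousAt (x := G f u)).comp_continuousWithinAt (hG u hu)
      have h3 : ContinuousWithinAt (fun u => ((G f u).det)⁻¹ • (G f u).adjugate)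
          ((iV V).symm ⁻¹' χ.target) u := (h1.inv₀ hdet).smul h2
      have e3 : (fun u => (G f u)⁻¹) = fun u => ((G f u).det)⁻¹ • (G f u).adjugate := by
        funext v
        rw [Matrix.inv_def, Ring.inverse_eq_inv']
      rw [e3]
      exact h3
    have hK : ContinuousOn (fun u => (G f u)⁻¹ * H f u) ((iV V).symm ⁻¹' χ.target) :=
      hGi.mul hH
    have hKK : ContinuousOn (fun u => ((G f u)⁻¹ * H f u) * ((G f u)⁻¹ * H f u))
        ((iV V).symm ⁻¹' χ.target) := hK.mul hK
    exact (continuous_id.matrix_trace).comp_continuousOn hKK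
  have h4 : ContinuousAt (fun y => iV V (χ y)) x1 :=
    (iV V).continuous.continuousAt.comp (χ.continuousAt (mem_chart_source _ x1))
  have h5 : ContinuousAt (fun y => (((G f (iV V (χ y)))⁻¹ * H f (iV V (χ y))) *
        ((G f (iV V (χ y)))⁻¹ * H f (iV V (χ y)))).trace) x1 :=
    ContinuousAt.comp (f := fun y => iV V (χ y))
      (g := fun u => (((G f u)⁻¹ * H f u) * ((G f u)⁻¹ * H f u)).trace)
      (hc.continuousAt (hI.isOpen.mem_nhds hmem)) h4
  exact h5.congr hev

theorem main_B [MeasurableSpace V] [BorelSpace V] [MeasurableSpace M] [BorelSpace M]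
    [IsManifold 𝓘(ℝ, V) ∞ M] [CompactSpace M] [Nonempty M]
    (hV : 2 ≤ finrank ℝ V) (hW : finrank ℝ W = finrank ℝ V + 2) (hF : SphImm V F)
    (hmin : ∀ x n, IsUnitNormal V F x n → meanCurv V F x n = 0) :
    1 ≤ volM V F {x | ∀ n, IsUnitNormal V F x n → (finrank ℝ V : ℝ) ≤ normSqA V F x n} /
        ENNReal.ofReal (leastClifford (finrank ℝ V)) +
      volM V F {x | ∀ n, IsUnitNormal V F x n → (finrank ℝ V : ℝ) ≤ normSqA V F x n}ᶜ /
        ENNReal.ofReal (sphereVol (finrank ℝ V)) := by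
  set m := finrank ℝ V with hm
  set A : Set M := {x | ∀ n, IsUnitNormal V F x n → (m : ℝ) ≤ normSqA V F x n} with hA
  have hA' : A = {x | (m : ℝ) ≤ nS hW F x} := by
    ext x
    constructor
    · intro h
      exact h _ (isUnitNormal_nuW hW hF x)
    · intro h n hn
      rw [normSqA_eq_nS hW hF hn]
      exact h
  have hAm : MeasurableSet A := by
    rw [hA']
    exact (isClosed_le continuous_const (continuous_nS hW hF)).measurableSet
  have hb0 := ballVol_pos m
  have hs0 := sphereVol_pos m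
  have hc0 := leastClifford_pos hV
  have key := ball_le hW hF A hAm (ballVol m / leastClifford m) (ballVol m / sphereVol m)
    (by
      intro x u hu hxA κ hκ
      obtain ⟨h1, h2, h3⟩ := pointwise_nu hW hF x hu
      have hsum : ∑ i, κ i = 0 := by rw [← hκ.1, ← h2]; exact hmin _ _ h1
      have hsq : (m : ℝ) ≤ ∑ i, κ i ^ 2 := by rw [← hκ.2.1, ← h3]; exact hxA _ h1
      rw [le_div_iff₀ hc0]
      exact J_le hV κ hsum hsq)
    (by
      intro x u hu _ κ hκ
      obtain ⟨h1, h2, h3⟩ := pointwise_nu hW hF x hu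
      have hsum : ∑ i, κ i = 0 := by rw [← hκ.1, ← h2]; exact hmin _ _ h1
      rw [← J_zero (by omega) κ]
      exact J_scale (by omega) κ hsum le_rfl zero_le_one)
  have h1 : ENNReal.ofReal (ballVol m) ≠ 0 := by
    rw [ne_eq, ENNReal.ofReal_eq_zero, not_le]; exact hb0
  rw [ENNReal.ofReal_div_of_pos hc0, ENNReal.ofReal_div_of_pos hs0] at key
  have h2 : ENNReal.ofReal (ballVol m) * 1 ≤ ENNReal.ofReal (ballVol m) *
      (volM V F A / ENNReal.ofReal (leastClifford m) +
        volM V F Aᶜ / ENNReal.ofReal (sphereVol m)) := by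
    rw [mul_one, mul_add]
    refine key.trans (le_of_eq ?_)
    simp only [div_eq_mul_inv]
    ring
  exact (ENNReal.mul_le_mul_iff_right h1 ENNReal.ofReal_ne_top).mp h2

end Vale.Agent.P224
end
end

section

section

namespace Vale.Agent.P224.FV

open Matrix MeasureTheory Module Function Set
open scoped RealInnerProductSpace Topology ContDiff Manifold

set_option linter.unusedSectionVars false

section

variable {V W M : Type*} [NormedAddCommGroup V] [InnerProductSpace ℝ V] [FiniteDimensional ℝ V]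
  [NormedAddCommGroup W] [InnerProductSpace ℝ W] [FiniteDimensional ℝ W]
  [TopologicalSpace M] [ChartedSpace V M] [MeasurableSpace V] [BorelSpace V]
  [MeasurableSpace M] [BorelSpace M]

variable (V) in
/-- the volume measure read in a chart -/
def VolChart (F : M → W) : Prop :=
  ∀ x : M, (volM V F).restrict (chartAt V x).source =
    ((volume.withDensity fun u : V =>
      ENNReal.ofReal (Real.sqrt (metricMat (rep F x) u).det)).restrict (chartAt V x).target).map
        (chartAt V x).symm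

lemma continuousOn_sqrt_det [IsManifold 𝓘(ℝ, V) ∞ M] {F : M → W} (hF : SphImm V F) (x : M) :
    ContinuousOn (fun u : V => Real.sqrt (metricMat (rep F x) u).det) (chartAt V x).target := by
  intro u hu
  have hI := immV_rep hF x
  have h1 : ContDiffAt ℝ 1 (rep (V := V) F x) u :=
    (hI.smooth.contDiffAt (hI.isOpen.mem_nhds hu)).of_le (by norm_cast)
  exact (contDiffAt_sqrt (n := 0) h1 (lG_det_pos (hI.inj u hu)).ne').continuousAt.continuousWithinAt

/-- change of variables for the volume -/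
lemma integral_chart [IsManifold 𝓘(ℝ, V) ∞ M] {F : M → W} (hF : SphImm V F)
    (hV : VolChart V F) (x : M) {g : M → ℝ} (hg : Continuous g)
    (hs : ∀ p, p ∉ (chartAt V x).source → g p = 0) :
    ∫ p, g p ∂(volM V F) = ∫ u in (chartAt V x).target,
      Real.sqrt (metricMat (rep F x) u).det * g ((chartAt V x).symm u) := by
  have h1 : ∫ p, g p ∂(volM V F) = ∫ p in (chartAt V x).source, g p ∂(volM V F) :=
    (setIntegral_eq_integral_of_forall_compl_eq_zero hs).symm
  have hT := (chartAt V x).open_target.measurableSet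
  have hae : AEMeasurable (chartAt V x).symm ((volume.withDensity fun u : V =>
      ENNReal.ofReal (Real.sqrt (metricMat (rep F x) u).det)).restrict (chartAt V x).target) :=
    (chartAt V x).continuousOn_symm.aemeasurable hT
  rw [h1, hV x, integral_map hae hg.aestronglyMeasurable, restrict_withDensity hT,
    integral_withDensity_eq_integral_toReal_smul₀]
  · refine integral_congr_ae ?_
    filter_upwards with u
    rw [ENNReal.toReal_ofReal (Real.sqrt_nonneg _), smul_eq_mul]
  · exact ((continuousOn_sqrt_det hF x).aemeasurable hT).ennreal_ofReal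
  · filter_upwards with u
    exact ENNReal.ofReal_lt_top

lemma dl_zero_of_notMem {F : M → W} (a : W) {h : M → ℝ} {p : M} (hp : p ∉ tsupport h) :
    dl V F a h p = 0 := by
  have h1 : ∀ᶠ q in 𝓝 p, h q = 0 := by
    filter_upwards [(isClosed_tsupport h).isOpen_compl.mem_nhds hp] with q hq
    exact image_eq_zero_of_notMem_tsupport hq
  have hpT : chartAt V p p ∈ (chartAt V p).target :=
    (chartAt V p).map_source (mem_chart_source _ p)
  have hc : ContinuousAt (chartAt V p).symm (chartAt V p p) := (chartAt V p).continuousAt_symm hpT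
  have h2 : rep (V := V) h p =ᶠ[𝓝 (chartAt V p p)] fun _ => 0 := by
    have h3 : Filter.Tendsto (chartAt V p).symm (𝓝 (chartAt V p p)) (𝓝 p) := by
      have := hc.tendsto
      rwa [(chartAt V p).left_inv (mem_chart_source _ p)] at this
    exact h3.eventually h1
  unfold dl
  rw [h2.fderiv_eq]
  simp only [fderiv_fun_const, Pi.zero_apply, _root_.zero_apply]

/-- the first variation formula for functions supported in a chart -/
lemma stokes_chart [IsManifold 𝓘(ℝ, V) ∞ M] [CompactSpace M] [T2Space M]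
    (hW : finrank ℝ W = finrank ℝ V + 2) {F : M → W}
    (hF : SphImm V F) (hmin : ∀ x n, IsUnitNormal V F x n → meanCurv V F x n = 0)
    (hV : VolChart V F) (a : W) {h : M → ℝ} (hh : ContMDiff 𝓘(ℝ, V) 𝓘(ℝ, ℝ) ∞ h) (x : M)
    (hs : tsupport h ⊆ (chartAt V x).source) :
    ∫ p, dl V F a h p ∂(volM V F) = (finrank ℝ V : ℝ) * ∫ p, ⟪a, F p⟫ * h p ∂(volM V F) := by
  have hL := locMin_rep hW hF hmin x
  set T := (chartAt V x).target with hTdef
  set f := rep (V := V) F x with hf
  have hTm : MeasurableSet T := (chartAt V x).open_target.measurableSet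
  set φ : V → ℝ := T.indicator (rep (V := V) h x) with hφ
  set K : Set V := chartAt V x '' tsupport h with hK
  have hKc : IsCompact K :=
    (isClosed_tsupport h).isCompact.image_of_continuousOn ((chartAt V x).continuousOn.mono hs)
  have hKT : K ⊆ T := by
    rintro _ ⟨p, hp, rfl⟩
    exact (chartAt V x).map_source (hs hp)
  have hφ0 : ∀ u, u ∉ K → φ u = 0 := by
    intro u hu
    by_cases huT : u ∈ T
    · rw [hφ, indicator_of_mem huT]
      unfold rep
      apply image_eq_zero_of_notMem_tsupport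
      intro hmem
      exact hu ⟨_, hmem, (chartAt V x).right_inv huT⟩
    · rw [hφ, indicator_of_notMem huT]
  have hφs : tsupport φ ⊆ K := by
    apply closure_minimal _ hKc.isClosed
    intro u hu
    by_contra h
    exact hu (hφ0 u h)
  have hφc : HasCompactSupport φ := hKc.of_isClosed_subset (isClosed_tsupport φ) hφs
  have hφT : ∀ u ∈ T, φ =ᶠ[𝓝 u] rep (V := V) h x := by
    intro u hu
    filter_upwards [(chartAt V x).open_target.mem_nhds hu] with v hv
    rw [hφ, indicator_of_mem hv]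
  have hφd : ContDiff ℝ 1 φ := by
    rw [contDiff_iff_contDiffAt]
    intro u
    by_cases huT : u ∈ T
    · have : ContDiffAt ℝ 1 (rep (V := V) h x) u :=
        ((rep_contDiffOn hh x).contDiffAt ((chartAt V x).open_target.mem_nhds huT)).of_le
          (by norm_cast)
      exact this.congr_of_eventuallyEq (hφT u huT)
    · have huK : u ∉ K := fun h => huT (hKT h)
      have : φ =ᶠ[𝓝 u] fun _ => 0 := by
        filter_upwards [hKc.isClosed.isOpen_compl.mem_nhds huK] with v hv
        exact hφ0 v hv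
      exact contDiffAt_const.congr_of_eventuallyEq this
  have key := hL.stokes a hφd hφc (hφs.trans hKT)
  have hcdl := continuous_dl hF a hh
  have hsrc : ∀ p, p ∉ (chartAt V x).source → p ∉ tsupport h := fun p hp hp' => hp (hs hp')
  rw [integral_chart hF hV x hcdl (fun p hp => dl_zero_of_notMem a (hsrc p hp))]
  have hcF : Continuous F := hF.smooth.continuous
  rw [integral_chart hF hV x (g := fun p => ⟪a, F p⟫ * h p)
    ((continuous_const.inner hcF).mul hh.continuous)
    (fun p hp => by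
      rw [image_eq_zero_of_notMem_tsupport (hsrc p hp), mul_zero])]
  have e1 : ∫ u in T, Real.sqrt (metricMat f u).det * dl V F a h ((chartAt V x).symm u)
      = ∫ u, Real.sqrt (lG f u).det * fderiv ℝ φ u (vW f a u) := by
    have e0 : ∀ u, u ∉ T → Real.sqrt (lG f u).det * fderiv ℝ φ u (vW f a u) = 0 := by
      intro u hu
      have huK : u ∉ K := fun h => hu (hKT h)
      have : φ =ᶠ[𝓝 u] fun _ => 0 := by
        filter_upwards [hKc.isClosed.isOpen_compl.mem_nhds huK] with v hv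
        exact hφ0 v hv
      rw [this.fderiv_eq]
      simp only [fderiv_fun_const, Pi.zero_apply, _root_.zero_apply, mul_zero]
    rw [← setIntegral_eq_integral_of_forall_compl_eq_zero e0]
    · apply setIntegral_congr_fun hTm
      intro u hu
      simp only
      have hps : (chartAt V x).symm u ∈ (chartAt V x).source := (chartAt V x).map_target hu
      have hri : chartAt V x ((chartAt V x).symm u) = u := (chartAt V x).right_inv hu
      rw [dl_eq hF a hps (by rw [hri]; exact rep_differentiableAt hh x hu), hri,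
        (hφT u hu).fderiv_eq]
      rfl
  have e2 : ∫ u in T, Real.sqrt (metricMat f u).det *
        (⟪a, F ((chartAt V x).symm u)⟫ * h ((chartAt V x).symm u))
      = ∫ u, Real.sqrt (lG f u).det * ⟪a, f u⟫ * φ u := by
    have e0 : ∀ u, u ∉ T → Real.sqrt (lG f u).det * ⟪a, f u⟫ * φ u = 0 := by
      intro u hu
      rw [hφ, indicator_of_notMem hu, mul_zero]
    rw [← setIntegral_eq_integral_of_forall_compl_eq_zero e0]
    · apply setIntegral_congr_fun hTm
      intro u hu
      simp only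
      rw [hφ, indicator_of_mem hu, ← mul_assoc]
      rfl
  rw [e1, e2, key]

lemma integrable_of_cont [CompactSpace M] (μ : Measure M) [IsFiniteMeasure μ] {g : M → ℝ}
    (hg : Continuous g) : Integrable g μ :=
  hg.integrable_of_hasCompactSupport (HasCompactSupport.of_compactSpace g)

/-- the first variation formula -/
theorem first_variation [IsManifold 𝓘(ℝ, V) ∞ M] [CompactSpace M] [T2Space M]
    (hW : finrank ℝ W = finrank ℝ V + 2) {F : M → W}
    (hF : SphImm V F) (hmin : ∀ x n, IsUnitNormal V F x n → meanCurv V F x n = 0)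
    (hV : VolChart V F) [IsFiniteMeasure (volM V F)] (a : W) {h : M → ℝ}
    (hh : ContMDiff 𝓘(ℝ, V) 𝓘(ℝ, ℝ) ∞ h) :
    ∫ p, dl V F a h p ∂(volM V F) = (finrank ℝ V : ℝ) * ∫ p, ⟪a, F p⟫ * h p ∂(volM V F) := by
  obtain ⟨t, ht⟩ := (isCompact_univ (X := M)).elim_nhds_subcover
      (fun x => (chartAt V x).source)
      (fun x _ => (chartAt V x).open_source.mem_nhds (mem_chart_source _ x))
  obtain ⟨ρ, hρ⟩ := SmoothPartitionOfUnity.exists_isSubordinate (I := 𝓘(ℝ, V)) (M := M)
    isClosed_univ (fun i : t => (chartAt V (i : M)).source) (fun i => (chartAt V (i : M)).open_source)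
    (by
      intro y hy
      have := ht.2 hy
      simp only [mem_iUnion] at this
      obtain ⟨z, hz, hyz⟩ := this
      exact mem_iUnion.mpr ⟨⟨z, hz⟩, hyz⟩)
  have hsum : ∀ p, ∑ i, ρ i p = 1 := by
    intro p
    have := ρ.sum_eq_one (mem_univ p)
    rwa [finsum_eq_sum_of_fintype] at this
  have hsm : ∀ i, ContMDiff 𝓘(ℝ, V) 𝓘(ℝ, ℝ) ∞ (fun p => ρ i p * h p) := fun i =>
    (ρ i).contMDiff.mul hh
  have hts : ∀ i, tsupport (fun p => ρ i p * h p) ⊆ (chartAt V (i : M)).source := fun i =>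
    (tsupport_mul_subset_left).trans (hρ i)
  have hdl : ∀ p, dl V F a h p = ∑ i, dl V F a (fun p => ρ i p * h p) p := by
    intro p
    unfold dl
    rw [← _root_.sum_apply, ← fderiv_fun_sum (fun i _ => rep_diff_self (hsm i) p)]
    congr 2
    funext u
    simp only [rep]
    rw [← Finset.sum_mul, hsum, one_mul]
  have hcont : Continuous F := hF.smooth.continuous
  calc ∫ p, dl V F a h p ∂(volM V F)
      = ∫ p, ∑ i, dl V F a (fun p => ρ i p * h p) p ∂(volM V F) := by simp only [hdl]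
    _ = ∑ i, ∫ p, dl V F a (fun p => ρ i p * h p) p ∂(volM V F) :=
        integral_finsetSum _ (fun i _ => integrable_of_cont _ (continuous_dl hF a (hsm i)))
    _ = ∑ i, (finrank ℝ V : ℝ) * ∫ p, ⟪a, F p⟫ * (ρ i p * h p) ∂(volM V F) :=
        Finset.sum_congr rfl fun i _ => stokes_chart hW hF hmin hV a (hsm i) i (hts i)
    _ = (finrank ℝ V : ℝ) * ∫ p, ∑ i, ⟪a, F p⟫ * (ρ i p * h p) ∂(volM V F) := by
        rw [← Finset.mul_sum, integral_finsetSum]
        intro i _
        exact integrable_of_cont _ ((continuous_const.inner hcont).mul (hsm i).continuous)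
    _ = _ := by
        congr 1
        refine integral_congr_ae ?_
        filter_upwards with p
        rw [← Finset.mul_sum, ← Finset.sum_mul, hsum, one_mul]

end

end Vale.Agent.P224.FV
end
end

section

section

namespace Vale.Agent.P224.FV

open Matrix MeasureTheory Module Function Set
open scoped RealInnerProductSpace Topology ContDiff Manifold

set_option linter.unusedSectionVars false

section

variable {V W M : Type*} [NormedAddCommGroup V] [InnerProductSpace ℝ V] [FiniteDimensional ℝ V]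
  [NormedAddCommGroup W] [InnerProductSpace ℝ W] [FiniteDimensional ℝ W]
  [TopologicalSpace M] [ChartedSpace V M]

lemma dl_mul [IsManifold 𝓘(ℝ, V) ∞ M] {F : M → W} (a : W) {h k : M → ℝ}
    (hh : ContMDiff 𝓘(ℝ, V) 𝓘(ℝ, ℝ) ∞ h) (hk : ContMDiff 𝓘(ℝ, V) 𝓘(ℝ, ℝ) ∞ k) (p : M) :
    dl V F a (fun q => h q * k q) p = dl V F a h p * k p + h p * dl V F a k p := by
  unfold dl
  have e : rep (V := V) (fun q => h q * k q) p = fun u => rep (V := V) h p u * rep (V := V) k p u :=
    rfl
  have hp : ∀ g : M → ℝ, rep (V := V) g p (chartAt V p p) = g p := by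
    intro g
    unfold rep; rw [(chartAt V p).left_inv (mem_chart_source _ p)]
  rw [e, fderiv_fun_mul (rep_diff_self hh p) (rep_diff_self hk p)]
  simp only [hp, _root_.add_apply, _root_.smul_apply, smul_eq_mul]
  ring

lemma dl_inner [IsManifold 𝓘(ℝ, V) ∞ M] {F : M → W} (a : W) {h : M → W}
    (hh : ContMDiff 𝓘(ℝ, V) 𝓘(ℝ, W) ∞ h) (y : W) (p : M) :
    dl V F a (fun q => ⟪h q, y⟫) p = ⟪dl V F a h p, y⟫ := by
  unfold dl
  have e : rep (V := V) (fun q => ⟪h q, y⟫) p = fun u => ⟪rep (V := V) h p u, y⟫ := rfl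
  rw [e, fderiv_inner_apply ℝ (rep_diff_self hh p) (differentiableAt_const y)]
  simp only [fderiv_fun_const, Pi.zero_apply, _root_.zero_apply, inner_zero_right, zero_add]

lemma dl_comp [IsManifold 𝓘(ℝ, V) ∞ M] {F : M → W} (a : W) {h : M → ℝ}
    (hh : ContMDiff 𝓘(ℝ, V) 𝓘(ℝ, ℝ) ∞ h) {w : ℝ → ℝ} {w' : ℝ} (p : M)
    (hw : HasDerivAt w w' (h p)) :
    dl V F a (fun q => w (h q)) p = w' * dl V F a h p := by
  unfold dl
  have hp : rep (V := V) h p (chartAt V p p) = h p := by
    unfold rep; rw [(chartAt V p).left_inv (mem_chart_source _ p)]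
  have e : rep (V := V) (fun q => w (h q)) p = w ∘ rep (V := V) h p := rfl
  have hw2 : HasDerivAt w w' (rep (V := V) h p (chartAt V p p)) := by rw [hp]; exact hw
  have := hw2.comp_hasFDerivAt (chartAt V p p) (rep_diff_self hh p).hasFDerivAt
  rw [e, this.fderiv]
  simp

lemma smooth_inner {h : M → W}
    (hh : ContMDiff 𝓘(ℝ, V) 𝓘(ℝ, W) ∞ h) (y : W) :
    ContMDiff 𝓘(ℝ, V) 𝓘(ℝ, ℝ) ∞ (fun q => ⟪h q, y⟫) := by
  have h1 : ContDiff ℝ ∞ (fun z : W => ⟪z, y⟫) := contDiff_id.inner ℝ contDiff_const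
  exact h1.comp_contMDiff hh

lemma smooth_comp {h : M → ℝ}
    (hh : ContMDiff 𝓘(ℝ, V) 𝓘(ℝ, ℝ) ∞ h) {w : ℝ → ℝ} (hw : ∀ p, ContDiffAt ℝ ∞ w (h p)) :
    ContMDiff 𝓘(ℝ, V) 𝓘(ℝ, ℝ) ∞ (fun q => w (h q)) := fun p =>
  (hw p).comp_contMDiffAt (hh p)

variable [MeasurableSpace V] [BorelSpace V] [MeasurableSpace M] [BorelSpace M]

/-- first identity, general kernel -/
theorem ident1 [IsManifold 𝓘(ℝ, V) ∞ M] [CompactSpace M] [T2Space M]
    (hW : finrank ℝ W = finrank ℝ V + 2) {F : M → W}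
    (hF : SphImm V F) (hmin : ∀ x n, IsUnitNormal V F x n → meanCurv V F x n = 0)
    (hV : VolChart V F) [IsFiniteMeasure (volM V F)] {N : M → W}
    (hN : ∀ x, IsUnitNormal V F x (N x)) {y : W} (hy : ‖y‖ = 1) {w : ℝ → ℝ}
    (hw : ∀ p, ContDiffAt ℝ ∞ w ⟪F p, y⟫) :
    ∫ p, deriv w ⟪F p, y⟫ * (1 - ⟪F p, y⟫ ^ 2 - ⟪N p, y⟫ ^ 2) ∂(volM V F)
      = (finrank ℝ V : ℝ) * ∫ p, ⟪F p, y⟫ * w ⟪F p, y⟫ ∂(volM V F) := by
  have hs := smooth_comp (smooth_inner hF.smooth y) hw
  have h1 := first_variation hW hF hmin hV y hs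
  have e1 : ∀ p, dl V F y (fun q => w ⟪F q, y⟫) p
      = deriv w ⟪F p, y⟫ * (1 - ⟪F p, y⟫ ^ 2 - ⟪N p, y⟫ ^ 2) := by
    intro p
    have hd : HasDerivAt w (deriv w ⟪F p, y⟫) ⟪F p, y⟫ :=
      ((hw p).differentiableAt (by norm_num)).hasDerivAt
    rw [dl_comp y (smooth_inner hF.smooth y) p hd, dl_inner y hF.smooth, dl_F hW hF hN]
    simp only [inner_sub_left, real_inner_self_eq_norm_sq, hy, real_inner_smul_left]
    rw [real_inner_comm (F p) y, real_inner_comm (N p) y]
    ring
  simp only [e1] at h1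
  rw [h1]
  congr 1
  refine integral_congr_ae ?_
  filter_upwards with p
  rw [real_inner_comm]

/-- second identity, general kernel -/
theorem ident2 [IsManifold 𝓘(ℝ, V) ∞ M] [CompactSpace M] [T2Space M]
    (hW : finrank ℝ W = finrank ℝ V + 2) {F : M → W}
    (hF : SphImm V F) (hmin : ∀ x n, IsUnitNormal V F x n → meanCurv V F x n = 0)
    (hV : VolChart V F) [IsFiniteMeasure (volM V F)] {N : M → W}
    (hNs : ContMDiff 𝓘(ℝ, V) 𝓘(ℝ, W) ∞ N)
    (hN : ∀ x, IsUnitNormal V F x (N x)) {y b : W} (hy : ‖y‖ = 1) (hyb : ⟪y, b⟫ = 0) {w : ℝ → ℝ}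
    (hw : ∀ p, ContDiffAt ℝ ∞ w ⟪F p, y⟫) :
    ∫ p, deriv w ⟪F p, y⟫ * (⟪N p, b⟫ * (1 - ⟪F p, y⟫ ^ 2)
        + ⟪N p, y⟫ * ⟪F p, b⟫ * ⟪F p, y⟫) ∂(volM V F)
      = (finrank ℝ V : ℝ) * ∫ p, (⟪F p, y⟫ * ⟪N p, b⟫ - ⟪N p, y⟫ * ⟪F p, b⟫)
          * w ⟪F p, y⟫ ∂(volM V F) := by
  have hs := smooth_comp (smooth_inner hF.smooth y) hw
  have hsb := smooth_inner hNs b
  have hsy := smooth_inner hNs y
  have hm1 : ContMDiff 𝓘(ℝ, V) 𝓘(ℝ, ℝ) ∞ (fun q => ⟪N q, b⟫ * w ⟪F q, y⟫) := hsb.mul hs
  have hm2 : ContMDiff 𝓘(ℝ, V) 𝓘(ℝ, ℝ) ∞ (fun q => ⟪N q, y⟫ * w ⟪F q, y⟫) := hsy.mul hs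
  have h1 := first_variation hW hF hmin hV y hm1
  have h2 := first_variation hW hF hmin hV b hm2
  have hd : ∀ p, HasDerivAt w (deriv w ⟪F p, y⟫) ⟪F p, y⟫ := fun p =>
    ((hw p).differentiableAt (by norm_num)).hasDerivAt
  have e1 : ∀ p, dl V F y (fun q => ⟪N q, b⟫ * w ⟪F q, y⟫) p
      = ⟪dl V F y N p, b⟫ * w ⟪F p, y⟫ + ⟪N p, b⟫ * (deriv w ⟪F p, y⟫
        * (1 - ⟪F p, y⟫ ^ 2 - ⟪N p, y⟫ ^ 2)) := by
    intro p
    rw [dl_mul y hsb hs, dl_comp y (smooth_inner hF.smooth y) p (hd p), dl_inner y hF.smooth,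
      dl_inner y hNs, dl_F hW hF hN]
    simp only [inner_sub_left, real_inner_self_eq_norm_sq, hy, real_inner_smul_left]
    rw [real_inner_comm (F p) y, real_inner_comm (N p) y]
    ring
  have e2 : ∀ p, dl V F b (fun q => ⟪N q, y⟫ * w ⟪F q, y⟫) p
      = ⟪dl V F y N p, b⟫ * w ⟪F p, y⟫ + ⟪N p, y⟫ * (deriv w ⟪F p, y⟫
        * (- (⟪F p, b⟫ * ⟪F p, y⟫) - ⟪N p, b⟫ * ⟪N p, y⟫)) := by
    intro p
    rw [dl_mul b hsy hs, dl_comp b (smooth_inner hF.smooth y) p (hd p), dl_inner b hF.smooth,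
      dl_inner b hNs, dl_F hW hF hN, dl_N_symm hW hF hNs hN b y]
    simp only [inner_sub_left, real_inner_smul_left]
    rw [real_inner_comm (F p) b, real_inner_comm (N p) b, real_inner_comm y b, hyb]
    ring
  have hcF : Continuous F := hF.smooth.continuous
  have hcN : Continuous N := hNs.continuous
  have i1 := integrable_of_cont (volM V F) (continuous_dl hF y hm1)
  have i2 := integrable_of_cont (volM V F) (continuous_dl hF b hm2)
  have i3 := integrable_of_cont (volM V F) (g := fun p => ⟪y, F p⟫ * (⟪N p, b⟫ * w ⟪F p, y⟫))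
    ((continuous_const.inner hcF).mul hm1.continuous)
  have i4 := integrable_of_cont (volM V F) (g := fun p => ⟪b, F p⟫ * (⟪N p, y⟫ * w ⟪F p, y⟫))
    ((continuous_const.inner hcF).mul hm2.continuous)
  have h3 : ∫ p, (dl V F y (fun q => ⟪N q, b⟫ * w ⟪F q, y⟫) p
        - dl V F b (fun q => ⟪N q, y⟫ * w ⟪F q, y⟫) p) ∂(volM V F)
      = (finrank ℝ V : ℝ) * ∫ p, (⟪y, F p⟫ * (⟪N p, b⟫ * w ⟪F p, y⟫)
          - ⟪b, F p⟫ * (⟪N p, y⟫ * w ⟪F p, y⟫)) ∂(volM V F) := by
    rw [integral_sub i1 i2, integral_sub i3 i4, mul_sub]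
    exact congrArg₂ (· - ·) h1 h2
  simp only [e1, e2] at h3
  refine Eq.trans ?_ (h3.trans ?_)
  · refine integral_congr_ae ?_
    filter_upwards with p
    ring
  · congr 1
    refine integral_congr_ae ?_
    filter_upwards with p
    rw [real_inner_comm (F p) y, real_inner_comm (F p) b]
    ring

end

end Vale.Agent.P224.FV
end
end

section

section

namespace Vale.Agent.P224.FV

open Matrix MeasureTheory Module Function Set
open scoped RealInnerProductSpace Topology ContDiff Manifold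

set_option linter.unusedSectionVars false

section

variable {V W M : Type*} [NormedAddCommGroup V] [InnerProductSpace ℝ V] [FiniteDimensional ℝ V]
  [NormedAddCommGroup W] [InnerProductSpace ℝ W] [FiniteDimensional ℝ W]
  {X : Type*} [NormedAddCommGroup X] [NormedSpace ℝ X]
  [TopologicalSpace M] [ChartedSpace V M]

variable [MeasurableSpace V] [BorelSpace V] [MeasurableSpace M] [BorelSpace M]

end

end Vale.Agent.P224.FV
end
end

section

section

namespace Vale.Agent.P224

open scoped Manifold ContDiff RealInnerProductSpace Topology ENNReal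
open MeasureTheory Metric Module Set Filter

variable {V W M : Type*} [NormedAddCommGroup V] [InnerProductSpace ℝ V] [FiniteDimensional ℝ V]
  [NormedAddCommGroup W] [InnerProductSpace ℝ W] [FiniteDimensional ℝ W]
  [TopologicalSpace M] [ChartedSpace V M] {F : M → W}
  [MeasurableSpace V] [BorelSpace V] [MeasurableSpace M] [BorelSpace M]

/-- The volume measure restricted to a chart domain is the chart measure. -/
theorem volChart_of_sphImm [IsManifold 𝓘(ℝ, V) ∞ M] (hF : SphImm V F) : FV.VolChart V F :=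
  fun x => volM_restrict_source hF x

/-- The conformal density at one point. -/
theorem density_at [IsManifold 𝓘(ℝ, V) ∞ M] (hm : 0 < finrank ℝ V)
    (hW : finrank ℝ W = finrank ℝ V + 2) (hF : SphImm V F) (p : M) {N : Set M}
    (hN : IsOpen N) (hp : p ∈ N) {ε : ℝ} (hε : 0 < ε) :
    ∀ᶠ φ in 𝓝[<] (Real.pi / 2),
      ENNReal.ofReal ((1 - ε) * sphereVol (finrank ℝ V)) ≤
        ∫⁻ x in N, ENNReal.ofReal ((Real.cos φ / (1 - ⟪F x, F p⟫ * Real.sin φ)) ^ (finrank ℝ V))
          ∂(volM V F) := by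
  set χ := chartAt V p with hχ
  have hps := mem_chart_source V p
  have hut : χ p ∈ χ.target := χ.map_source hps
  set T : Set V := χ.target ∩ χ.symm ⁻¹' N with hT
  have hTo : IsOpen T := χ.symm.isOpen_inter_preimage hN
  have huT : χ p ∈ T := ⟨hut, by rw [mem_preimage, χ.left_inv hps]; exact hp⟩
  obtain ⟨δ, hδ, hball⟩ := Metric.isOpen_iff.mp hTo _ huT
  have hI := (immV_rep hF p)
  have hI' := hI.imm hW
  have hsub : Metric.ball (iV V (χ p)) δ ⊆ (iV V).symm ⁻¹' χ.target := by
    intro u hu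
    rw [mem_preimage]
    have : (iV V).symm u ∈ Metric.ball (χ p) δ := by
      rw [mem_ball] at hu ⊢
      rw [← (iV V).symm.dist_map] at hu
      simpa only [LinearIsometryEquiv.symm_apply_apply] using hu
    exact (hball this).1
  have hmem : iV V (χ p) ∈ (iV V).symm ⁻¹' χ.target := by
    rw [mem_preimage, (iV V).symm_apply_apply]; exact hut
  have hd := density_local hm (tr hW (rep (V := V) F p)) ((iV V).symm ⁻¹' χ.target) hI'.isOpen
    (iV V (χ p)) hmem (hI'.smooth.of_le (by norm_cast)) hI'.unit (hI'.inj _ hmem) hδ hsub hε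
  filter_upwards [hd] with φ hφ
  refine hφ.trans ?_
  have hNm := hN.measurableSet
  -- lower bound by the chart measure
  have hle : chartMeas (V := V) F p ≤ volM V F := by
    rw [← volM_restrict_source hF p]
    exact Measure.restrict_le_self
  set K : M → ℝ≥0∞ := fun x =>
    ENNReal.ofReal ((Real.cos φ / (1 - ⟪F x, F p⟫ * Real.sin φ)) ^ (finrank ℝ V)) with hK
  have hKm : Measurable K := by
    have hFc : Continuous F := hF.1.continuous
    exact ENNReal.measurable_ofReal.comp ((measurable_const.div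
      (measurable_const.sub ((hFc.inner continuous_const).measurable.mul_const _))).pow_const _)
  have h1 : ∫⁻ x in N, K x ∂(chartMeas (V := V) F p) ≤ ∫⁻ x in N, K x ∂(volM V F) :=
    lintegral_mono' (Measure.restrict_mono_measure hle _) le_rfl
  refine le_trans ?_ h1
  rw [← lintegral_indicator hNm]
  have hTm := χ.open_target.measurableSet
  unfold chartMeas
  rw [lintegral_map' (hKm.indicator hNm).aemeasurable
      (χ.continuousOn_symm.aemeasurable hTm), restrict_withDensity hTm,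
      lintegral_withDensity_eq_lintegral_mul₀]
  · -- compare on the ball
    have h2 : ∫⁻ u in Metric.ball (χ p) δ, ((fun u : V =>
        ENNReal.ofReal (Real.sqrt (metricMat (rep F p) u).det)) *
          fun a => N.indicator K (χ.symm a)) u ≤
        ∫⁻ u in χ.target, ((fun u : V =>
        ENNReal.ofReal (Real.sqrt (metricMat (rep F p) u).det)) *
          fun a => N.indicator K (χ.symm a)) u :=
      lintegral_mono_set (hball.trans inter_subset_left)
    refine le_trans ?_ h2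
    have hmp : MeasurePreserving (iV V) := (iV V).measurePreserving
    have hme : MeasurableEmbedding (iV V) := (iV V).toHomeomorph.measurableEmbedding
    have hpre : (iV V) ⁻¹' (Metric.ball (iV V (χ p)) δ) = Metric.ball (χ p) δ := by
      ext u
      rw [mem_preimage, mem_ball, mem_ball, (iV V).dist_map]
    rw [← hmp.setLIntegral_comp_preimage_emb hme, hpre]
    apply setLIntegral_mono_ae' measurableSet_ball
    refine Eventually.of_forall fun u hu => ?_
    have huN : χ.symm u ∈ N := (hball hu).2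
    rw [Pi.mul_apply, indicator_of_mem huN]
    have e1 : tr hW (rep (V := V) F p) (iV V u) = iW hW (F (χ.symm u)) := by
      unfold tr rep
      rw [(iV V).symm_apply_apply]
    have e2 : tr hW (rep (V := V) F p) (iV V (χ p)) = iW hW (F p) := by
      unfold tr rep
      rw [(iV V).symm_apply_apply, χ.left_inv hps]
    have e3 : (Matrix.of fun i j => ⟪fderiv ℝ (tr hW (rep (V := V) F p)) (iV V u)
        (EuclideanSpace.single i 1), fderiv ℝ (tr hW (rep (V := V) F p)) (iV V u)
        (EuclideanSpace.single j 1)⟫) = metricMat (rep F p) u := by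
      rw [← G_tr hW (rep F p) u]
      rfl
    rw [e1, e2, e3, (iW hW).inner_map_map, hK]
    beta_reduce
    rw [mul_comm (Real.cos φ ^ finrank ℝ V / _), ENNReal.ofReal_mul (Real.sqrt_nonneg _),
      div_pow, mul_comm (Real.sin φ)]
  · exact ((measurable_rep_det hF p).aemeasurable hTm).ennreal_ofReal
  · exact (hKm.indicator hNm).comp_aemeasurable (χ.continuousOn_symm.aemeasurable hTm)

/-- The conformal density of a compact immersed submanifold at a point with at least q
preimages is at least q times the volume of the unit sphere. -/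
theorem density_global [IsManifold 𝓘(ℝ, V) ∞ M] [CompactSpace M] [T2Space M]
    (hm : 0 < finrank ℝ V) (hW : finrank ℝ W = finrank ℝ V + 2) (hF : SphImm V F)
    (q : Finset M) (y : W) (hq : ∀ p ∈ q, F p = y) (hy : ‖y‖ = 1) {ε : ℝ} (hε : 0 < ε) :
    ∀ᶠ φ in 𝓝[<] (Real.pi / 2),
      (q.card : ℝ) * sphereVol (finrank ℝ V) - ε ≤
        ∫ x, (Real.cos φ / (1 - ⟪F x, y⟫ * Real.sin φ)) ^ (finrank ℝ V) ∂(volM V F) := by
  classical
  have hsv : 0 < sphereVol (finrank ℝ V) := by
    unfold sphereVol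
    have := Real.pi_pos
    have := Real.Gamma_pos_of_pos (s := ((finrank ℝ V : ℝ) + 1) / 2) (by (clear * - hm; (clear * - hm; (clear * - hm; positivity))))
    (clear * - hm; (clear * - hm; (clear * - hm; positivity)))
  have := isFiniteMeasure_volM (V := V) hF
  obtain ⟨U, hU, hdis⟩ := (Set.Finite.t2_separation (X := M) q.finite_toSet)
  set ε' : ℝ := min (1 / 2) (ε / ((q.card : ℝ) * sphereVol (finrank ℝ V) + 1)) with hε'
  have hden : 0 < (q.card : ℝ) * sphereVol (finrank ℝ V) + 1 := by (clear * - hsv; (clear * - hsv; positivity))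
  have hε'0 : 0 < ε' := lt_min (by norm_num) (by (clear * - hε hsv; positivity))
  have hε'1 : ε' ≤ 1 / 2 := min_le_left _ _
  have hall : ∀ᶠ φ in 𝓝[<] (Real.pi / 2), ∀ p ∈ q,
      ENNReal.ofReal ((1 - ε') * sphereVol (finrank ℝ V)) ≤
        ∫⁻ x in U p, ENNReal.ofReal ((Real.cos φ / (1 - ⟪F x, F p⟫ * Real.sin φ)) ^ (finrank ℝ V))
          ∂(volM V F) := by
    rw [Filter.eventually_all_finset]
    intro p hp
    exact density_at hm hW hF p (hU p).2 (hU p).1 hε'0
  have h0 : ∀ᶠ φ in 𝓝[<] (Real.pi / 2), φ ∈ Ioo 0 (Real.pi / 2) :=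
    Ioo_mem_nhdsLT (by positivity)
  filter_upwards [hall, h0] with φ hφ hφ0
  have hcos : 0 < Real.cos φ := Real.cos_pos_of_mem_Ioo ⟨by linarith only [hφ0.1, Real.pi_pos], hφ0.2⟩
  have hsin : Real.sin φ < 1 := by
    nlinarith only [hcos, Real.sin_sq_add_cos_sq φ]
  have hsin0 : 0 < Real.sin φ := Real.sin_pos_of_pos_of_lt_pi hφ0.1 (by linarith only [hφ0.2, Real.pi_pos])
  have hFc : Continuous F := hF.1.continuous
  have hden' : ∀ x, 0 < 1 - ⟪F x, y⟫ * Real.sin φ := by
    intro x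
    have h1 : ⟪F x, y⟫ ≤ 1 := by
      have := real_inner_le_norm (F x) y
      rwa [hF.unit x, hy, one_mul] at this
    nlinarith only [hsin, hsin0, h1]
  set k : M → ℝ := fun x => (Real.cos φ / (1 - ⟪F x, y⟫ * Real.sin φ)) ^ (finrank ℝ V) with hk
  have hkc : Continuous k := by
    apply Continuous.pow
    apply continuous_const.div₀
    · exact continuous_const.sub ((hFc.inner continuous_const).mul continuous_const)
    · intro x; exact (hden' x).ne'
  have hk0 : ∀ x, 0 ≤ k x := fun x => pow_nonneg (div_nonneg hcos.le (hden' x).le) _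
  have hki : Integrable k (volM V F) := by
    obtain ⟨C, hC⟩ := (isCompact_univ (X := M)).exists_bound_of_continuousOn hkc.continuousOn
    exact Integrable.mono' (integrable_const C) hkc.aestronglyMeasurable
      (Eventually.of_forall fun x => hC x (mem_univ x))
  have hsum : ∑ p ∈ q, ENNReal.ofReal ((1 - ε') * sphereVol (finrank ℝ V)) ≤
      ∫⁻ x, ENNReal.ofReal (k x) ∂(volM V F) := by
    calc ∑ p ∈ q, ENNReal.ofReal ((1 - ε') * sphereVol (finrank ℝ V))
        ≤ ∑ p ∈ q, ∫⁻ x in U p, ENNReal.ofReal (k x) ∂(volM V F) := by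
          apply Finset.sum_le_sum
          intro p hp
          have := hφ p hp
          rw [hq p hp] at this
          exact this
      _ = ∫⁻ x in ⋃ p ∈ q, U p, ENNReal.ofReal (k x) ∂(volM V F) := by
          rw [lintegral_biUnion_finset]
          · exact hdis
          · intro p _
            exact (hU p).2.measurableSet
      _ ≤ ∫⁻ x, ENNReal.ofReal (k x) ∂(volM V F) := setLIntegral_le_lintegral _ _
  rw [← ofReal_integral_eq_lintegral_ofReal hki (Eventually.of_forall hk0),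
    Finset.sum_const, nsmul_eq_mul, ← ENNReal.ofReal_natCast, ← ENNReal.ofReal_mul (by (clear * -; positivity)),
    ENNReal.ofReal_le_ofReal_iff (integral_nonneg hk0)] at hsum
  refine le_trans ?_ hsum
  have h3 : ε' * ((q.card : ℝ) * sphereVol (finrank ℝ V) + 1) ≤ ε := by
    rw [← le_div_iff₀ hden]
    exact min_le_right _ _
  linarith only [hε'0, h3]

end Vale.Agent.P224
end
end

section

section

namespace Vale.Agent.P224.FV

open MeasureTheory Set Real Filter
open scoped Topology RealInnerProductSpace Manifold ContDiff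

section L1

variable {V W M : Type*} [NormedAddCommGroup V] [InnerProductSpace ℝ V] [FiniteDimensional ℝ V]
  [NormedAddCommGroup W] [InnerProductSpace ℝ W] [FiniteDimensional ℝ W]
  [TopologicalSpace M] [ChartedSpace V M] {F : M → W}
  [MeasurableSpace V] [BorelSpace V] [MeasurableSpace M] [BorelSpace M]

/-- conformal density with q preimages -/
theorem limit_card [IsManifold 𝓘(ℝ, V) ∞ M] [CompactSpace M] [T2Space M]
    (hm : 0 < Module.finrank ℝ V) (hW : Module.finrank ℝ W = Module.finrank ℝ V + 2)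
    (hF : SphImm V F) (q : Finset M) (y : W) (hq : ∀ p ∈ q, F p = y) (hy : ‖y‖ = 1)
    {ε : ℝ} (hε : 0 < ε) :
    ∀ᶠ φ in 𝓝[<] (π / 2), (q.card : ℝ) * sphereVol (Module.finrank ℝ V) - ε ≤
        ∫ x, cf φ ⟪F x, y⟫ ^ (Module.finrank ℝ V) ∂(volM V F) :=
  density_global hm hW hF q y hq hy hε

/-- conformal density at one point of the image -/
theorem limit_one [IsManifold 𝓘(ℝ, V) ∞ M] [CompactSpace M] [T2Space M]
    (hm : 0 < Module.finrank ℝ V) (hW : Module.finrank ℝ W = Module.finrank ℝ V + 2)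
    (hF : SphImm V F) (z : M) {ε : ℝ} (hε : 0 < ε) :
    ∀ᶠ φ in 𝓝[<] (π / 2), sphereVol (Module.finrank ℝ V) - ε ≤
        V1 (volM V F) (Module.finrank ℝ V) F z φ := by
  have h := limit_card hm hW hF {z} (F z) (by simp only [Finset.mem_singleton, forall_eq]) (hF.unit z) hε
  simpa only [V1, tsub_le_iff_right, Finset.card_singleton, Nat.cast_one, one_mul] using h

/-- conformal density at a double point of the image -/
theorem limit_two [IsManifold 𝓘(ℝ, V) ∞ M] [CompactSpace M] [T2Space M]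
    (hm : 0 < Module.finrank ℝ V) (hW : Module.finrank ℝ W = Module.finrank ℝ V + 2)
    (hF : SphImm V F) {z z' : M} (hne : z' ≠ z) (hz : F z' = F z) {ε : ℝ} (hε : 0 < ε) :
    ∀ᶠ φ in 𝓝[<] (π / 2), 2 * sphereVol (Module.finrank ℝ V) - ε ≤
        V1 (volM V F) (Module.finrank ℝ V) F z φ := by
  classical
  have h := limit_card hm hW hF {z', z} (F z) (by simp only [Finset.mem_insert, Finset.mem_singleton, forall_eq_or_imp, hz, forall_eq, and_self]) (hF.unit z) hε
  rw [Finset.card_pair hne] at h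
  simpa only [V1, tsub_le_iff_right, Nat.cast_ofNat] using h

end L1

section L2

variable {X : Type*} [TopologicalSpace X] [CompactSpace X] [MeasurableSpace X]
  {E : Type*} [NormedAddCommGroup E] [InnerProductSpace ℝ E] [MeasurableSpace E] [BorelSpace E]
  [SecondCountableTopology E]

lemma close_normals {p n : X → E} (hp : Continuous p) (hn : Continuous n)
    (hinj : Function.Injective p) (np : ∀ x, ‖p x‖ = 1) (nn : ∀ x, ‖n x‖ = 1) {η : ℝ}
    (hη : 0 < η) : ∃ δ, 0 < δ ∧ ∀ x y, 1 - δ < ⟪p x, p y⟫ → 1 - ⟪n x, n y⟫ < η := by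
  set K : Set (X × X) := {q | η ≤ 1 - ⟪n q.1, n q.2⟫} with hK
  have hKc : IsCompact K := by
    apply IsClosed.isCompact
    apply isClosed_le continuous_const
    exact continuous_const.sub ((hn.comp continuous_fst).inner (hn.comp continuous_snd))
  rcases K.eq_empty_or_nonempty with hE | hne
  · refine ⟨1, one_pos, fun x y _ => ?_⟩
    by_contra hcon
    have : (x, y) ∈ K := not_lt.mp hcon
    rw [hE] at this
    exact this
  · obtain ⟨q, hq, hmax⟩ := hKc.exists_isMaxOn hne
      ((hp.comp continuous_fst).inner (𝕜 := ℝ) (hp.comp continuous_snd)).continuousOn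
    have hlt : ⟪p q.1, p q.2⟫ < 1 := by
      rcases (real_inner_le_norm (p q.1) (p q.2)).lt_or_eq with h | h
      · rwa [np, np, mul_one] at h
      · exfalso
        rw [np, np, mul_one] at h
        have h1 : p q.1 = p q.2 := (inner_eq_one_iff_of_norm_eq_one (np _) (np _)).mp h
        have h2 := hinj h1
        have h3 : η ≤ 1 - ⟪n q.1, n q.2⟫ := hq
        rw [h2, real_inner_self_eq_norm_sq, nn] at h3
        linarith only [hη, h3]
    refine ⟨1 - ⟪p q.1, p q.2⟫, by linarith only [hlt], fun x y hxy => ?_⟩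
    by_contra hcon
    have h4 : (x, y) ∈ K := not_lt.mp hcon
    have h5 := hmax h4
    simp only [Set.mem_ofPred_eq] at h5
    have h6 : ⟪p x, p y⟫ ≤ ⟪p q.1, p q.2⟫ := h5
    linarith only [hxy, h6]

lemma tendsto_cf {s : ℝ} (hs : s < 1) : Tendsto (fun φ => cf φ s) (𝓝[<] (π / 2)) (𝓝 0) := by
  have h : ContinuousAt (fun φ => cf φ s) (π / 2) := by
    unfold cf
    apply ContinuousAt.div (by (clear * -; (clear * -; (clear * -; fun_prop)))) (by fun_prop)
    rw [sin_pi_div_two]
    linarith only [hs]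
  have h2 := h.tendsto.mono_left (nhdsWithin_le_nhds (s := Iio (π / 2)))
  have h3 : cf (π / 2) s = 0 := by simp [cf]
  rwa [h3] at h2

theorem limit_JB {μ : Measure X} [IsFiniteMeasure μ] {m : ℕ} (hm : 0 < m) {p n : X → E}
    (hp : Continuous p) (hn : Continuous n) (hpm : Measurable p) (hnm : Measurable n)
    (hinj : Function.Injective p) (np : ∀ x, ‖p x‖ = 1) (nn : ∀ x, ‖n x‖ = 1) {C : ℝ}
    (hJ : ∀ φ ∈ Ico 0 (π / 2), JJ μ m p φ ≤ C) {ε : ℝ} (hε : 0 < ε) :
    ∀ᶠ φ in 𝓝[<] (π / 2), |JJ μ m p φ - BB μ m p n φ| ≤ ε := by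
  set C' : ℝ := max C 0 + 1 with hC'
  have hC'0 : 0 < C' := by have := le_max_right C 0; linarith only [this]
  obtain ⟨δ, hδ, hclose⟩ := close_normals hp hn hinj np nn (η := ε / (2 * C')) (by (clear * - hε; (clear * - hε; (clear * - hε; positivity))))
  set A : ℝ := (μ.prod μ).real univ with hA
  have hA0 : 0 ≤ A := measureReal_nonneg
  -- the kernel is small away from the diagonal
  have hsmall : ∀ᶠ φ in 𝓝[<] (π / 2), cf φ (1 - δ) ^ m < ε / (4 * (A + 1)) := by
    have h1 := (tendsto_cf (s := 1 - δ) (by linarith only [hδ])).pow m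
    rw [zero_pow hm.ne'] at h1
    exact h1.eventually_lt_const (by (clear * - hε; positivity))
  have h0 : ∀ᶠ φ in 𝓝[<] (π / 2), φ ∈ Ioo 0 (π / 2) := Ioo_mem_nhdsLT (by positivity)
  filter_upwards [hsmall, h0] with φ hφ hφ0
  have hφI : φ ∈ Ioo (-(π / 2)) (π / 2) := ⟨by linarith only [hφ0.1, pi_pos], hφ0.2⟩
  have hcos := cos_pos_of_mem_Ioo hφI
  have hsin0 : 0 < sin φ := sin_pos_of_pos_of_lt_pi hφ0.1 (by linarith only [hφ0.2, pi_pos])
  have hab : ∀ x y, |⟪p x, p y⟫| ≤ 1 := by
    intro x y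
    have := abs_real_inner_le_norm (p x) (p y)
    rwa [np, np, mul_one] at this
  have habn : ∀ x y, |⟪n x, n y⟫| ≤ 1 := by
    intro x y
    have := abs_real_inner_le_norm (n x) (n y)
    rwa [nn, nn, mul_one] at this
  have mp1 : Measurable (fun q : X × X => p q.1) := hpm.comp measurable_fst
  have mp2 : Measurable (fun q : X × X => p q.2) := hpm.comp measurable_snd
  have mn1 : Measurable (fun q : X × X => n q.1) := hnm.comp measurable_fst
  have mn2 : Measurable (fun q : X × X => n q.2) := hnm.comp measurable_snd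
  have hs : Measurable (fun q : X × X => ⟪p q.1, p q.2⟫) := mp1.inner mp2
  have hρ : Measurable (fun q : X × X => ⟪n q.1, n q.2⟫) := mn1.inner mn2
  have hkm : Measurable (fun q : X × X => cf φ ⟪p q.1, p q.2⟫ ^ m) := by
    unfold cf
    (clear hm n hp hn hnm hinj np nn C hJ ε hε C' hC' hC'0 δ hδ hclose A hA hA0 hsmall h0 hφ hφ0 hφI hcos hsin0 hab habn mp1 mp2 mn1 mn2 hs hρ; fun_prop)
  have hcf1 : ∀ q : X × X, cf φ ⟪p q.1, p q.2⟫ ≤ 1 / (1 - |sin φ|) := by
    intro q
    unfold cf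
    have h2 := den_ge (φ := φ) (hab q.1 q.2)
    have h3 : 0 < 1 - |sin φ| := by have := abs_sin_lt_one hφI; linarith only [this]
    gcongr
    exact cos_le_one φ
  have ik : Integrable (fun q : X × X => cf φ ⟪p q.1, p q.2⟫ ^ m) (μ.prod μ) := by
    refine Integrable.of_bound hkm.aestronglyMeasurable ((1 / (1 - |sin φ|)) ^ m) ?_
    filter_upwards with q
    rw [Real.norm_eq_abs, abs_of_nonneg (pow_nonneg (cf_pos hφI (hab _ _)).le m)]
    exact pow_le_pow_left₀ (cf_pos hφI (hab _ _)).le (hcf1 q) m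
  have ib : Integrable (fun q : X × X => ⟪n q.1, n q.2⟫ * cf φ ⟪p q.1, p q.2⟫ ^ m)
      (μ.prod μ) := by
    refine ik.mono (hρ.mul hkm).aestronglyMeasurable ?_
    filter_upwards with q
    rw [norm_mul]
    calc ‖(⟪n q.1, n q.2⟫ : ℝ)‖ * ‖cf φ ⟪p q.1, p q.2⟫ ^ m‖
        ≤ 1 * ‖cf φ ⟪p q.1, p q.2⟫ ^ m‖ := by
          gcongr
          exact habn _ _
      _ = _ := one_mul _
  have hdiff : JJ μ m p φ - BB μ m p n φ =
      ∫ q, (1 - ⟪n q.1, n q.2⟫) * cf φ ⟪p q.1, p q.2⟫ ^ m ∂(μ.prod μ) := by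
    unfold JJ BB
    rw [← integral_sub ik ib]
    refine integral_congr_ae ?_
    filter_upwards with q
    ring
  have hnn : 0 ≤ JJ μ m p φ - BB μ m p n φ := by
    rw [hdiff]
    refine integral_nonneg fun q => ?_
    have h1 := (abs_le.mp (habn q.1 q.2)).2
    exact mul_nonneg (by simpa only [sub_nonneg] using h1) (pow_nonneg (cf_pos hφI (hab _ _)).le m)
  rw [abs_of_nonneg hnn, hdiff]
  have hpt : ∀ q : X × X, (1 - ⟪n q.1, n q.2⟫) * cf φ ⟪p q.1, p q.2⟫ ^ m ≤
      ε / (2 * C') * cf φ ⟪p q.1, p q.2⟫ ^ m + 2 * (ε / (4 * (A + 1))) := by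
    intro q
    have hk0 : 0 ≤ cf φ ⟪p q.1, p q.2⟫ ^ m := pow_nonneg (cf_pos hφI (hab _ _)).le m
    by_cases hq : 1 - δ < ⟪p q.1, p q.2⟫
    · have h1 := hclose q.1 q.2 hq
      have h2 : (1 - ⟪n q.1, n q.2⟫) * cf φ ⟪p q.1, p q.2⟫ ^ m ≤
          ε / (2 * C') * cf φ ⟪p q.1, p q.2⟫ ^ m := mul_le_mul_of_nonneg_right h1.le hk0
      have h3 : 0 ≤ 2 * (ε / (4 * (A + 1))) := by (clear * - hε; (clear * - hε; (clear * - hε; positivity)))
      linarith only [h2, h3]
    · have hq' : ⟪p q.1, p q.2⟫ ≤ 1 - δ := not_lt.mp hq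
      have h1 : cf φ ⟪p q.1, p q.2⟫ ≤ cf φ (1 - δ) := by
        unfold cf
        have hs1 := abs_sin_lt_one hφI
        rw [abs_of_pos hsin0] at hs1
        have h2 : 0 < 1 - (1 - δ) * sin φ := by nlinarith only [hs1, hδ, hsin0]
        have h3 : 1 - (1 - δ) * sin φ ≤ 1 - ⟪p q.1, p q.2⟫ * sin φ := by
          have := mul_le_mul_of_nonneg_right hq' hsin0.le
          linarith only [this]
        exact div_le_div_of_nonneg_left hcos.le h2 h3
      have h4 : cf φ ⟪p q.1, p q.2⟫ ^ m ≤ ε / (4 * (A + 1)) :=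
        (pow_le_pow_left₀ (cf_pos hφI (hab _ _)).le h1 m).trans hφ.le
      have h5 : 1 - ⟪n q.1, n q.2⟫ ≤ 2 := by
        have := (abs_le.mp (habn q.1 q.2)).1
        linarith only [this]
      have h6 : 0 ≤ ε / (2 * C') * cf φ ⟪p q.1, p q.2⟫ ^ m := by (clear * - hε hk0; (clear * - hε hk0; positivity))
      calc (1 - ⟪n q.1, n q.2⟫) * cf φ ⟪p q.1, p q.2⟫ ^ m
          ≤ 2 * (ε / (4 * (A + 1))) := mul_le_mul h5 h4 hk0 (by norm_num)
        _ ≤ _ := by linarith only [h6]
  have hint1 : Integrable (fun q : X × X => (1 - ⟪n q.1, n q.2⟫) * cf φ ⟪p q.1, p q.2⟫ ^ m)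
      (μ.prod μ) := by
    refine (ik.sub ib).congr ?_
    filter_upwards with q
    simp only [Pi.sub_apply]
    ring
  calc ∫ q, (1 - ⟪n q.1, n q.2⟫) * cf φ ⟪p q.1, p q.2⟫ ^ m ∂(μ.prod μ)
      ≤ ∫ q, (ε / (2 * C') * cf φ ⟪p q.1, p q.2⟫ ^ m + 2 * (ε / (4 * (A + 1)))) ∂(μ.prod μ) :=
        integral_mono hint1 ((ik.const_mul _).add (integrable_const _)) hpt
    _ = ε / (2 * C') * JJ μ m p φ + A * (2 * (ε / (4 * (A + 1)))) := by
        rw [integral_add (ik.const_mul _) (integrable_const _), integral_const_mul,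
          integral_const, smul_eq_mul]
        rfl
    _ ≤ ε / (2 * C') * C' + (A + 1) * (2 * (ε / (4 * (A + 1)))) := by
        have h1 := hJ φ ⟨hφ0.1.le, hφ0.2⟩
        have h2 : JJ μ m p φ ≤ C' := by have := le_max_left C 0; linarith only [h1, this]
        gcongr
        linarith only []
    _ = ε := by
        field_simp
        ring

end L2

end Vale.Agent.P224.FV
end
end

section

section

namespace Vale.Agent.P224.FV

open MeasureTheory Set Real Filter
open scoped RealInnerProductSpace Topology ContDiff Manifold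

set_option linter.unusedSectionVars false

section

variable {V W M : Type*} [NormedAddCommGroup V] [InnerProductSpace ℝ V] [FiniteDimensional ℝ V]
  [NormedAddCommGroup W] [InnerProductSpace ℝ W] [FiniteDimensional ℝ W]
  [TopologicalSpace M] [ChartedSpace V M]
  [MeasurableSpace V] [BorelSpace V] [MeasurableSpace M] [BorelSpace M]

lemma abs_FF_le {F : M → W} (hF : SphImm V F) (x z : M) : |⟪F x, F z⟫| ≤ 1 := by
  have := abs_real_inner_le_norm (F x) (F z)
  rwa [hF.unit, hF.unit, mul_one] at this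

lemma cont_DD {F : M → W} (hF : SphImm V F) (z : M) (k : ℕ) {φ : ℝ}
    (hφ : φ ∈ Ioo (-(π / 2)) (π / 2)) : Continuous (fun x => DD k φ ⟪F x, F z⟫) := by
  unfold DD
  have hcF : Continuous F := hF.smooth.continuous
  refine Continuous.inv₀ ?_ fun x => pow_ne_zero k (den_pos hφ (abs_FF_le hF x z)).ne'
  exact (continuous_const.sub ((hcF.inner continuous_const).mul continuous_const)).pow k

/-- the two point structure of a minimal immersion with normal field -/
theorem twoPt_of_min [MeasurableSpace W] [BorelSpace W] [IsManifold 𝓘(ℝ, V) ∞ M] [CompactSpace M]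
    [T2Space M] (hm : 1 ≤ Module.finrank ℝ V)
    (hW : Module.finrank ℝ W = Module.finrank ℝ V + 2) {F : M → W}
    (hF : SphImm V F) (hmin : ∀ x n, IsUnitNormal V F x n → meanCurv V F x n = 0)
    {N : M → W} (hNs : ContMDiff 𝓘(ℝ, V) 𝓘(ℝ, W) ∞ N) (hN : ∀ x, IsUnitNormal V F x (N x)) :
    TwoPt (volM V F) (Module.finrank ℝ V) F N := by
  have hV : VolChart V F := volChart_of_sphImm hF
  have hfin : IsFiniteMeasure (volM V F) := isFiniteMeasure_volM hF
  have hcF : Continuous F := hF.smooth.continuous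
  have hcN : Continuous N := hNs.continuous
  set m := Module.finrank ℝ V with hmdef
  have hm0 : (m : ℝ) ≠ 0 := by
    have : (1 : ℝ) ≤ m := by exact_mod_cast hm
    (clear * - hm; positivity)
  refine ⟨⟨hcF.measurable, hcN.measurable, hF.unit, fun x => (hN x).1⟩, ?_, ?_⟩
  · intro z φ hφ
    have hd : ∀ x, 1 - ⟪F x, F z⟫ * sin φ ≠ 0 := fun x => (den_pos hφ (abs_FF_le hF x z)).ne'
    have key := ident1 hW hF hmin hV hN (hF.unit z) (w := DD m φ)
      (fun x => contDiffAt_DD (hd x))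
    simp only [(hasDerivAt_DD (hd _)).deriv] at key
    have cs : Continuous (fun x => ⟪F x, F z⟫) := hcF.inner continuous_const
    have ct : Continuous (fun x => ⟪N x, F z⟫) := hcN.inner continuous_const
    have cD : Continuous (fun x => DD (m + 1) φ ⟪F x, F z⟫) := cont_DD hF z (m + 1) hφ
    have i1 : Integrable (fun x => ⟪F x, F z⟫ * DD m φ ⟪F x, F z⟫) (volM V F) :=
      integrable_of_cont _ (cs.mul (cont_DD hF z m hφ))
    have i2 : Integrable (fun x => DD (m + 1) φ ⟪F x, F z⟫ * (1 - ⟪F x, F z⟫ ^ 2))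
        (volM V F) := integrable_of_cont _ (cD.mul (continuous_const.sub (cs.pow 2)))
    have i3 : Integrable (fun x => ⟪N x, F z⟫ ^ 2 * DD (m + 1) φ ⟪F x, F z⟫) (volM V F) :=
      integrable_of_cont _ ((ct.pow 2).mul cD)
    have e1 : ∫ x, (m : ℝ) * sin φ * DD (m + 1) φ ⟪F x, F z⟫ *
        (1 - ⟪F x, F z⟫ ^ 2 - ⟪N x, F z⟫ ^ 2) ∂(volM V F)
        = m * (sin φ * ∫ x, DD (m + 1) φ ⟪F x, F z⟫ * (1 - ⟪F x, F z⟫ ^ 2) ∂(volM V F)
          - sin φ * ∫ x, ⟪N x, F z⟫ ^ 2 * DD (m + 1) φ ⟪F x, F z⟫ ∂(volM V F)) := by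
      rw [← mul_sub, ← integral_sub i2 i3, ← integral_const_mul, ← integral_const_mul]
      refine integral_congr_ae ?_
      filter_upwards with x
      ring
    rw [e1] at key
    have key2 := mul_left_cancel₀ hm0 key
    have e2 : ∫ x, (⟪F x, F z⟫ - sin φ) / (1 - ⟪F x, F z⟫ * sin φ) ^ (m + 1) ∂(volM V F)
        = ∫ x, ⟪F x, F z⟫ * DD m φ ⟪F x, F z⟫ ∂(volM V F)
          - sin φ * ∫ x, DD (m + 1) φ ⟪F x, F z⟫ * (1 - ⟪F x, F z⟫ ^ 2) ∂(volM V F) := by
      rw [← integral_const_mul, ← integral_sub i1 (i2.const_mul _)]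
      refine integral_congr_ae ?_
      filter_upwards with x
      rw [DD_succ (k := m) (hd x)]
      unfold DD
      ring
    have e3 : ∫ x, ⟪N x, F z⟫ ^ 2 / (1 - ⟪F x, F z⟫ * sin φ) ^ (m + 1) ∂(volM V F)
        = ∫ x, ⟪N x, F z⟫ ^ 2 * DD (m + 1) φ ⟪F x, F z⟫ ∂(volM V F) := rfl
    rw [e2, e3]
    (clear hmin hNs hN hV hcF hcN hW hmdef hφ hd cs ct cD i1 i2 i3 e1 e2 e3; linarith)
  · intro z φ hφ
    have hd : ∀ x, 1 - ⟪F x, F z⟫ * sin φ ≠ 0 := fun x => (den_pos hφ (abs_FF_le hF x z)).ne'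
    have key := ident2 hW hF hmin hV hNs hN (hF.unit z) (hN z).2.1 (w := DD m φ)
      (fun x => contDiffAt_DD (hd x))
    simp only [(hasDerivAt_DD (hd _)).deriv] at key
    have cs : Continuous (fun x => ⟪F x, F z⟫) := hcF.inner continuous_const
    have ct : Continuous (fun x => ⟪N x, F z⟫) := hcN.inner continuous_const
    have cf' : Continuous (fun x => ⟪N x, N z⟫) := hcN.inner continuous_const
    have ch : Continuous (fun x => ⟪F x, N z⟫) := hcF.inner continuous_const
    have cD : Continuous (fun x => DD (m + 1) φ ⟪F x, F z⟫) := cont_DD hF z (m + 1) hφ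
    have i1 : Integrable (fun x => DD (m + 1) φ ⟪F x, F z⟫ *
        (⟪N x, N z⟫ * (1 - ⟪F x, F z⟫ ^ 2) + ⟪N x, F z⟫ * ⟪F x, N z⟫ * ⟪F x, F z⟫))
        (volM V F) := integrable_of_cont _ (cD.mul ((cf'.mul (continuous_const.sub (cs.pow 2))).add
          ((ct.mul ch).mul cs)))
    have i2 : Integrable (fun x => (⟪F x, F z⟫ * ⟪N x, N z⟫ - ⟪N x, F z⟫ * ⟪F x, N z⟫) *
        DD m φ ⟪F x, F z⟫) (volM V F) :=
      integrable_of_cont _ (((cs.mul cf').sub (ct.mul ch)).mul (cont_DD hF z m hφ))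
    have e1 : ∫ x, (m : ℝ) * sin φ * DD (m + 1) φ ⟪F x, F z⟫ *
        (⟪N x, N z⟫ * (1 - ⟪F x, F z⟫ ^ 2) + ⟪N x, F z⟫ * ⟪F x, N z⟫ * ⟪F x, F z⟫) ∂(volM V F)
        = m * (sin φ * ∫ x, DD (m + 1) φ ⟪F x, F z⟫ *
        (⟪N x, N z⟫ * (1 - ⟪F x, F z⟫ ^ 2) + ⟪N x, F z⟫ * ⟪F x, N z⟫ * ⟪F x, F z⟫)
          ∂(volM V F)) := by
      rw [← integral_const_mul, ← integral_const_mul]
      refine integral_congr_ae ?_
      filter_upwards with x
      ring
    rw [e1] at key
    have key2 := mul_left_cancel₀ hm0 key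
    have e2 : ∫ x, ⟪N x, N z⟫ * ((⟪F x, F z⟫ - sin φ) /
        (1 - ⟪F x, F z⟫ * sin φ) ^ (m + 1)) ∂(volM V F)
        - ∫ x, ⟪N x, F z⟫ * ⟪F x, N z⟫ / (1 - ⟪F x, F z⟫ * sin φ) ^ (m + 1) ∂(volM V F)
        = ∫ x, (⟪F x, F z⟫ * ⟪N x, N z⟫ - ⟪N x, F z⟫ * ⟪F x, N z⟫) *
        DD m φ ⟪F x, F z⟫ ∂(volM V F)
          - sin φ * ∫ x, DD (m + 1) φ ⟪F x, F z⟫ *
        (⟪N x, N z⟫ * (1 - ⟪F x, F z⟫ ^ 2) + ⟪N x, F z⟫ * ⟪F x, N z⟫ * ⟪F x, F z⟫)
          ∂(volM V F) := by
      have i3 : Integrable (fun x => ⟪N x, N z⟫ * ((⟪F x, F z⟫ - sin φ) /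
        (1 - ⟪F x, F z⟫ * sin φ) ^ (m + 1))) (volM V F) :=
        integrable_of_cont _ (cf'.mul ((cs.sub continuous_const).mul cD))
      have i4 : Integrable (fun x => ⟪N x, F z⟫ * ⟪F x, N z⟫ /
        (1 - ⟪F x, F z⟫ * sin φ) ^ (m + 1)) (volM V F) :=
        integrable_of_cont _ ((ct.mul ch).mul cD)
      rw [← integral_const_mul, ← integral_sub i2 (i1.const_mul _), ← integral_sub i3 i4]
      refine integral_congr_ae ?_
      filter_upwards with x
      rw [DD_succ (k := m) (hd x)]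
      unfold DD
      ring
    (clear hmin hNs hN hV hcF hcN hW hmdef e1; linarith)

/-- the conformal volume is at least the volume of the unit sphere -/
theorem V1_ge [MeasurableSpace W] [BorelSpace W] [IsManifold 𝓘(ℝ, V) ∞ M] [CompactSpace M]
    [T2Space M] (hm : 1 ≤ Module.finrank ℝ V) {F : M → W}
    (hF : SphImm V F) {N : M → W} (hT : TwoPt (volM V F) (Module.finrank ℝ V) F N)
    (z : M) {c : ℝ}
    (hc : ∀ ε > 0, ∀ᶠ φ in 𝓝[<] (π / 2), c - ε ≤ V1 (volM V F) (Module.finrank ℝ V) F z φ)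
    {φ : ℝ} (hφ : φ ∈ Ico 0 (π / 2)) :
    c ≤ V1 (volM V F) (Module.finrank ℝ V) F z φ := by
  have hfin : IsFiniteMeasure (volM V F) := isFiniteMeasure_volM hF
  have hpi := pi_pos
  have hanti : AntitoneOn (V1 (volM V F) (Module.finrank ℝ V) F z) (Ico 0 (π / 2)) := by
    have hder : ∀ ψ ∈ Ico 0 (π / 2), HasDerivAt (V1 (volM V F) (Module.finrank ℝ V) F z) _ ψ :=
      fun ψ hψ => hT.hasDerivAt_V1 z ⟨by linarith only [hpi, hψ.1], hψ.2⟩
    refine antitoneOn_of_deriv_nonpos (convex_Ico 0 (π / 2)) ?_ ?_ ?_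
    · exact fun ψ hψ => (hder ψ hψ).continuousAt.continuousWithinAt
    · intro ψ hψ
      rw [interior_Ico] at hψ
      exact (hder ψ ⟨hψ.1.le, hψ.2⟩).differentiableAt.differentiableWithinAt
    · intro ψ hψ
      rw [interior_Ico] at hψ
      rw [(hder ψ ⟨hψ.1.le, hψ.2⟩).deriv]
      have h1 : 0 ≤ sin ψ := sin_nonneg_of_nonneg_of_le_pi hψ.1.le (by linarith only [hpi, hψ.2])
      have h2 : 0 ≤ cos ψ := cos_nonneg_of_neg_pi_div_two_le_of_le (by linarith only [hpi, hψ.1]) hψ.2.le
      have h3 : 0 ≤ ∫ x, ⟪N x, F z⟫ ^ 2 /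
          (1 - ⟪F x, F z⟫ * sin ψ) ^ (Module.finrank ℝ V + 1) ∂(volM V F) := by
        apply integral_nonneg
        intro x
        have := den_pos (φ := ψ) ⟨by linarith only [hpi, hψ.1], hψ.2⟩ (abs_FF_le hF x z)
        (clear * - this; positivity)
      have : 0 ≤ sin ψ * ((Module.finrank ℝ V : ℝ) * cos ψ ^ (Module.finrank ℝ V - 1) *
          ∫ x, ⟪N x, F z⟫ ^ 2 /
          (1 - ⟪F x, F z⟫ * sin ψ) ^ (Module.finrank ℝ V + 1) ∂(volM V F)) := by (clear hT c hc φ hφ hder; positivity)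
      (clear hT c hc φ hφ hder; linarith)
  refine le_of_forall_pos_le_add fun ε hε => ?_
  have h1 : ∀ᶠ ψ in 𝓝[<] (π / 2), ψ ∈ Ioo φ (π / 2) := Ioo_mem_nhdsLT hφ.2
  obtain ⟨ψ, hψ1, hψ2⟩ := ((hc ε hε).and h1).exists
  have h2 := hanti hφ ⟨by linarith only [hφ.1, hψ2.1], hψ2.2⟩ hψ2.1.le
  (clear hc hε h1; linarith)

end

end Vale.Agent.P224.FV
end
end

section

section

namespace Vale.Agent.P224.FV

open Real Set Filter MeasureTheory
open scoped Topology RealInnerProductSpace

set_option linter.unusedSectionVars false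

theorem ratio2' : leastClifford 2 ≤ 1.584 * sphereVol 2 := by
  have h := leastClifford_le (m := 2) (k := 1) (by norm_num) (by norm_num)
  have h2 := clifford_even (k := 1) (by norm_num)
  rw [show 2 * 1 = 2 by norm_num, evenRatio_one] at h2
  rw [h2] at h
  have hp := Real.pi_lt_d4
  have hs := sphereVol_pos' 2
  refine h.trans ?_
  gcongr
  norm_num
  linarith only [hp]

section

variable {X : Type*} [MeasurableSpace X] {E : Type*} [NormedAddCommGroup E]
  [InnerProductSpace ℝ E] [FiniteDimensional ℝ E] [MeasurableSpace E] [BorelSpace E]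
  {μ : Measure X} [IsFiniteMeasure μ] {m : ℕ} {p n : X → E}

/-- case m = 3 -/
theorem TwoPt.bound_m3 (h : TwoPt μ 3 p n) (hE : Module.finrank ℝ E = 3 + 2)
    (h0 : RR μ p n 0 = 0) (h1 : RR μ p n 1 = 0) {L : ℝ} (hL0 : 0 ≤ L)
    (hL : ∀ ε > 0, ∀ᶠ φ in 𝓝[<] (π / 2), L - ε ≤ JJ μ 3 p φ)
    (hJB : ∀ ε > 0, ∀ᶠ φ in 𝓝[<] (π / 2), |JJ μ 3 p φ - BB μ 3 p n φ| ≤ ε) :
    (1 + 0.5525) * L ≤ μ.real univ ^ 2 := by
  obtain ⟨s1, s2⟩ := sqrt3_bounds
  have p1 := pi_gt_d6
  have p2 := pi_lt_d6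
  have key := h.bound_two (by norm_num) hE h0 h1 (α := 1.45) (β := -0.45) (γ := 0)
    (by intro u hu hu1; linarith only [hu1])
    (by
      intro u hu hu1
      have e : (1.45 : ℝ) * (6 * u ^ 2 + 10 * u + 2 - (3 : ℕ)) + 12 * (-0.45) * u * (1 + u) ^ 2
        + 0 * u * (2 * (3 : ℕ) + 6 + ((3 : ℕ) + 24) * u + 40 * u ^ 2 + 20 * u ^ 3)
        = (-1.45 + 9.1 * u - 2.1 * u ^ 2 - 5.4 * u ^ 3) := by push_cast; ring
      rw [e]
      (clear * - s1 s2 hu1 hu; linarith only [hu1, mul_pos (sub_pos.2 hu) (sub_pos.2 hu1), mul_pos (mul_pos (sub_pos.2 hu) (sub_pos.2 hu1)) (by linarith : 0 < u)]))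
    rfl
    (by
      rw [show (1.45 : ℝ) / 4 + -0.45 * (3 / 8) + 0 * (7 / 16) = 0.19375 by norm_num,
        le_sub_iff_add_le, ← le_sub_iff_add_le', div_le_iff₀ (by norm_num)]
      linarith only [s1, p2])
    (by
      rw [show (1.45 : ℝ) / 4 + -0.45 * (3 / 8) + 0 * (7 / 16) = 0.19375 by norm_num,
        sub_le_self_iff]
      apply div_nonneg _ (by norm_num)
      linarith only [s2, p1])
    hL hJB
  refine le_trans (mul_le_mul_of_nonneg_right ?_ hL0) key
  rw [show (1.45 : ℝ) / 4 + -0.45 * (3 / 8) + 0 * (7 / 16) = 0.19375 by norm_num,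
        le_sub_iff_add_le, ← le_sub_iff_add_le', div_le_iff₀ (by norm_num)]
  linarith only [s1, p2]

/-- case 4 ≤ m ≤ 8 -/
theorem TwoPt.bound_m4 (h : TwoPt μ m p n) (hm : 4 ≤ m) (hm' : m ≤ 8)
    (hE : Module.finrank ℝ E = m + 2)
    (h0 : RR μ p n 0 = 0) (h1 : RR μ p n 1 = 0) {L : ℝ} (hL0 : 0 ≤ L)
    (hL : ∀ ε > 0, ∀ᶠ φ in 𝓝[<] (π / 2), L - ε ≤ JJ μ m p φ)
    (hJB : ∀ ε > 0, ∀ᶠ φ in 𝓝[<] (π / 2), |JJ μ m p φ - BB μ m p n φ| ≤ ε) :
    1.5036 * L ≤ μ.real univ ^ 2 := by
  obtain ⟨s1, s2⟩ := sqrt3_bounds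
  have p1 := pi_gt_d6
  have p2 := pi_lt_d6
  have hm2 : (m : ℝ) ≤ 8 := by exact_mod_cast hm'
  have key := h.bound_two (by omega) hE h0 h1 (α := 1) (β := 0) (γ := 0)
    (by intro u hu hu1; norm_num)
    (by
      intro u hu hu1
      nlinarith only [hm2, hu])
    rfl
    (by
      rw [show (1 : ℝ) / 4 + 0 * (3 / 8) + 0 * (7 / 16) = 0.25 by norm_num,
        le_sub_iff_add_le, ← le_sub_iff_add_le', div_le_iff₀ (by norm_num)]
      linarith only [s1, p2])
    (by
      rw [show (1 : ℝ) / 4 + 0 * (3 / 8) + 0 * (7 / 16) = 0.25 by norm_num,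
        sub_le_self_iff]
      apply div_nonneg _ (by norm_num)
      linarith only [s2, p1])
    hL hJB
  refine le_trans (mul_le_mul_of_nonneg_right ?_ hL0) key
  rw [show (1 : ℝ) / 4 + 0 * (3 / 8) + 0 * (7 / 16) = 0.25 by norm_num,
        le_sub_iff_add_le, ← le_sub_iff_add_le', div_le_iff₀ (by norm_num)]
  linarith only [s1, p2]

/-- case 9 ≤ m ≤ 12 -/
theorem TwoPt.bound_m9 (h : TwoPt μ m p n) (hm : 9 ≤ m) (hm' : m ≤ 12)
    (hE : Module.finrank ℝ E = m + 2)
    (h0 : RR μ p n 0 = 0) (h1 : RR μ p n 1 = 0) {L : ℝ} (hL0 : 0 ≤ L)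
    (hL : ∀ ε > 0, ∀ᶠ φ in 𝓝[<] (π / 2), L - ε ≤ JJ μ m p φ)
    (hJB : ∀ ε > 0, ∀ᶠ φ in 𝓝[<] (π / 2), |JJ μ m p φ - BB μ m p n φ| ≤ ε) :
    1.484 * L ≤ μ.real univ ^ 2 := by
  obtain ⟨s1, s2⟩ := sqrt3_bounds
  have p1 := pi_gt_d6
  have p2 := pi_lt_d6
  have hm2 : (m : ℝ) ≤ 12 := by exact_mod_cast hm'
  have key := h.bound_two (by omega) hE h0 h1 (α := 0.75) (β := 0.25) (γ := 0)
    (by intro u hu hu1; linarith only [hu])
    (by
      intro u hu hu1
      have h2 : 0 ≤ u * (u - 1 / 2) := by nlinarith only [hu]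
      have h3 : 0 ≤ u * u * (u - 1 / 2) := by
        apply mul_nonneg _ (by linarith only [hu])
        linarith only [hu, h2]
      linarith only [hm2, hu, h2, h3])
    rfl
    (by
      rw [show (0.75 : ℝ) / 4 + 0.25 * (3 / 8) + 0 * (7 / 16) = 0.28125 by norm_num,
        le_sub_iff_add_le, ← le_sub_iff_add_le', div_le_iff₀ (by norm_num)]
      (clear * - s1 s2 p2; linarith))
    (by
      rw [show (0.75 : ℝ) / 4 + 0.25 * (3 / 8) + 0 * (7 / 16) = 0.28125 by norm_num,
        sub_le_self_iff]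
      apply div_nonneg _ (by norm_num)
      linarith only [s2, p1])
    hL hJB
  refine le_trans (mul_le_mul_of_nonneg_right ?_ hL0) key
  rw [show (0.75 : ℝ) / 4 + 0.25 * (3 / 8) + 0 * (7 / 16) = 0.28125 by norm_num,
        le_sub_iff_add_le, ← le_sub_iff_add_le', div_le_iff₀ (by norm_num)]
  linarith only [s1, p2]

/-- case of all m, used for 13 ≤ m -/
theorem TwoPt.bound_m13 (h : TwoPt μ m p n) (hm : 1 ≤ m)
    (hE : Module.finrank ℝ E = m + 2)
    (h0 : RR μ p n 0 = 0) (h1 : RR μ p n 1 = 0) {L : ℝ} (hL0 : 0 ≤ L)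
    (hL : ∀ ε > 0, ∀ᶠ φ in 𝓝[<] (π / 2), L - ε ≤ JJ μ m p φ)
    (hJB : ∀ ε > 0, ∀ᶠ φ in 𝓝[<] (π / 2), |JJ μ m p φ - BB μ m p n φ| ≤ ε) :
    1.4447 * L ≤ μ.real univ ^ 2 := by
  obtain ⟨s1, s2⟩ := sqrt3_bounds
  have p1 := pi_gt_d6
  have p2 := pi_lt_d6
  have key := h.bound_two (by omega) hE h0 h1 (α := 0) (β := 1) (γ := 0)
    (by intro u hu hu1; linarith only [hu])
    (by
      intro u hu hu1
      have : 0 < u := by linarith only [hu]
      rw [zero_mul, zero_add, zero_mul, zero_mul, add_zero]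
      (clear * - hu; positivity))
    rfl
    (by
      rw [show (0 : ℝ) / 4 + 1 * (3 / 8) + 0 * (7 / 16) = 0.375 by (clear * -; norm_num),
        le_sub_iff_add_le, ← le_sub_iff_add_le', div_le_iff₀ (by norm_num)]
      linarith only [s1, p2])
    (by
      rw [show (0 : ℝ) / 4 + 1 * (3 / 8) + 0 * (7 / 16) = 0.375 by norm_num,
        sub_le_self_iff]
      apply div_nonneg _ (by (clear * -; norm_num))
      linarith only [s1, p1])
    hL hJB
  refine le_trans (mul_le_mul_of_nonneg_right ?_ hL0) key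
  rw [show (0 : ℝ) / 4 + 1 * (3 / 8) + 0 * (7 / 16) = 0.375 by norm_num,
        le_sub_iff_add_le, ← le_sub_iff_add_le', div_le_iff₀ (by norm_num)]
  linarith only [s1, p2]

/-- all dimensions: the Clifford bound -/
theorem TwoPt.bound_clifford (h : TwoPt μ m p n) (hm : 2 ≤ m) (hE : Module.finrank ℝ E = m + 2)
    (h0 : RR μ p n 0 = 0) (h1 : RR μ p n 1 = 0)
    (hL : ∀ ε > 0, ∀ᶠ φ in 𝓝[<] (π / 2), sphereVol m * μ.real univ - ε ≤ JJ μ m p φ)
    (hJB : ∀ ε > 0, ∀ᶠ φ in 𝓝[<] (π / 2), |JJ μ m p φ - BB μ m p n φ| ≤ ε)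
    (hμ : 0 < μ.real univ) :
    leastClifford m ≤ μ.real univ := by
  have hs := sphereVol_pos' m
  have hL0 : 0 ≤ sphereVol m * μ.real univ := by (clear * - hs hμ; positivity)
  obtain ⟨C, hC1, hC2⟩ : ∃ C : ℝ, leastClifford m ≤ C * sphereVol m ∧
      C * (sphereVol m * μ.real univ) ≤ μ.real univ ^ 2 := by
    rcases Nat.lt_or_ge m 3 with h3 | h3
    · obtain rfl : m = 2 := by omega
      exact ⟨_, ratio2', h.bound_m2 hE h0 h1 hL0 hL hJB⟩
    rcases Nat.lt_or_ge m 4 with h4 | h4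
    · obtain rfl : m = 3 := by omega
      exact ⟨_, ratio3, h.bound_m3 hE h0 h1 hL0 hL hJB⟩
    rcases Nat.lt_or_ge m 9 with h9 | h9
    · exact ⟨_, ratio4to8 m h4 (by omega), h.bound_m4 h4 (by omega) hE h0 h1 hL0 hL hJB⟩
    rcases Nat.lt_or_ge m 13 with h13 | h13
    · exact ⟨_, ratio9to12 m h9 (by omega), h.bound_m9 h9 (by omega) hE h0 h1 hL0 hL hJB⟩
    · exact ⟨_, ratio12 m (by omega), h.bound_m13 (by omega) hE h0 h1 hL0 hL hJB⟩
  refine hC1.trans ?_
  have : C * sphereVol m * μ.real univ ≤ μ.real univ * μ.real univ := by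
    calc _ = C * (sphereVol m * μ.real univ) := by ring
      _ ≤ _ := hC2
      _ = _ := sq _
  exact le_of_mul_le_mul_right this hμ

end

end Vale.Agent.P224.FV
end
end

section

section

namespace Vale.Agent.P224.FV

open MeasureTheory Set Real Filter Module
open scoped RealInnerProductSpace Topology ContDiff Manifold

set_option linter.unusedSectionVars false

section

variable {V W M : Type*} [NormedAddCommGroup V] [InnerProductSpace ℝ V] [FiniteDimensional ℝ V]
  [NormedAddCommGroup W] [InnerProductSpace ℝ W] [FiniteDimensional ℝ W]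
  [TopologicalSpace M] [ChartedSpace V M]
  [MeasurableSpace V] [BorelSpace V] [MeasurableSpace M] [BorelSpace M]

lemma V1_zero {F : M → W} (z : M) (m : ℕ) : V1 (volM V F) m F z 0 = (volM V F).real univ := by
  unfold V1 cf
  simp

/-- a point of the image with two preimages -/
theorem two_le_of_double [MeasurableSpace W] [BorelSpace W] [IsManifold 𝓘(ℝ, V) ∞ M]
    [CompactSpace M] [T2Space M] (hm : 1 ≤ finrank ℝ V)
    (hW : finrank ℝ W = finrank ℝ V + 2) {F : M → W}
    (hF : SphImm V F) {N : M → W} (hT : TwoPt (volM V F) (finrank ℝ V) F N)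
    {z z' : M} (hne : z' ≠ z) (hz : F z' = F z) :
    2 * sphereVol (finrank ℝ V) ≤ (volM V F).real univ := by
  have h := V1_ge hm hF hT z (fun ε hε => limit_two hm hW hF hne hz hε) (φ := 0)
    ⟨le_rfl, by positivity⟩
  rwa [V1_zero] at h

lemma one_le [MeasurableSpace W] [BorelSpace W] [IsManifold 𝓘(ℝ, V) ∞ M]
    [CompactSpace M] [T2Space M] [Nonempty M] (hm : 1 ≤ finrank ℝ V)
    (hW : finrank ℝ W = finrank ℝ V + 2) {F : M → W}
    (hF : SphImm V F) {N : M → W} (hT : TwoPt (volM V F) (finrank ℝ V) F N) :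
    sphereVol (finrank ℝ V) ≤ (volM V F).real univ := by
  obtain ⟨z⟩ := ‹Nonempty M›
  have h := V1_ge hm hF hT z (fun ε hε => limit_one hm hW hF z hε) (φ := 0)
    ⟨le_rfl, by positivity⟩
  rwa [V1_zero] at h

lemma JJ_fubini [MeasurableSpace W] [BorelSpace W] [IsManifold 𝓘(ℝ, V) ∞ M]
    [CompactSpace M] {F : M → W} (hF : SphImm V F) {N : M → W}
    (hT : TwoPt (volM V F) (finrank ℝ V) F N) {φ : ℝ} (hφ : φ ∈ Ioo (-(π / 2)) (π / 2)) :
    Integrable (fun z => V1 (volM V F) (finrank ℝ V) F z φ) (volM V F) ∧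
    JJ (volM V F) (finrank ℝ V) F φ = ∫ z, V1 (volM V F) (finrank ℝ V) F z φ ∂(volM V F) := by
  have hfin : IsFiniteMeasure (volM V F) := isFiniteMeasure_volM hF
  have i1 := hT.integrable_ker (g := fun _ => cos φ ^ finrank ℝ V) measurable_const
    (fun q => by
      rw [abs_pow]
      exact (pow_le_one₀ (abs_nonneg _) (abs_cos_le_one φ)).trans (by norm_num)) hφ
    (finrank ℝ V)
  have e : (fun q : M × M => cos φ ^ finrank ℝ V / (1 - ⟪F q.1, F q.2⟫ * sin φ) ^ finrank ℝ V)
      = fun q : M × M => cf φ ⟪F q.1, F q.2⟫ ^ finrank ℝ V := by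
    funext q
    unfold cf
    rw [div_pow]
  rw [e] at i1
  constructor
  · exact i1.integral_prod_right
  · unfold JJ
    rw [integral_prod_symm _ i1]
    rfl

/-- the limits of the two point functions -/
theorem limits [MeasurableSpace W] [BorelSpace W] [IsManifold 𝓘(ℝ, V) ∞ M]
    [CompactSpace M] [T2Space M] (hm : 1 ≤ finrank ℝ V)
    (hW : finrank ℝ W = finrank ℝ V + 2) {F : M → W}
    (hF : SphImm V F) {N : M → W} (hNc : Continuous N)
    (hT : TwoPt (volM V F) (finrank ℝ V) F N) (hinj : Function.Injective F) :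
    (∀ ε > 0, ∀ᶠ φ in 𝓝[<] (π / 2), sphereVol (finrank ℝ V) * (volM V F).real univ - ε ≤
      JJ (volM V F) (finrank ℝ V) F φ) ∧
    (∀ ε > 0, ∀ᶠ φ in 𝓝[<] (π / 2), |JJ (volM V F) (finrank ℝ V) F φ -
      BB (volM V F) (finrank ℝ V) F N φ| ≤ ε) := by
  have hfin : IsFiniteMeasure (volM V F) := isFiniteMeasure_volM hF
  have hcF : Continuous F := hF.smooth.continuous
  have hpi := pi_pos
  have h0 : ∀ᶠ φ in 𝓝[<] (π / 2), φ ∈ Ioo 0 (π / 2) := Ioo_mem_nhdsLT (by positivity)
  constructor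
  · intro ε hε
    filter_upwards [h0] with φ hφ
    obtain ⟨i1, e1⟩ := JJ_fubini hF hT (φ := φ) ⟨by linarith only [hpi, hφ.1], hφ.2⟩
    rw [e1]
    have h1 : ∫ _z : M, sphereVol (finrank ℝ V) ∂(volM V F) ≤
        ∫ z, V1 (volM V F) (finrank ℝ V) F z φ ∂(volM V F) := by
      refine integral_mono (integrable_const _) i1 fun z => ?_
      exact V1_ge hm hF hT z (fun ε hε => limit_one hm hW hF z hε) ⟨hφ.1.le, hφ.2⟩
    rw [integral_const, smul_eq_mul] at h1
    (clear hm hW N hNc hT hinj hcF hpi h0 hφ i1 e1; linarith)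
  · intro ε hε
    refine limit_JB (C := (volM V F).real univ ^ 2) hm hcF hNc hcF.measurable hNc.measurable
      hinj hF.unit hT.nn ?_ hε
    intro φ hφ
    obtain ⟨a, b, hab⟩ := hT.main
    rw [← JJ_zero (m := finrank ℝ V) (p := F)]
    have hsub : ∀ ψ ∈ Ico 0 (π / 2), ψ ∈ Ioo (-(π / 2)) (π / 2) := fun ψ hψ =>
      ⟨by linarith only [hpi, hψ.1], hψ.2⟩
    have hanti : AntitoneOn (JJ (volM V F) (finrank ℝ V) F) (Ico 0 (π / 2)) := by
      refine antitoneOn_of_deriv_nonpos (convex_Ico 0 (π / 2)) ?_ ?_ ?_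
      · exact fun ψ hψ => (hab ψ (hsub ψ hψ)).1.continuousAt.continuousWithinAt
      · intro ψ hψ
        rw [interior_Ico] at hψ
        exact (hab ψ (hsub ψ ⟨hψ.1.le, hψ.2⟩)).1.differentiableAt.differentiableWithinAt
      · intro ψ hψ
        rw [interior_Ico] at hψ
        have hψ' := hsub ψ ⟨hψ.1.le, hψ.2⟩
        rw [(hab ψ hψ').1.deriv]
        have h1 : 0 ≤ sin ψ := sin_nonneg_of_nonneg_of_le_pi hψ.1.le (by linarith only [hpi, hψ.2])
        have h2 : 0 ≤ a ψ := (abs_nonneg _).trans (hab ψ hψ').2.2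
        have := mul_nonneg h1 h2
        linarith only [this]
    exact hanti ⟨le_rfl, by positivity⟩ hφ hφ.1

lemma RR_zero_of [MeasurableSpace W] [BorelSpace W] {m : ℕ} {F N : M → W}
    (hT : TwoPt (volM V F) m F N) [IsFiniteMeasure (volM V F)]
    (h : ∀ a, ∫ x, ⟪N x, a⟫ ∂(volM V F) = 0) : RR (volM V F) F N 0 = 0 := by
  rw [RR_eq]
  have i1 := hT.integrable_RR (μ := volM V F) 0
  simp only [pow_zero, one_mul] at i1 ⊢
  rw [integral_prod_symm _ i1]
  simp only [h, integral_zero]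

lemma RR_one_of [MeasurableSpace W] [BorelSpace W] {m : ℕ} {F N : M → W}
    (hT : TwoPt (volM V F) m F N) [IsFiniteMeasure (volM V F)]
    (h : ∀ a b, ∫ x, ⟪F x, a⟫ * ⟪N x, b⟫ ∂(volM V F) = 0) : RR (volM V F) F N 1 = 0 := by
  rw [RR_eq]
  have i1 := hT.integrable_RR (μ := volM V F) 1
  simp only [pow_one] at i1 ⊢
  rw [integral_prod_symm _ i1]
  simp only [h, integral_zero]

lemma leastClifford_lt_two {m : ℕ} (hm : 2 ≤ m) : leastClifford m ≤ 2 * sphereVol m := by
  have hs := sphereVol_pos' m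
  have key : ∃ C : ℝ, C ≤ 2 ∧ leastClifford m ≤ C * sphereVol m := by
    rcases Nat.lt_or_ge m 3 with h3 | h3
    · obtain rfl : m = 2 := by omega
      exact ⟨_, by norm_num, ratio2⟩
    rcases Nat.lt_or_ge m 4 with h4 | h4
    · obtain rfl : m = 3 := by omega
      exact ⟨_, by norm_num, ratio3⟩
    rcases Nat.lt_or_ge m 9 with h9 | h9
    · exact ⟨_, by norm_num, ratio4to8 m h4 (by omega)⟩
    rcases Nat.lt_or_ge m 13 with h13 | h13
    · exact ⟨_, by norm_num, ratio9to12 m h9 (by omega)⟩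
    · exact ⟨_, by (clear * -; norm_num), ratio12 m (by omega)⟩
  obtain ⟨C, h1, h2⟩ := key
  exact h2.trans (by gcongr)

/-- the balanced class -/
theorem main_C [IsManifold 𝓘(ℝ, V) ∞ M] [CompactSpace M] [T2Space M] [Nonempty M]
    (hm : 2 ≤ finrank ℝ V) (hW : finrank ℝ W = finrank ℝ V + 2) {F : M → W}
    (hF : SphImm V F) (hmin : ∀ x n, IsUnitNormal V F x n → meanCurv V F x n = 0)
    {N : M → W} (hNs : ContMDiff 𝓘(ℝ, V) 𝓘(ℝ, W) ∞ N) (hN : ∀ x, IsUnitNormal V F x (N x))
    (h0 : ∀ a, ∫ x, ⟪N x, a⟫ ∂(volM V F) = 0) :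
    ENNReal.ofReal (0.95 * leastClifford (finrank ℝ V)) ≤ volM V F univ ∧
    ((∀ a b, ∫ x, ⟪F x, a⟫ * ⟪N x, b⟫ ∂(volM V F) = 0) →
      ENNReal.ofReal (leastClifford (finrank ℝ V)) ≤ volM V F univ) := by
  borelize W
  have hm1 : 1 ≤ finrank ℝ V := by omega
  have hfin : IsFiniteMeasure (volM V F) := isFiniteMeasure_volM hF
  have hT := twoPt_of_min hm1 hW hF hmin hNs hN
  have hs := sphereVol_pos' (finrank ℝ V)
  have h1 := one_le hm1 hW hF hT
  have hpos : 0 < (volM V F).real univ := hs.trans_le h1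
  have hconv : ∀ c : ℝ, c ≤ (volM V F).real univ → ENNReal.ofReal c ≤ volM V F univ := by
    intro c hc
    exact ENNReal.ofReal_le_of_le_toReal hc
  by_cases hinj : Function.Injective F
  · obtain ⟨hL, hJB⟩ := limits hm1 hW hF hNs.continuous hT hinj
    have hR0 := RR_zero_of hT h0
    constructor
    · apply hconv
      exact hT.bound_near hm hW hR0 hL hJB hpos
    · intro h2
      apply hconv
      exact hT.bound_clifford hm hW hR0 (RR_one_of hT h2) hL hJB hpos
  · simp only [Function.Injective, not_forall] at hinj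
    obtain ⟨z', z, hz, hne⟩ := hinj
    have h2 := two_le_of_double hm1 hW hF hT hne hz
    constructor
    · apply hconv
      exact (by linarith only [hs, leastClifford_lt_two hm] :
        0.95 * leastClifford (finrank ℝ V) ≤ 2 * sphereVol (finrank ℝ V)).trans h2
    · intro _
      apply hconv
      exact (leastClifford_lt_two hm).trans h2

end

end Vale.Agent.P224.FV
end
end

section

section

/-!
Every closed embedded hypersurface of the sphere is two-sided.
-/

namespace Vale.Agent.P224.TwoSide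

open Set Filter Metric Module
open scoped Topology RealInnerProductSpace ContDiff Manifold

variable {V W M : Type*} [NormedAddCommGroup V] [InnerProductSpace ℝ V] [FiniteDimensional ℝ V]
  [NormedAddCommGroup W] [InnerProductSpace ℝ W] [FiniteDimensional ℝ W]
  [TopologicalSpace M] [ChartedSpace V M] {F : M → W}

lemma exists_goodAt [IsManifold 𝓘(ℝ, V) ∞ M] [CompactSpace M]
    (hW : finrank ℝ W = finrank ℝ V + 2) (hF : SphImm V F) (hinj : Function.Injective F)
    {y : W} (hy : y ≠ 0) : ∃ g, GoodAt (cone F) g y := by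
  by_cases h : y ∈ cone F
  · exact goodAt_on hW hF hinj h
  · exact ⟨_, goodAt_off hF.smooth.continuous hF.unit hy h⟩

/-- there is a pair of antipodal points outside the cone -/
lemma exists_base [IsManifold 𝓘(ℝ, V) ∞ M] [CompactSpace M]
    (hW : finrank ℝ W = finrank ℝ V + 2) (hF : SphImm V F) (hinj : Function.Injective F) :
    ∃ p : W, ‖p‖ = 1 ∧ p ∉ cone F ∧ -p ∉ cone F := by
  have hdense : ∀ y : W, y ≠ 0 → ∃ᶠ z in 𝓝 y, z ∉ cone F := by
    intro y hy
    obtain ⟨g, hg⟩ := exists_goodAt hW hF hinj hy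
    exact (hg.frequently.and_eventually hg.zero).mono fun z hz h => hz.1 (hz.2.mpr h)
  have hopen : ∀ y : W, y ≠ 0 → y ∉ cone F → ∀ᶠ z in 𝓝 y, z ∉ cone F := by
    intro y hy hyc
    have hg := goodAt_off hF.smooth.continuous hF.unit hy hyc
    filter_upwards [hg.zero] with z hz h
    have := hz.mpr h
    norm_num at this
  have hnt : Nontrivial W := by
    apply Module.nontrivial_of_finrank_pos (R := ℝ)
    omega
  obtain ⟨y₀, hy₀⟩ := exists_ne (0 : W)
  have hne : ∀ y : W, y ≠ 0 → ∀ᶠ z in 𝓝 y, z ≠ 0 := fun y hy => continuousAt_id.eventually_ne hy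
  obtain ⟨y, hyc, hy0⟩ := ((hdense y₀ hy₀).and_eventually (hne y₀ hy₀)).exists
  -- move near -y
  have h1 : ∀ᶠ z in 𝓝 (-y), -z ∉ cone F := by
    have : ContinuousAt (fun z : W => -z) (-y) := continuousAt_neg
    refine this.eventually (p := fun z => z ∉ cone F) ?_
    change ∀ᶠ z in 𝓝 (- (- y)), z ∉ cone F
    rw [neg_neg]
    exact hopen y hy0 hyc
  have hny : -y ≠ 0 := neg_ne_zero.mpr hy0
  obtain ⟨z, hz1, hz2, hz3⟩ := ((hdense (-y) hny).and_eventually (h1.and (hne (-y) hny))).exists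
  have hz0 : 0 < ‖z‖ := norm_pos_iff.mpr hz3
  have hscale : ∀ w : W, w ∉ cone F → ∀ c : ℝ, 0 < c → c • w ∉ cone F := by
    rintro w hw c hc ⟨r, hr, x, hx⟩
    apply hw
    refine ⟨c⁻¹ * r, by (clear * - hc hr; (clear * - hc hr; positivity)), x, ?_⟩
    rw [mul_smul, ← hx, smul_smul, inv_mul_cancel₀ hc.ne', one_smul]
  refine ⟨‖z‖⁻¹ • z, ?_, hscale z hz1 _ (by positivity), ?_⟩
  · rw [norm_smul, norm_inv, norm_norm, inv_mul_cancel₀ hz0.ne']
  · rw [← smul_neg]
    exact hscale _ hz2 _ (by positivity)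

omit [FiniteDimensional ℝ W] in
lemma eq_neg_of_inner {p z : W} (hp : ‖p‖ = 1) (h : ⟪z, p⟫ = - ‖z‖) : z = - (‖z‖ • p) := by
  have h1 : ‖z + ‖z‖ • p‖ ^ 2 = 0 := by
    rw [← real_inner_self_eq_norm_sq, inner_add_left, inner_add_right, inner_add_right,
      real_inner_smul_left, real_inner_smul_right, real_inner_smul_right, real_inner_smul_left,
      real_inner_self_eq_norm_sq, real_inner_self_eq_norm_sq, hp, real_inner_comm z p, h]
    ring
  have h2 : z + ‖z‖ • p = 0 := by
    rw [← norm_eq_zero]; exact pow_eq_zero_iff (two_ne_zero) |>.mp h1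
  exact eq_neg_of_add_eq_zero_left h2

/-- a colouring of a star shaped domain containing the hypersurface -/
lemma exists_colouring [IsManifold 𝓘(ℝ, V) ∞ M] [CompactSpace M]
    (hW : finrank ℝ W = finrank ℝ V + 2) (hF : SphImm V F) (hinj : Function.Injective F) :
    ∃ c : W → ℝ, IsCol (cone F) (range F) c := by
  obtain ⟨p, hp, hpc, hnpc⟩ := exists_base hW hF hinj
  set D : Set W := {y | ⟪y, p⟫ ≠ - ‖y‖} with hD
  have hDo : IsOpen D := by
    have h1 : Continuous fun y : W => ⟪y, p⟫ := continuous_id.inner continuous_const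
    have h2 : Continuous fun y : W => - ‖y‖ := continuous_norm.neg
    exact isOpen_ne_fun h1 h2
  have hD0 : ∀ y ∈ D, y ≠ 0 := by
    intro y hy h0
    apply hy
    rw [h0]; simp
  have hstar : ∀ y ∈ D, segment ℝ p y ⊆ D := by
    intro y hy z hz hzD
    obtain ⟨a, b, ha, hb, hab, rfl⟩ := hz
    have h1 := eq_neg_of_inner hp hzD
    rcases hb.eq_or_lt with h0 | h0
    · rw [← h0, add_zero] at hab
      rw [← h0, hab] at hzD
      simp only [one_smul, zero_smul, add_zero, hp] at hzD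
      rw [real_inner_self_eq_norm_sq, hp] at hzD
      norm_num at hzD
    · set ρ := ‖a • p + b • y‖ with hρ
      have h2 : b • y = - ((ρ + a) • p) := by
        have : b • y = (a • p + b • y) - a • p := by abel
        rw [this, h1, add_smul]
        abel
      have h3 : y = - (((ρ + a) / b) • p) := by
        have := congrArg (fun w => b⁻¹ • w) h2
        simp only [smul_smul, inv_mul_cancel₀ h0.ne', one_smul, smul_neg] at this
        rw [this]
        congr 2
        (clear * - h0; field_simp)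
      apply hy
      have hρ0 : 0 ≤ ρ := norm_nonneg _
      have h4 : 0 ≤ (ρ + a) / b := by (clear * - ha h0; (clear * - ha h0; positivity))
      rw [h3, inner_neg_left, real_inner_smul_left, real_inner_self_eq_norm_sq, hp, norm_neg,
        norm_smul, hp, Real.norm_of_nonneg h4]
      ring
  obtain ⟨c, hc⟩ := exists_global (C := cone F) (D := D) (p := p) hDo hpc hstar
    (fun z hz => exists_goodAt hW hF hinj (hD0 z hz))
  refine ⟨c, hc.mono ?_⟩
  rintro _ ⟨x, rfl⟩ h
  have h1 := eq_neg_of_inner hp h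
  apply hnpc
  rw [hF.unit, one_smul] at h1
  exact ⟨1, one_pos, x, by rw [one_smul, h1]⟩

/-- the differential of a defining function does not vanish on the normal -/
lemma fderiv_ne_zero [IsManifold 𝓘(ℝ, V) ∞ M]
    (hW : finrank ℝ W = finrank ℝ V + 2) (hF : SphImm V F) {g : W → ℝ} {x : M} {n : W}
    (hg : GoodAt (cone F) g (F x)) (hn : IsUnitNormal V F x n) : fderiv ℝ g (F x) n ≠ 0 := by
  intro h0
  have hI := immV_rep hF x
  have hxs := mem_chart_source V x
  have hxT : chartAt V x x ∈ (chartAt V x).target := (chartAt V x).map_source hxs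
  set f : V → W := rep F x with hf
  have hfx : f (chartAt V x x) = F x := by
    rw [hf]; unfold rep; rw [(chartAt V x).left_inv hxs]
  have hfd : HasFDerivAt f (fderiv ℝ f (chartAt V x x)) (chartAt V x x) :=
    ((hI.smooth.contDiffAt (hI.isOpen.mem_nhds hxT)).differentiableAt (by norm_num)).hasFDerivAt
  have hgd : HasFDerivAt g (fderiv ℝ g (F x)) (F x) :=
    (hg.smooth.differentiableAt (by norm_num)).hasFDerivAt
  have hmem : F x ∈ cone F := ⟨1, one_pos, x, (one_smul _ _).symm⟩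
  have hg0 : g (F x) = 0 := hg.zero.self_of_nhds.mpr hmem
  apply hg.reg hg0
  -- tangential directions
  have h1 : ∀ v, fderiv ℝ g (F x) (fderiv ℝ f (chartAt V x x) v) = 0 := by
    intro v
    have e1 : HasFDerivAt (g ∘ f) ((fderiv ℝ g (F x)).comp (fderiv ℝ f (chartAt V x x)))
        (chartAt V x x) := by
      rw [← hfx] at hgd ⊢
      exact hgd.comp _ hfd
    have e2 : g ∘ f =ᶠ[𝓝 (chartAt V x x)] fun _ => 0 := by
      have := hfd.continuousAt.eventually (by rw [hfx]; exact hg.zero)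
      filter_upwards [this] with u hu
      exact hu.mpr ⟨1, one_pos, _, (one_smul _ _).symm⟩
    have e3 := (e1.congr_of_eventuallyEq e2.symm).unique (hasFDerivAt_const (0 : ℝ) _)
    have := congrArg (fun L => L v) e3
    simpa only [ContinuousLinearMap.comp_apply, zero_apply] using this
  have h2 : fderiv ℝ g (F x) (F x) = 0 := by
    have hcur : HasDerivAt (fun r : ℝ => r • F x) (F x) 1 := by
      simpa only [id_eq, one_smul] using (hasDerivAt_id (1 : ℝ)).smul_const (F x)
    have hgd' : HasFDerivAt g (fderiv ℝ g (F x)) ((1 : ℝ) • F x) := by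
      rw [one_smul]; exact hgd
    have e1 := hgd'.comp_hasDerivAt (1 : ℝ) hcur
    have e2 : g ∘ (fun r : ℝ => r • F x) =ᶠ[𝓝 1] fun _ => 0 := by
      have hz : ∀ᶠ z in 𝓝 ((fun r : ℝ => r • F x) 1), (g z = 0 ↔ z ∈ cone F) := by
        simp only [one_smul]; exact hg.zero
      have := hcur.continuousAt.eventually hz
      filter_upwards [this, lt_mem_nhds (zero_lt_one (α := ℝ))] with r hr hr0
      exact hr.mpr ⟨r, hr0, x, rfl⟩
    exact (e1.congr_of_eventuallyEq e2.symm).unique (hasDerivAt_const (1 : ℝ) (0 : ℝ))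
  obtain ⟨hn1, hn2, hn3⟩ := hn
  have hLn : ∀ v, ⟪fderiv ℝ f (chartAt V x x) v, n⟫ = 0 := by
    intro v
    have hv : v = ∑ i, (stdOrthonormalBasis ℝ V).repr v i • stdOrthonormalBasis ℝ V i :=
      ((stdOrthonormalBasis ℝ V).sum_repr v).symm
    rw [hv, map_sum, sum_inner]
    refine Finset.sum_eq_zero fun i _ => ?_
    rw [map_smul, inner_smul_left]
    have : ⟪fderiv ℝ f (chartAt V x x) (stdOrthonormalBasis ℝ V i), n⟫ = 0 := hn3 i
    rw [this, mul_zero]
  set z := (InnerProductSpace.toDual ℝ W).symm (fderiv ℝ g (F x)) with hz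
  have hzi : ∀ w, ⟪w, z⟫ = fderiv ℝ g (F x) w := by
    intro w
    rw [real_inner_comm, hz, InnerProductSpace.toDual_symm_apply]
  have hz0 : z = 0 := by
    apply FV.eq_zero_of_orth hW (fderiv ℝ f (chartAt V x x)).toLinearMap (hI.inj _ hxT)
      (hF.unit x) hn1 hn2
    · intro v
      have := FV.inner_rep_F_fderiv hI hxT v
      rwa [hfx] at this
    · exact hLn
    · intro v
      rw [hzi]; exact h1 v
    · rw [hzi]; exact h2
    · rw [hzi]; exact h0
  have h3 := congrArg (InnerProductSpace.toDual ℝ W) hz0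
  rw [hz, LinearIsometryEquiv.apply_symm_apply, map_zero] at h3
  exact h3

/-- the side into which the normal points -/
lemma side {g c : W → ℝ} {x : M} {n : W}
    (hg : GoodAt (cone F) g (F x)) (hc : ∀ᶠ z in 𝓝 (F x), c z = Real.sign (g z))
    (h0 : 0 < fderiv ℝ g (F x) n) : ∀ᶠ s in 𝓝[>] (0 : ℝ), c (F x + s • n) = 1 := by
  obtain ⟨k, hk, δ, hδ, hgr⟩ := growth hg.smooth h0
  have hmem : F x ∈ cone F := ⟨1, one_pos, x, (one_smul _ _).symm⟩
  have hg0 : g (F x) = 0 := hg.zero.self_of_nhds.mpr hmem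
  have hcur : ContinuousAt (fun s : ℝ => F x + s • n) 0 := by (clear * -; (clear * -; fun_prop))
  have e0 : F x + (0 : ℝ) • n = F x := by simp
  have h1 : ∀ᶠ s in 𝓝 (0 : ℝ), F x + s • n ∈ ball (F x) δ := by
    apply hcur.eventually_mem
    rw [e0]
    exact ball_mem_nhds _ hδ
  have h2 : ∀ᶠ s in 𝓝 (0 : ℝ), c (F x + s • n) = Real.sign (g (F x + s • n)) := by
    refine hcur.eventually (p := fun z => c z = Real.sign (g z)) ?_
    change ∀ᶠ z in 𝓝 (F x + (0 : ℝ) • n), c z = Real.sign (g z)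
    rw [e0]
    exact hc
  filter_upwards [nhdsWithin_le_nhds h1, nhdsWithin_le_nhds h2, self_mem_nhdsWithin]
    with s a b hs
  have hs0 : 0 < s := hs
  have h3 := hgr (F x) (mem_ball_self hδ) s hs0.le a
  rw [b, Real.sign_of_pos]
  rw [hg0] at h3
  have : 0 < k * s := mul_pos hk hs0
  linarith only [h3, this]

lemma side_neg {g c : W → ℝ} {x : M} {n : W}
    (hg : GoodAt (cone F) g (F x)) (hc : ∀ᶠ z in 𝓝 (F x), c z = Real.sign (g z))
    (h0 : fderiv ℝ g (F x) n < 0) : ∀ᶠ s in 𝓝[>] (0 : ℝ), c (F x + s • n) = -1 := by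
  have h1 : ∀ᶠ z in 𝓝 (F x), (fun z => - c z) z = Real.sign ((fun z => - g z) z) := by
    filter_upwards [hc] with z hz
    rw [Real.sign_neg, hz]
  have h2 := side hg.neg h1 (n := n) (by
    rw [fderiv_fun_neg]
    simp only [_root_.neg_apply]
    linarith only [h0])
  filter_upwards [h2] with s hs
  linarith only [hs]

/-- every closed embedded hypersurface of the sphere has a smooth unit normal field -/
theorem exists_normal [IsManifold 𝓘(ℝ, V) ∞ M] [CompactSpace M]
    (hW : finrank ℝ W = finrank ℝ V + 2) (hF : SphImm V F) (hinj : Function.Injective F) :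
    ∃ N : M → W, ContMDiff 𝓘(ℝ, V) 𝓘(ℝ, W) ∞ N ∧ ∀ x, IsUnitNormal V F x (N x) := by
  obtain ⟨c, hc⟩ := exists_colouring hW hF hinj
  have hneg : ∀ (x : M) (n : W), IsUnitNormal V F x n → IsUnitNormal V F x (-n) := by
    rintro x n ⟨h1, h2, h3⟩
    exact ⟨by rw [norm_neg]; exact h1, by rw [inner_neg_right, h2, neg_zero],
      fun i => by rw [inner_neg_right, h3, neg_zero]⟩
  -- dichotomy
  have hdich : ∀ (x : M) (n : W), IsUnitNormal V F x n →
      (∀ᶠ s in 𝓝[>] (0 : ℝ), c (F x + s • n) = 1) ∨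
      (∀ᶠ s in 𝓝[>] (0 : ℝ), c (F x + s • (-n)) = 1) := by
    intro x n hn
    obtain ⟨g, hg, hcg⟩ := hc (F x) ⟨x, rfl⟩
    rcases lt_or_gt_of_ne (fderiv_ne_zero hW hF hg hn) with h | h
    · right
      exact side hg hcg (by rw [map_neg]; linarith only [h])
    · left
      exact side hg hcg h
  have hexcl : ∀ (x : M) (n : W), IsUnitNormal V F x n →
      (∀ᶠ s in 𝓝[>] (0 : ℝ), c (F x + s • n) = 1) →
      ¬ (∀ᶠ s in 𝓝[>] (0 : ℝ), c (F x + s • (-n)) = 1) := by
    intro x n hn h1 h2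
    obtain ⟨g, hg, hcg⟩ := hc (F x) ⟨x, rfl⟩
    rcases lt_or_gt_of_ne (fderiv_ne_zero hW hF hg hn) with h | h
    · obtain ⟨s, hs1, hs2⟩ := (h1.and (side_neg hg hcg h)).exists
      rw [hs1] at hs2; norm_num at hs2
    · obtain ⟨s, hs1, hs2⟩ := (h2.and (side_neg hg hcg (n := -n)
        (by rw [map_neg]; linarith only [h]))).exists
      rw [hs1] at hs2; norm_num at hs2
  have hex : ∀ x : M, ∃ n : W, IsUnitNormal V F x n ∧
      ∀ᶠ s in 𝓝[>] (0 : ℝ), c (F x + s • n) = 1 := by
    intro x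
    have hut : chartAt V x x ∈ (chartAt V x).target :=
      (chartAt V x).map_source (mem_chart_source _ x)
    have h1 := (pointwise_nu hW hF x hut).1
    rw [(chartAt V x).left_inv (mem_chart_source _ x)] at h1
    rcases hdich x _ h1 with h | h
    · exact ⟨_, h1, h⟩
    · exact ⟨_, hneg x _ h1, h⟩
  choose N hN hNc using hex
  refine ⟨N, ?_, hN⟩
  intro x₀
  set φ := chartAt V x₀ with hφ
  have hxs : x₀ ∈ φ.source := mem_chart_source _ x₀
  have hxT : φ x₀ ∈ φ.target := φ.map_source hxs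
  set ν : M → W := fun x => nuW hW (rep F x₀) (φ x) with hν
  have hνn : ∀ x ∈ φ.source, IsUnitNormal V F x (ν x) := by
    intro x hx
    have h1 := (pointwise_nu hW hF x₀ (φ.map_source hx)).1
    rwa [φ.left_inv hx] at h1
  have hνs : ContMDiffAt 𝓘(ℝ, V) 𝓘(ℝ, W) ∞ ν x₀ := by
    have hI := (immV_rep hF x₀).imm hW
    have hmem : iV V (φ x₀) ∈ (iV V).symm ⁻¹' φ.target := by
      rw [mem_preimage, (iV V).symm_apply_apply]; exact hxT
    have h1 : ContDiffAt ℝ ∞ (nu (tr hW (rep F x₀))) (iV V (φ x₀)) :=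
      hI.contDiffOn_nu.contDiffAt (hI.isOpen.mem_nhds hmem)
    have h2 : ContDiffAt ℝ ∞ (nuW hW (rep F x₀)) (φ x₀) := by
      unfold nuW
      exact (iW hW).symm.contDiff.contDiffAt.comp _
        (h1.comp (φ x₀) (iV V).contDiff.contDiffAt)
    have h3 : ContMDiffAt 𝓘(ℝ, V) 𝓘(ℝ, V) ∞ φ x₀ := by
      have := contMDiffAt_extChartAt (I := 𝓘(ℝ, V)) (x := x₀) (n := ∞)
      simpa using this
    exact h2.contMDiffAt.comp x₀ h3
  -- local constancy of the sign
  obtain ⟨g, hg, hcg⟩ := hc (F x₀) ⟨x₀, rfl⟩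
  have hFc : ContinuousAt F x₀ := hF.smooth.continuous.continuousAt
  have e1 : ∀ᶠ x in 𝓝 x₀, GoodAt (cone F) g (F x) := hFc.eventually hg.eventually
  have e2 : ∀ᶠ x in 𝓝 x₀, ∀ᶠ z in 𝓝 (F x), c z = Real.sign (g z) :=
    hFc.eventually hcg.eventually_nhds
  have hcont : ContinuousAt (fun x => fderiv ℝ g (F x) (ν x)) x₀ := by
    have h1 : ContinuousAt (fun x => fderiv ℝ g (F x)) x₀ :=
      ContinuousAt.comp (f := F) (g := fderiv ℝ g)
        (hg.smooth.fderiv_right (m := 0) (by norm_num)).continuousAt hFc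
    exact h1.clm_apply hνs.continuousAt
  have e3 : ∀ᶠ x in 𝓝 x₀, x ∈ φ.source := φ.open_source.mem_nhds hxs
  have huniq : ∀ x (n : W), IsUnitNormal V F x n →
      (∀ᶠ s in 𝓝[>] (0 : ℝ), c (F x + s • n) = 1) → N x = n := by
    intro x n hn hcn
    obtain ⟨ε₁, hε₁, h1⟩ := unitNormal_eq hW hF x n hn
    obtain ⟨ε₂, hε₂, h2⟩ := unitNormal_eq hW hF x (N x) (hN x)
    have hε : ∀ ε : ℝ, ε ^ 2 = 1 → ε = 1 ∨ ε = -1 := by
      intro ε h
      have : (ε - 1) * (ε + 1) = 0 := by linarith only [h]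
      rcases mul_eq_zero.mp this with h | h
      · left; linarith only [h]
      · right; linarith only [h]
    have h3 : N x = n ∨ N x = - n := by
      rw [h1, h2]
      rcases hε _ hε₁ with a | a <;> rcases hε _ hε₂ with b | b <;> simp [a, b]
    rcases h3 with h3 | h3
    · exact h3
    · exfalso
      have := hNc x
      rw [h3] at this
      exact hexcl x n hn hcn this
  rcases lt_or_gt_of_ne (fderiv_ne_zero hW hF hg (hνn x₀ hxs)) with h | h
  · have h4 : ∀ᶠ x in 𝓝 x₀, fderiv ℝ g (F x) (ν x) < 0 := hcont.eventually (gt_mem_nhds h)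
    have h5 : N =ᶠ[𝓝 x₀] fun x => - ν x := by
      filter_upwards [e1, e2, e3, h4] with x a b c' d
      exact huniq x _ (hneg x _ (hνn x c')) (side a b (by rw [map_neg]; linarith only [d]))
    exact (hνs.neg).congr_of_eventuallyEq h5
  · have h4 : ∀ᶠ x in 𝓝 x₀, 0 < fderiv ℝ g (F x) (ν x) := hcont.eventually (lt_mem_nhds h)
    have h5 : N =ᶠ[𝓝 x₀] ν := by
      filter_upwards [e1, e2, e3, h4] with x a b c' d
      exact huniq x _ (hνn x c') (side a b d)
    exact hνs.congr_of_eventuallyEq h5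

end Vale.Agent.P224.TwoSide
end
end

section

section

/-!
Volume and multiplicity, without a normal field.
-/

namespace Vale.Agent.P224.TwoSide

open MeasureTheory Set Real Filter Vale.Agent.P224.FV Module
open scoped RealInnerProductSpace Topology ContDiff Manifold

set_option linter.unusedSectionVars false

section

variable {V W M : Type*} [NormedAddCommGroup V] [InnerProductSpace ℝ V] [FiniteDimensional ℝ V]
  [NormedAddCommGroup W] [InnerProductSpace ℝ W] [FiniteDimensional ℝ W]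
  [TopologicalSpace M] [ChartedSpace V M]

/-- Bessel inequality for the tangential part -/
lemma bessel [IsManifold 𝓘(ℝ, V) ∞ M] {F : M → W} (hF : SphImm V F) {y : W} (hy : ‖y‖ = 1)
    (p : M) : ⟪dl V F y F p, y⟫ ≤ 1 - ⟪F p, y⟫ ^ 2 := by
  have hI := immV_rep hF p
  have hpT : chartAt V p p ∈ (chartAt V p).target :=
    (chartAt V p).map_source (mem_chart_source _ p)
  have hFp : rep (V := V) F p (chartAt V p p) = F p := by
    unfold rep; rw [(chartAt V p).left_inv (mem_chart_source _ p)]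
  have ht : dl V F y F p = lT (rep (V := V) F p) y (chartAt V p p) := fderiv_vW _ _ _
  have h1 : ⟪dl V F y F p, F p⟫ = 0 := by
    have := inner_rep_F_fderiv hI hpT (vW (rep (V := V) F p) y (chartAt V p p))
    rwa [hFp] at this
  have h2 : ⟪dl V F y F p, y - dl V F y F p⟫ = 0 := by
    have := inner_fderiv_sub_lT (hI.inj _ hpT) y (vW (rep (V := V) F p) y (chartAt V p p))
    rwa [← ht] at this
  set t := dl V F y F p with htd
  have h3 : ⟪t, y⟫ = ‖t‖ ^ 2 := by
    rw [inner_sub_right, real_inner_self_eq_norm_sq] at h2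
    linarith only [h2]
  have h4 : 0 ≤ ‖y - t - ⟪F p, y⟫ • F p‖ ^ 2 := sq_nonneg _
  rw [← real_inner_self_eq_norm_sq] at h4
  simp only [inner_sub_left, inner_sub_right, real_inner_smul_left, real_inner_smul_right,
    real_inner_self_eq_norm_sq, hy, h1, real_inner_comm t y, real_inner_comm t (F p),
    real_inner_comm (F p) y, h3] at h4
  rw [norm_smul, hF.unit, mul_one, Real.norm_eq_abs, sq_abs] at h4
  rw [h3]
  linarith only [h4]

variable [MeasurableSpace V] [BorelSpace V] [MeasurableSpace M] [BorelSpace M]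

/-- the conformal volume with respect to an arbitrary unit vector -/
noncomputable def VV (μ : Measure M) (m : ℕ) (F : M → W) (y : W) (φ : ℝ) : ℝ :=
  ∫ x, cf φ ⟪F x, y⟫ ^ m ∂μ

lemma abs_Fy_le {F : M → W} (hF : SphImm V F) {y : W} (hy : ‖y‖ = 1) (x : M) :
    |⟪F x, y⟫| ≤ 1 := by
  have := abs_real_inner_le_norm (F x) y
  rwa [hF.unit, hy, mul_one] at this

lemma cont_DDy {F : M → W} (hF : SphImm V F) {y : W} (hy : ‖y‖ = 1) (k : ℕ) {φ : ℝ}
    (hφ : φ ∈ Ioo (-(π / 2)) (π / 2)) : Continuous (fun x => DD k φ ⟪F x, y⟫) := by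
  unfold DD
  have hcF : Continuous F := hF.smooth.continuous
  refine Continuous.inv₀ ?_ fun x => pow_ne_zero k (den_pos hφ (abs_Fy_le hF hy x)).ne'
  exact (continuous_const.sub ((hcF.inner continuous_const).mul continuous_const)).pow k

lemma deriv_nonpos [IsManifold 𝓘(ℝ, V) ∞ M] [CompactSpace M] [T2Space M]
    (hm : 1 ≤ Module.finrank ℝ V)
    (hW : Module.finrank ℝ W = Module.finrank ℝ V + 2) {F : M → W}
    (hF : SphImm V F) (hmin : ∀ x n, IsUnitNormal V F x n → meanCurv V F x n = 0)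
    {y : W} (hy : ‖y‖ = 1) {φ : ℝ} (hφ : φ ∈ Ico 0 (π / 2)) :
    ∫ x, (⟪F x, y⟫ - sin φ) / (1 - ⟪F x, y⟫ * sin φ) ^ (finrank ℝ V + 1) ∂(volM V F) ≤ 0 := by
  have hpi := pi_pos
  have hφ' : φ ∈ Ioo (-(π / 2)) (π / 2) := ⟨by linarith only [hpi, hφ.1], hφ.2⟩
  have hV : VolChart V F := volChart_of_sphImm hF
  have hfin : IsFiniteMeasure (volM V F) := isFiniteMeasure_volM hF
  have hcF : Continuous F := hF.smooth.continuous
  set m := finrank ℝ V with hmdef
  have hm0 : (0 : ℝ) < m := by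
    have : (1 : ℝ) ≤ m := by exact_mod_cast hm
    (clear * - hm; positivity)
  have hdp : ∀ x, 0 < 1 - ⟪F x, y⟫ * sin φ := fun x => den_pos hφ' (abs_Fy_le hF hy x)
  have hd : ∀ x, 1 - ⟪F x, y⟫ * sin φ ≠ 0 := fun x => (hdp x).ne'
  have hs := smooth_comp (w := DD m φ) (smooth_inner hF.smooth y)
    (fun x => contDiffAt_DD (hd x))
  have key := first_variation hW hF hmin hV y hs
  have e1 : ∀ p, dl V F y (fun q => DD m φ ⟪F q, y⟫) p
      = m * sin φ * DD (m + 1) φ ⟪F p, y⟫ * ⟪dl V F y F p, y⟫ := by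
    intro p
    rw [dl_comp y (smooth_inner hF.smooth y) p (hasDerivAt_DD (hd p)), dl_inner y hF.smooth]
  simp only [e1] at key
  have cs : Continuous (fun x => ⟪F x, y⟫) := hcF.inner continuous_const
  have cT : Continuous (fun x => ⟪dl V F y F x, y⟫) :=
    (continuous_dl hF y hF.smooth).inner continuous_const
  have cD : Continuous (fun x => DD (m + 1) φ ⟪F x, y⟫) := cont_DDy hF hy (m + 1) hφ'
  have cDm : Continuous (fun x => DD m φ ⟪F x, y⟫) := cont_DDy hF hy m hφ'
  have key2 : ∫ x, ⟪F x, y⟫ * DD m φ ⟪F x, y⟫ ∂(volM V F)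
      = sin φ * ∫ x, DD (m + 1) φ ⟪F x, y⟫ * ⟪dl V F y F x, y⟫ ∂(volM V F) := by
    have e2 : ∫ p, (m : ℝ) * sin φ * DD (m + 1) φ ⟪F p, y⟫ * ⟪dl V F y F p, y⟫ ∂(volM V F)
        = m * (sin φ * ∫ x, DD (m + 1) φ ⟪F x, y⟫ * ⟪dl V F y F x, y⟫ ∂(volM V F)) := by
      rw [← integral_const_mul, ← integral_const_mul]
      refine integral_congr_ae ?_
      filter_upwards with x
      ring
    rw [e2] at key
    have := mul_left_cancel₀ hm0.ne' key
    rw [this]
    refine integral_congr_ae ?_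
    filter_upwards with x
    rw [real_inner_comm]
  have i1 : Integrable (fun x => ⟪F x, y⟫ * DD m φ ⟪F x, y⟫) (volM V F) :=
    integrable_of_cont _ (cs.mul cDm)
  have i2 : Integrable (fun x => DD (m + 1) φ ⟪F x, y⟫ * (1 - ⟪F x, y⟫ ^ 2)) (volM V F) :=
    integrable_of_cont _ (cD.mul (continuous_const.sub (cs.pow 2)))
  have i3 : Integrable (fun x => DD (m + 1) φ ⟪F x, y⟫ * ⟪dl V F y F x, y⟫) (volM V F) :=
    integrable_of_cont _ (cD.mul cT)
  have e3 : ∫ x, (⟪F x, y⟫ - sin φ) / (1 - ⟪F x, y⟫ * sin φ) ^ (m + 1) ∂(volM V F)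
      = ∫ x, ⟪F x, y⟫ * DD m φ ⟪F x, y⟫ ∂(volM V F)
        - sin φ * ∫ x, DD (m + 1) φ ⟪F x, y⟫ * (1 - ⟪F x, y⟫ ^ 2) ∂(volM V F) := by
    rw [← integral_const_mul, ← integral_sub i1 (i2.const_mul _)]
    refine integral_congr_ae ?_
    filter_upwards with x
    rw [DD_succ (k := m) (hd x)]
    unfold DD
    ring
  rw [e3, key2, ← mul_sub, ← integral_sub i3 i2]
  have hsin : 0 ≤ sin φ := sin_nonneg_of_nonneg_of_le_pi hφ.1 (by linarith only [hpi, hφ.2])
  apply mul_nonpos_of_nonneg_of_nonpos hsin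
  apply integral_nonpos
  intro x
  simp only [Pi.zero_apply]
  rw [← mul_sub]
  apply mul_nonpos_of_nonneg_of_nonpos (DD_pos (hdp x)).le
  have := bessel hF hy x
  (clear hmin φ hφ hpi hφ' hV hcF m hm hW hmdef hm0 hdp hd hs e1 key cs cT cD cDm key2 i1 i2 i3 e3 hsin; linarith)

/-- the volume is at least the number of preimages of a point times the volume of the sphere -/
theorem card_le [IsManifold 𝓘(ℝ, V) ∞ M] [CompactSpace M] [T2Space M]
    (hm : 1 ≤ Module.finrank ℝ V)
    (hW : Module.finrank ℝ W = Module.finrank ℝ V + 2) {F : M → W}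
    (hF : SphImm V F) (hmin : ∀ x n, IsUnitNormal V F x n → meanCurv V F x n = 0)
    (q : Finset M) (y : W) (hq : ∀ p ∈ q, F p = y) (hy : ‖y‖ = 1) :
    (q.card : ℝ) * sphereVol (finrank ℝ V) ≤ (volM V F).real univ := by
  borelize W
  have hfin : IsFiniteMeasure (volM V F) := isFiniteMeasure_volM hF
  have hpi := pi_pos
  set m := finrank ℝ V with hmdef
  have hcF : Continuous F := hF.smooth.continuous
  have hsm : Measurable (fun x => ⟪F x, y⟫) := (hcF.inner continuous_const).measurable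
  have hder : ∀ φ ∈ Ioo (-(π / 2)) (π / 2), HasDerivAt (VV (volM V F) m F y)
      (m * cos φ ^ (m - 1) * ∫ x, (⟪F x, y⟫ - sin φ) / (1 - ⟪F x, y⟫ * sin φ) ^ (m + 1)
        ∂(volM V F)) φ := by
    intro φ hφ
    have h1 := hasDerivAt_integral_cf (volM V F) m (g := fun _ => 1) hsm measurable_const
      (fun x => abs_Fy_le hF hy x) (by simp) hφ
    simp only [one_mul] at h1
    exact h1
  have hanti : AntitoneOn (VV (volM V F) m F y) (Ico 0 (π / 2)) := by
    have hsub : ∀ ψ ∈ Ico 0 (π / 2), ψ ∈ Ioo (-(π / 2)) (π / 2) := fun ψ hψ =>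
      ⟨by linarith only [hpi, hψ.1], hψ.2⟩
    refine antitoneOn_of_deriv_nonpos (convex_Ico 0 (π / 2)) ?_ ?_ ?_
    · exact fun ψ hψ => (hder ψ (hsub ψ hψ)).continuousAt.continuousWithinAt
    · intro ψ hψ
      rw [interior_Ico] at hψ
      exact (hder ψ (hsub ψ ⟨hψ.1.le, hψ.2⟩)).differentiableAt.differentiableWithinAt
    · intro ψ hψ
      rw [interior_Ico] at hψ
      have hψ' : ψ ∈ Ico 0 (π / 2) := ⟨hψ.1.le, hψ.2⟩
      rw [(hder ψ (hsub ψ hψ')).deriv]
      have h2 : 0 ≤ cos ψ := cos_nonneg_of_neg_pi_div_two_le_of_le (by linarith only [hpi, hψ.1]) hψ.2.le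
      exact mul_nonpos_of_nonneg_of_nonpos (by (clear * - hm h2; (clear * - hm h2; (clear * - hm h2; positivity)))) (deriv_nonpos hm hW hF hmin hy hψ')
  have hz : VV (volM V F) m F y 0 = (volM V F).real univ := by
    unfold VV cf
    simp only [cos_zero, sin_zero, mul_zero, sub_zero, ne_eq, one_ne_zero, not_false_eq_true, div_self, one_pow, integral_const, smul_eq_mul, mul_one]
  rw [← hz]
  refine le_of_forall_pos_le_add fun ε hε => ?_
  have h1 : ∀ᶠ ψ in 𝓝[<] (π / 2), ψ ∈ Ioo 0 (π / 2) := Ioo_mem_nhdsLT (by positivity)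
  have h0 := limit_card (by omega) hW hF q y hq hy hε
  obtain ⟨ψ, hψ1, hψ2⟩ := (h0.and h1).exists
  have h2 := hanti (⟨le_rfl, by positivity⟩ : (0 : ℝ) ∈ Ico 0 (π / 2))
    (⟨hψ2.1.le, hψ2.2⟩ : ψ ∈ Ico 0 (π / 2)) hψ2.1.le
  have h3 : VV (volM V F) m F y ψ = ∫ x, cf ψ ⟪F x, y⟫ ^ m ∂(volM V F) := rfl
  (clear hq hmdef hz hε h1 h0; linarith)

/-- a minimal immersion which is not injective has volume at least twice that of the sphere -/
theorem two_le [IsManifold 𝓘(ℝ, V) ∞ M] [CompactSpace M] [T2Space M]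
    (hm : 1 ≤ Module.finrank ℝ V)
    (hW : Module.finrank ℝ W = Module.finrank ℝ V + 2) {F : M → W}
    (hF : SphImm V F) (hmin : ∀ x n, IsUnitNormal V F x n → meanCurv V F x n = 0)
    (hinj : ¬ Function.Injective F) :
    2 * sphereVol (finrank ℝ V) ≤ (volM V F).real univ := by
  classical
  simp only [Function.Injective, not_forall] at hinj
  obtain ⟨z', z, hz, hne⟩ := hinj
  have h := card_le hm hW hF hmin {z', z} (F z) (by simp only [Finset.mem_insert, Finset.mem_singleton, forall_eq_or_imp, hz, forall_eq, and_self]) (hF.unit z)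
  rw [Finset.card_pair hne] at h
  exact_mod_cast h

end

end Vale.Agent.P224.TwoSide
end
end

section

section

/-!
The least Clifford volume bounds the volume of every closed minimal hypersurface whose symmetry
group is irreducible.
-/

namespace Vale.Agent.P224.Sym

open scoped Manifold ContDiff RealInnerProductSpace Topology ENNReal
open MeasureTheory Metric Module Set Filter Vale.Agent.P224 Vale.Agent.P224.FV

set_option linter.unusedSectionVars false

variable {V W M : Type*} [NormedAddCommGroup V] [InnerProductSpace ℝ V] [FiniteDimensional ℝ V]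
  [NormedAddCommGroup W] [InnerProductSpace ℝ W] [FiniteDimensional ℝ W]
  [TopologicalSpace M] [ChartedSpace V M] {F : M → W}

/-- two unit normals at a point agree up to sign -/
lemma normal_pm [IsManifold 𝓘(ℝ, V) ∞ M] (hW : finrank ℝ W = finrank ℝ V + 2)
    (hF : SphImm V F) {x : M} {n k : W} (hn : IsUnitNormal V F x n) (hk : IsUnitNormal V F x k) :
    n = k ∨ n = -k := by
  obtain ⟨ε₁, hε₁, h1⟩ := unitNormal_eq hW hF x n hn
  obtain ⟨ε₂, hε₂, h2⟩ := unitNormal_eq hW hF x k hk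
  have hε : ∀ ε : ℝ, ε ^ 2 = 1 → ε = 1 ∨ ε = -1 := by
    intro ε h
    have : (ε - 1) * (ε + 1) = 0 := by linarith only [h]
    rcases mul_eq_zero.mp this with h | h
    · left; linarith only [h]
    · right; linarith only [h]
  rw [h1, h2]
  rcases hε _ hε₁ with a | a <;> rcases hε _ hε₂ with b | b <;> simp [a, b]

/-- the sign is constant -/
lemma sign_const [IsManifold 𝓘(ℝ, V) ∞ M] [ConnectedSpace M] (hW : finrank ℝ W = finrank ℝ V + 2)
    (hF : SphImm V F) {N : M → W} (hNc : Continuous N) (hN : ∀ x, IsUnitNormal V F x (N x))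
    (σ : M ≃ₜ M) (hσ : ContMDiff 𝓘(ℝ, V) 𝓘(ℝ, V) ∞ σ) (g : W ≃ₗᵢ[ℝ] W)
    (hg : ∀ x, F (σ x) = g (F x)) :
    (∀ x, N (σ x) = g (N x)) ∨ (∀ x, N (σ x) = -g (N x)) := by
  have h1 : ∀ x, N (σ x) = g (N x) ∨ N (σ x) = -g (N x) := fun x =>
    normal_pm hW hF (hN (σ x)) (normal_image hF hσ g hg x _ (hN x))
  have hnn : ∀ x, ⟪g (N x), g (N x)⟫ = 1 := fun x => by
    rw [g.inner_map_map, real_inner_self_eq_norm_sq, (hN x).1]; norm_num
  set f : M → ℝ := fun x => ⟪N (σ x), g (N x)⟫ with hf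
  have hfc : Continuous f := (hNc.comp σ.continuous).inner (g.continuous.comp hNc)
  have hf1 : ∀ x, f x = 1 ∨ f x = -1 := by
    intro x
    rcases h1 x with h | h
    · left; simp only [hf]; rw [h, hnn]
    · right; simp only [hf]; rw [h, inner_neg_left, hnn]
  have hpc : IsPreconnected (range f) := isPreconnected_range hfc
  obtain ⟨x₀⟩ : Nonempty M := inferInstance
  have hconst : ∀ x, f x = f x₀ := by
    intro x
    by_contra hne
    have h0 : (0 : ℝ) ∈ range f := by
      rcases hf1 x with a | a <;> rcases hf1 x₀ with b | b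
      · exact absurd (a.trans b.symm) hne
      · exact hpc.ordConnected.out ⟨x₀, rfl⟩ ⟨x, rfl⟩ ⟨by rw [b]; norm_num, by rw [a]; norm_num⟩
      · exact hpc.ordConnected.out ⟨x, rfl⟩ ⟨x₀, rfl⟩ ⟨by rw [a]; norm_num, by rw [b]; norm_num⟩
      · exact absurd (a.trans b.symm) hne
    obtain ⟨z, hz⟩ := h0
    rcases hf1 z with a | a <;> rw [hz] at a <;> norm_num at a
  rcases hf1 x₀ with b | b
  · left
    intro x
    rcases h1 x with h | h
    · exact h
    · exfalso
      have := hconst x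
      simp only [hf] at this
      rw [h, inner_neg_left, hnn] at this
      simp only [hf] at b
      rw [b] at this
      norm_num at this
  · right
    intro x
    rcases h1 x with h | h
    · exfalso
      have := hconst x
      simp only [hf] at this
      rw [h, hnn] at this
      simp only [hf] at b
      rw [b] at this
      norm_num at this
    · exact h

variable [MeasurableSpace V] [BorelSpace V] [MeasurableSpace M] [BorelSpace M]

/-- the first moment operator -/
noncomputable def momT [CompactSpace M] (μ : Measure M) [IsFiniteMeasure μ] {F N : M → W}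
    (hF : Continuous F) (hN : Continuous N) : W →ₗ[ℝ] W where
  toFun a := ∫ x, ⟪F x, a⟫ • N x ∂μ
  map_add' a b := by
    have hi : ∀ a, Integrable (fun x => ⟪F x, a⟫ • N x) μ := fun a =>
      Continuous.integrable_of_hasCompactSupport ((hF.inner continuous_const).smul hN)
        (HasCompactSupport.of_compactSpace _)
    rw [← integral_add (hi a) (hi b)]
    congr 1
    funext x
    rw [inner_add_right, add_smul]
  map_smul' c a := by
    rw [RingHom.id_apply, ← integral_smul]
    congr 1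
    funext x
    rw [inner_smul_right, mul_smul]

lemma integrable_vec [CompactSpace M] (μ : Measure M) [IsFiniteMeasure μ] {G : M → W}
    (hG : Continuous G) : Integrable G μ :=
  hG.integrable_of_hasCompactSupport (HasCompactSupport.of_compactSpace _)

lemma momT_inner [CompactSpace M] (μ : Measure M) [IsFiniteMeasure μ] {F N : M → W}
    (hF : Continuous F) (hN : Continuous N) (a b : W) :
    ⟪momT μ hF hN a, b⟫ = ∫ x, ⟪F x, a⟫ * ⟪N x, b⟫ ∂μ := by
  have hi : Integrable (fun x => ⟪F x, a⟫ • N x) μ :=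
    integrable_vec μ ((hF.inner continuous_const).smul hN)
  have h : ∫ x, ⟪b, ⟪F x, a⟫ • N x⟫ ∂μ = ⟪b, ∫ x, ⟪F x, a⟫ • N x ∂μ⟫ := integral_inner hi b
  rw [real_inner_comm]
  change ⟪b, ∫ x, ⟪F x, a⟫ • N x ∂μ⟫ = _
  rw [← h]
  congr 1
  funext x
  rw [inner_smul_right, real_inner_comm b (N x)]

/-- transport of the mean normal and of the first moment -/
lemma transport [CompactSpace M] (μ : Measure M) [IsFiniteMeasure μ] {F N : M → W}
    (hF : Continuous F) (hN : Continuous N) (σ : M ≃ₜ M) (hmp : MeasurePreserving σ μ μ)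
    (g : W ≃ₗᵢ[ℝ] W) (hg : ∀ x, F (σ x) = g (F x)) {ε : ℝ} (hs : ∀ x, N (σ x) = ε • g (N x)) :
    ε • g (∫ x, N x ∂μ) = ∫ x, N x ∂μ ∧ ∀ a, momT μ hF hN (g a) = ε • g (momT μ hF hN a) := by
  constructor
  · have e1 : ∫ x, N (σ x) ∂μ = ∫ x, N x ∂μ := hmp.integral_comp σ.measurableEmbedding N
    have e2 : ∫ x, g (N x) ∂μ = g (∫ x, N x ∂μ) :=
      (g : W ≃L[ℝ] W).toContinuousLinearMap.integral_comp_comm (integrable_vec μ hN)
    rw [← e2, ← integral_smul, ← e1]
    simp only [hs]
  · intro a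
    have e1 : ∫ x, ⟪F (σ x), g a⟫ • N (σ x) ∂μ = momT μ hF hN (g a) :=
      hmp.integral_comp σ.measurableEmbedding (fun x => ⟪F x, g a⟫ • N x)
    have e2 : ∫ x, g (⟪F x, a⟫ • N x) ∂μ = g (momT μ hF hN a) :=
      (g : W ≃L[ℝ] W).toContinuousLinearMap.integral_comp_comm
        (integrable_vec μ ((hF.inner continuous_const).smul hN))
    rw [← e1, ← e2, ← integral_smul]
    congr 1
    funext x
    rw [hg, hs, g.inner_map_map, map_smul, smul_comm]

/-- the data of a symmetry -/
lemma sym_data [IsManifold 𝓘(ℝ, V) ∞ M] [CompactSpace M] [T2Space M] [ConnectedSpace M]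
    (hW : finrank ℝ W = finrank ℝ V + 2) (hF : SphImm V F) (hinj : Function.Injective F)
    [IsFiniteMeasure (volM V F)] (hFc : Continuous F) {N : M → W} (hNc : Continuous N)
    (hN : ∀ x, IsUnitNormal V F x (N x)) (g : W ≃ₗᵢ[ℝ] W) (hg : g '' range F = range F) :
    ∃ σ : M ≃ₜ M, (∀ x, F (σ x) = g (F x)) ∧
      (((∀ x, N (σ x) = g (N x)) ∧ g (∫ x, N x ∂(volM V F)) = ∫ x, N x ∂(volM V F) ∧
        ∀ a, momT (volM V F) hFc hNc (g a) = g (momT (volM V F) hFc hNc a)) ∨
      ((∀ x, N (σ x) = -g (N x)) ∧ g (∫ x, N x ∂(volM V F)) = -∫ x, N x ∂(volM V F) ∧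
        ∀ a, momT (volM V F) hFc hNc (g a) = -g (momT (volM V F) hFc hNc a))) := by
  obtain ⟨σ, hσ⟩ := exists_cover hF hinj g hg
  have hσs := smooth_of_cover hF σ.continuous g hσ
  have hmp := volM_image hF σ hσs g hσ
  refine ⟨σ, hσ, ?_⟩
  rcases sign_const hW hF hNc hN σ hσs g hσ with h | h
  · left
    obtain ⟨h1, h2⟩ := transport (volM V F) hFc hNc σ hmp g hσ (ε := 1)
      (fun x => by rw [h, one_smul])
    simp only [one_smul] at h1 h2
    exact ⟨h, h1, h2⟩
  · right
    obtain ⟨h1, h2⟩ := transport (volM V F) hFc hNc σ hmp g hσ (ε := -1)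
      (fun x => by rw [h, neg_one_smul])
    simp only [neg_one_smul] at h1 h2
    exact ⟨h, neg_eq_iff_eq_neg.mp h1, h2⟩

/-- the data of a reflection -/
lemma refl_data [IsManifold 𝓘(ℝ, V) ∞ M] [CompactSpace M] [T2Space M] [ConnectedSpace M]
    (hW : finrank ℝ W = finrank ℝ V + 2) (hF : SphImm V F) (hinj : Function.Injective F)
    [IsFiniteMeasure (volM V F)] (hFc : Continuous F) {N : M → W} (hNc : Continuous N)
    (hN : ∀ x, IsUnitNormal V F x (N x)) (hne : ¬ ∃ a : W, a ≠ 0 ∧ ∀ x, ⟪F x, a⟫ = 0)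
    (e : W) (hg : (ℝ ∙ e)ᗮ.reflection '' range F = range F) :
    ⟪∫ x, N x ∂(volM V F), e⟫ = 0 ∧
      ∀ a, momT (volM V F) hFc hNc ((ℝ ∙ e)ᗮ.reflection a)
        = (ℝ ∙ e)ᗮ.reflection (momT (volM V F) hFc hNc a) := by
  by_cases he : e = 0
  · subst he
    have h1 : ∀ w : W, (ℝ ∙ (0 : W))ᗮ.reflection w = w := fun w => refl_fix (inner_zero_right w)
    exact ⟨inner_zero_right _, fun a => by rw [h1, h1]⟩
  obtain ⟨σ, hσ, h | h⟩ := sym_data hW hF hinj hFc hNc hN _ hg
  · refine ⟨?_, h.2.2⟩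
    have := refl_inner e (∫ x, N x ∂(volM V F))
    rw [h.2.1] at this
    (clear hW hF hinj hFc hNc hN hne hg he σ hσ h; linarith)
  · exfalso
    refine refl_not_neg hF hN hinj σ e hσ ?_ h.1
    by_contra hc
    push Not at hc
    exact hne ⟨e, he, hc⟩

/-- hypersurfaces with enough symmetries -/
theorem main_F [IsManifold 𝓘(ℝ, V) ∞ M] [CompactSpace M] [T2Space M] [ConnectedSpace M]
    (hm : 2 ≤ finrank ℝ V) (hW : finrank ℝ W = finrank ℝ V + 2)
    (hF : SphImm V F) (hmin : ∀ x n, IsUnitNormal V F x n → meanCurv V F x n = 0)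
    (hne : ¬ ∃ a : W, a ≠ 0 ∧ ∀ x, ⟪F x, a⟫ = 0)
    (hv : ∀ v : W, (∀ g : W ≃ₗᵢ[ℝ] W, g '' range F = range F → g v = v ∨ g v = -v) →
      (∀ e : W, (ℝ ∙ e)ᗮ.reflection '' range F = range F → ⟪v, e⟫ = 0) → v = 0) :
    ENNReal.ofReal (0.95 * leastClifford (finrank ℝ V)) ≤ volM V F univ ∧
    ((∀ U : Submodule ℝ W,
      (∀ g : W ≃ₗᵢ[ℝ] W, g '' range F = range F → ∀ u ∈ U, g u ∈ U) → U = ⊥ ∨ U = ⊤) →
      (∀ U : Submodule ℝ W,
      (∀ g : W ≃ₗᵢ[ℝ] W, g '' range F = range F → ∀ u ∈ U, g (g u) ∈ U) →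
      (∀ e : W, (ℝ ∙ e)ᗮ.reflection '' range F = range F →
        ∀ u ∈ U, (ℝ ∙ e)ᗮ.reflection u ∈ U) →
      2 * finrank ℝ U ≠ finrank ℝ W) →
    ENNReal.ofReal (leastClifford (finrank ℝ V)) ≤ volM V F univ) := by
  borelize W
  have hfin : IsFiniteMeasure (volM V F) := isFiniteMeasure_volM hF
  have hconv : ∀ c : ℝ, c ≤ (volM V F).real univ → ENNReal.ofReal c ≤ volM V F univ := by
    intro c hc
    exact ENNReal.ofReal_le_of_le_toReal hc
  by_cases hinj : Function.Injective F
  swap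
  · have h2 := TwoSide.two_le (by omega) hW hF hmin hinj
    have h3 := leastClifford_lt_two hm
    have h4 := leastClifford_nonneg (finrank ℝ V)
    exact ⟨hconv _ (by linarith), fun _ _ => hconv _ (h3.trans h2)⟩
  obtain ⟨N, hNs, hN⟩ := TwoSide.exists_normal hW hF hinj
  have hFc : Continuous F := hF.smooth.continuous
  have hNc : Continuous N := hNs.continuous
  have hVC : VolChart V F := volChart_of_sphImm hF
  have hsym := fun g hg => sym_data hW hF hinj hFc hNc hN g hg
  have hrefl := fun e he => refl_data hW hF hinj hFc hNc hN hne e he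
  set μ := volM V F with hμ
  -- the mean normal
  have h0 : ∫ x, N x ∂μ = 0 := by
    apply hv
    · intro g hg
      obtain ⟨σ, hσ, h | h⟩ := hsym g hg
      · exact Or.inl h.2.1
      · exact Or.inr h.2.1
    · intro e he
      exact (hrefl e he).1
  have h0' : ∀ a, ∫ x, ⟪N x, a⟫ ∂μ = 0 := by
    intro a
    have : ∫ x, ⟪a, N x⟫ ∂μ = ⟪a, ∫ x, N x ∂μ⟫ := integral_inner (integrable_vec μ hNc) a
    rw [h0, inner_zero_right] at this
    rw [← this]
    congr 1
    funext x
    rw [real_inner_comm]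
  have hC := main_C hm hW hF hmin hNs hN h0'
  refine ⟨hC.1, fun hirr hsq => hC.2 ?_⟩
  -- the first moment
  set T := momT μ hFc hNc with hT
  have hTz : T = 0 := by
    apply op_zero (by omega) {g | g '' range F = range F}
      ({h | ∃ g : W ≃ₗᵢ[ℝ] W, g '' range F = range F ∧ h = g.trans g} ∪
        {h | ∃ e : W, (ℝ ∙ e)ᗮ.reflection '' range F = range F ∧ h = (ℝ ∙ e)ᗮ.reflection})
      hirr ?_ T
    · intro a b
      rw [momT_inner, real_inner_comm, momT_inner]
      -- symmetry from the first variation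
      have h1 := first_variation hW hF hmin hVC a (smooth_inner hNs b)
      have h2 := first_variation hW hF hmin hVC b (smooth_inner hNs a)
      have h3 : ∀ p, dl V F a (fun q => ⟪N q, b⟫) p = dl V F b (fun q => ⟪N q, a⟫) p := by
        intro p
        rw [dl_inner a hNs, dl_inner b hNs, dl_N_symm hW hF hNs hN]
      simp only [h3] at h1
      rw [h2] at h1
      have hm0 : (finrank ℝ V : ℝ) ≠ 0 := by
        have : 0 < finrank ℝ V := by omega
        exact_mod_cast this.ne'
      have h4 := mul_left_cancel₀ hm0 h1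
      simp only [real_inner_comm (F _) _] at h4 ⊢
      exact h4.symm
    · -- trace
      rw [LinearMap.trace_eq_sum_inner T (stdOrthonormalBasis ℝ W)]
      have e : ∀ i, ⟪stdOrthonormalBasis ℝ W i, T (stdOrthonormalBasis ℝ W i)⟫
          = ∫ x, ⟪F x, stdOrthonormalBasis ℝ W i⟫ * ⟪N x, stdOrthonormalBasis ℝ W i⟫ ∂μ :=
        fun i => by rw [real_inner_comm, momT_inner]
      simp only [e]
      rw [← integral_finsetSum]
      · have : ∀ x, ∑ i, ⟪F x, stdOrthonormalBasis ℝ W i⟫ * ⟪N x, stdOrthonormalBasis ℝ W i⟫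
            = 0 := by
          intro x
          rw [← (hN x).2.1, ← (stdOrthonormalBasis ℝ W).sum_inner_mul_inner (F x) (N x)]
          exact Finset.sum_congr rfl fun i _ => by rw [real_inner_comm (N x)]
        simp only [this, integral_zero]
      · intro i _
        exact integrable_of_cont μ ((hFc.inner continuous_const).mul (hNc.inner continuous_const))
    · intro g hg
      obtain ⟨σ, hσ, h | h⟩ := hsym g hg
      · exact Or.inl h.2.2
      · exact Or.inr h.2.2
    · rintro g (⟨h, hh, rfl⟩ | ⟨e, he, rfl⟩) a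
      · obtain ⟨σ, hσ, h' | h'⟩ := hsym h hh
        · change T (h (h a)) = h (h (T a))
          rw [h'.2.2, h'.2.2]
        · change T (h (h a)) = h (h (T a))
          rw [h'.2.2, h'.2.2, map_neg, neg_neg]
      · exact (hrefl e he).2 a
    · intro U hU
      apply hsq U
      · intro g hg u hu
        exact hU (g.trans g) (Or.inl ⟨g, hg, rfl⟩) u hu
      · intro e he u hu
        exact hU _ (Or.inr ⟨e, he, rfl⟩) u hu
  intro a b
  rw [← hμ, ← momT_inner μ hFc hNc, ← hT, hTz]
  simp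

/-- an irreducible set of symmetries: the image spans -/
lemma not_hyper [Nonempty M] (hu : ∀ x, ‖F x‖ = 1)
    (hirr : ∀ U : Submodule ℝ W,
      (∀ g : W ≃ₗᵢ[ℝ] W, g '' range F = range F → ∀ u ∈ U, g u ∈ U) → U = ⊥ ∨ U = ⊤) :
    ¬ ∃ a : W, a ≠ 0 ∧ ∀ x, ⟪F x, a⟫ = 0 := by
  rintro ⟨a, ha, h⟩
  rcases hirr (Submodule.span ℝ (range F)) (by
    intro g hg u hu
    have h1 : g u ∈ (Submodule.span ℝ (range F)).map (g : W →ₗ[ℝ] W) := ⟨u, hu, rfl⟩
    rw [Submodule.map_span] at h1
    have h2 : (g : W →ₗ[ℝ] W) '' range F = range F := hg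
    rwa [h2] at h1) with h1 | h1
  · obtain ⟨x⟩ := ‹Nonempty M›
    have : F x ∈ Submodule.span ℝ (range F) := Submodule.subset_span ⟨x, rfl⟩
    rw [h1, Submodule.mem_bot] at this
    have h2 := hu x
    rw [this, norm_zero] at h2
    norm_num at h2
  · have h2 : a ∈ Submodule.span ℝ (range F) := h1 ▸ Submodule.mem_top
    have h3 : Submodule.span ℝ (range F) ≤ (ℝ ∙ a)ᗮ := by
      rw [Submodule.span_le]
      rintro _ ⟨x, rfl⟩
      exact Submodule.mem_orthogonal_singleton_iff_inner_left.mpr (h x)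
    have h4 := Submodule.mem_orthogonal_singleton_iff_inner_left.mp (h3 h2)
    exact ha (inner_self_eq_zero.mp h4)

/-- Q1 for hypersurfaces with irreducible symmetry group -/
theorem main_G [IsManifold 𝓘(ℝ, V) ∞ M] [CompactSpace M] [T2Space M] [ConnectedSpace M]
    (hm : 2 ≤ finrank ℝ V) (hW : finrank ℝ W = finrank ℝ V + 2)
    (hF : SphImm V F) (hmin : ∀ x n, IsUnitNormal V F x n → meanCurv V F x n = 0)
    (hirr : ∀ U : Submodule ℝ W,
      (∀ g : W ≃ₗᵢ[ℝ] W, g '' range F = range F → ∀ u ∈ U, g u ∈ U) → U = ⊥ ∨ U = ⊤)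
    (hsq : ∀ U : Submodule ℝ W,
      (∀ g : W ≃ₗᵢ[ℝ] W, g '' range F = range F → ∀ u ∈ U, g (g u) ∈ U) →
      (∀ e : W, (ℝ ∙ e)ᗮ.reflection '' range F = range F →
        ∀ u ∈ U, (ℝ ∙ e)ᗮ.reflection u ∈ U) →
      2 * finrank ℝ U ≠ finrank ℝ W) :
    ENNReal.ofReal (leastClifford (finrank ℝ V)) ≤ volM V F univ :=
  (main_F hm hW hF hmin (not_hyper hF.unit hirr)
    (fun v h1 _ => vec_zero (by omega) {g | g '' range F = range F} hirr h1)).2 hirr hsq

end Vale.Agent.P224.Sym
end
end
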