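import Mathlib
import Vale.Agent.P224.Defs

set_option linter.all false

section
-- PM/StaticAlg
section

/-!
# P224: real number part of the static inequality

Pure algebra: the last two steps of the proof of the static inequality.
-/

namespace Vale.Agent.P224.PM

private lemma sa_quart {ω : ℝ} (h0 : 0 ≤ ω) (h1 : ω ≤ 1) :
    (1 - ω ^ 2) * ω ^ 2 ≤ (1 - 11 / 25 * ω) * (9 / 20) := by
  nlinarith only [h1, sq_nonneg (ω ^ 2 - 1 / 2)]

private lemma sa_s (ω : ℝ) : 0 ≤ 3 / 25 - 288992 / 1000000 * ω + 2016784 / 10000000 * ω ^ 2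
      + 1936 / 10000 * ω ^ 4 := by
  nlinarith [sq_nonneg (ω ^ 2 - 23 / 100), sq_nonneg (ω - 1 / 2)]

private lemma sa_p {r ω T Q R p : ℝ} (hr : 0 < r) (hω : 0 < ω) (hT0 : 0 ≤ T)
    (hQ0 : 0 ≤ Q) (hR : R ^ 2 ≤ T * Q) (h5 : r * T ≤ 11 / 25 * ω * R)
    (hp : r ^ 2 * T = p * ω ^ 2) : p ≤ (11 / 25) ^ 2 * Q := by
  rcases hT0.eq_or_lt with hT | hT
  · rw [← hT] at hp
    have h0 : p * ω ^ 2 = 0 := by rw [← hp]; ring
    have hp' : p = 0 := by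
      rcases mul_eq_zero.1 h0 with h | h
      · exact h
      · exact absurd h (by (clear * - hω; positivity))
    rw [hp']; (clear * - hQ0; positivity)
  · have h1 : (r * T) ^ 2 ≤ (11 / 25 * ω * R) ^ 2 := by
      apply pow_le_pow_left₀ (by positivity) h5
    have h2 : (11 / 25 * ω * R) ^ 2 ≤ (11 / 25) ^ 2 * ω ^ 2 * (T * Q) := by
      have h0 : (11 / 25 * ω * R) ^ 2 = (11 / 25) ^ 2 * ω ^ 2 * R ^ 2 := by ring
      rw [h0]
      exact mul_le_mul_of_nonneg_left hR (by positivity)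
    have h3 : (p * ω ^ 2) * T ≤ ((11 / 25) ^ 2 * ω ^ 2 * Q) * T := by
      rw [← hp]
      have h0 : r ^ 2 * T * T = (r * T) ^ 2 := by ring
      rw [h0]
      linarith only [h1, h2]
    have h4 : p * ω ^ 2 ≤ (11 / 25) ^ 2 * ω ^ 2 * Q := le_of_mul_le_mul_right h3 hT
    have h5 : p * ω ^ 2 ≤ ((11 / 25) ^ 2 * Q) * ω ^ 2 := by linarith only [h4]
    exact le_of_mul_le_mul_right h5 (by positivity)

private lemma sa_rR {r ω T R p : ℝ} (hr : 0 < r) (hω : 0 < ω)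
    (h5 : r * T ≤ 11 / 25 * ω * R)
    (hp : r ^ 2 * T = p * ω ^ 2) : p * ω ≤ 11 / 25 * (r * R) := by
  have h1 : r * (r * T) ≤ r * (11 / 25 * ω * R) := mul_le_mul_of_nonneg_left h5 hr.le
  have h2 : (p * ω) * ω ≤ (11 / 25 * (r * R)) * ω := by
    have h0 : p * ω * ω = r * (r * T) := by
      have : p * ω * ω = p * ω ^ 2 := by ring
      rw [this, ← hp]; ring
    rw [h0]; linarith only [h1]
  exact le_of_mul_le_mul_right h2 hω

private lemma sa_A {ω Q A p : ℝ} (hω : 0 < ω) 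
    (hQ0 : 0 ≤ Q) (hA : A ^ 2 ≤ p * ω ^ 2 * Q) (hpQ : p ≤ (11 / 25) ^ 2 * Q) :
    A ≤ 11 / 25 * ω * Q := by
  have h1 : p * (ω ^ 2 * Q) ≤ ((11 / 25) ^ 2 * Q) * (ω ^ 2 * Q) :=
    mul_le_mul_of_nonneg_right hpQ (by positivity)
  have hA1 : A ^ 2 ≤ (11 / 25 * ω * Q) ^ 2 := by
    have h0 : (11 / 25 * ω * Q) ^ 2 = ((11 / 25) ^ 2 * Q) * (ω ^ 2 * Q) := by ring
    rw [h0]
    linarith only [hA, h1]
  have h2 := abs_le_of_sq_le_sq hA1 (by positivity)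
  exact (le_abs_self A).trans h2

private lemma sa_P {ω Q p : ℝ} (hω : 0 < ω) (hω1 : ω ≤ 1)
    (hQ1 : (1 - 11 / 25 * ω) * Q ≤ 1 - ω ^ 2) (hpQ : p ≤ (11 / 25) ^ 2 * Q) :
    p * ω ^ 2 ≤ 9 / 100 := by
  have h1 : p * ω ^ 2 ≤ (11 / 25) ^ 2 * Q * ω ^ 2 :=
    mul_le_mul_of_nonneg_right hpQ (by positivity)
  have h2 : Q * ω ^ 2 ≤ 9 / 20 := by
    have h3 : (1 - 11 / 25 * ω) * (Q * ω ^ 2) ≤ (1 - ω ^ 2) * ω ^ 2 := by
      have := mul_le_mul_of_nonneg_right hQ1 (sq_nonneg ω)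
      linarith only [this]
    have h4 := sa_quart hω.le hω1
    have h5 : (1 - 11 / 25 * ω) * (Q * ω ^ 2) ≤ (1 - 11 / 25 * ω) * (9 / 20) := h3.trans h4
    exact le_of_mul_le_mul_left h5 (by linarith only [hω1])
  linarith only [h1, h2]

private lemma sa_T {ω Q A p cc : ℝ} (hω : 0 < ω) (hp0 : 0 ≤ p)
    (hQ0 : 0 ≤ Q) (hQ2 : Q ≤ 2) (hA : A ^ 2 ≤ p * ω ^ 2 * Q) (hcc : ω ^ 2 ≤ cc)
    (hI : Q - A = 1 - cc) : 0 ≤ 11 / 25 * (1 - Q) + 25 / 11 * p := by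
  -- ω² (p + k² (1 - Q)) ≥ 0
  have h1 : (11 / 25) ^ 2 * A ≤ p + (11 / 25) ^ 2 * ω ^ 2 := by
    have h2 : ((11 / 25) ^ 2 * A) ^ 2 ≤ (p + (11 / 25) ^ 2 * ω ^ 2) ^ 2 := by
      have h3 : ((11 / 25) ^ 2 * A) ^ 2 ≤ (11 / 25) ^ 4 * (p * ω ^ 2 * Q) := by
        have h0 : ((11 / 25) ^ 2 * A) ^ 2 = (11 / 25) ^ 4 * A ^ 2 := by ring
        rw [h0]
        exact mul_le_mul_of_nonneg_left hA (by positivity)
      have h4 : (p * ω ^ 2) * Q ≤ (p * ω ^ 2) * 2 :=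
        mul_le_mul_of_nonneg_left hQ2 (by (clear * - hp0 hω; positivity))
      have h5 : 0 ≤ (p - (11 / 25) ^ 2 * ω ^ 2) ^ 2 := sq_nonneg _
      have h6 : 0 ≤ p * ω ^ 2 := by positivity
      linarith
    exact (le_abs_self _).trans (abs_le_of_sq_le_sq h2 (by (clear * - hp0 hω; positivity)))
  have h2 : 0 ≤ p + (11 / 25) ^ 2 * (1 - Q) := by
    have : Q = 1 - cc + A := by linarith only [hI]
    rw [this]
    (clear * - hcc h1; linarith)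
  linarith only [hcc, hI, h1]

private lemma sa_lin {ω Q p : ℝ} (hω1 : ω ≤ 1) (hp0 : 0 ≤ p)
    (hQ0 : 0 ≤ Q) (hpQ : p ≤ (11 / 25) ^ 2 * Q) :
    0 ≤ Q * (1 - 11 / 25 - 11 / 25 * ω) + p * (ω * (1 - 11 / 50)
      - 21 / 40 * (11 / 25) * ω ^ 2 - (1 - ω ^ 2) * (25 / 11 + ω ^ 2)) := by
  have hq : 0 ≤ Q * (1 - 11 / 25 - 11 / 25 * ω) := mul_nonneg hQ0 (by (clear * - hω1; linarith))
  rcases le_total 0 (ω * (1 - 11 / 50)
    - 21 / 40 * (11 / 25) * ω ^ 2 - (1 - ω ^ 2) * (25 / 11 + ω ^ 2)) with h | h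
  · have := mul_nonneg hp0 h
    linarith only [hq, this]
  · have h1 := mul_le_mul_of_nonpos_right hpQ h
    have h2 := mul_nonneg hQ0 (sa_s ω)
    have h3 : Q * (1 - 11 / 25 - 11 / 25 * ω) + (11 / 25) ^ 2 * Q * (ω * (1 - 11 / 50)
      - 21 / 40 * (11 / 25) * ω ^ 2 - (1 - ω ^ 2) * (25 / 11 + ω ^ 2))
      = Q * (3 / 25 - 288992 / 1000000 * ω + 2016784 / 10000000 * ω ^ 2
      + 1936 / 10000 * ω ^ 4) := by ring
    linarith only [h1, h2]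

/-- The real number part of the static inequality. -/
theorem static_alg {r ω T cc R Q A C B G Z : ℝ} (hr : 0 < r) (hω : 0 < ω) (hT0 : 0 ≤ T)
    (hQ0 : 0 ≤ Q) (hcc : ω ^ 2 ≤ cc) (hν : 0 ≤ 1 - cc - T) (hR : R ^ 2 ≤ T * Q)
    (hA : A ^ 2 ≤ r ^ 2 * T * Q) (hZ : Z ≤ r ^ 2 * T) (hB0 : 0 ≤ B)
    (hB : B ≤ (1 - cc - T) + 1 / 4 * Z * (1 + B)) (hG : G ≤ r ^ 2 * T * (1 - cc - T))
    (h4 : -(ω * Q) + r * R - r ^ 2 * T / (2 * ω) ≤ ω * C + A)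
    (h5 : r * T ≤ 11 / 25 * ω * R) (hI : Q - A = 1 - cc) :
    0 ≤ Q + 11 / 25 * ω * C - 11 / 25 * B - r ^ 2 * T ^ 2 - 11 / 25 * R ^ 2
      - (1 + 1 / (11 / 25 * ω ^ 2)) * G := by
  obtain ⟨p, hp⟩ : ∃ p : ℝ, r ^ 2 * T = p * ω ^ 2 := ⟨r ^ 2 * T / ω ^ 2, by (clear * - hω hr; field_simp)⟩
  have hp0 : 0 ≤ p := by
    have h1 : 0 ≤ p * ω ^ 2 := by rw [← hp]; (clear * - hr hT0; positivity)
    exact nonneg_of_mul_nonneg_left h1 (by positivity)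
  have hω1 : ω ≤ 1 := by
    have : ω ^ 2 ≤ 1 := by linarith only [hT0, hcc, hν]
    nlinarith only [hT0, hcc, hν]
  have hpQ := sa_p hr hω hT0 hQ0 hR h5 hp
  have hrR := sa_rR hr hω h5 hp
  rw [hp] at hA hZ hG h4
  have hA2 := sa_A hω hQ0 hA hpQ
  have hQ1 : (1 - 11 / 25 * ω) * Q ≤ 1 - ω ^ 2 := by
    have : Q = 1 - cc + A := by linarith only [hI]
    nlinarith only [hcc, hI, hA2]
  have hQ2 : Q ≤ 2 := by
    have h0 : 0 ≤ Q * (1 - ω) := mul_nonneg hQ0 (by linarith only [hω1])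
    nlinarith only [hcc, hI, hA2, h0]
  have hP := sa_P hω hω1 hQ1 hpQ
  have hν1 : 1 - cc - T ≤ 1 := by
    have := sq_nonneg ω
    linarith only [hT0, hcc, this]
  have hB1 : B ≤ 11 / 10 := by
    have h1 : Z * (1 + B) ≤ (9 / 100) * (1 + B) :=
      mul_le_mul_of_nonneg_right (hZ.trans hP) (by linarith only [hB0])
    linarith only [hB, hν1, h1]
  have hB2 : B ≤ (1 - cc - T) + 21 / 40 * (p * ω ^ 2) := by
    have h1 : Z * (1 + B) ≤ (p * ω ^ 2) * (1 + B) :=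
      mul_le_mul_of_nonneg_right hZ (by linarith only [hB0])
    have h2 : (p * ω ^ 2) * (1 + B) ≤ (p * ω ^ 2) * (21 / 10) :=
      mul_le_mul_of_nonneg_left (by linarith only [hB1]) (by (clear * - hp0 hω; positivity))
    linarith only [hB, h1, h2]
  have hG2 : (1 + 1 / (11 / 25 * ω ^ 2)) * G ≤ (p * ω ^ 2 + 25 / 11 * p) * (1 - cc - T) := by
    have h1 : (1 + 1 / (11 / 25 * ω ^ 2)) * G
        ≤ (1 + 1 / (11 / 25 * ω ^ 2)) * (p * ω ^ 2 * (1 - cc - T)) :=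
      mul_le_mul_of_nonneg_left hG (by positivity)
    have h2 : (1 + 1 / (11 / 25 * ω ^ 2)) * (p * ω ^ 2) = p * ω ^ 2 + 25 / 11 * p := by
      (clear * - hω; field_simp)
    have h3 : (1 + 1 / (11 / 25 * ω ^ 2)) * (p * ω ^ 2 * (1 - cc - T))
      = (p * ω ^ 2 + 25 / 11 * p) * (1 - cc - T) := by
      rw [← h2]; ring
    rw [← h3]
    exact h1
  have hG3 : (p * ω ^ 2 + 25 / 11 * p) * (1 - cc - T)
      ≤ (p * ω ^ 2 + 25 / 11 * p) * (1 - ω ^ 2 - T) := by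
    apply mul_le_mul_of_nonneg_left _ (by (clear * - hp0 hω; positivity))
    linarith only [hcc]
  have h4' : -(ω * Q) + r * R - p * ω / 2 ≤ ω * C + A := by
    have h0 : p * ω ^ 2 / (2 * ω) = p * ω / 2 := by
      (clear * - hω; field_simp)
    rw [h0] at h4
    exact h4
  have hT2 : r ^ 2 * T ^ 2 = p * ω ^ 2 * T := by rw [← hp]; ring
  have hTc := sa_T hω hp0 hQ0 hQ2 hA hcc hI
  have hTT : 0 ≤ T * (11 / 25 * (1 - Q) + 25 / 11 * p) := mul_nonneg hT0 hTc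
  have hlin := sa_lin hω1 hp0 hQ0 hpQ
  rw [hT2]
  have e1 : (p * ω ^ 2 + 25 / 11 * p) * (1 - ω ^ 2 - T)
    = p * ((1 - ω ^ 2) * (25 / 11 + ω ^ 2)) - p * ω ^ 2 * T - T * (25 / 11 * p) := by ring
  have e2 : T * (11 / 25 * (1 - Q) + 25 / 11 * p)
    = 11 / 25 * T - 11 / 25 * (T * Q) + T * (25 / 11 * p) := by ring
  have e3 : Q * (1 - 11 / 25 - 11 / 25 * ω) + p * (ω * (1 - 11 / 50)
      - 21 / 40 * (11 / 25) * ω ^ 2 - (1 - ω ^ 2) * (25 / 11 + ω ^ 2))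
      = Q - 11 / 25 * Q - 11 / 25 * (ω * Q) + p * ω - 11 / 50 * (p * ω)
      - 21 / 40 * (11 / 25) * (p * ω ^ 2) - p * ((1 - ω ^ 2) * (25 / 11 + ω ^ 2)) := by ring
  rw [e1] at hG3
  rw [e2] at hTT
  rw [e3] at hlin
  have e4 : 11 / 25 * ω * C = 11 / 25 * (ω * C) := by ring
  rw [e4]
  (clear * - hR hI hrR hB2 hG2 hG3 h4' hTT hlin; linarith)

end Vale.Agent.P224.PM

end
end

section
-- PM/Static
section

/-!
P224, block PM: the static inequality, integral part (helper611).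
-/

namespace Vale.Agent.P224.PM

open MeasureTheory
open scoped RealInnerProductSpace

private theorem st_quad {a b k0 k1 k2 : ℝ} (h0 : 0 ≤ k0) (h2 : 0 ≤ k2) (h : k1 ^ 2 ≤ k0 * k2) :
    0 ≤ a ^ 2 * k0 + 2 * (a * b * k1) + b ^ 2 * k2 := by
  have h1 : (2 * (a * b * k1)) ^ 2 ≤ (a ^ 2 * k0 + b ^ 2 * k2) ^ 2 := by
    nlinarith only [sq_nonneg (a ^ 2 * k0 - b ^ 2 * k2), mul_nonneg (sq_nonneg (a * b)) (sub_nonneg.2 h)]
  have h3 := abs_le_of_sq_le_sq' h1 (by positivity)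
  linarith [h3.1]

private theorem st_pt {c h p k0 k1 k2 r ω : ℝ} (hω : 0 < ω) (h0 : 0 ≤ k0) (h2 : 0 ≤ k2)
    (hk : k1 ^ 2 ≤ k0 * k2) (hc0 : 0 ≤ 1 + c) (hc2 : 1 + c ≤ 2) :
    0 ≤ ω * (h ^ 2 * k2) + ω * (c * h ^ 2 * k2) - r * (p * h * k1)
        - r * (p * h * c * k1) + r ^ 2 / (2 * ω) * (p ^ 2 * k0) := by
  have q := st_quad (a := - r * p / (2 * ω)) (b := h) h0 h2 hk
  have q2 : 0 ≤ ω * ((- r * p / (2 * ω)) ^ 2 * k0 +
      2 * (- r * p / (2 * ω) * h * k1) + h ^ 2 * k2) := mul_nonneg hω.le q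
  have q3 : ω * ((- r * p / (2 * ω)) ^ 2 * k0 +
      2 * (- r * p / (2 * ω) * h * k1) + h ^ 2 * k2) =
      r ^ 2 / (4 * ω) * (p ^ 2 * k0) - r * (p * h * k1) + ω * (h ^ 2 * k2) := by
    field_simp
    ring
  rw [q3] at q2
  have q4 := mul_nonneg hc0 q2
  have q5 : 0 ≤ (2 - (1 + c)) * (r ^ 2 / (4 * ω) * (p ^ 2 * k0)) :=
    mul_nonneg (by linarith only [hc2]) (by (clear * - hω h0; positivity))
  have q6 : r ^ 2 / (2 * ω) = 2 * (r ^ 2 / (4 * ω)) := by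
    field_simp
    ring
  rw [q6]
  calc (0 : ℝ) ≤ _ := add_nonneg q4 q5
    _ = _ := by ring

section

variable {X : Type*} [TopologicalSpace X] [CompactSpace X] [MeasurableSpace X] [BorelSpace X]
  {μ : Measure X} [IsFiniteMeasure μ]

private theorem st_int {f : X → ℝ} (hf : Continuous f) : Integrable f μ :=
  hf.integrable_of_hasCompactSupport (HasCompactSupport.of_compactSpace f)

private theorem st_form {k0 k1 k2 α β : X → ℝ} (ck0 : Continuous k0) (ck1 : Continuous k1)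
    (ck2 : Continuous k2) (hk0 : ∀ x, 0 ≤ k0 x) (hk2 : ∀ x, 0 ≤ k2 x)
    (hk : ∀ x, k1 x ^ 2 ≤ k0 x * k2 x) (cα : Continuous α) (cβ : Continuous β) :
    0 ≤ ∫ x, α x ^ 2 * k0 x ∂μ + 2 * ∫ x, α x * β x * k1 x ∂μ + ∫ x, β x ^ 2 * k2 x ∂μ := by
  have e : ∫ x, (α x ^ 2 * k0 x + 2 * (α x * β x * k1 x) + β x ^ 2 * k2 x) ∂μ =
      ∫ x, α x ^ 2 * k0 x ∂μ + 2 * ∫ x, α x * β x * k1 x ∂μ + ∫ x, β x ^ 2 * k2 x ∂μ := by
    rw [integral_add (st_int (by (clear * - cα ck0 cβ ck1; fun_prop))) (st_int (by fun_prop)),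
      integral_add (st_int (by fun_prop)) (st_int (by fun_prop)), integral_const_mul]
  rw [← e]
  exact integral_nonneg (fun x => st_quad (hk0 x) (hk2 x) (hk x))

private theorem st_cs {k0 k1 k2 α β : X → ℝ} (ck0 : Continuous k0) (ck1 : Continuous k1)
    (ck2 : Continuous k2) (hk0 : ∀ x, 0 ≤ k0 x) (hk2 : ∀ x, 0 ≤ k2 x)
    (hk : ∀ x, k1 x ^ 2 ≤ k0 x * k2 x) (cα : Continuous α) (cβ : Continuous β) :
    (∫ x, α x * β x * k1 x ∂μ) ^ 2 ≤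
      (∫ x, α x ^ 2 * k0 x ∂μ) * ∫ x, β x ^ 2 * k2 x ∂μ := by
  have h : ∀ t : ℝ, 0 ≤ (∫ x, α x ^ 2 * k0 x ∂μ) * (t * t) +
      (2 * ∫ x, α x * β x * k1 x ∂μ) * t + ∫ x, β x ^ 2 * k2 x ∂μ := by
    intro t
    have h1 := st_form (μ := μ) ck0 ck1 ck2 hk0 hk2 hk (α := fun x => t * α x) (β := β)
      (by fun_prop) cβ
    have e1 : ∫ x, (t * α x) ^ 2 * k0 x ∂μ = (∫ x, α x ^ 2 * k0 x ∂μ) * (t * t) := by
      rw [mul_comm, ← integral_const_mul]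
      congr 1
      funext x
      ring
    have e2 : ∫ x, (t * α x) * β x * k1 x ∂μ = (∫ x, α x * β x * k1 x ∂μ) * t := by
      rw [mul_comm, ← integral_const_mul]
      congr 1
      funext x
      ring
    rw [e1, e2] at h1
    linarith only [h1]
  have h2 := discrim_le_zero h
  unfold discrim at h2
  linarith

private theorem st_h4 {k0 k1 k2 c π h : X → ℝ} {r ω : ℝ}
    (ck0 : Continuous k0) (ck1 : Continuous k1) (ck2 : Continuous k2) (cc : Continuous c)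
    (cπ : Continuous π) (ch : Continuous h)
    (hk0 : ∀ x, 0 ≤ k0 x) (hk2 : ∀ x, 0 ≤ k2 x) (hk : ∀ x, k1 x ^ 2 ≤ k0 x * k2 x) (hω0 : 0 < ω)
    (hc0 : ∀ x, 0 ≤ 1 + c x) (hc2 : ∀ x, 1 + c x ≤ 2) :
    -(ω * ∫ x, h x ^ 2 * k2 x ∂μ) + r * (∫ x, π x * h x * k1 x ∂μ)
      - r ^ 2 * (∫ x, π x ^ 2 * k0 x ∂μ) / (2 * ω) ≤
      ω * (∫ x, c x * h x ^ 2 * k2 x ∂μ) + (- r * ∫ x, π x * h x * c x * k1 x ∂μ) := by
  have e1 : ∫ x, (ω * (h x ^ 2 * k2 x) + ω * (c x * h x ^ 2 * k2 x) - r * (π x * h x * k1 x)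
      - r * (π x * h x * c x * k1 x) + r ^ 2 / (2 * ω) * (π x ^ 2 * k0 x)) ∂μ =
      ω * ∫ x, h x ^ 2 * k2 x ∂μ + ω * ∫ x, c x * h x ^ 2 * k2 x ∂μ
      - r * ∫ x, π x * h x * k1 x ∂μ - r * ∫ x, π x * h x * c x * k1 x ∂μ
      + r ^ 2 / (2 * ω) * ∫ x, π x ^ 2 * k0 x ∂μ := by
    rw [integral_add (st_int (by fun_prop)) (st_int (by fun_prop)),
      integral_sub (st_int (by fun_prop)) (st_int (by fun_prop)),
      integral_sub (st_int (by fun_prop)) (st_int (by fun_prop)),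
      integral_add (st_int (by fun_prop)) (st_int (by fun_prop)),
      integral_const_mul, integral_const_mul, integral_const_mul, integral_const_mul,
      integral_const_mul]
  have e2 : 0 ≤ ∫ x, (ω * (h x ^ 2 * k2 x) + ω * (c x * h x ^ 2 * k2 x) - r * (π x * h x * k1 x)
      - r * (π x * h x * c x * k1 x) + r ^ 2 / (2 * ω) * (π x ^ 2 * k0 x)) ∂μ :=
    integral_nonneg (fun x => st_pt hω0 (hk0 x) (hk2 x) (hk x) (hc0 x) (hc2 x))
  rw [e1] at e2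
  have e3 : r ^ 2 / (2 * ω) * ∫ x, π x ^ 2 * k0 x ∂μ =
      r ^ 2 * (∫ x, π x ^ 2 * k0 x ∂μ) / (2 * ω) := by ring
  rw [e3] at e2
  (clear * - e2; linarith)

private theorem st_A {k0 k1 k2 c π h : X → ℝ} {r : ℝ}
    (ck0 : Continuous k0) (ck1 : Continuous k1) (ck2 : Continuous k2) (cc : Continuous c)
    (cπ : Continuous π) (ch : Continuous h)
    (hk0 : ∀ x, 0 ≤ k0 x) (hk2 : ∀ x, 0 ≤ k2 x) (hk : ∀ x, k1 x ^ 2 ≤ k0 x * k2 x)
    (hc1 : ∀ x, c x ^ 2 ≤ 1) :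
    (- r * ∫ x, π x * h x * c x * k1 x ∂μ) ^ 2 ≤
      r ^ 2 * (∫ x, π x ^ 2 * k0 x ∂μ) * ∫ x, h x ^ 2 * k2 x ∂μ := by
  have hQ0 : 0 ≤ ∫ x, h x ^ 2 * k2 x ∂μ :=
    integral_nonneg (fun x => mul_nonneg (sq_nonneg _) (hk2 x))
  have a1 := st_cs (μ := μ) ck0 ck1 ck2 hk0 hk2 hk (α := fun x => π x * c x) (β := h)
    (by fun_prop) ch
  have a2 : ∫ x, π x * c x * h x * k1 x ∂μ = ∫ x, π x * h x * c x * k1 x ∂μ := by
    congr 1
    funext x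
    ring
  have a3 : ∫ x, (π x * c x) ^ 2 * k0 x ∂μ ≤ ∫ x, π x ^ 2 * k0 x ∂μ := by
    refine integral_mono (st_int (by fun_prop)) (st_int (by fun_prop)) (fun x => ?_)
    show (π x * c x) ^ 2 * k0 x ≤ π x ^ 2 * k0 x
    refine mul_le_mul_of_nonneg_right ?_ (hk0 x)
    rw [mul_pow]
    nlinarith only [hc1 x]
  rw [a2] at a1
  have a4 := mul_le_mul_of_nonneg_right a3 hQ0
  calc (- r * ∫ x, π x * h x * c x * k1 x ∂μ) ^ 2
      = r ^ 2 * (∫ x, π x * h x * c x * k1 x ∂μ) ^ 2 := by ring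
    _ ≤ r ^ 2 * ((∫ x, π x ^ 2 * k0 x ∂μ) * ∫ x, h x ^ 2 * k2 x ∂μ) :=
        mul_le_mul_of_nonneg_left (le_trans a1 a4) (sq_nonneg r)
    _ = _ := by ring

private theorem st_cc {k0 c : X → ℝ} {ω : ℝ} (ck0 : Continuous k0) (cc : Continuous c)
    (hk0 : ∀ x, 0 ≤ k0 x) (h1 : ∫ x, k0 x ∂μ = 1) (hω : ∫ x, c x * k0 x ∂μ = ω) :
    ω ^ 2 ≤ ∫ x, c x ^ 2 * k0 x ∂μ := by
  have e1 : ∫ x, (c x ^ 2 * k0 x - 2 * ω * (c x * k0 x) + ω ^ 2 * k0 x) ∂μ =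
      ∫ x, c x ^ 2 * k0 x ∂μ - 2 * ω * ω + ω ^ 2 * 1 := by
    rw [integral_add (st_int (by fun_prop)) (st_int (by fun_prop)),
      integral_sub (st_int (by fun_prop)) (st_int (by fun_prop)), integral_const_mul,
      integral_const_mul, hω, h1]
  have e2 : 0 ≤ ∫ x, (c x ^ 2 * k0 x - 2 * ω * (c x * k0 x) + ω ^ 2 * k0 x) ∂μ := by
    refine integral_nonneg (fun x => ?_)
    show 0 ≤ c x ^ 2 * k0 x - 2 * ω * (c x * k0 x) + ω ^ 2 * k0 x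
    nlinarith only [mul_nonneg (sq_nonneg (c x - ω)) (hk0 x)]
  rw [e1] at e2
  linarith

variable {E : Type*} [NormedAddCommGroup E] [InnerProductSpace ℝ E]
  {ι : Type*} [Fintype ι] (e : OrthonormalBasis ι ℝ E)

private theorem st_vec {u w : X → ℝ} {Y : X → E} (cu : Continuous u) (cw : Continuous w)
    (cY : Continuous Y) (a : E) :
    ⟪∑ j, (∫ x, u x * ⟪Y x, e j⟫ * w x ∂μ) • e j, a⟫ = ∫ x, u x * ⟪Y x, a⟫ * w x ∂μ := by
  have e1 : ∀ x, u x * ⟪Y x, a⟫ * w x = ∑ j, (u x * ⟪Y x, e j⟫ * w x) * ⟪e j, a⟫ := by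
    intro x
    rw [← e.sum_inner_mul_inner (Y x) a, Finset.mul_sum, Finset.sum_mul]
    exact Finset.sum_congr rfl (fun j _ => by ring)
  simp_rw [e1]
  rw [integral_finsetSum _ (fun j _ => st_int (by fun_prop)), sum_inner]
  refine Finset.sum_congr rfl (fun j _ => ?_)
  rw [real_inner_smul_left, integral_mul_const]

private theorem st_norm (v : ι → ℝ) : ‖∑ j, v j • e j‖ ^ 2 = ∑ j, v j ^ 2 := by
  rw [← real_inner_self_eq_norm_sq, sum_inner]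
  refine Finset.sum_congr rfl (fun i _ => ?_)
  rw [real_inner_smul_left, inner_sum]
  classical
  rw [Finset.sum_eq_single i]
  · rw [real_inner_smul_right, real_inner_self_eq_norm_sq, e.orthonormal.1 i]
    ring
  · intro j _ hj
    rw [real_inner_smul_right, e.orthonormal.2 (Ne.symm hj), mul_zero]
  · intro h
    exact absurd (Finset.mem_univ i) h

private theorem st_g {k0 k1 π : X → ℝ} {n Y : X → E} {r : ℝ} (ck0 : Continuous k0)
    (ck1 : Continuous k1) (cπ : Continuous π) (cn : Continuous n) (cY : Continuous Y)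
    (hk0 : ∀ x, 0 ≤ k0 x)
    (hg : ∀ a : E, ∫ x, ⟪Y x, a⟫ * k1 x ∂μ = - r * ∫ x, π x * ⟪n x, a⟫ * k0 x ∂μ) :
    ∑ j, (∫ x, ⟪Y x, e j⟫ * k1 x ∂μ) ^ 2 ≤ r ^ 2 * (∫ x, π x ^ 2 * k0 x ∂μ) *
      ∫ x, ‖n x‖ ^ 2 * k0 x ∂μ := by
  set g : E := ∑ j, (∫ x, ⟪Y x, e j⟫ * k1 x ∂μ) • e j with hgd
  have hT0 : 0 ≤ ∫ x, π x ^ 2 * k0 x ∂μ :=
    integral_nonneg (fun x => mul_nonneg (sq_nonneg _) (hk0 x))
  have hg1 : ∀ a, ⟪g, a⟫ = ∫ x, ⟪Y x, a⟫ * k1 x ∂μ := by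
    intro a
    have := st_vec (μ := μ) (u := fun _ => 1) e continuous_const ck1 cY a
    simpa only [one_mul] using this
  have hg2 : ‖g‖ ^ 2 = ∑ j, (∫ x, ⟪Y x, e j⟫ * k1 x ∂μ) ^ 2 := st_norm e _
  rw [← hg2]
  have e1 : ‖g‖ ^ 2 = - r * ∫ x, π x * ⟪n x, g⟫ * k0 x ∂μ := by
    rw [← real_inner_self_eq_norm_sq, hg1 g, hg g]
  have e2 := st_cs (μ := μ) ck0 ck0 ck0 hk0 hk0 (fun x => by rw [sq]) (α := π)
    (β := fun x => ⟪n x, g⟫) cπ (by fun_prop)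
  have e3 : ∫ x, ⟪n x, g⟫ ^ 2 * k0 x ∂μ ≤ ‖g‖ ^ 2 * ∫ x, ‖n x‖ ^ 2 * k0 x ∂μ := by
    rw [← integral_const_mul]
    refine integral_mono (st_int (by fun_prop)) (st_int (by fun_prop)) (fun x => ?_)
    show ⟪n x, g⟫ ^ 2 * k0 x ≤ ‖g‖ ^ 2 * (‖n x‖ ^ 2 * k0 x)
    rw [← mul_assoc]
    refine mul_le_mul_of_nonneg_right ?_ (hk0 x)
    have := abs_real_inner_le_norm (n x) g
    rw [← mul_pow, mul_comm ‖g‖]
    exact sq_le_sq' (by linarith [neg_abs_le ⟪n x, g⟫]) (le_trans (le_abs_self _) this)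
  have hN0 : 0 ≤ ∫ x, ‖n x‖ ^ 2 * k0 x ∂μ :=
    integral_nonneg (fun x => mul_nonneg (sq_nonneg _) (hk0 x))
  have e4 : (‖g‖ ^ 2) ^ 2 ≤ r ^ 2 * (∫ x, π x ^ 2 * k0 x ∂μ) *
      (‖g‖ ^ 2 * ∫ x, ‖n x‖ ^ 2 * k0 x ∂μ) := by
    calc (‖g‖ ^ 2) ^ 2 = r ^ 2 * (∫ x, π x * ⟪n x, g⟫ * k0 x ∂μ) ^ 2 := by rw [e1]; ring
      _ ≤ r ^ 2 * ((∫ x, π x ^ 2 * k0 x ∂μ) * ∫ x, ⟪n x, g⟫ ^ 2 * k0 x ∂μ) :=
          mul_le_mul_of_nonneg_left e2 (sq_nonneg r)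
      _ ≤ r ^ 2 * ((∫ x, π x ^ 2 * k0 x ∂μ) * (‖g‖ ^ 2 * ∫ x, ‖n x‖ ^ 2 * k0 x ∂μ)) :=
          mul_le_mul_of_nonneg_left (mul_le_mul_of_nonneg_left e3 hT0) (sq_nonneg r)
      _ = _ := by ring
  rcases (sq_nonneg ‖g‖).eq_or_lt with h0 | h0
  · rw [← h0]
    (clear * - hT0 hN0; positivity)
  · refine le_of_mul_le_mul_right ?_ h0
    calc ‖g‖ ^ 2 * ‖g‖ ^ 2 = (‖g‖ ^ 2) ^ 2 := by ring
      _ ≤ _ := e4
      _ = _ := by ring

private theorem st_b {k0 k1 k2 π u : X → ℝ} {n Y : X → E} {r : ℝ} (ck0 : Continuous k0)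
    (ck1 : Continuous k1) (ck2 : Continuous k2) (cπ : Continuous π) (cu : Continuous u)
    (cn : Continuous n) (cY : Continuous Y)
    (hk0 : ∀ x, 0 ≤ k0 x) (hk2 : ∀ x, 0 ≤ k2 x) (hk : ∀ x, k1 x ^ 2 ≤ k0 x * k2 x) (b : E)
    (hb : ⟪b, b⟫ = ∫ x, u x * ⟪Y x, b⟫ * k1 x ∂μ)
    (hh : ∫ x, ⟪Y x, b⟫ ^ 2 * k2 x ∂μ + r * ∫ x, π x * ⟪Y x, b⟫ * ⟪n x, b⟫ * k1 x ∂μ
      + ∫ x, ⟪n x, b⟫ ^ 2 * k0 x ∂μ ≤ ‖b‖ ^ 2) :
    ‖b‖ ^ 2 ≤ ∫ x, u x ^ 2 * k0 x ∂μ + 1 / 4 * ∫ x, r ^ 2 * π x ^ 2 * u x ^ 2 * k0 x ∂μ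
      + 1 / 4 * (‖b‖ ^ 2 * ∫ x, r ^ 2 * π x ^ 2 * ‖n x‖ ^ 2 * k0 x ∂μ) := by
  have h1 := st_form (μ := μ) ck0 ck1 ck2 hk0 hk2 hk
    (α := fun x => u x - r * π x * ⟪n x, b⟫ / 2) (β := fun x => - ⟪Y x, b⟫)
    (by (clear * - cu cπ cn; fun_prop)) (by fun_prop)
  have e2 : ∫ x, (u x - r * π x * ⟪n x, b⟫ / 2) * (- ⟪Y x, b⟫) * k1 x ∂μ =
      - ∫ x, u x * ⟪Y x, b⟫ * k1 x ∂μ + r / 2 * ∫ x, π x * ⟪Y x, b⟫ * ⟪n x, b⟫ * k1 x ∂μ := by
    rw [← integral_neg, ← integral_const_mul,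
      ← integral_add (st_int (by fun_prop)) (st_int (by fun_prop))]
    congr 1
    funext x
    ring
  have e3 : ∫ x, (- ⟪Y x, b⟫) ^ 2 * k2 x ∂μ = ∫ x, ⟪Y x, b⟫ ^ 2 * k2 x ∂μ := by
    congr 1
    funext x
    ring
  have e4 : ∫ x, (u x - r * π x * ⟪n x, b⟫ / 2) ^ 2 * k0 x ∂μ ≤
      ∫ x, u x ^ 2 * k0 x ∂μ + 1 / 4 * ∫ x, r ^ 2 * π x ^ 2 * u x ^ 2 * k0 x ∂μ
      + 1 / 4 * (‖b‖ ^ 2 * ∫ x, r ^ 2 * π x ^ 2 * ‖n x‖ ^ 2 * k0 x ∂μ)
      + ∫ x, ⟪n x, b⟫ ^ 2 * k0 x ∂μ := by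
    have e5 : ∫ x, (u x ^ 2 * k0 x + 1 / 4 * (r ^ 2 * π x ^ 2 * u x ^ 2 * k0 x)
        + 1 / 4 * (‖b‖ ^ 2 * (r ^ 2 * π x ^ 2 * ‖n x‖ ^ 2 * k0 x)) + ⟪n x, b⟫ ^ 2 * k0 x) ∂μ =
        ∫ x, u x ^ 2 * k0 x ∂μ + 1 / 4 * ∫ x, r ^ 2 * π x ^ 2 * u x ^ 2 * k0 x ∂μ
        + 1 / 4 * (‖b‖ ^ 2 * ∫ x, r ^ 2 * π x ^ 2 * ‖n x‖ ^ 2 * k0 x ∂μ)
        + ∫ x, ⟪n x, b⟫ ^ 2 * k0 x ∂μ := by
      rw [integral_add (st_int (by (clear * - cu ck0 cπ cn; fun_prop))) (st_int (by fun_prop)),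
        integral_add (st_int (by fun_prop)) (st_int (by fun_prop)),
        integral_add (st_int (by fun_prop)) (st_int (by fun_prop)), integral_const_mul,
        integral_const_mul, integral_const_mul]
    rw [← e5]
    refine integral_mono (st_int (by fun_prop)) (st_int (by (clear * - cu ck0 cπ cn; fun_prop))) (fun x => ?_)
    show (u x - r * π x * ⟪n x, b⟫ / 2) ^ 2 * k0 x ≤ u x ^ 2 * k0 x
      + 1 / 4 * (r ^ 2 * π x ^ 2 * u x ^ 2 * k0 x)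
      + 1 / 4 * (‖b‖ ^ 2 * (r ^ 2 * π x ^ 2 * ‖n x‖ ^ 2 * k0 x)) + ⟪n x, b⟫ ^ 2 * k0 x
    have hcs : ⟪n x, b⟫ ^ 2 ≤ ‖n x‖ ^ 2 * ‖b‖ ^ 2 := by
      have := abs_real_inner_le_norm (n x) b
      rw [← mul_pow]
      exact sq_le_sq' (by linarith only [this, neg_abs_le ⟪n x, b⟫]) (le_trans (le_abs_self _) this)
    have h5 : (u x - r * π x * ⟪n x, b⟫ / 2) ^ 2 ≤ u x ^ 2
      + 1 / 4 * (r ^ 2 * π x ^ 2 * u x ^ 2)
      + 1 / 4 * (‖b‖ ^ 2 * (r ^ 2 * π x ^ 2 * ‖n x‖ ^ 2)) + ⟪n x, b⟫ ^ 2 := by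
      (clear * - hcs; nlinarith [sq_nonneg (r * π x * u x / 2 + ⟪n x, b⟫),         mul_nonneg (sq_nonneg (r * π x)) (sub_nonneg.2 hcs)])
    nlinarith only [mul_le_mul_of_nonneg_right h5 (hk0 x)]
  rw [e2, e3, ← hb, real_inner_self_eq_norm_sq] at h1
  (clear * - hh h1 e4; linarith)

end

/-- the static inequality -/
theorem static {X : Type*} [TopologicalSpace X] [CompactSpace X] [MeasurableSpace X] [BorelSpace X]
    {μ : Measure X} [IsFiniteMeasure μ]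
    {E : Type*} [NormedAddCommGroup E] [InnerProductSpace ℝ E] [FiniteDimensional ℝ E]
    {ι : Type*} [Fintype ι] (e : OrthonormalBasis ι ℝ E)
    {k0 k1 k2 c π h : X → ℝ} {n Y : X → E} {r ω : ℝ}
    (ck0 : Continuous k0) (ck1 : Continuous k1) (ck2 : Continuous k2) (cc : Continuous c)
    (cπ : Continuous π) (ch : Continuous h) (cn : Continuous n) (cY : Continuous Y)
    (hk0 : ∀ x, 0 ≤ k0 x) (hk2 : ∀ x, 0 ≤ k2 x) (hk : ∀ x, k1 x ^ 2 ≤ k0 x * k2 x) (hr : 0 < r)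
    (h1 : ∫ x, k0 x ∂μ = 1) (hω : ∫ x, c x * k0 x ∂μ = ω) (hω0 : 0 < ω)
    (hn : ∀ x, ‖n x‖ ^ 2 = 1 - c x ^ 2 - π x ^ 2)
    (hI : ∫ x, h x ^ 2 * k2 x ∂μ + r * ∫ x, π x * h x * c x * k1 x ∂μ =
      1 - ∫ x, c x ^ 2 * k0 x ∂μ)
    (hg : ∀ a : E, ∫ x, ⟪Y x, a⟫ * k1 x ∂μ = - r * ∫ x, π x * ⟪n x, a⟫ * k0 x ∂μ)
    (hh : ∀ a : E, ∫ x, ⟪Y x, a⟫ ^ 2 * k2 x ∂μ + r * ∫ x, π x * ⟪Y x, a⟫ * ⟪n x, a⟫ * k1 x ∂μ +
      ∫ x, ⟪n x, a⟫ ^ 2 * k0 x ∂μ ≤ ‖a‖ ^ 2)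
    (hT : r * ∫ x, π x ^ 2 * k0 x ∂μ ≤ 11 / 25 * ω * ∫ x, π x * h x * k1 x ∂μ) :
    0 ≤ ∫ x, h x ^ 2 * k2 x ∂μ + 11 / 25 * ω * ∫ x, c x * h x ^ 2 * k2 x ∂μ
        - 11 / 25 * ∑ i, ∑ j, (∫ x, ⟪n x, e i⟫ * ⟪Y x, e j⟫ * k1 x ∂μ) ^ 2
        - r ^ 2 * (∫ x, π x ^ 2 * k0 x ∂μ) ^ 2 - 11 / 25 * (∫ x, π x * h x * k1 x ∂μ) ^ 2
        - (1 + 1 / (11 / 25 * ω ^ 2)) * ∑ j, (∫ x, ⟪Y x, e j⟫ * k1 x ∂μ) ^ 2 := by
  have hc1 : ∀ x, c x ^ 2 ≤ 1 := fun x => by nlinarith only [hn x]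
  have hc2 : ∀ x, 0 ≤ 1 + c x ∧ 1 + c x ≤ 2 := fun x => by
    constructor <;> nlinarith only [hc1 x]
  have hn1 : ∀ x, ‖n x‖ ^ 2 ≤ 1 := fun x => by nlinarith only [hn x]
  -- the numbers
  have hT0 : 0 ≤ ∫ x, π x ^ 2 * k0 x ∂μ :=
    integral_nonneg (fun x => mul_nonneg (sq_nonneg _) (hk0 x))
  have hQ0 : 0 ≤ ∫ x, h x ^ 2 * k2 x ∂μ :=
    integral_nonneg (fun x => mul_nonneg (sq_nonneg _) (hk2 x))
  have hcc := st_cc (μ := μ) ck0 cc hk0 h1 hω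
  have hνe : ∫ x, ‖n x‖ ^ 2 * k0 x ∂μ =
      1 - ∫ x, c x ^ 2 * k0 x ∂μ - ∫ x, π x ^ 2 * k0 x ∂μ := by
    rw [← h1, ← integral_sub (st_int (by fun_prop)) (st_int (by fun_prop)),
      ← integral_sub (st_int (by fun_prop)) (st_int (by fun_prop))]
    congr 1
    funext x
    rw [hn x]
    ring
  have hν : 0 ≤ 1 - ∫ x, c x ^ 2 * k0 x ∂μ - ∫ x, π x ^ 2 * k0 x ∂μ := by
    rw [← hνe]
    exact integral_nonneg (fun x => mul_nonneg (sq_nonneg _) (hk0 x))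
  have hR : (∫ x, π x * h x * k1 x ∂μ) ^ 2 ≤
      (∫ x, π x ^ 2 * k0 x ∂μ) * ∫ x, h x ^ 2 * k2 x ∂μ :=
    st_cs ck0 ck1 ck2 hk0 hk2 hk cπ ch
  have hA := st_A (μ := μ) (r := r) ck0 ck1 ck2 cc cπ ch hk0 hk2 hk hc1
  have hP : ∫ x, r ^ 2 * π x ^ 2 * ‖n x‖ ^ 2 * k0 x ∂μ ≤ r ^ 2 * ∫ x, π x ^ 2 * k0 x ∂μ := by
    rw [← integral_const_mul]
    refine integral_mono (st_int (by (clear * - cπ cn ck0; fun_prop))) (st_int (by fun_prop)) (fun x => ?_)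
    show r ^ 2 * π x ^ 2 * ‖n x‖ ^ 2 * k0 x ≤ r ^ 2 * (π x ^ 2 * k0 x)
    rw [← mul_assoc]
    refine mul_le_mul_of_nonneg_right ?_ (hk0 x)
    exact mul_le_of_le_one_right (by (clear * - hr; positivity)) (hn1 x)
  -- the vectors
  set b : ι → E := fun i => ∑ j, (∫ x, ⟪n x, e i⟫ * ⟪Y x, e j⟫ * k1 x ∂μ) • e j with hb
  have hb1 : ∀ i a, ⟪b i, a⟫ = ∫ x, ⟪n x, e i⟫ * ⟪Y x, a⟫ * k1 x ∂μ := fun i a =>
    st_vec e (by fun_prop) ck1 cY a
  have hb2 : ∀ i, ‖b i‖ ^ 2 = ∑ j, (∫ x, ⟪n x, e i⟫ * ⟪Y x, e j⟫ * k1 x ∂μ) ^ 2 := fun i =>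
    st_norm e _
  have hb3 : ∀ i, ‖b i‖ ^ 2 ≤ ∫ x, ⟪n x, e i⟫ ^ 2 * k0 x ∂μ +
      1 / 4 * ∫ x, r ^ 2 * π x ^ 2 * ⟪n x, e i⟫ ^ 2 * k0 x ∂μ
      + 1 / 4 * (‖b i‖ ^ 2 * ∫ x, r ^ 2 * π x ^ 2 * ‖n x‖ ^ 2 * k0 x ∂μ) := fun i =>
    st_b ck0 ck1 ck2 cπ (by fun_prop) cn cY hk0 hk2 hk (b i) (hb1 i (b i)) (hh (b i))
  have hsum : ∀ x, ∑ i, ⟪n x, e i⟫ ^ 2 = ‖n x‖ ^ 2 := by
    intro x
    rw [← real_inner_self_eq_norm_sq, ← e.sum_inner_mul_inner (n x) (n x)]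
    refine Finset.sum_congr rfl (fun i _ => ?_)
    rw [real_inner_comm (n x) (e i)]
    ring
  have hs1 : ∑ i, ∫ x, ⟪n x, e i⟫ ^ 2 * k0 x ∂μ = ∫ x, ‖n x‖ ^ 2 * k0 x ∂μ := by
    rw [← integral_finsetSum _ (fun j _ => st_int (by fun_prop))]
    congr 1
    funext x
    rw [← hsum x, Finset.sum_mul]
  have hs2 : ∑ i, ∫ x, r ^ 2 * π x ^ 2 * ⟪n x, e i⟫ ^ 2 * k0 x ∂μ =
      ∫ x, r ^ 2 * π x ^ 2 * ‖n x‖ ^ 2 * k0 x ∂μ := by
    rw [← integral_finsetSum _ (fun j _ => st_int (by fun_prop))]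
    congr 1
    funext x
    rw [← hsum x, Finset.mul_sum, Finset.sum_mul]
  have hB0 : 0 ≤ ∑ i, ∑ j, (∫ x, ⟪n x, e i⟫ * ⟪Y x, e j⟫ * k1 x ∂μ) ^ 2 :=
    Finset.sum_nonneg (fun i _ => Finset.sum_nonneg (fun j _ => sq_nonneg _))
  have hB : ∑ i, ∑ j, (∫ x, ⟪n x, e i⟫ * ⟪Y x, e j⟫ * k1 x ∂μ) ^ 2 ≤
      (1 - ∫ x, c x ^ 2 * k0 x ∂μ - ∫ x, π x ^ 2 * k0 x ∂μ) +
      1 / 4 * (∫ x, r ^ 2 * π x ^ 2 * ‖n x‖ ^ 2 * k0 x ∂μ) *
        (1 + ∑ i, ∑ j, (∫ x, ⟪n x, e i⟫ * ⟪Y x, e j⟫ * k1 x ∂μ) ^ 2) := by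
    have e1 : ∑ i, ∑ j, (∫ x, ⟪n x, e i⟫ * ⟪Y x, e j⟫ * k1 x ∂μ) ^ 2 = ∑ i, ‖b i‖ ^ 2 :=
      Finset.sum_congr rfl (fun i _ => (hb2 i).symm)
    rw [e1, ← hνe]
    have e2 := Finset.sum_le_sum (fun i (_ : i ∈ (Finset.univ : Finset ι)) => hb3 i)
    rw [Finset.sum_add_distrib, Finset.sum_add_distrib, ← Finset.mul_sum, ← Finset.mul_sum,
      ← Finset.sum_mul, hs1, hs2] at e2
    linarith only [e2]
  have hG := st_g (μ := μ) e ck0 ck1 cπ cn cY hk0 hg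
  rw [hνe] at hG
  have h4 := st_h4 (μ := μ) (r := r) ck0 ck1 ck2 cc cπ ch hk0 hk2 hk hω0
    (fun x => (hc2 x).1) (fun x => (hc2 x).2)
  exact static_alg hr hω0 hT0 hQ0 hcc hν hR hA hP hB0 hB hG h4 hT (by linarith only [hI])

end Vale.Agent.P224.PM

end
end

section
-- PM/Ker
section

/-! # P224, PM: moments of the shifted Gaussian on the half line (helper10) -/

namespace Vale.Agent.P224.PM

open MeasureTheory Set Real Filter
open scoped Topology ContDiff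

/-- moments of the shifted Gaussian on the half line -/
noncomputable def K (j : ℕ) (τ : ℝ) : ℝ :=
  ∫ R in Ioi (0 : ℝ), R ^ j * Real.exp (-R ^ 2 / 2 + R * τ)

lemma integrable_pow_gauss (j : ℕ) {b : ℝ} (hb : 0 < b) :
    Integrable fun R : ℝ => R ^ j * Real.exp (-b * R ^ 2) := by
  have h := integrable_rpow_mul_exp_neg_mul_sq hb (s := (j : ℝ)) (by
    have : (0 : ℝ) ≤ j := Nat.cast_nonneg j
    linarith)
  refine h.congr (Eventually.of_forall fun R => ?_)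
  simp only [Real.rpow_natCast]

lemma kcont (j : ℕ) (τ : ℝ) : Continuous fun R : ℝ => R ^ j * Real.exp (-R ^ 2 / 2 + R * τ) := by
  (clear * -; fun_prop)

lemma integrableOn_K (j : ℕ) (τ : ℝ) :
    IntegrableOn (fun R : ℝ => R ^ j * Real.exp (-R ^ 2 / 2 + R * τ)) (Ioi 0) := by
  have h := ((integrable_pow_gauss j (b := 1 / 4) (by norm_num)).const_mul
    (Real.exp (τ ^ 2))).integrableOn (s := Ioi (0 : ℝ))
  refine h.mono' (kcont j τ).aestronglyMeasurable.restrict ?_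
  refine (ae_restrict_iff' measurableSet_Ioi).2 (Eventually.of_forall fun R hR => ?_)
  have hR0 : (0 : ℝ) < R := hR
  rw [Real.norm_eq_abs, abs_of_nonneg (by positivity)]
  have h1 : Real.exp (-R ^ 2 / 2 + R * τ) ≤ Real.exp (τ ^ 2) * Real.exp (-(1 / 4) * R ^ 2) := by
    rw [← Real.exp_add]
    refine Real.exp_le_exp.2 ?_
    nlinarith only [sq_nonneg (R / 2 - τ)]
  calc R ^ j * Real.exp (-R ^ 2 / 2 + R * τ)
      ≤ R ^ j * (Real.exp (τ ^ 2) * Real.exp (-(1 / 4) * R ^ 2)) :=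
        mul_le_mul_of_nonneg_left h1 (by positivity)
    _ = _ := by ring

lemma K_pos (j : ℕ) (τ : ℝ) : 0 < K j τ := by
  unfold K
  rw [setIntegral_pos_iff_support_of_nonneg_ae _ (integrableOn_K j τ)]
  · have h : (Function.support fun R : ℝ => R ^ j * Real.exp (-R ^ 2 / 2 + R * τ)) ∩ Ioi 0 =
        Ioi 0 := by
      refine inter_eq_right.2 fun R hR => ?_
      have hR0 : (0 : ℝ) < R := hR
      rw [Function.mem_support]
      positivity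
    rw [h, Real.volume_Ioi]
    exact ENNReal.zero_lt_top
  · refine (ae_restrict_iff' measurableSet_Ioi).2 (Eventually.of_forall fun R hR => ?_)
    have hR0 : (0 : ℝ) < R := hR
    show (0 : ℝ) ≤ R ^ j * Real.exp (-R ^ 2 / 2 + R * τ)
    positivity

lemma hasDerivAt_K (j : ℕ) (τ : ℝ) : HasDerivAt (K j) (K (j + 1) τ) τ := by
  have h := hasDerivAt_integral_of_dominated_loc_of_deriv_le (μ := volume.restrict (Ioi (0 : ℝ)))
    (F := fun (t : ℝ) (R : ℝ) => R ^ j * Real.exp (-R ^ 2 / 2 + R * t))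
    (F' := fun (t : ℝ) (R : ℝ) => R ^ (j + 1) * Real.exp (-R ^ 2 / 2 + R * t))
    (x₀ := τ) (s := Metric.ball τ 1)
    (bound := fun R => R ^ (j + 1) * Real.exp (-R ^ 2 / 2 + R * (|τ| + 1)))
    (Metric.ball_mem_nhds τ one_pos)
    (Eventually.of_forall fun t => (kcont j t).aestronglyMeasurable.restrict)
    (integrableOn_K j τ) (kcont (j + 1) τ).aestronglyMeasurable.restrict
    ((ae_restrict_iff' measurableSet_Ioi).2 (Eventually.of_forall fun R hR t ht => ?_))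
    (integrableOn_K (j + 1) (|τ| + 1))
    (Eventually.of_forall fun R t _ => ?_)
  · exact h.2
  · have hR0 : (0 : ℝ) < R := hR
    rw [Real.norm_eq_abs, abs_of_nonneg (by positivity)]
    refine mul_le_mul_of_nonneg_left (Real.exp_le_exp.2 ?_) (by positivity)
    have h1 : t ≤ |τ| + 1 := by
      have h2 : |t - τ| < 1 := by
        rw [← Real.dist_eq]
        exact ht
      have h3 := (abs_lt.1 h2).2
      have h4 := le_abs_self τ
      linarith only [h3, h4]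
    have h2 := mul_le_mul_of_nonneg_left h1 hR0.le
    linarith
  · have h1 : HasDerivAt (fun t : ℝ => -R ^ 2 / 2 + R * t) R t := by
      have := ((hasDerivAt_id t).const_mul R).const_add (-R ^ 2 / 2)
      simpa using this
    have h2 := (h1.exp).const_mul (R ^ j)
    refine h2.congr_deriv ?_
    ring

/-- `R^j exp(-R²/2 + Rτ) → 0` -/
lemma tendsto_ker (j : ℕ) (τ : ℝ) :
    Tendsto (fun R : ℝ => R ^ j * Real.exp (-R ^ 2 / 2 + R * τ)) atTop (𝓝 0) := by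
  have h1 := (Real.tendsto_pow_mul_exp_neg_atTop_nhds_zero j).const_mul (Real.exp ((τ + 1) ^ 2 / 2))
  rw [mul_zero] at h1
  refine squeeze_zero' ((eventually_ge_atTop 0).mono fun R hR => ?_)
    ((eventually_ge_atTop 0).mono fun R hR => ?_) h1
  · positivity
  · have h2 : Real.exp (-R ^ 2 / 2 + R * τ) ≤ Real.exp ((τ + 1) ^ 2 / 2) * Real.exp (-R) := by
      rw [← Real.exp_add]
      refine Real.exp_le_exp.2 ?_
      nlinarith [sq_nonneg (R - (τ + 1))]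
    calc R ^ j * Real.exp (-R ^ 2 / 2 + R * τ)
        ≤ R ^ j * (Real.exp ((τ + 1) ^ 2 / 2) * Real.exp (-R)) :=
          mul_le_mul_of_nonneg_left h2 (by positivity)
      _ = _ := by ring

lemma hasDerivAt_ker (τ R : ℝ) : HasDerivAt (fun R : ℝ => Real.exp (-R ^ 2 / 2 + R * τ))
    ((τ - R) * Real.exp (-R ^ 2 / 2 + R * τ)) R := by
  have h1 : HasDerivAt (fun R : ℝ => -R ^ 2 / 2 + R * τ) (τ - R) R := by
    have h2 := ((hasDerivAt_pow 2 R).neg.div_const 2).add ((hasDerivAt_id R).mul_const τ)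
    refine h2.congr_deriv ?_
    norm_num
    ring
  refine h1.exp.congr_deriv ?_
  ring

lemma K_one (τ : ℝ) : K 1 τ = 1 + τ * K 0 τ := by
  have hs : IntegrableOn (fun R => τ * (R ^ 0 * Real.exp (-R ^ 2 / 2 + R * τ)) -
      R ^ 1 * Real.exp (-R ^ 2 / 2 + R * τ)) (Ioi (0 : ℝ)) :=
    ((integrableOn_K 0 τ).const_mul τ).sub (integrableOn_K 1 τ)
  have h1 := integral_Ioi_of_hasDerivAt_of_tendsto (a := (0 : ℝ)) (m := 0)
    (f := fun R : ℝ => R ^ 0 * Real.exp (-R ^ 2 / 2 + R * τ))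
    (f' := fun R => τ * (R ^ 0 * Real.exp (-R ^ 2 / 2 + R * τ)) -
      R ^ 1 * Real.exp (-R ^ 2 / 2 + R * τ))
    (kcont 0 τ).continuousWithinAt
    (fun R _ => by
      have := hasDerivAt_ker τ R
      simp only [pow_zero, one_mul, pow_one]
      refine this.congr_deriv ?_
      ring)
    hs (tendsto_ker 0 τ)
  rw [integral_sub ((integrableOn_K 0 τ).const_mul τ) (integrableOn_K 1 τ), integral_const_mul] at h1
  change τ * K 0 τ - K 1 τ = _ at h1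
  simp only [pow_zero, ne_eq, OfNat.ofNat_ne_zero, not_false_eq_true, zero_pow, neg_zero, zero_div, zero_mul, add_zero, exp_zero, mul_one, zero_sub] at h1
  linarith only [h1]

lemma K_rec (j : ℕ) (τ : ℝ) : K (j + 2) τ = τ * K (j + 1) τ + ((j : ℝ) + 1) * K j τ := by
  have hi : IntegrableOn (fun R => (τ * (R ^ (j + 1) * Real.exp (-R ^ 2 / 2 + R * τ)) +
      ((j : ℝ) + 1) * (R ^ j * Real.exp (-R ^ 2 / 2 + R * τ)))) (Ioi (0 : ℝ)) :=
    ((integrableOn_K (j + 1) τ).const_mul τ).add ((integrableOn_K j τ).const_mul ((j : ℝ) + 1))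
  have hs : IntegrableOn (fun R => (τ * (R ^ (j + 1) * Real.exp (-R ^ 2 / 2 + R * τ)) +
      ((j : ℝ) + 1) * (R ^ j * Real.exp (-R ^ 2 / 2 + R * τ))) -
      R ^ (j + 2) * Real.exp (-R ^ 2 / 2 + R * τ)) (Ioi (0 : ℝ)) :=
    hi.sub (integrableOn_K (j + 2) τ)
  have h1 := integral_Ioi_of_hasDerivAt_of_tendsto (a := (0 : ℝ)) (m := 0)
    (f := fun R : ℝ => R ^ (j + 1) * Real.exp (-R ^ 2 / 2 + R * τ))
    (f' := fun R => (τ * (R ^ (j + 1) * Real.exp (-R ^ 2 / 2 + R * τ)) +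
      ((j : ℝ) + 1) * (R ^ j * Real.exp (-R ^ 2 / 2 + R * τ))) -
      R ^ (j + 2) * Real.exp (-R ^ 2 / 2 + R * τ))
    (kcont (j + 1) τ).continuousWithinAt
    (fun R _ => by
      have h2 := (hasDerivAt_pow (j + 1) R).mul (hasDerivAt_ker τ R)
      refine h2.congr_deriv ?_
      push_cast
      ring)
    hs (tendsto_ker (j + 1) τ)
  rw [integral_sub hi (integrableOn_K (j + 2) τ),
    integral_add ((integrableOn_K (j + 1) τ).const_mul τ)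
      ((integrableOn_K j τ).const_mul ((j : ℝ) + 1)), integral_const_mul, integral_const_mul] at h1
  change τ * K (j + 1) τ + ((j : ℝ) + 1) * K j τ - K (j + 2) τ = _ at h1
  simp only [ne_eq, Nat.add_eq_zero_iff, one_ne_zero, and_false, not_false_eq_true, zero_pow, OfNat.ofNat_ne_zero, neg_zero, zero_div, zero_mul, add_zero, exp_zero, mul_one, sub_self] at h1
  linarith

lemma K_cs (j : ℕ) (τ : ℝ) : K (j + 1) τ ^ 2 ≤ K j τ * K (j + 2) τ := by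
  have h0 : ∀ a b : ℝ, 0 ≤ a ^ 2 * K j τ + 2 * a * b * K (j + 1) τ + b ^ 2 * K (j + 2) τ := by
    intro a b
    have e : a ^ 2 * K j τ + 2 * a * b * K (j + 1) τ + b ^ 2 * K (j + 2) τ =
        ∫ R in Ioi (0 : ℝ), (a ^ 2 * (R ^ j * Real.exp (-R ^ 2 / 2 + R * τ)) +
          2 * a * b * (R ^ (j + 1) * Real.exp (-R ^ 2 / 2 + R * τ)) +
          b ^ 2 * (R ^ (j + 2) * Real.exp (-R ^ 2 / 2 + R * τ))) := by
      have hA : IntegrableOn (fun R => a ^ 2 * (R ^ j * Real.exp (-R ^ 2 / 2 + R * τ)) +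
          2 * a * b * (R ^ (j + 1) * Real.exp (-R ^ 2 / 2 + R * τ))) (Ioi (0 : ℝ)) :=
        ((integrableOn_K j τ).const_mul (a ^ 2)).add
          ((integrableOn_K (j + 1) τ).const_mul (2 * a * b))
      rw [integral_add hA ((integrableOn_K (j + 2) τ).const_mul (b ^ 2)),
        integral_add ((integrableOn_K j τ).const_mul (a ^ 2))
        ((integrableOn_K (j + 1) τ).const_mul (2 * a * b)),
        integral_const_mul, integral_const_mul, integral_const_mul]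
      rfl
    rw [e]
    refine setIntegral_nonneg measurableSet_Ioi fun R hR => ?_
    have hR0 : (0 : ℝ) < R := hR
    have e2 : a ^ 2 * (R ^ j * Real.exp (-R ^ 2 / 2 + R * τ)) +
          2 * a * b * (R ^ (j + 1) * Real.exp (-R ^ 2 / 2 + R * τ)) +
          b ^ 2 * (R ^ (j + 2) * Real.exp (-R ^ 2 / 2 + R * τ)) =
        R ^ j * (a + b * R) ^ 2 * Real.exp (-R ^ 2 / 2 + R * τ) := by ring
    rw [e2]
    (clear * - hR0; positivity)
  have h1 := h0 (-K (j + 1) τ) (K j τ)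
  have h2 := K_pos j τ
  have h3 : 0 ≤ K j τ * (K j τ * K (j + 2) τ - K (j + 1) τ ^ 2) := by linarith
  have h4 := nonneg_of_mul_nonneg_right h3 h2
  linarith only [h4]

lemma iter_K (j n : ℕ) : iteratedDeriv n (K j) = K (j + n) := by
  induction n with
  | zero => simp
  | succ n ih =>
    rw [iteratedDeriv_succ, ih]
    funext τ
    exact (hasDerivAt_K (j + n) τ).deriv

lemma contDiff_K (j : ℕ) : ContDiff ℝ ∞ (K j) := by
  refine contDiff_of_differentiable_iteratedDeriv fun m _ => ?_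
  rw [iter_K]
  exact fun τ => (hasDerivAt_K _ τ).differentiableAt

lemma K_mono (j : ℕ) : Monotone (K j) := by
  refine monotone_of_deriv_nonneg (fun τ => (hasDerivAt_K _ τ).differentiableAt) fun τ => ?_
  rw [(hasDerivAt_K j τ).deriv]
  exact (K_pos _ _).le

lemma K_zero (m : ℕ) : sphereVol m * K m 0 = (2 * π) ^ (((m : ℝ) + 1) / 2) := by
  have hm : (0 : ℝ) ≤ m := Nat.cast_nonneg m
  have h1 := integral_rpow_mul_exp_neg_mul_rpow (p := 2) (q := m) (b := 1 / 2) two_pos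
    (by linarith) (by norm_num)
  have h2 : K m 0 = ∫ x in Ioi (0 : ℝ), x ^ (m : ℝ) * Real.exp (-(1 / 2) * x ^ (2 : ℝ)) := by
    unfold K
    refine setIntegral_congr_fun measurableSet_Ioi fun R _ => ?_
    simp only [Real.rpow_natCast, Real.rpow_two]
    congr 2
    ring
  rw [h2, h1, sphereVol]
  have hG : Real.Gamma (((m : ℝ) + 1) / 2) ≠ 0 := (Real.Gamma_pos_of_pos (by (clear * -; positivity))).ne'
  have h3 : (1 / 2 : ℝ) ^ (-((m : ℝ) + 1) / 2) = 2 ^ (((m : ℝ) + 1) / 2) := by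
    rw [one_div, Real.inv_rpow (by norm_num), ← Real.rpow_neg (by norm_num)]
    congr 1
    ring
  rw [h3, Real.mul_rpow (by norm_num) Real.pi_pos.le]
  field_simp

lemma K_ge (m : ℕ) {τ : ℝ} (h : 0 ≤ τ) : τ ^ m * K 0 τ ≤ K m τ := by
  induction m with
  | zero => simp
  | succ n ih =>
    have h1 : τ * K n τ ≤ K (n + 1) τ := by
      cases n with
      | zero => rw [K_one]; linarith
      | succ k =>
        rw [K_rec]
        have := (K_pos k τ).le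
        have : (0 : ℝ) ≤ ((k : ℝ) + 1) * K k τ := by (clear * - this; positivity)
        linarith only [this]
    calc τ ^ (n + 1) * K 0 τ = τ * (τ ^ n * K 0 τ) := by ring
      _ ≤ τ * K n τ := mul_le_mul_of_nonneg_left ih h
      _ ≤ _ := h1

lemma tendsto_K0 : Tendsto (fun τ : ℝ => Real.exp (-τ ^ 2 / 2) * K 0 τ) atTop
    (𝓝 (Real.sqrt (2 * π))) := by
  have h1 : ∀ τ : ℝ, Real.exp (-τ ^ 2 / 2) * K 0 τ =
      ∫ u in Ioi (-τ), Real.exp (-(1 / 2) * u ^ 2) := by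
    intro τ
    have h2 := (measurePreserving_sub_right (volume : Measure ℝ) τ).setIntegral_preimage_emb
      (measurableEmbedding_subRight τ) (fun u : ℝ => Real.exp (-(1 / 2) * u ^ 2)) (Ioi (-τ))
    rw [← h2]
    have h3 : (fun x : ℝ => x - τ) ⁻¹' Ioi (-τ) = Ioi 0 := by
      ext x
      simp only [preimage_sub_const_Ioi, neg_add_cancel, mem_Ioi]
    rw [h3]
    unfold K
    rw [← integral_const_mul]
    refine setIntegral_congr_fun measurableSet_Ioi fun R _ => ?_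
    simp only [pow_zero, one_mul]
    rw [← Real.exp_add]
    congr 1
    ring
  have h2 : Tendsto (fun τ : ℝ => ∫ u in Ioi (-τ), Real.exp (-(1 / 2) * u ^ 2)) atTop
      (𝓝 (∫ u : ℝ, Real.exp (-(1 / 2) * u ^ 2))) :=
    (aecover_Ioi tendsto_neg_atTop_atBot).integral_tendsto_of_countably_generated
      (integrable_exp_neg_mul_sq (by norm_num))
  rw [integral_gaussian] at h2
  have h3 : π / (1 / 2) = 2 * π := by ring
  rw [h3] at h2
  exact h2.congr fun τ => (h1 τ).symm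

lemma K_small (m : ℕ) {δ : ℝ} (h0 : 0 < δ) (h1 : δ ≤ 1) :
    Tendsto (fun r : ℝ => Real.exp (-r ^ 2 / 2) * K m (r * (1 - δ))) atTop (𝓝 0) := by
  set C : ℝ := ∫ R in Ioi (0 : ℝ), R ^ m * Real.exp (-(δ / 2) * R ^ 2) with hC
  have hI : IntegrableOn (fun R : ℝ => R ^ m * Real.exp (-(δ / 2) * R ^ 2)) (Ioi 0) :=
    (integrable_pow_gauss m (by positivity)).integrableOn
  have hE : Tendsto (fun r : ℝ => Real.exp (-(δ / 2) * r ^ 2) * C) atTop (𝓝 0) := by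
    have h2 : Tendsto (fun r : ℝ => Real.exp (-(δ / 2) * r ^ 2)) atTop (𝓝 0) := by
      refine Real.tendsto_exp_atBot.comp ?_
      have h3 : Tendsto (fun r : ℝ => (δ / 2) * r ^ 2) atTop atTop :=
        (tendsto_pow_atTop two_ne_zero).const_mul_atTop (by positivity)
      refine (tendsto_neg_atTop_atBot.comp h3).congr fun r => ?_
      simp only [Function.comp]
      ring
    simpa only [neg_mul, zero_mul] using h2.mul_const C
  refine squeeze_zero' ((eventually_ge_atTop 0).mono fun r hr => ?_)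
    ((eventually_ge_atTop 0).mono fun r hr => ?_) hE
  · exact mul_nonneg (Real.exp_pos _).le (K_pos _ _).le
  · unfold K
    rw [hC, ← integral_const_mul, ← integral_const_mul]
    refine setIntegral_mono_on ((integrableOn_K m _).const_mul _) (hI.const_mul _)
      measurableSet_Ioi fun R hR => ?_
    have hR0 : (0 : ℝ) < R := hR
    have h2 : Real.exp (-r ^ 2 / 2) * Real.exp (-R ^ 2 / 2 + R * (r * (1 - δ))) ≤
        Real.exp (-(δ / 2) * r ^ 2) * Real.exp (-(δ / 2) * R ^ 2) := by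
      rw [← Real.exp_add, ← Real.exp_add]
      refine Real.exp_le_exp.2 ?_
      nlinarith only [mul_nonneg (sub_nonneg.2 h1) (sq_nonneg (R - r))]
    calc Real.exp (-r ^ 2 / 2) * (R ^ m * Real.exp (-R ^ 2 / 2 + R * (r * (1 - δ))))
        = R ^ m * (Real.exp (-r ^ 2 / 2) * Real.exp (-R ^ 2 / 2 + R * (r * (1 - δ)))) := by ring
      _ ≤ R ^ m * (Real.exp (-(δ / 2) * r ^ 2) * Real.exp (-(δ / 2) * R ^ 2)) :=
          mul_le_mul_of_nonneg_left h2 (by (clear * - hR0; positivity))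
      _ = _ := by ring

end Vale.Agent.P224.PM

end
end

section
-- PM/UFun
section

/-! Smooth parametric integrals `U j w Y = ∫ w(x) K_j(<F x, Y>) dμ`. -/

namespace Vale.Agent.P224.PM

open MeasureTheory Set Filter Topology
open scoped ContDiff RealInnerProductSpace

variable {X : Type*} [TopologicalSpace X] [CompactSpace X] [MeasurableSpace X] [BorelSpace X]
  {μ : Measure X} [IsFiniteMeasure μ]
  {W : Type*} [NormedAddCommGroup W] [InnerProductSpace ℝ W] [FiniteDimensional ℝ W] {F : X → W}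

/-- `U j w Y = ∫ w(x) K_j(<F x, Y>) dμ` -/
noncomputable def U (μ : Measure X) (F : X → W) (j : ℕ) (w : X → ℝ) (Y : W) : ℝ :=
  ∫ x, w x * K j ⟪F x, Y⟫ ∂μ

omit [CompactSpace X] [MeasurableSpace X] [BorelSpace X] [FiniteDimensional ℝ W] in
lemma ufun_cont (hF : Continuous F) {w : X → ℝ} (hw : Continuous w) (j : ℕ) (Y : W) :
    Continuous fun x => w x * K j ⟪F x, Y⟫ :=
  hw.mul ((contDiff_K j).continuous.comp (hF.inner continuous_const))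

omit [FiniteDimensional ℝ W] in
lemma ufun_int (hF : Continuous F) {w : X → ℝ} (hw : Continuous w) (j : ℕ) (Y : W) :
    Integrable (fun x => w x * K j ⟪F x, Y⟫) μ :=
  (ufun_cont hF hw j Y).integrable_of_hasCompactSupport (HasCompactSupport.of_compactSpace _)

omit [MeasurableSpace X] [BorelSpace X] in
lemma ufun_bound (hF : Continuous F) {w : X → ℝ} (hw : Continuous w) (j : ℕ) (Y₀ : W) :
    ∃ C : ℝ, ∀ x, ∀ Y ∈ Metric.ball Y₀ 1, ‖(w x * K (j + 1) ⟪F x, Y⟫) • innerSL ℝ (F x)‖ ≤ C := by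
  have hcont : Continuous fun z : X × W =>
      ‖(w z.1 * K (j + 1) ⟪F z.1, z.2⟫) • innerSL ℝ (F z.1)‖ := by
    have h1 : Continuous fun z : X × W => ⟪F z.1, z.2⟫ :=
      (hF.comp continuous_fst).inner continuous_snd
    have h2 : Continuous fun z : X × W => K (j + 1) ⟪F z.1, z.2⟫ :=
      (contDiff_K (j + 1)).continuous.comp h1
    have h3 : Continuous fun z : X × W => innerSL ℝ (F z.1) :=
      (innerSL ℝ).continuous.comp (hF.comp continuous_fst)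
    exact (((hw.comp continuous_fst).mul h2).smul h3).norm
  have hK : IsCompact ((univ : Set X) ×ˢ Metric.closedBall Y₀ 1) :=
    isCompact_univ.prod (isCompact_closedBall Y₀ 1)
  obtain ⟨C, hC⟩ := (hK.image hcont).bddAbove
  refine ⟨C, fun x Y hY => hC ⟨(x, Y), ⟨mem_univ _, Metric.ball_subset_closedBall hY⟩, rfl⟩⟩

lemma ufun_hasFDerivAt (hF : Continuous F) {w : X → ℝ} (hw : Continuous w) (j : ℕ) (Y : W) :
    HasFDerivAt (U μ F j w) (∫ x, (w x * K (j + 1) ⟪F x, Y⟫) • innerSL ℝ (F x) ∂μ) Y := by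
  obtain ⟨C, hC⟩ := ufun_bound hF hw j Y
  have hc : ∀ Y : W, Continuous fun x => (w x * K (j + 1) ⟪F x, Y⟫) • innerSL ℝ (F x) :=
    fun Y => (ufun_cont hF hw (j + 1) Y).smul ((innerSL ℝ).continuous.comp hF)
  refine hasFDerivAt_integral_of_dominated_of_fderiv_le (bound := fun _ => C)
    (F' := fun Y x => (w x * K (j + 1) ⟪F x, Y⟫) • innerSL ℝ (F x))
    (Metric.ball_mem_nhds Y one_pos) ?_ (ufun_int hF hw j Y) ?_ ?_ (integrable_const C) ?_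
  · exact Eventually.of_forall fun Y => (ufun_int hF hw j Y).aestronglyMeasurable
  · exact ((hc Y).integrable_of_hasCompactSupport
      (HasCompactSupport.of_compactSpace _)).aestronglyMeasurable
  · exact Eventually.of_forall fun x Z hZ => hC x Z hZ
  · refine Eventually.of_forall fun x Z _ => ?_
    have h1 : HasFDerivAt (fun Y : W => ⟪F x, Y⟫) (innerSL ℝ (F x)) Z :=
      (innerSL ℝ (F x)).hasFDerivAt
    have h2 := (hasDerivAt_K j ⟪F x, Z⟫).comp_hasFDerivAt Z h1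
    have h3 := h2.const_mul (w x)
    rw [smul_smul] at h3
    exact h3

lemma U_deriv (hF : Continuous F) {w : X → ℝ} (hw : Continuous w) (j : ℕ) (Y : W) :
    ∃ D : W →L[ℝ] ℝ, HasFDerivAt (U μ F j w) D Y ∧
      ∀ v, D v = U μ F (j + 1) (fun x => w x * ⟪F x, v⟫) Y := by
  refine ⟨_, ufun_hasFDerivAt hF hw j Y, fun v => ?_⟩
  have hi : Integrable (fun x => (w x * K (j + 1) ⟪F x, Y⟫) • innerSL ℝ (F x)) μ :=
    ((ufun_cont hF hw (j + 1) Y).smul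
      ((innerSL ℝ).continuous.comp hF)).integrable_of_hasCompactSupport
        (HasCompactSupport.of_compactSpace _)
  rw [ContinuousLinearMap.integral_apply hi, U]
  refine integral_congr_ae (Eventually.of_forall fun x => ?_)
  show (w x * K (j + 1) ⟪F x, Y⟫) * ⟪F x, v⟫ = _
  ring

lemma fderiv_U (hF : Continuous F) {w : X → ℝ} (hw : Continuous w) (j : ℕ) (Y v : W) :
    fderiv ℝ (U μ F j w) Y v = U μ F (j + 1) (fun x => w x * ⟪F x, v⟫) Y := by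
  obtain ⟨D, hD, hv⟩ := U_deriv (μ := μ) hF hw j Y
  rw [hD.fderiv, hv]

lemma contDiff_U_nat (hF : Continuous F) (n : ℕ) : ∀ {w : X → ℝ} (_ : Continuous w) (j : ℕ),
    ContDiff ℝ n (U μ F j w) := by
  induction n with
  | zero =>
    intro w hw j
    rw [Nat.cast_zero, contDiff_zero, continuous_iff_continuousAt]
    exact fun Y => (ufun_hasFDerivAt hF hw j Y).continuousAt
  | succ n ih =>
    intro w hw j
    rw [Nat.cast_succ, contDiff_succ_iff_fderiv_apply]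
    refine ⟨fun Y => (ufun_hasFDerivAt hF hw j Y).differentiableAt, fun h => ?_, fun v => ?_⟩
    · exact absurd h (by simp)
    · have h1 : (fun Y => fderiv ℝ (U μ F j w) Y v) = U μ F (j + 1) (fun x => w x * ⟪F x, v⟫) :=
        funext fun Y => fderiv_U hF hw j Y v
      rw [h1]
      exact ih (hw.mul (hF.inner continuous_const)) (j + 1)

lemma contDiff_U (hF : Continuous F) {w : X → ℝ} (hw : Continuous w) (j : ℕ) :
    ContDiff ℝ ∞ (U μ F j w) :=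
  contDiff_infty.2 fun n => contDiff_U_nat hF n hw j

lemma hasDerivAt_U_ray (hF : Continuous F) {w : X → ℝ} (hw : Continuous w) (j : ℕ) (z : W)
    (r : ℝ) :
    HasDerivAt (fun r : ℝ => U μ F j w (r • z))
      (U μ F (j + 1) (fun x => w x * ⟪F x, z⟫) (r • z)) r := by
  obtain ⟨D, hD, hv⟩ := U_deriv (μ := μ) hF hw j (r • z)
  have h1 : HasDerivAt (fun r : ℝ => r • z) z r := by
    simpa using (hasDerivAt_id r).smul_const z
  have h2 := hD.comp_hasDerivAt r h1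
  rw [hv] at h2
  exact h2

end Vale.Agent.P224.PM

end
end
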