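import Mathlib
import Vale.Agent.P224.Bdl.B2
import Vale.Agent.P224.Bdl.B4

set_option linter.all false

section
-- FV/LapDef
section

namespace Vale.Agent.P224.FV

open Matrix MeasureTheory Module Function Set
open scoped RealInnerProductSpace Topology ContDiff Manifold

set_option linter.unusedSectionVars false

section

variable {V W M : Type*} [NormedAddCommGroup V] [InnerProductSpace ℝ V] [FiniteDimensional ℝ V]
  [NormedAddCommGroup W] [InnerProductSpace ℝ W] [FiniteDimensional ℝ W]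
  {X : Type*} [NormedAddCommGroup X] [NormedSpace ℝ X]
  [TopologicalSpace M] [ChartedSpace V M]

variable (V) in
/-- the Laplacian of the induced metric, written with the operators dl -/
noncomputable def Lap (F : M → W) (g : M → ℝ) (p : M) : ℝ :=
  ∑ i, dl V F (stdOrthonormalBasis ℝ W i) (dl V F (stdOrthonormalBasis ℝ W i) g) p

end

end Vale.Agent.P224.FV

end
end

section
-- FV/LapSmooth
section

namespace Vale.Agent.P224.FV

open Matrix MeasureTheory Module Function Set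
open scoped RealInnerProductSpace Topology ContDiff Manifold

set_option linter.unusedSectionVars false

section

variable {V W M : Type*} [NormedAddCommGroup V] [InnerProductSpace ℝ V] [FiniteDimensional ℝ V]
  [NormedAddCommGroup W] [InnerProductSpace ℝ W] [FiniteDimensional ℝ W]
  {X : Type*} [NormedAddCommGroup X] [NormedSpace ℝ X]
  [TopologicalSpace M] [ChartedSpace V M]

/-- the derivative field is smooth -/
lemma contMDiff_dl [IsManifold 𝓘(ℝ, V) ∞ M] {F : M → W} (hF : SphImm V F) (a : W) {h : M → X}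
    (hh : ContMDiff 𝓘(ℝ, V) 𝓘(ℝ, X) ∞ h) : ContMDiff 𝓘(ℝ, V) 𝓘(ℝ, X) ∞ (dl V F a h) := by
  intro x
  have hI := immV_rep hF x
  have hxs : x ∈ (chartAt V x).source := mem_chart_source _ x
  have hxT : chartAt V x x ∈ (chartAt V x).target := (chartAt V x).map_source hxs
  have h1 : dl V F a h =ᶠ[𝓝 x] fun p => fderiv ℝ (rep (V := V) h x) (chartAt V x p)
      (vW (rep (V := V) F x) a (chartAt V x p)) := by
    filter_upwards [(chartAt V x).open_source.mem_nhds hxs] with p hp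
    exact dl_eq hF a hp (rep_differentiableAt hh x ((chartAt V x).map_source hp))
  refine ContMDiffAt.congr_of_eventuallyEq ?_ h1
  have hsm : ContDiffAt ℝ (∞ + 1) (rep (V := V) F x) (chartAt V x x) :=
    (hI.smooth.contDiffAt (hI.isOpen.mem_nhds hxT)).of_le (by simp)
  have hhm : ContDiffAt ℝ (∞ + 1) (rep (V := V) h x) (chartAt V x x) :=
    ((rep_contDiffOn hh x).contDiffAt ((chartAt V x).open_target.mem_nhds hxT)).of_le
      (by simp)
  have hc1 : ContDiffAt ℝ ∞ (fderiv ℝ (rep (V := V) h x)) (chartAt V x x) :=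
    hhm.fderiv_right (m := ∞) (by simp)
  have hc2 : ContDiffAt ℝ ∞ (vW (rep (V := V) F x) a) (chartAt V x x) := by
    unfold vW
    exact ContDiffAt.sum fun i _ =>
      (contDiffAt_lW (n := ∞) hsm (lG_det_pos (hI.inj _ hxT)).ne' a i).smul contDiffAt_const
  have hc3 : ContDiffAt ℝ ∞ (fun u => fderiv ℝ (rep (V := V) h x) u
      (vW (rep (V := V) F x) a u)) (chartAt V x x) := hc1.clm_apply hc2
  have hφ : ContMDiffAt 𝓘(ℝ, V) 𝓘(ℝ, V) ∞ (chartAt V x) x := by
    have := contMDiffAt_extChartAt (I := 𝓘(ℝ, V)) (x := x) (n := ∞)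
    simpa using this
  exact hc3.contMDiffAt.comp x hφ

end

end Vale.Agent.P224.FV

end
end

section
-- FV/Green
section

namespace Vale.Agent.P224.FV

open Matrix MeasureTheory Module Function Set
open scoped RealInnerProductSpace Topology ContDiff Manifold

set_option linter.unusedSectionVars false

section

variable {V W M : Type*} [NormedAddCommGroup V] [InnerProductSpace ℝ V] [FiniteDimensional ℝ V]
  [NormedAddCommGroup W] [InnerProductSpace ℝ W] [FiniteDimensional ℝ W]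
  {X : Type*} [NormedAddCommGroup X] [NormedSpace ℝ X]
  [TopologicalSpace M] [ChartedSpace V M]

lemma vW_congr {f : V → W} {u : V} {a b : W} (h : ∀ j, ⟪a, lP f j u⟫ = ⟪b, lP f j u⟫) :
    vW f a u = vW f b u := by
  simp only [vW, lW, h]

lemma vW_sum {ι : Type*} (s : Finset ι) (c : ι → ℝ) (e : ι → W) (f : V → W) (u : V) :
    vW f (∑ k ∈ s, c k • e k) u = ∑ k ∈ s, c k • vW f (e k) u := by
  simp only [vW, lW, Finset.smul_sum, smul_smul]
  rw [Finset.sum_comm]
  refine Finset.sum_congr rfl fun i _ => ?_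
  rw [← Finset.sum_smul]
  congr 1
  simp only [sum_inner, real_inner_smul_left, Finset.mul_sum]
  rw [Finset.sum_comm]
  refine Finset.sum_congr rfl fun k _ => Finset.sum_congr rfl fun j _ => ?_
  ring

/-- expansion of the derivative in a basis of the ambient space -/
lemma dl_expand {F : M → W} (a : W) (h : M → X) (p : M) :
    dl V F a h p = ∑ i, ⟪stdOrthonormalBasis ℝ W i, a⟫ • dl V F (stdOrthonormalBasis ℝ W i) h p := by
  unfold dl
  conv_lhs => rw [← (stdOrthonormalBasis ℝ W).sum_repr' a]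
  rw [vW_sum, map_sum]
  simp only [map_smul]

/-- the position vector has no tangential part -/
lemma dl_pos [IsManifold 𝓘(ℝ, V) ∞ M] {F : M → W} (hF : SphImm V F) (h : M → X) (p : M) :
    dl V F (F p) h p = 0 := by
  have hI := immV_rep hF p
  have hpT : chartAt V p p ∈ (chartAt V p).target :=
    (chartAt V p).map_source (mem_chart_source _ p)
  have hFp : rep (V := V) F p (chartAt V p p) = F p := by
    unfold rep; rw [(chartAt V p).left_inv (mem_chart_source _ p)]
  unfold dl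
  have : vW (rep (V := V) F p) (F p) (chartAt V p p) = 0 := by
    have h0 : vW (rep (V := V) F p) (0 : W) (chartAt V p p) = 0 := by
      simp only [vW, lW, inner_zero_left, mul_zero, Finset.sum_const_zero, zero_smul]
    rw [← h0]
    apply vW_congr
    intro j
    rw [inner_zero_left, real_inner_comm, ← hFp]
    exact inner_rep_F_fderiv hI hpT _
  rw [this, map_zero]

/-- derivative along the tangential part -/
lemma dl_proj [IsManifold 𝓘(ℝ, V) ∞ M] {F : M → W} (hF : SphImm V F) (y : W) (h : M → X) (p : M) :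
    dl V F (dl V F y F p) h p = dl V F y h p := by
  have hI := immV_rep hF p
  have hpT : chartAt V p p ∈ (chartAt V p).target :=
    (chartAt V p).map_source (mem_chart_source _ p)
  have e : dl V F y F p = lT (rep (V := V) F p) y (chartAt V p p) := fderiv_vW _ _ _
  rw [e]
  unfold dl
  congr 1
  apply vW_congr
  intro j
  rw [real_inner_comm]
  exact inner_lT (lG_det_pos (hI.inj _ hpT)).ne' y j

/-- the tangential projection is symmetric -/
lemma dl_F_symm {F : M → W} (a y : W) (p : M) :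
    ⟪dl V F a F p, y⟫ = ⟪a, dl V F y F p⟫ := by
  have e : ∀ a : W, dl V F a F p = lT (rep (V := V) F p) a (chartAt V p p) := fun a =>
    fderiv_vW _ _ _
  rw [e, e]
  simp only [lT, lW, sum_inner, inner_sum, real_inner_smul_left, real_inner_smul_right,
    Finset.sum_mul]
  rw [Finset.sum_comm]
  refine Finset.sum_congr rfl fun i _ => Finset.sum_congr rfl fun j _ => ?_
  rw [lGinv_symm, real_inner_comm y]
  ring

lemma sum_dl_F [IsManifold 𝓘(ℝ, V) ∞ M] {F : M → W} (hF : SphImm V F) (y : W) (h : M → ℝ)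
    (p : M) :
    ∑ i, ⟪dl V F (stdOrthonormalBasis ℝ W i) F p, y⟫ * dl V F (stdOrthonormalBasis ℝ W i) h p
      = dl V F y h p := by
  rw [← dl_proj hF y h p, dl_expand (dl V F y F p)]
  refine Finset.sum_congr rfl fun i _ => ?_
  rw [dl_F_symm, smul_eq_mul]

lemma sum_pos_dl [IsManifold 𝓘(ℝ, V) ∞ M] {F : M → W} (hF : SphImm V F) (h : M → ℝ)
    (p : M) :
    ∑ i, ⟪stdOrthonormalBasis ℝ W i, F p⟫ * dl V F (stdOrthonormalBasis ℝ W i) h p = 0 := by
  rw [← dl_pos hF h p, dl_expand (F p)]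
  rfl

variable [MeasurableSpace V] [BorelSpace V] [MeasurableSpace M] [BorelSpace M]

/-- Green's formula with a function of the height -/
theorem green [IsManifold 𝓘(ℝ, V) ∞ M] [CompactSpace M] [T2Space M]
    (hW : finrank ℝ W = finrank ℝ V + 2) {F : M → W}
    (hF : SphImm V F) (hmin : ∀ x n, IsUnitNormal V F x n → meanCurv V F x n = 0)
    (hV : VolChart V F) [IsFiniteMeasure (volM V F)] (y : W) {G : ℝ → ℝ}
    (hG : ∀ p, ContDiffAt ℝ ∞ G ⟪F p, y⟫) {g : M → ℝ}
    (hg : ContMDiff 𝓘(ℝ, V) 𝓘(ℝ, ℝ) ∞ g) :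
    ∫ p, deriv G ⟪F p, y⟫ * dl V F y g p ∂(volM V F)
      = - ∫ p, G ⟪F p, y⟫ * Lap V F g p ∂(volM V F) := by
  set e := stdOrthonormalBasis ℝ W with he
  have hs := smooth_comp (smooth_inner hF.smooth y) hG
  have hd : ∀ a, ContMDiff 𝓘(ℝ, V) 𝓘(ℝ, ℝ) ∞ (dl V F a g) := fun a => contMDiff_dl hF a hg
  have hdd : ∀ a, ContMDiff 𝓘(ℝ, V) 𝓘(ℝ, ℝ) ∞ (dl V F a (dl V F a g)) := fun a =>
    contMDiff_dl hF a (hd a)
  have hm : ∀ a, ContMDiff 𝓘(ℝ, V) 𝓘(ℝ, ℝ) ∞ (fun q => G ⟪F q, y⟫ * dl V F a g q) := fun a =>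
    hs.mul (hd a)
  have hcF : Continuous F := hF.smooth.continuous
  have h1 : ∀ i, ∫ p, dl V F (e i) (fun q => G ⟪F q, y⟫ * dl V F (e i) g q) p ∂(volM V F)
      = (finrank ℝ V : ℝ) * ∫ p, ⟪e i, F p⟫ * (G ⟪F p, y⟫ * dl V F (e i) g p) ∂(volM V F) :=
    fun i => first_variation hW hF hmin hV (e i) (hm (e i))
  have e1 : ∀ i p, dl V F (e i) (fun q => G ⟪F q, y⟫ * dl V F (e i) g q) p
      = deriv G ⟪F p, y⟫ * (⟪dl V F (e i) F p, y⟫ * dl V F (e i) g p)
        + G ⟪F p, y⟫ * dl V F (e i) (dl V F (e i) g) p := by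
    intro i p
    have hdv : HasDerivAt G (deriv G ⟪F p, y⟫) ⟪F p, y⟫ :=
      ((hG p).differentiableAt (by norm_num)).hasDerivAt
    rw [dl_mul (e i) hs (hd (e i)), dl_comp (e i) (smooth_inner hF.smooth y) p hdv,
      dl_inner (e i) hF.smooth]
    ring
  have hsum := Finset.sum_congr rfl (fun i (_ : i ∈ Finset.univ) => h1 i)
  have i1 : ∀ i, Integrable (fun p => dl V F (e i) (fun q => G ⟪F q, y⟫ * dl V F (e i) g q) p)
      (volM V F) := fun i => integrable_of_cont _ (contMDiff_dl hF (e i) (hm (e i))).continuous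
  have i2 : ∀ i, Integrable (fun p => ⟪e i, F p⟫ * (G ⟪F p, y⟫ * dl V F (e i) g p))
      (volM V F) := fun i =>
    integrable_of_cont _ ((continuous_const.inner hcF).mul (hm (e i)).continuous)
  rw [← Finset.mul_sum, ← integral_finsetSum _ (fun i _ => i1 i),
    ← integral_finsetSum _ (fun i _ => i2 i)] at hsum
  have e2 : ∀ p, ∑ i, ⟪e i, F p⟫ * (G ⟪F p, y⟫ * dl V F (e i) g p) = 0 := by
    intro p
    have := sum_pos_dl hF g p
    calc ∑ i, ⟪e i, F p⟫ * (G ⟪F p, y⟫ * dl V F (e i) g p)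
        = G ⟪F p, y⟫ * ∑ i, ⟪e i, F p⟫ * dl V F (e i) g p := by
          rw [Finset.mul_sum]
          exact Finset.sum_congr rfl fun i _ => by ring
      _ = 0 := by rw [this, mul_zero]
  have e3 : ∀ p, ∑ i, dl V F (e i) (fun q => G ⟪F q, y⟫ * dl V F (e i) g q) p
      = deriv G ⟪F p, y⟫ * dl V F y g p + G ⟪F p, y⟫ * Lap V F g p := by
    intro p
    simp only [e1]
    rw [Finset.sum_add_distrib, ← Finset.mul_sum, ← Finset.mul_sum, sum_dl_F hF]
    rfl
  simp only [e2, e3, integral_zero, mul_zero] at hsum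
  have hcl : Continuous (Lap V F g) := by
    unfold Lap
    exact continuous_finsetSum _ fun i _ => (hdd _).continuous
  have hG' : ContMDiff 𝓘(ℝ, V) 𝓘(ℝ, ℝ) ∞ (fun q => deriv G ⟪F q, y⟫) := by
    refine smooth_comp (smooth_inner hF.smooth y) (w := deriv G) (fun p => ?_)
    have h1 : ContDiffAt ℝ ∞ (fun x => fderiv ℝ G x 1) ⟪F p, y⟫ :=
      ((hG p).fderiv_right (m := ∞) (by simp)).clm_apply contDiffAt_const
    exact h1
  rw [integral_add] at hsum
  · (clear hW hF hmin hV hG hg e he hs hd hdd hm hcF h1 e1 i1 i2 e2 e3 hcl hG'; linarith)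
  · exact integrable_of_cont _ (hG'.continuous.mul (hd y).continuous)
  · exact integrable_of_cont _ (hs.continuous.mul hcl)

end

end Vale.Agent.P224.FV

end
end

section
-- Gap/Geo
section

/-!
Second fundamental form and commutators in terms of the operators dl.
-/

namespace Vale.Agent.P224.FV

open Matrix MeasureTheory Module Function Set
open scoped RealInnerProductSpace Topology ContDiff Manifold

set_option linter.unusedSectionVars false

section

variable {V W M : Type*} [NormedAddCommGroup V] [InnerProductSpace ℝ V] [FiniteDimensional ℝ V]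
  [NormedAddCommGroup W] [InnerProductSpace ℝ W] [FiniteDimensional ℝ W]
  {X : Type*} [NormedAddCommGroup X] [NormedSpace ℝ X]
  [TopologicalSpace M] [ChartedSpace V M]

lemma rep_self (h : M → X) (p : M) : h ((chartAt V p).symm (chartAt V p p)) = h p := by
  rw [(chartAt V p).left_inv (mem_chart_source _ p)]

/-- the normal vector has no tangential part -/
lemma dl_normal [IsManifold 𝓘(ℝ, V) ∞ M] {F : M → W} (hF : SphImm V F) {N : M → W}
    (hN : ∀ x, IsUnitNormal V F x (N x)) (h : M → X) (p : M) :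
    dl V F (N p) h p = 0 := by
  have hpT : chartAt V p p ∈ (chartAt V p).target :=
    (chartAt V p).map_source (mem_chart_source _ p)
  have hNp : rep (V := V) N p (chartAt V p p) = N p := rep_self N p
  unfold dl
  have : vW (rep (V := V) F p) (N p) (chartAt V p p) = 0 := by
    have h0 : vW (rep (V := V) F p) (0 : W) (chartAt V p p) = 0 := by
      simp only [vW, lW, inner_zero_left, mul_zero, Finset.sum_const_zero, zero_smul]
    rw [← h0]
    apply vW_congr
    intro j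
    rw [inner_zero_left, real_inner_comm, ← hNp]
    exact normal_rep hF hN p hpT _
  rw [this, map_zero]

/-- the second fundamental form -/
lemma inner_dl_N [IsManifold 𝓘(ℝ, V) ∞ M] (hW : finrank ℝ W = finrank ℝ V + 2) {F : M → W}
    (hF : SphImm V F) {N : M → W} (hNs : ContMDiff 𝓘(ℝ, V) 𝓘(ℝ, W) ∞ N)
    (hN : ∀ x, IsUnitNormal V F x (N x)) (a b : W) (p : M) :
    ⟪dl V F a N p, b⟫ = - ∑ i, ∑ j, lW (rep (V := V) F p) a i (chartAt V p p) *
      lW (rep (V := V) F p) b j (chartAt V p p) *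
      ⟪pd (pd (rep (V := V) F p) j) i (chartAt V p p), N p⟫ := by
  have hI := immV_rep hF p
  have hpT : chartAt V p p ∈ (chartAt V p).target :=
    (chartAt V p).map_source (mem_chart_source _ p)
  have hFp : rep (V := V) F p (chartAt V p p) = F p := rep_self F p
  have hNp : rep (V := V) N p (chartAt V p p) = N p := rep_self N p
  set f := rep (V := V) F p with hf
  set ν := rep (V := V) N p with hν
  set u := chartAt V p p with hu
  have hT := hI.isOpen.mem_nhds hpT
  have hfs : ContDiffAt ℝ 2 f u := (hI.smooth.contDiffAt hT).of_le (by norm_cast)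
  have hfd : DifferentiableAt ℝ f u := hfs.differentiableAt (by norm_num)
  have hνd : DifferentiableAt ℝ ν u := rep_diff_self hNs p
  have h1 : ∀ w, ⟪fderiv ℝ ν u w, f u⟫ = 0 := by
    intro w
    have e1 : fderiv ℝ (fun v => ⟪ν v, f v⟫) u = fderiv ℝ (fun _ => (0 : ℝ)) u := by
      apply Filter.EventuallyEq.fderiv_eq
      filter_upwards with v
      rw [real_inner_comm]
      exact (hN _).2.1
    have h2 := congrArg (fun L => L w) e1
    simp only [fderiv_inner_apply ℝ hνd hfd, fderiv_fun_const] at h2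
    simp only [Pi.zero_apply, _root_.zero_apply] at h2
    rw [real_inner_comm _ (ν u), normal_rep hF hN p hpT w, zero_add] at h2
    exact h2
  have h2 : ∀ w, ⟪fderiv ℝ ν u w, ν u⟫ = 0 := by
    intro w
    have e1 : fderiv ℝ (fun v => ⟪ν v, ν v⟫) u = fderiv ℝ (fun _ => (1 : ℝ)) u := by
      apply Filter.EventuallyEq.fderiv_eq
      filter_upwards with v
      rw [real_inner_self_eq_norm_sq]
      have : ‖ν v‖ = 1 := (hN _).1
      rw [this]; norm_num
    have h2 := congrArg (fun L => L w) e1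
    simp only [fderiv_inner_apply ℝ hνd hνd, fderiv_fun_const] at h2
    simp only [Pi.zero_apply, _root_.zero_apply] at h2
    rw [real_inner_comm (fderiv ℝ ν u w) (ν u)] at h2
    linarith only [h2]
  have h3 : ∀ w w', ⟪fderiv ℝ ν u w, fderiv ℝ f u w'⟫
      = - ⟪ν u, fderiv ℝ (fderiv ℝ f) u w w'⟫ := by
    intro w w'
    have hfd2 : DifferentiableAt ℝ (fderiv ℝ f) u :=
      (hfs.fderiv_right (m := 1) (by norm_num)).differentiableAt (by norm_num)
    have hPd : HasFDerivAt (fun v => fderiv ℝ f v w')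
        ((ContinuousLinearMap.apply ℝ W w').comp (fderiv ℝ (fderiv ℝ f) u)) u :=
      (ContinuousLinearMap.apply ℝ W w').hasFDerivAt.comp u hfd2.hasFDerivAt
    have e1 : fderiv ℝ (fun v => ⟪ν v, fderiv ℝ f v w'⟫) u = fderiv ℝ (fun _ => (0 : ℝ)) u := by
      apply Filter.EventuallyEq.fderiv_eq
      filter_upwards [hT] with v hv
      rw [real_inner_comm]
      exact normal_rep hF hN p hv w'
    have h2 := congrArg (fun L => L w) e1
    simp only [fderiv_inner_apply ℝ hνd hPd.differentiableAt, fderiv_fun_const, hPd.fderiv] at h2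
    simp only [Pi.zero_apply, _root_.zero_apply, ContinuousLinearMap.comp_apply,
      ContinuousLinearMap.apply_apply] at h2
    linarith only [h2]
  have key : ⟪dl V F a N p, b⟫
      = ⟪fderiv ℝ ν u (vW f a u), fderiv ℝ f u (vW f b u)⟫ := by
    have hb := dl_F hW hF hN b p
    have hb' : dl V F b F p = fderiv ℝ f u (vW f b u) := rfl
    have hb2 : b = fderiv ℝ f u (vW f b u) + ⟪b, F p⟫ • F p + ⟪b, N p⟫ • N p := by
      rw [← hb', hb]; abel
    have ha : dl V F a N p = fderiv ℝ ν u (vW f a u) := rfl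
    rw [ha]
    conv_lhs => rw [hb2]
    rw [inner_add_right, inner_add_right, inner_smul_right, inner_smul_right, ← hFp, ← hNp,
      h1, h2]
    ring
  rw [key, h3]
  congr 1
  unfold vW
  simp only [map_sum, map_smul, _root_.sum_apply, _root_.smul_apply, inner_sum, inner_smul_right]
  rw [Finset.sum_comm]
  refine Finset.sum_congr rfl fun j _ => ?_
  rw [Finset.mul_sum]
  refine Finset.sum_congr rfl fun i _ => ?_
  have e := lQ_eq hfs i j
  have e' : lQ f i j u = pd (pd f j) i u := rfl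
  rw [← e, e', ← hNp, real_inner_comm (ν u)]
  ring

/-- the matrix of the tangential coordinates of the basis vectors -/
lemma LLt {f : V → W} {u : V} (hG : (lG f u).det ≠ 0) :
    (Matrix.of fun i a => lW f (stdOrthonormalBasis ℝ W a) i u) *
      (Matrix.of fun i a => lW f (stdOrthonormalBasis ℝ W a) i u)ᵀ = (lG f u)⁻¹ := by
  set e := stdOrthonormalBasis ℝ W
  have h1 : (Matrix.of fun i a => lW f (e a) i u)
      = (lG f u)⁻¹ * Matrix.of fun j a => ⟪e a, lP f j u⟫ := by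
    ext i a
    simp only [Matrix.of_apply, Matrix.mul_apply, lW]
  have h2 : (Matrix.of fun j a => ⟪e a, lP f j u⟫) * (Matrix.of fun j a => ⟪e a, lP f j u⟫)ᵀ
      = lG f u := by
    ext i j
    simp only [Matrix.mul_apply, Matrix.of_apply, Matrix.transpose_apply, lG]
    rw [← e.sum_inner_mul_inner (lP f i u) (lP f j u)]
    refine Finset.sum_congr rfl fun a _ => ?_
    rw [real_inner_comm (lP f i u)]
  rw [h1, Matrix.transpose_mul, Matrix.transpose_nonsing_inv, lG_transpose]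
  calc (lG f u)⁻¹ * (Matrix.of fun j a => ⟪e a, lP f j u⟫) *
        ((Matrix.of fun j a => ⟪e a, lP f j u⟫)ᵀ * (lG f u)⁻¹)
      = (lG f u)⁻¹ * ((Matrix.of fun j a => ⟪e a, lP f j u⟫) *
        (Matrix.of fun j a => ⟪e a, lP f j u⟫)ᵀ) * (lG f u)⁻¹ := by
        simp only [Matrix.mul_assoc]
    _ = _ := by
        rw [h2, Matrix.nonsing_inv_mul _ (isUnit_iff_ne_zero.mpr hG), Matrix.one_mul]

/-- traces of the second fundamental form in the ambient basis -/
lemma trace_A [IsManifold 𝓘(ℝ, V) ∞ M] (hW : finrank ℝ W = finrank ℝ V + 2) {F : M → W}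
    (hF : SphImm V F) {N : M → W} (hNs : ContMDiff 𝓘(ℝ, V) 𝓘(ℝ, W) ∞ N)
    (hN : ∀ x, IsUnitNormal V F x (N x)) (p : M) :
    ∑ a, ⟪dl V F (stdOrthonormalBasis ℝ W a) N p, stdOrthonormalBasis ℝ W a⟫
        = - meanCurv V F p (N p) ∧
    ∑ a, ∑ b, ⟪dl V F (stdOrthonormalBasis ℝ W a) N p, stdOrthonormalBasis ℝ W b⟫ ^ 2
        = normSqA V F p (N p) := by
  have hI := immV_rep hF p
  have hpT : chartAt V p p ∈ (chartAt V p).target :=
    (chartAt V p).map_source (mem_chart_source _ p)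
  have hG := (lG_det_pos (hI.inj _ hpT)).ne'
  have hfs : ContDiffAt ℝ 2 (rep (V := V) F p) (chartAt V p p) :=
    (hI.smooth.contDiffAt (hI.isOpen.mem_nhds hpT)).of_le (by norm_cast)
  set f := rep (V := V) F p with hf
  set u := chartAt V p p with hu
  set e := stdOrthonormalBasis ℝ W with he
  set L : Matrix (Fin (finrank ℝ V)) (Fin (finrank ℝ W)) ℝ :=
    Matrix.of fun i a => lW f (e a) i u with hL
  set H : Matrix (Fin (finrank ℝ V)) (Fin (finrank ℝ V)) ℝ :=
    Matrix.of fun i j => ⟪pd (pd f j) i u, N p⟫ with hH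
  set A : Matrix (Fin (finrank ℝ W)) (Fin (finrank ℝ W)) ℝ :=
    Matrix.of fun a b => ⟪dl V F (e a) N p, e b⟫ with hA
  have hHs : Hᵀ = H := by
    ext i j
    simp only [hH, Matrix.transpose_apply, Matrix.of_apply]
    have := lQ_symm hfs i j
    change pd (pd f j) i u = pd (pd f i) j u at this
    rw [this]
  have hLL : L * Lᵀ = (lG f u)⁻¹ := LLt hG
  have hAe : A = - (Lᵀ * H * L) := by
    ext a b
    rw [Matrix.neg_apply]
    simp only [hA, Matrix.of_apply]
    rw [inner_dl_N hW hF hNs hN]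
    congr 1
    simp only [Matrix.mul_apply, hL, hH, Matrix.of_apply, Matrix.transpose_apply, Finset.sum_mul]
    rw [Finset.sum_comm]
    refine Finset.sum_congr rfl fun i _ => Finset.sum_congr rfl fun j _ => ?_
    ring
  have hAt : Aᵀ = A := by
    rw [hAe, Matrix.transpose_neg, Matrix.transpose_mul, Matrix.transpose_mul, hHs,
      Matrix.transpose_transpose, Matrix.mul_assoc]
  have hsh : shapeMat f u (N p) = (lG f u)⁻¹ * H := rfl
  constructor
  · have h1 : ∑ a, ⟪dl V F (e a) N p, e a⟫ = A.trace := rfl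
    rw [h1, hAe, Matrix.trace_neg]
    congr 1
    unfold meanCurv
    rw [← hf, ← hu, hsh, Matrix.mul_assoc, Matrix.trace_mul_comm, Matrix.mul_assoc, hLL,
      Matrix.trace_mul_comm]
  · have h1 : ∑ a, ∑ b, ⟪dl V F (e a) N p, e b⟫ ^ 2 = (A * A).trace := by
      rw [Matrix.trace]
      simp only [Matrix.diag_apply, Matrix.mul_apply]
      refine Finset.sum_congr rfl fun a _ => Finset.sum_congr rfl fun b _ => ?_
      have : A b a = A a b := by
        conv_lhs => rw [← hAt]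
        rfl
      rw [this, pow_two]
      rfl
    rw [h1, hAe]
    unfold normSqA
    rw [← hf, ← hu, hsh, pow_two, neg_mul_neg]
    calc (Lᵀ * H * L * (Lᵀ * H * L)).trace = (Lᵀ * (H * (L * Lᵀ) * H * L)).trace := by
          simp only [Matrix.mul_assoc]
      _ = ((H * (L * Lᵀ) * H) * (L * Lᵀ)).trace := by
          rw [Matrix.trace_mul_comm]
          simp only [Matrix.mul_assoc]
      _ = _ := by
          rw [hLL, Matrix.trace_mul_comm]
          simp only [Matrix.mul_assoc]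

end

end Vale.Agent.P224.FV

end
end

section
-- Gap/Comm
section

/-!
Commutator of the operators dl.
-/

namespace Vale.Agent.P224.FV

open Matrix MeasureTheory Module Function Set
open scoped RealInnerProductSpace Topology ContDiff Manifold

set_option linter.unusedSectionVars false

section

variable {V W M : Type*} [NormedAddCommGroup V] [InnerProductSpace ℝ V] [FiniteDimensional ℝ V]
  [NormedAddCommGroup W] [InnerProductSpace ℝ W] [FiniteDimensional ℝ W]
  {X : Type*} [NormedAddCommGroup X] [NormedSpace ℝ X]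
  [TopologicalSpace M] [ChartedSpace V M]

lemma vW_fderiv {f : V → W} {u : V} (h : Function.Injective (fderiv ℝ f u)) (w : V) :
    vW f (fderiv ℝ f u w) u = w := by
  apply h
  rw [fderiv_vW]
  have h1 := inner_fderiv_sub_lT h (fderiv ℝ f u w) (w - vW f (fderiv ℝ f u w) u)
  rw [map_sub, fderiv_vW] at h1
  exact (sub_eq_zero.mp (inner_self_eq_zero.mp h1)).symm

lemma contDiffAt_vW {n : WithTop ℕ∞} {f : V → W} {u : V} (hf : ContDiffAt ℝ (n + 1) f u)
    (hG : (lG f u).det ≠ 0) (a : W) : ContDiffAt ℝ n (vW f a) u := by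
  unfold vW
  exact ContDiffAt.sum fun i _ => (contDiffAt_lW hf hG a i).smul contDiffAt_const

lemma dl_dl [IsManifold 𝓘(ℝ, V) ∞ M] {F : M → W} (hF : SphImm V F) (a b : W) {h : M → X}
    (hh : ContMDiff 𝓘(ℝ, V) 𝓘(ℝ, X) ∞ h) (p : M) :
    dl V F a (dl V F b h) p =
      fderiv ℝ (fderiv ℝ (rep (V := V) h p)) (chartAt V p p)
        (vW (rep (V := V) F p) a (chartAt V p p)) (vW (rep (V := V) F p) b (chartAt V p p))
      + fderiv ℝ (rep (V := V) h p) (chartAt V p p)
        (fderiv ℝ (vW (rep (V := V) F p) b) (chartAt V p p)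
          (vW (rep (V := V) F p) a (chartAt V p p))) := by
  have hI := immV_rep hF p
  have hpT : chartAt V p p ∈ (chartAt V p).target :=
    (chartAt V p).map_source (mem_chart_source _ p)
  have hG := (lG_det_pos (hI.inj _ hpT)).ne'
  have hfs : ContDiffAt ℝ 2 (rep (V := V) F p) (chartAt V p p) :=
    (hI.smooth.contDiffAt (hI.isOpen.mem_nhds hpT)).of_le (by norm_cast)
  have hhs : ContDiffAt ℝ 2 (rep (V := V) h p) (chartAt V p p) :=
    ((rep_contDiffOn hh p).contDiffAt ((chartAt V p).open_target.mem_nhds hpT)).of_le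
      (by norm_cast)
  have hev : rep (V := V) (dl V F b h) p =ᶠ[𝓝 (chartAt V p p)] fun v =>
      fderiv ℝ (rep (V := V) h p) v (vW (rep (V := V) F p) b v) := by
    filter_upwards [(chartAt V p).open_target.mem_nhds hpT] with v hv
    have hx : (chartAt V p).symm v ∈ (chartAt V p).source := (chartAt V p).map_target hv
    have e : rep (V := V) (dl V F b h) p v = dl V F b h ((chartAt V p).symm v) := rfl
    rw [e, dl_eq hF b hx (by
      rw [(chartAt V p).right_inv hv]; exact rep_differentiableAt hh p hv),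
      (chartAt V p).right_inv hv]
  have e0 : dl V F a (dl V F b h) p = fderiv ℝ (rep (V := V) (dl V F b h) p) (chartAt V p p)
      (vW (rep (V := V) F p) a (chartAt V p p)) := rfl
  rw [e0, hev.fderiv_eq]
  have d1 : DifferentiableAt ℝ (fderiv ℝ (rep (V := V) h p)) (chartAt V p p) :=
    (hhs.fderiv_right (m := 1) (by norm_num)).differentiableAt (by norm_num)
  have d2 : DifferentiableAt ℝ (vW (rep (V := V) F p) b) (chartAt V p p) :=
    (contDiffAt_vW (n := 1) hfs hG b).differentiableAt (by norm_num)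
  rw [(d1.hasFDerivAt.clm_apply d2.hasFDerivAt).fderiv]
  simp only [_root_.add_apply, ContinuousLinearMap.comp_apply, ContinuousLinearMap.flip_apply]
  rw [add_comm]

lemma dl_comm_aux [IsManifold 𝓘(ℝ, V) ∞ M] {F : M → W} (hF : SphImm V F) (a b : W) {h : M → X}
    (hh : ContMDiff 𝓘(ℝ, V) 𝓘(ℝ, X) ∞ h) (p : M) :
    dl V F a (dl V F b h) p - dl V F b (dl V F a h) p =
      fderiv ℝ (rep (V := V) h p) (chartAt V p p)
        (fderiv ℝ (vW (rep (V := V) F p) b) (chartAt V p p)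
          (vW (rep (V := V) F p) a (chartAt V p p))
          - fderiv ℝ (vW (rep (V := V) F p) a) (chartAt V p p)
          (vW (rep (V := V) F p) b (chartAt V p p))) := by
  have hpT : chartAt V p p ∈ (chartAt V p).target :=
    (chartAt V p).map_source (mem_chart_source _ p)
  have hhs : ContDiffAt ℝ 2 (rep (V := V) h p) (chartAt V p p) :=
    ((rep_contDiffOn hh p).contDiffAt ((chartAt V p).open_target.mem_nhds hpT)).of_le
      (by norm_cast)
  have hsymm := hhs.isSymmSndFDerivAt (by simp)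
  rw [dl_dl hF a b hh, dl_dl hF b a hh, map_sub,
    hsymm (vW (rep (V := V) F p) a (chartAt V p p)) (vW (rep (V := V) F p) b (chartAt V p p))]
  abel

/-- the commutator -/
lemma dl_comm [IsManifold 𝓘(ℝ, V) ∞ M] {F : M → W} (hF : SphImm V F) (a b : W) {h : M → X}
    (hh : ContMDiff 𝓘(ℝ, V) 𝓘(ℝ, X) ∞ h) (p : M) :
    dl V F a (dl V F b h) p - dl V F b (dl V F a h) p =
      dl V F (dl V F a (dl V F b F) p - dl V F b (dl V F a F) p) h p := by
  have hI := immV_rep hF p
  have hpT : chartAt V p p ∈ (chartAt V p).target :=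
    (chartAt V p).map_source (mem_chart_source _ p)
  rw [dl_comm_aux hF a b hh, dl_comm_aux hF a b hF.smooth]
  unfold dl
  rw [vW_fderiv (hI.inj _ hpT)]

/-- the commutator in terms of the normal -/
lemma dl_comm' [IsManifold 𝓘(ℝ, V) ∞ M] (hW : finrank ℝ W = finrank ℝ V + 2) {F : M → W}
    (hF : SphImm V F) {N : M → W} (hNs : ContMDiff 𝓘(ℝ, V) 𝓘(ℝ, W) ∞ N)
    (hN : ∀ x, IsUnitNormal V F x (N x)) (a b : W) {h : M → ℝ}
    (hh : ContMDiff 𝓘(ℝ, V) 𝓘(ℝ, ℝ) ∞ h) (p : M) :
    dl V F a (dl V F b h) p - dl V F b (dl V F a h) p =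
      ⟪a, F p⟫ * dl V F b h p - ⟪b, F p⟫ * dl V F a h p
      + ⟪a, N p⟫ * dl V F (dl V F b N p) h p - ⟪b, N p⟫ * dl V F (dl V F a N p) h p := by
  have e1 : ∀ a b : W, dl V F a (dl V F b F) p
      = - (⟪b, dl V F a F p⟫ • F p + ⟪b, F p⟫ • dl V F a F p
        + ⟪b, dl V F a N p⟫ • N p + ⟪b, N p⟫ • dl V F a N p) := by
    intro a b
    have hfun : dl V F b F = fun q => b - ⟪b, F q⟫ • F q - ⟪b, N q⟫ • N q := by
      funext q
      exact dl_F hW hF hN b q
    have dF := rep_diff_self (V := V) hF.smooth p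
    have dN := rep_diff_self (V := V) hNs p
    rw [hfun]
    have e : rep (V := V) (fun q => b - ⟪b, F q⟫ • F q - ⟪b, N q⟫ • N q) p
        = fun v => b - ⟪b, rep (V := V) F p v⟫ • rep (V := V) F p v
          - ⟪b, rep (V := V) N p v⟫ • rep (V := V) N p v := rfl
    have dbF : HasFDerivAt (fun v => ⟪b, rep (V := V) F p v⟫)
        ((innerSL ℝ b).comp (fderiv ℝ (rep (V := V) F p) (chartAt V p p))) (chartAt V p p) :=
      (innerSL ℝ b).hasFDerivAt.comp _ dF.hasFDerivAt
    have dbN : HasFDerivAt (fun v => ⟪b, rep (V := V) N p v⟫)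
        ((innerSL ℝ b).comp (fderiv ℝ (rep (V := V) N p) (chartAt V p p))) (chartAt V p p) :=
      (innerSL ℝ b).hasFDerivAt.comp _ dN.hasFDerivAt
    have hd := ((hasFDerivAt_const b (chartAt V p p)).sub (dbF.smul dF.hasFDerivAt)).sub
      (dbN.smul dN.hasFDerivAt)
    unfold dl
    rw [e]
    change (fderiv ℝ ((fun _ => b) - (fun v => ⟪b, rep (V := V) F p v⟫) • (rep (V := V) F p)
      - (fun v => ⟪b, rep (V := V) N p v⟫) • (rep (V := V) N p)) (chartAt V p p)) _ = _
    rw [hd.fderiv]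
    have hFp : rep (V := V) F p (chartAt V p p) = F p := rep_self F p
    have hNp : rep (V := V) N p (chartAt V p p) = N p := rep_self N p
    simp only [_root_.add_apply, _root_.sub_apply, _root_.zero_apply, _root_.smul_apply,
      ContinuousLinearMap.smulRight_apply, ContinuousLinearMap.comp_apply, innerSL_apply_apply,
      hFp, hNp]
    abel
  rw [dl_comm hF a b hh, e1, e1]
  have hs1 : ⟪b, dl V F a F p⟫ = ⟪a, dl V F b F p⟫ := by
    rw [real_inner_comm, dl_F_symm]
  have hs2 : ⟪b, dl V F a N p⟫ = ⟪a, dl V F b N p⟫ := by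
    rw [real_inner_comm, dl_N_symm hW hF hNs hN, real_inner_comm]
  have e2 : -(⟪b, dl V F a F p⟫ • F p + ⟪b, F p⟫ • dl V F a F p + ⟪b, dl V F a N p⟫ • N p
      + ⟪b, N p⟫ • dl V F a N p) - -(⟪a, dl V F b F p⟫ • F p + ⟪a, F p⟫ • dl V F b F p
      + ⟪a, dl V F b N p⟫ • N p + ⟪a, N p⟫ • dl V F b N p)
      = ⟪a, F p⟫ • dl V F b F p - ⟪b, F p⟫ • dl V F a F p
      + ⟪a, N p⟫ • dl V F b N p - ⟪b, N p⟫ • dl V F a N p := by
    rw [hs1, hs2]; abel
  rw [e2]
  have vadd : ∀ (x y : W), dl V F (x + y) h p = dl V F x h p + dl V F y h p := by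
    intro x y
    rw [dl_expand (x + y), dl_expand x, dl_expand y, ← Finset.sum_add_distrib]
    refine Finset.sum_congr rfl fun i _ => ?_
    rw [inner_add_right, add_smul]
  have vsmul : ∀ (c : ℝ) (x : W), dl V F (c • x) h p = c * dl V F x h p := by
    intro c x
    rw [dl_expand (c • x), dl_expand x, Finset.mul_sum]
    refine Finset.sum_congr rfl fun i _ => ?_
    rw [inner_smul_right, smul_eq_mul, smul_eq_mul, mul_assoc]
  have vsub : ∀ (x y : W), dl V F (x - y) h p = dl V F x h p - dl V F y h p := by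
    intro x y
    have : x - y = x + (-1 : ℝ) • y := by rw [neg_one_smul]; abel
    rw [this, vadd, vsmul]; ring
  rw [vsub, vadd, vsub, vsmul, vsmul, vsmul, vsmul, dl_proj hF, dl_proj hF]

end

end Vale.Agent.P224.FV

end
end

section
-- Gap/Alg
section

/-!
Abstract tensor calculus of a minimal hypersurface of the unit sphere.  `D a` is the derivation in
the direction of the tangential part of the basis vector `a`, `F` and `N` are the components of the
position and of the unit normal.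
-/

namespace Vale.Agent.P224.Gap

open Finset

variable {ι 𝒜 : Type*} [Fintype ι] [DecidableEq ι] [CommRing 𝒜] [Algebra ℝ 𝒜]

/-- the differential relations -/
structure Sys (D : ι → Derivation ℝ 𝒜 𝒜) (F N : ι → 𝒜) : Prop where
  FF : ∑ a, F a * F a = 1
  NN : ∑ a, N a * N a = 1
  FN : ∑ a, F a * N a = 0
  DF : ∀ a b, D a (F b) = (if a = b then 1 else 0) - F a * F b - N a * N b
  FD : ∀ h, ∑ a, F a * D a h = 0
  ND : ∀ h, ∑ a, N a * D a h = 0
  symm : ∀ a b, D a (N b) = D b (N a)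
  comm : ∀ a b h, D a (D b h) - D b (D a h) = F a * D b h - F b * D a h
    + N a * ∑ c, D b (N c) * D c h - N b * ∑ c, D a (N c) * D c h
  tr : ∑ a, D a (N a) = 0

variable {D : ι → Derivation ℝ 𝒜 𝒜} {F N : ι → 𝒜}

/-- second fundamental form -/
def sA (D : ι → Derivation ℝ 𝒜 𝒜) (N : ι → 𝒜) (a b : ι) : 𝒜 := - D a (N b)

/-- its square -/
def sq (D : ι → Derivation ℝ 𝒜 𝒜) (N : ι → 𝒜) (a b : ι) : 𝒜 :=
  ∑ c, sA D N a c * sA D N c b

/-- its squared norm -/
def sS (D : ι → Derivation ℝ 𝒜 𝒜) (N : ι → 𝒜) : 𝒜 := ∑ a, ∑ b, sA D N a b * sA D N a b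

namespace Sys

variable (h : Sys D F N)
include h

lemma DN (a b : ι) : D a (N b) = - sA D N a b := by simp only [sA, neg_neg]

lemma A_symm (a b : ι) : sA D N a b = sA D N b a := by
  unfold sA; rw [h.symm]

lemma FA (b : ι) : ∑ a, F a * sA D N a b = 0 := by
  have := h.FD (N b)
  simp only [sA, mul_neg, sum_neg_distrib, this, neg_zero]

lemma NA (b : ι) : ∑ a, N a * sA D N a b = 0 := by
  have := h.ND (N b)
  simp only [sA, mul_neg, sum_neg_distrib, this, neg_zero]

lemma FA' (b : ι) : ∑ a, F a * sA D N b a = 0 := by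
  simp only [fun a => h.A_symm b a, h.FA]

lemma trA : ∑ a, sA D N a a = 0 := by
  simp only [sA, sum_neg_distrib, h.tr, neg_zero]

lemma q_symm (a b : ι) : sq D N a b = sq D N b a := by
  unfold sq
  refine sum_congr rfl fun c _ => ?_
  rw [h.A_symm a c, h.A_symm c b, mul_comm]

lemma q_eq (a b : ι) : sq D N a b = ∑ c, sA D N a c * sA D N b c := by
  unfold sq
  refine sum_congr rfl fun c _ => ?_
  rw [h.A_symm c b]

lemma Nq (b : ι) : ∑ a, N a * sq D N a b = 0 := by
  unfold sq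
  simp only [mul_sum, ← mul_assoc]
  rw [sum_comm]
  simp only [← sum_mul, h.NA, zero_mul, sum_const_zero]

lemma Nq' (b : ι) : ∑ a, N a * sq D N b a = 0 := by
  simp only [fun a => h.q_symm b a, h.Nq]

lemma trq : ∑ a, sq D N a a = sS D N := by
  unfold sS
  exact sum_congr rfl fun a _ => h.q_eq a a

/-- Codazzi -/
lemma codazzi (a b c : ι) : D a (sA D N b c) = D b (sA D N a c) + F a * sA D N b c
    - F b * sA D N a c + N b * sq D N a c - N a * sq D N b c := by
  have h1 := h.comm a b (N c)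
  simp only [h.DN, map_neg] at h1
  have e1 : ∀ a, ∑ d, -sA D N a d * -sA D N d c = sq D N a c := by
    intro a
    unfold sq
    refine sum_congr rfl fun d _ => ?_
    ring
  rw [e1, e1] at h1
  linear_combination -h1

lemma div (b : ι) : ∑ a, D a (sA D N a b) = N b * sS D N := by
  have h1 : ∀ a, D a (sA D N a b) = D b (sA D N a a) + F a * sA D N b a
      - F b * sA D N a a + N b * sq D N a a - N a * sq D N b a := by
    intro a
    rw [h.A_symm a b]
    exact h.codazzi a b a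
  simp only [h1, sum_add_distrib, sum_sub_distrib, ← mul_sum, h.FA', h.trA, h.trq, h.Nq',
    ← map_sum]
  simp only [map_zero, add_zero, mul_zero, sub_self, zero_add, sub_zero]

lemma lap_N (b : ι) : ∑ a, D a (D a (N b)) = - (N b * sS D N) := by
  simp only [h.DN, map_neg, sum_neg_distrib, h.div]

/-- the corrected derivative of the second fundamental form (its intrinsic covariant derivative) -/
def _root_.Vale.Agent.P224.Gap.sC (D : ι → Derivation ℝ 𝒜 𝒜) (F N : ι → 𝒜) (a b c : ι) : 𝒜 :=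
  D a (sA D N b c) + F b * sA D N a c - N b * sq D N a c + F c * sA D N a b - N c * sq D N a b

lemma sum_DF : ∑ a, D a (F a) = (Fintype.card ι : 𝒜) - 2 := by
  simp only [h.DF, sum_sub_distrib, if_true, h.FF, h.NN]
  simp only [sum_const, card_univ, nsmul_eq_mul, mul_one]
  ring

end Sys

end Vale.Agent.P224.Gap

end
end

section
-- Gap/SysM
section

/-!
The abstract tensor calculus applied to a minimal hypersurface: smoothness and the Laplacian of the
squared norm of the second fundamental form.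
-/

namespace Vale.Agent.P224.Gap

open Matrix MeasureTheory Module Function Set Vale.Agent.P224 Vale.Agent.P224.FV
open scoped RealInnerProductSpace Topology ContDiff Manifold

set_option linter.unusedSectionVars false

section

variable {V W M : Type*} [NormedAddCommGroup V] [InnerProductSpace ℝ V] [FiniteDimensional ℝ V]
  [NormedAddCommGroup W] [InnerProductSpace ℝ W] [FiniteDimensional ℝ W]
  [TopologicalSpace M] [ChartedSpace V M]

variable (V M) in
/-- the algebra of smooth functions -/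
def smoothAlg : Subalgebra ℝ (M → ℝ) where
  carrier := {h | ContMDiff 𝓘(ℝ, V) 𝓘(ℝ, ℝ) ∞ h}
  mul_mem' := fun ha hb => ha.mul hb
  add_mem' := fun ha hb => ha.add hb
  algebraMap_mem' := fun _ => contMDiff_const

variable (V M) in
/-- the algebra of smooth functions, as a type -/
def SmAlg : Type _ := smoothAlg V M

noncomputable instance : CommRing (SmAlg V M) := inferInstanceAs (CommRing (smoothAlg V M))

noncomputable instance : Algebra ℝ (SmAlg V M) := inferInstanceAs (Algebra ℝ (smoothAlg V M))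

@[ext]
lemma SmAlg.ext {f g : SmAlg V M} (h : ∀ p, f.1 p = g.1 p) : f = g := Subtype.ext (funext h)

lemma dl_add [IsManifold 𝓘(ℝ, V) ∞ M] {F : M → W} (a : W) {h k : M → ℝ}
    (hh : ContMDiff 𝓘(ℝ, V) 𝓘(ℝ, ℝ) ∞ h) (hk : ContMDiff 𝓘(ℝ, V) 𝓘(ℝ, ℝ) ∞ k) (p : M) :
    dl V F a (fun q => h q + k q) p = dl V F a h p + dl V F a k p := by
  unfold dl
  have e : rep (V := V) (fun q => h q + k q) p = fun u => rep (V := V) h p u + rep (V := V) k p u :=
    rfl
  rw [e, fderiv_fun_add (rep_diff_self hh p) (rep_diff_self hk p)]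
  rfl

lemma dl_smul [IsManifold 𝓘(ℝ, V) ∞ M] {F : M → W} (a : W) {h : M → ℝ}
    (hh : ContMDiff 𝓘(ℝ, V) 𝓘(ℝ, ℝ) ∞ h) (c : ℝ) (p : M) :
    dl V F a (fun q => c * h q) p = c * dl V F a h p := by
  unfold dl
  have e : rep (V := V) (fun q => c * h q) p = fun u => c * rep (V := V) h p u :=
    rfl
  rw [e, fderiv_const_mul (rep_diff_self hh p)]
  rfl

/-- the derivations -/
noncomputable def DM [IsManifold 𝓘(ℝ, V) ∞ M] {F : M → W} (hF : SphImm V F) (a : W) :
    Derivation ℝ (SmAlg V M) (SmAlg V M) :=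
  Derivation.mk'
    { toFun := fun h => ⟨dl V F a h.1, contMDiff_dl hF a h.2⟩
      map_add' := fun h k => by
        ext p
        exact dl_add a h.2 k.2 p
      map_smul' := fun c h => by
        ext p
        exact dl_smul a h.2 c p }
    (fun h k => by
      ext p
      have := dl_mul (F := F) a h.2 k.2 p
      simp only [LinearMap.coe_mk, smul_eq_mul]
      change dl V F a (fun q => h.1 q * k.1 q) p
        = h.1 p * dl V F a k.1 p + k.1 p * dl V F a h.1 p
      rw [this]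
      ring)

/-- components of a smooth map -/
noncomputable def cM {G : M → W} (hG : ContMDiff 𝓘(ℝ, V) 𝓘(ℝ, W) ∞ G) (a : W) : SmAlg V M :=
  ⟨fun x => ⟪G x, a⟫, smooth_inner hG a⟩

lemma DM_apply [IsManifold 𝓘(ℝ, V) ∞ M] {F : M → W} (hF : SphImm V F) (a : W)
    (h : SmAlg V M) : (DM hF a h).1 = dl V F a h.1 := rfl

lemma sum_val {ι : Type*} (s : Finset ι) (f : ι → SmAlg V M) (p : M) :
    (∑ i ∈ s, f i).1 p = ∑ i ∈ s, (f i).1 p := by
  rw [← Finset.sum_apply]
  exact congrFun (map_sum (smoothAlg V M).subtype f s) p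

/-- the tensor calculus -/
theorem sysM [IsManifold 𝓘(ℝ, V) ∞ M] (hW : finrank ℝ W = finrank ℝ V + 2) {F : M → W}
    (hF : SphImm V F) (hmin : ∀ x n, IsUnitNormal V F x n → meanCurv V F x n = 0)
    {N : M → W} (hNs : ContMDiff 𝓘(ℝ, V) 𝓘(ℝ, W) ∞ N)
    (hN : ∀ x, IsUnitNormal V F x (N x)) :
    Sys (fun i => DM hF (stdOrthonormalBasis ℝ W i))
      (fun i => cM hF.smooth (stdOrthonormalBasis ℝ W i))
      (fun i => cM hNs (stdOrthonormalBasis ℝ W i)) := by
  set e := stdOrthonormalBasis ℝ W with he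
  have hsum : ∀ x y : W, ∑ i, ⟪x, e i⟫ * ⟪y, e i⟫ = ⟪x, y⟫ := by
    intro x y
    rw [← e.sum_inner_mul_inner x y]
    exact Finset.sum_congr rfl fun i _ => by rw [real_inner_comm y]
  have hFF : ∀ p, ⟪F p, F p⟫ = 1 := fun p => by
    rw [real_inner_self_eq_norm_sq, hF.unit]; norm_num
  have hNN : ∀ p, ⟪N p, N p⟫ = 1 := fun p => by
    rw [real_inner_self_eq_norm_sq, (hN p).1]; norm_num
  have ee : ∀ i j, ⟪e i, e j⟫ = if i = j then (1 : ℝ) else 0 := fun i j =>
    orthonormal_iff_ite.mp e.orthonormal i j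
  refine ⟨?_, ?_, ?_, ?_, ?_, ?_, ?_, ?_, ?_⟩
  · ext p
    rw [sum_val]
    exact (hsum (F p) (F p)).trans (hFF p)
  · ext p
    rw [sum_val]
    exact (hsum (N p) (N p)).trans (hNN p)
  · ext p
    rw [sum_val]
    exact (hsum (F p) (N p)).trans (hN p).2.1
  · intro a b
    ext p
    have h1 : dl V F (e a) (fun q => ⟪F q, e b⟫) p = ⟪dl V F (e a) F p, e b⟫ :=
      dl_inner (e a) hF.smooth (e b) p
    rw [dl_F hW hF hN, inner_sub_left, inner_sub_left, real_inner_smul_left,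
      real_inner_smul_left, ee] at h1
    rw [real_inner_comm (F p) (e a), real_inner_comm (N p) (e a)] at h1
    refine h1.trans ?_
    split_ifs <;> rfl
  · intro h
    ext p
    rw [sum_val]
    have := sum_pos_dl hF h.1 p
    refine Eq.trans ?_ this
    refine Finset.sum_congr rfl fun i _ => ?_
    rw [real_inner_comm]
    rfl
  · intro h
    ext p
    rw [sum_val]
    have := dl_normal hF hN h.1 p
    rw [dl_expand] at this
    refine Eq.trans ?_ this
    refine Finset.sum_congr rfl fun i _ => ?_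
    rw [real_inner_comm]
    rfl
  · intro a b
    ext p
    have h1 : dl V F (e a) (fun q => ⟪N q, e b⟫) p = ⟪dl V F (e a) N p, e b⟫ :=
      dl_inner (e a) hNs (e b) p
    have h2 : dl V F (e b) (fun q => ⟪N q, e a⟫) p = ⟪dl V F (e b) N p, e a⟫ :=
      dl_inner (e b) hNs (e a) p
    refine h1.trans ?_
    rw [dl_N_symm hW hF hNs hN]
    exact h2.symm
  · intro a b h
    ext p
    have key := dl_comm' hW hF hNs hN (e a) (e b) h.2 p
    have h3 : ∀ b, dl V F (dl V F (e b) N p) h.1 p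
        = ∑ c, dl V F (e b) (fun q => ⟪N q, e c⟫) p * dl V F (e c) h.1 p := by
      intro b
      rw [dl_expand]
      refine Finset.sum_congr rfl fun c _ => ?_
      rw [dl_inner (e b) hNs (e c) p, real_inner_comm, smul_eq_mul]
    rw [h3, h3] at key
    rw [real_inner_comm (F p) (e a), real_inner_comm (F p) (e b), real_inner_comm (N p) (e a),
      real_inner_comm (N p) (e b)] at key
    refine Eq.trans ?_ (key.trans ?_)
    · rfl
    · have s1 : ∀ b, (∑ c, DM hF (e b) (cM hNs (e c)) * DM hF (e c) h).1 p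
          = ∑ c, dl V F (e b) (fun q => ⟪N q, e c⟫) p * dl V F (e c) h.1 p := fun b => by
        rw [sum_val]; rfl
      rw [← s1, ← s1]
      rfl
  · ext p
    rw [sum_val]
    have h1 := (trace_A hW hF hNs hN p).1
    rw [hmin p _ (hN p), neg_zero] at h1
    refine Eq.trans ?_ h1
    refine Finset.sum_congr rfl fun i _ => ?_
    exact dl_inner (e i) hNs (e i) p

lemma mul_val (f g : SmAlg V M) (p : M) : (f * g).1 p = f.1 p * g.1 p := rfl

lemma neg_val (f : SmAlg V M) (p : M) : (-f).1 p = -(f.1 p) := rfl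

lemma sS_apply {ι : Type*} [Fintype ι] (D : ι → Derivation ℝ (SmAlg V M) (SmAlg V M))
    (Nc : ι → SmAlg V M) (p : M) :
    (sS D Nc).1 p = ∑ a, ∑ b, ((D a (Nc b)).1 p) ^ 2 := by
  unfold sS sA
  simp only [sum_val, mul_val, neg_val]
  exact Finset.sum_congr rfl fun a _ => Finset.sum_congr rfl fun b _ => by ring

/-- the squared norm as an element of the algebra -/
lemma sS_val [IsManifold 𝓘(ℝ, V) ∞ M] (hW : finrank ℝ W = finrank ℝ V + 2) {F : M → W}
    (hF : SphImm V F) {N : M → W} (hNs : ContMDiff 𝓘(ℝ, V) 𝓘(ℝ, W) ∞ N)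
    (hN : ∀ x, IsUnitNormal V F x (N x)) :
    (sS (fun i => DM hF (stdOrthonormalBasis ℝ W i))
      (fun i => cM hNs (stdOrthonormalBasis ℝ W i))).1 = fun p => normSqA V F p (N p) := by
  funext p
  rw [← (trace_A hW hF hNs hN p).2, sS_apply]
  refine Finset.sum_congr rfl fun a _ => Finset.sum_congr rfl fun b _ => ?_
  have h1 : dl V F (stdOrthonormalBasis ℝ W a) (fun q => ⟪N q, stdOrthonormalBasis ℝ W b⟫) p
      = ⟪dl V F (stdOrthonormalBasis ℝ W a) N p, stdOrthonormalBasis ℝ W b⟫ :=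
    dl_inner _ hNs _ p
  rw [← h1]
  rfl

/-- smoothness of the squared norm of the second fundamental form -/
theorem contMDiff_normSqA [IsManifold 𝓘(ℝ, V) ∞ M] (hW : finrank ℝ W = finrank ℝ V + 2)
    {F : M → W} (hF : SphImm V F) {N : M → W} (hNs : ContMDiff 𝓘(ℝ, V) 𝓘(ℝ, W) ∞ N)
    (hN : ∀ x, IsUnitNormal V F x (N x)) :
    ContMDiff 𝓘(ℝ, V) 𝓘(ℝ, ℝ) ∞ (fun x => normSqA V F x (N x)) := by
  rw [← sS_val hW hF hNs hN]
  exact (sS (fun i => DM hF (stdOrthonormalBasis ℝ W i))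
      (fun i => cM hNs (stdOrthonormalBasis ℝ W i))).2

lemma Lap_val [IsManifold 𝓘(ℝ, V) ∞ M] {F : M → W} (hF : SphImm V F) (h : SmAlg V M) (p : M) :
    (∑ a, DM hF (stdOrthonormalBasis ℝ W a) (DM hF (stdOrthonormalBasis ℝ W a) h)).1 p
      = Lap V F h.1 p := by
  rw [sum_val]
  rfl

/-- evaluation at a point -/
noncomputable def evM (x : M) : SmAlg V M →ₐ[ℝ] ℝ :=
  (Pi.evalAlgHom ℝ (fun _ : M => ℝ) x).comp (smoothAlg V M).val

lemma evM_apply (x : M) (h : SmAlg V M) : evM x h = h.1 x := rfl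

/-- the Laplacian of the components of the normal -/
theorem lap_normal [IsManifold 𝓘(ℝ, V) ∞ M] (hW : finrank ℝ W = finrank ℝ V + 2) {F : M → W}
    (hF : SphImm V F) (hmin : ∀ x n, IsUnitNormal V F x n → meanCurv V F x n = 0)
    {N : M → W} (hNs : ContMDiff 𝓘(ℝ, V) 𝓘(ℝ, W) ∞ N)
    (hN : ∀ x, IsUnitNormal V F x (N x)) (x : M) (b : W) :
    Lap V F (fun x => ⟪N x, b⟫) x = - normSqA V F x (N x) * ⟪N x, b⟫ := by
  have hs := sysM hW hF hmin hNs hN
  have hfun := sS_val hW hF hNs hN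
  have hcM : cM hNs b = ∑ i, ⟪stdOrthonormalBasis ℝ W i, b⟫ • cM hNs (stdOrthonormalBasis ℝ W i) := by
    ext q
    rw [sum_val]
    change ⟪N q, b⟫ = ∑ i, ⟪stdOrthonormalBasis ℝ W i, b⟫ * ⟪N q, stdOrthonormalBasis ℝ W i⟫
    rw [← (stdOrthonormalBasis ℝ W).sum_inner_mul_inner (N q) b]
    exact Finset.sum_congr rfl fun i _ => mul_comm _ _
  have hL := Lap_val hF (cM hNs b) x
  have hb : evM x (cM hNs b) = ⟪N x, b⟫ := rfl
  have hg : Lap V F (fun x => ⟪N x, b⟫) x = Lap V F (cM hNs b).1 x := rfl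
  rw [hg, ← hL, ← hb]
  generalize hDD : (fun i => DM hF (stdOrthonormalBasis ℝ W i)) = DD at hs hfun
  generalize hNc : (fun i => cM hNs (stdOrthonormalBasis ℝ W i)) = Nc at hs hfun
  have hcM' : cM hNs b = ∑ i, ⟪stdOrthonormalBasis ℝ W i, b⟫ • Nc i := by
    rw [hcM, ← hNc]
  rw [hcM']
  have hDa : ∀ a, DM hF (stdOrthonormalBasis ℝ W a) = DD a := fun a => by rw [← hDD]
  simp only [hDa]
  have hval : evM x (sS DD Nc) = normSqA V F x (N x) := by
    rw [evM_apply, hfun]
  have e1 : ∑ a, DD a (DD a (∑ i, ⟪stdOrthonormalBasis ℝ W i, b⟫ • Nc i))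
      = ∑ i, ⟪stdOrthonormalBasis ℝ W i, b⟫ • ∑ a, DD a (DD a (Nc i)) := by
    simp only [map_sum, Derivation.map_smul]
    rw [Finset.sum_comm]
    simp only [← Finset.smul_sum]
  rw [e1, ← evM_apply]
  simp only [hs.lap_N, map_sum, map_smul, map_neg, map_mul, hval, smul_eq_mul]
  rw [Finset.mul_sum]
  exact Finset.sum_congr rfl fun i _ => by ring

end

end Vale.Agent.P224.Gap

end
end

section
-- Gap/Flat4
section

namespace Vale.Agent.P224.Gap

open Matrix MeasureTheory Module Function Set Vale.Agent.P224 Vale.Agent.P224.FV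
open scoped RealInnerProductSpace Topology ContDiff Manifold

set_option linter.unusedSectionVars false

section

variable {V W M : Type*} [NormedAddCommGroup V] [InnerProductSpace ℝ V] [FiniteDimensional ℝ V]
  [NormedAddCommGroup W] [InnerProductSpace ℝ W] [FiniteDimensional ℝ W]
  [TopologicalSpace M] [ChartedSpace V M]

lemma normSqA_nonneg [IsManifold 𝓘(ℝ, V) ∞ M] (hW : finrank ℝ W = finrank ℝ V + 2) {F : M → W}
    (hF : SphImm V F) {N : M → W} (hNs : ContMDiff 𝓘(ℝ, V) 𝓘(ℝ, W) ∞ N)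
    (hN : ∀ x, IsUnitNormal V F x (N x)) (x : M) : 0 ≤ normSqA V F x (N x) := by
  rw [← (trace_A hW hF hNs hN x).2]
  exact Finset.sum_nonneg fun a _ => Finset.sum_nonneg fun b _ => sq_nonneg _

/-- a minimal immersion not contained in a hyperplane has a point with nonzero second
fundamental form -/
theorem exists_normSqA_pos [IsManifold 𝓘(ℝ, V) ∞ M] [ConnectedSpace M]
    (hW : finrank ℝ W = finrank ℝ V + 2) {F : M → W}
    (hF : SphImm V F) {N : M → W} (hNs : ContMDiff 𝓘(ℝ, V) 𝓘(ℝ, W) ∞ N)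
    (hN : ∀ x, IsUnitNormal V F x (N x))
    (hne : ¬ ∃ a : W, a ≠ 0 ∧ ∀ x, ⟪F x, a⟫ = 0) : ∃ x, 0 < normSqA V F x (N x) := by
  by_contra h
  push Not at h
  apply hne
  apply totally_geodesic hW hF
  intro x n hn
  rw [normSqA_eq_nS hW hF hn, ← normSqA_eq_nS hW hF (hN x)]
  exact le_antisymm (h x) (normSqA_nonneg hW hF hNs hN x)

end

end Vale.Agent.P224.Gap

end
end

section
-- PM/MinPt
section

/-! Second derivative test on the manifold, existence of a minimum. -/

namespace Vale.Agent.P224.PM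

open Module Function Set Filter Vale.Agent.P224 Vale.Agent.P224.FV
open scoped RealInnerProductSpace Topology ContDiff Manifold

/-- one-variable second derivative test -/
lemma second_deriv_min {f f' : ℝ → ℝ} {f'' r : ℝ} (h1 : ∀ᶠ t in 𝓝 r, HasDerivAt f (f' t) t)
    (h2 : HasDerivAt f' f'' r) (hm : IsLocalMin f r) : f' r = 0 ∧ 0 ≤ f'' := by
  have hc : ContinuousAt f r := h1.self_of_nhds.continuousAt
  have e0 : f' r = 0 := hm.hasDerivAt_eq_zero h1.self_of_nhds
  refine ⟨e0, ?_⟩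
  have e1 : deriv f =ᶠ[𝓝 r] f' := h1.mono fun t ht => ht.deriv
  have e2 : deriv (deriv f) r = f'' := by rw [e1.deriv_eq, h2.deriv]
  by_contra hneg
  push Not at hneg
  rw [← e2] at hneg
  have hmax := isLocalMax_of_deriv_deriv_neg hneg hm.deriv_eq_zero hc
  have hconst : f =ᶠ[𝓝 r] fun _ => f r := by
    filter_upwards [hm, hmax] with y h1 h2
    exact le_antisymm h2 h1
  have h3 : deriv f =ᶠ[𝓝 r] deriv fun _ => f r := hconst.deriv
  have h4 := h3.deriv_eq
  simp at h4
  linarith only [hneg, h4]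

theorem exists_min {M : Type*} [TopologicalSpace M] [CompactSpace M] {φ : M → ℝ → ℝ}
    (hc : Continuous fun q : M × ℝ => φ q.1 q.2) (h0 : ∀ z r, 0 ≤ φ z r) {B ε : ℝ} (hε : 0 < ε)
    (hs : ∃ z r, 0 < r ∧ φ z r + ε / r < B) (hinf : ∀ᶠ r in atTop, ∀ z, B ≤ φ z r) :
    ∃ z r, 0 < r ∧ ∀ z' r', 0 < r' → φ z r + ε / r ≤ φ z' r' + ε / r' := by
  obtain ⟨z0, r0, hr0, hlt⟩ := hs
  obtain ⟨R, hR⟩ := eventually_atTop.1 hinf
  have hB : 0 < B := by
    have h1 := h0 z0 r0
    have h2 : 0 < ε / r0 := div_pos hε hr0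
    linarith only [hlt, h1, h2]
  set r1 := min r0 (ε / B) with hr1
  have hr1p : 0 < r1 := lt_min hr0 (div_pos hε hB)
  set R' := max R r0 with hR'
  have hK : IsCompact ((univ : Set M) ×ˢ Icc r1 R') := isCompact_univ.prod isCompact_Icc
  have hne : ((univ : Set M) ×ˢ Icc r1 R').Nonempty :=
    ⟨(z0, r0), mem_univ _, min_le_left _ _, le_max_right _ _⟩
  have hcont : ContinuousOn (fun q : M × ℝ => φ q.1 q.2 + ε / q.2)
      ((univ : Set M) ×ˢ Icc r1 R') := by
    refine hc.continuousOn.add (continuousOn_const.div continuous_snd.continuousOn ?_)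
    rintro q ⟨-, hq⟩
    exact (lt_of_lt_of_le hr1p hq.1).ne'
  obtain ⟨⟨z, r⟩, ⟨-, hrm⟩, hmin⟩ := hK.exists_isMinOn hne hcont
  have hrp : 0 < r := lt_of_lt_of_le hr1p hrm.1
  have hle : φ z r + ε / r < B := by
    have h1 : φ z r + ε / r ≤ φ z0 r0 + ε / r0 :=
      hmin (show (z0, r0) ∈ (univ : Set M) ×ˢ Icc r1 R' from
        ⟨mem_univ _, min_le_left _ _, le_max_right _ _⟩)
    linarith only [hlt, h1]
  refine ⟨z, r, hrp, fun z' r' hr' => ?_⟩
  rcases lt_or_ge r' r1 with h1 | h1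
  · have h2 : B ≤ ε / r' := by
      rw [le_div_iff₀ hr']
      have h3 : r' ≤ ε / B := h1.le.trans (min_le_right _ _)
      rw [le_div_iff₀ hB] at h3
      linarith only [h3]
    have h4 := h0 z' r'
    linarith only [hle, h2, h4]
  · rcases le_or_gt r' R' with h2 | h2
    · exact hmin (show (z', r') ∈ (univ : Set M) ×ˢ Icc r1 R' from ⟨mem_univ _, h1, h2⟩)
    · have h3 := hR r' ((le_max_left _ _).trans h2.le) z'
      have h4 : 0 < ε / r' := div_pos hε hr'
      linarith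

theorem dl_min {V W M : Type*} [NormedAddCommGroup V] [InnerProductSpace ℝ V]
    [FiniteDimensional ℝ V] [NormedAddCommGroup W] [InnerProductSpace ℝ W]
    [FiniteDimensional ℝ W] [TopologicalSpace M] [ChartedSpace V M] [IsManifold 𝓘(ℝ, V) ∞ M]
    {F : M → W} (hF : SphImm V F) {g : M → ℝ} (hg : ContMDiff 𝓘(ℝ, V) 𝓘(ℝ, ℝ) ∞ g) {p : M}
    (hp : IsLocalMin g p) (a : W) :
    dl V F a g p = 0 ∧ 0 ≤ dl V F a (dl V F a g) p := by
  have hI := immV_rep hF p
  have hps : p ∈ (chartAt V p).source := mem_chart_source _ p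
  have hpT : chartAt V p p ∈ (chartAt V p).target := (chartAt V p).map_source hps
  have hopen : IsOpen (chartAt V p).target := (chartAt V p).open_target
  set ψ : V → ℝ := rep (V := V) g p with hψ
  set u0 : V := chartAt V p p with hu0
  set Xf : V → V := vW (rep (V := V) F p) a with hXf
  -- local minimum
  have hmin : IsLocalMin ψ u0 := by
    have h1 : IsLocalMin g ((chartAt V p).symm u0) := by
      rw [hu0, (chartAt V p).left_inv hps]
      exact hp
    have h2 : Tendsto (chartAt V p).symm (𝓝 u0) (𝓝 ((chartAt V p).symm u0)) :=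
      (chartAt V p).continuousAt_symm hpT
    exact IsMinFilter.comp_tendsto h1 h2
  have hf0 : fderiv ℝ ψ u0 = 0 := hmin.fderiv_eq_zero
  have hdiff : ∀ u ∈ (chartAt V p).target, DifferentiableAt ℝ ψ u := fun u hu =>
    rep_differentiableAt hg p hu
  refine ⟨?_, ?_⟩
  · show fderiv ℝ ψ u0 (Xf u0) = 0
    rw [hf0]
    rfl
  · have hsm : ContDiffAt ℝ (1 + 1) (rep (V := V) F p) u0 :=
      (hI.smooth.contDiffAt (hI.isOpen.mem_nhds hpT)).of_le
        (by rw [one_add_one_eq_two]; norm_cast)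
    have hX : DifferentiableAt ℝ Xf u0 := by
      have h1 : ContDiffAt ℝ 1 Xf u0 := by
        rw [hXf]
        unfold vW
        exact ContDiffAt.sum fun i _ =>
          (contDiffAt_lW (n := 1) hsm (lG_det_pos (hI.inj _ hpT)).ne' a i).smul contDiffAt_const
      exact h1.differentiableAt (by norm_num)
    have hψ2 : DifferentiableAt ℝ (fderiv ℝ ψ) u0 := by
      have h1 : ContDiffAt ℝ 2 ψ u0 :=
        ((rep_contDiffOn hg p).contDiffAt (hopen.mem_nhds hpT)).of_le (by norm_cast)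
      exact (h1.fderiv_right (m := 1) (by norm_num)).differentiableAt (by norm_num)
    have hrep : rep (V := V) (dl V F a g) p =ᶠ[𝓝 u0] fun u => fderiv ℝ ψ u (Xf u) := by
      filter_upwards [hopen.mem_nhds hpT] with u hu
      have hsrc : (chartAt V p).symm u ∈ (chartAt V p).source := (chartAt V p).map_target hu
      have hri : chartAt V p ((chartAt V p).symm u) = u := (chartAt V p).right_inv hu
      show dl V F a g ((chartAt V p).symm u) = _
      rw [dl_eq hF a hsrc (by rw [hri]; exact hdiff u hu), hri]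
    have hval : dl V F a (dl V F a g) p = fderiv ℝ (fderiv ℝ ψ) u0 (Xf u0) (Xf u0) := by
      show fderiv ℝ (rep (V := V) (dl V F a g) p) u0 (Xf u0) = _
      rw [hrep.fderiv_eq, (hψ2.hasFDerivAt.clm_apply hX.hasFDerivAt).fderiv]
      simp [hf0]
    rw [hval]
    -- the line
    have hline : ∀ t : ℝ, HasDerivAt (fun t : ℝ => u0 + t • Xf u0) (Xf u0) t := by
      intro t
      have h1 := ((hasDerivAt_id t).smul_const (Xf u0)).const_add u0
      simpa using h1
    have hl0 : u0 + (0 : ℝ) • Xf u0 = u0 := by rw [zero_smul, add_zero]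
    have htend : Tendsto (fun t : ℝ => u0 + t • Xf u0) (𝓝 0) (𝓝 u0) := by
      have := (hline 0).continuousAt.tendsto
      rwa [hl0] at this
    refine (second_deriv_min (f := fun t : ℝ => ψ (u0 + t • Xf u0))
      (f' := fun t : ℝ => fderiv ℝ ψ (u0 + t • Xf u0) (Xf u0)) (r := 0) ?_ ?_ ?_).2
    · have h1 : ∀ᶠ t : ℝ in 𝓝 0, u0 + t • Xf u0 ∈ (chartAt V p).target :=
        htend (hopen.mem_nhds hpT)
      filter_upwards [h1] with t ht
      exact (hdiff _ ht).hasFDerivAt.comp_hasDerivAt t (hline t)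
    · have h1 : HasFDerivAt (fderiv ℝ ψ) (fderiv ℝ (fderiv ℝ ψ) u0) (u0 + (0 : ℝ) • Xf u0) := by
        rw [hl0]
        exact hψ2.hasFDerivAt
      have h2 := h1.comp_hasDerivAt (0 : ℝ) (hline 0)
      have h3 := h2.clm_apply (hasDerivAt_const (0 : ℝ) (Xf u0))
      simpa using h3
    · have h1 : IsMinFilter ψ (𝓝 u0) (u0 + (0 : ℝ) • Xf u0) := by
        rw [hl0]
        exact hmin
      exact IsMinFilter.comp_tendsto (g := fun t : ℝ => u0 + t • Xf u0) h1 htend

end Vale.Agent.P224.PM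

end
end

section
-- PM/Idents
section

namespace Vale.Agent.P224.PM

open Matrix MeasureTheory Module Function Set Vale.Agent.P224 Vale.Agent.P224.FV
open scoped RealInnerProductSpace Topology ContDiff Manifold

set_option linter.unusedSectionVars false

section Lin

variable {X : Type*} [TopologicalSpace X] [CompactSpace X] [MeasurableSpace X] [BorelSpace X]
  {μ : Measure X} [IsFiniteMeasure μ]
  {W : Type*} [NormedAddCommGroup W] [InnerProductSpace ℝ W] [FiniteDimensional ℝ W] {F : X → W}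

lemma U_sub (hF : Continuous F) {v w : X → ℝ} (hv : Continuous v) (hw : Continuous w) (j : ℕ)
    (Y : W) : U μ F j (fun x => v x - w x) Y = U μ F j v Y - U μ F j w Y := by
  unfold U
  rw [← integral_sub (ufun_int hF hv j Y) (ufun_int hF hw j Y)]
  exact integral_congr_ae (Filter.Eventually.of_forall fun x => by ring)

lemma U_mul (c : ℝ) (w : X → ℝ) (j : ℕ)
    (Y : W) : U μ F j (fun x => c * w x) Y = c * U μ F j w Y := by
  unfold U
  rw [← integral_const_mul]
  exact integral_congr_ae (Filter.Eventually.of_forall fun x => by ring)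

lemma U_sum {ι : Type*} (s : Finset ι) (hF : Continuous F) {w : ι → X → ℝ}
    (hw : ∀ i, Continuous (w i)) (j : ℕ)
    (Y : W) : U μ F j (fun x => ∑ i ∈ s, w i x) Y = ∑ i ∈ s, U μ F j (w i) Y := by
  unfold U
  rw [← integral_finsetSum s (fun i _ => ufun_int hF (hw i) j Y)]
  exact integral_congr_ae (Filter.Eventually.of_forall fun x => by simp only [Finset.sum_mul])

lemma U_congr {v w : X → ℝ} (h : ∀ x, v x = w x) (j : ℕ) (Y : W) :
    U μ F j v Y = U μ F j w Y := by
  rw [show v = w from funext h]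

/-- the recursion of the kernels -/
lemma U_rec (hF : Continuous F) {w : X → ℝ} (hw : Continuous w) (j : ℕ) (y : W) (r : ℝ) :
    U μ F (j + 2) w (r • y) = r * U μ F (j + 1) (fun x => w x * ⟪F x, y⟫) (r • y)
      + ((j : ℝ) + 1) * U μ F j w (r • y) := by
  rw [← U_mul, ← U_mul]
  unfold U
  rw [← integral_add]
  · refine integral_congr_ae (Filter.Eventually.of_forall fun x => ?_)
    simp only
    rw [K_rec, real_inner_smul_right]
    ring
  · exact ufun_int hF (continuous_const.mul (hw.mul (hF.inner continuous_const))) _ _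
  · exact ufun_int hF (continuous_const.mul hw) _ _

end Lin

section

variable {V W M : Type*} [NormedAddCommGroup V] [InnerProductSpace ℝ V] [FiniteDimensional ℝ V]
  [NormedAddCommGroup W] [InnerProductSpace ℝ W] [FiniteDimensional ℝ W]
  [TopologicalSpace M] [ChartedSpace V M]
  [MeasurableSpace V] [BorelSpace V] [MeasurableSpace M] [BorelSpace M]

lemma kc (l : ℕ) (r : ℝ) : ContDiff ℝ ∞ (fun t : ℝ => K l (r * t)) :=
  (contDiff_K l).comp (contDiff_const.mul contDiff_id)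

lemma kd (l : ℕ) (r t : ℝ) : HasDerivAt (fun t : ℝ => K l (r * t)) (r * K (l + 1) (r * t)) t := by
  have h1 : HasDerivAt (fun t : ℝ => r * t) r t := by
    simpa only [id_eq, mul_one] using (hasDerivAt_id t).const_mul r
  have h2 := (hasDerivAt_K l (r * t)).comp t h1
  rw [mul_comm] at h2
  exact h2

variable [IsManifold 𝓘(ℝ, V) ∞ M] [CompactSpace M] [T2Space M]

/-- first identity -/
theorem idA (hm : 0 < finrank ℝ V) (hW : finrank ℝ W = finrank ℝ V + 2) {F : M → W}
    (hF : SphImm V F) (hmin : ∀ x n, IsUnitNormal V F x n → meanCurv V F x n = 0)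
    (hV : VolChart V F) [IsFiniteMeasure (volM V F)] {N : M → W} (hNs : ContMDiff 𝓘(ℝ, V) 𝓘(ℝ, W) ∞ N)
    (hN : ∀ x, IsUnitNormal V F x (N x)) {y : W} (hy : ‖y‖ = 1) (r : ℝ) :
    U (volM V F) F (finrank ℝ V + 1) (fun x => ⟪F x, y⟫) (r • y)
      = r * U (volM V F) F (finrank ℝ V) (fun _ => 1) (r • y)
        - r * U (volM V F) F (finrank ℝ V) (fun x => ⟪N x, y⟫ ^ 2) (r • y) := by
  obtain ⟨l, hl⟩ : ∃ l, finrank ℝ V = l + 1 := ⟨finrank ℝ V - 1, by omega⟩
  have h1 := ident1 hW hF hmin hV hN hy (w := fun t => K l (r * t))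
    (fun p => (kc l r).contDiffAt)
  have hcF : Continuous F := hF.smooth.continuous
  have hcN : Continuous N := hNs.continuous
  have hd : ∀ t, deriv (fun t => K l (r * t)) t = r * K (l + 1) (r * t) := fun t =>
    (kd l r t).deriv
  have hl' : ((finrank ℝ V : ℕ) : ℝ) = (l : ℝ) + 1 := by rw [hl]; push_cast; ring
  simp only [hd] at h1
  rw [hl'] at h1
  rw [hl]
  have e1 : ∫ p, r * K (l + 1) (r * ⟪F p, y⟫) * (1 - ⟪F p, y⟫ ^ 2 - ⟪N p, y⟫ ^ 2) ∂(volM V F)
      = r * U (volM V F) F (l + 1) (fun _ => 1) (r • y)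
        - r * U (volM V F) F (l + 1) (fun x => ⟪N x, y⟫ ^ 2) (r • y)
        - r * U (volM V F) F (l + 1) (fun x => ⟪F x, y⟫ ^ 2) (r • y) := by
    rw [← U_mul, ← U_mul, ← U_mul, ← U_sub hcF (by fun_prop) (by fun_prop),
      ← U_sub hcF (by fun_prop) (by fun_prop)]
    unfold U
    refine integral_congr_ae (Filter.Eventually.of_forall fun x => ?_)
    simp only
    rw [real_inner_smul_right]
    ring
  have e2 : ((l : ℝ) + 1) * ∫ p, ⟪F p, y⟫ * K l (r * ⟪F p, y⟫) ∂(volM V F)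
      = ((l : ℝ) + 1) * U (volM V F) F l (fun x => ⟪F x, y⟫) (r • y) := by
    unfold U
    congr 1
    refine integral_congr_ae (Filter.Eventually.of_forall fun x => ?_)
    simp only
    rw [real_inner_smul_right]
  rw [e1, e2] at h1
  have h2 := U_rec (μ := volM V F) hcF (w := fun x => ⟪F x, y⟫) (by fun_prop) l y r
  have h3 : U (volM V F) F (l + 1) (fun x => ⟪F x, y⟫ * ⟪F x, y⟫) (r • y)
      = U (volM V F) F (l + 1) (fun x => ⟪F x, y⟫ ^ 2) (r • y) := U_congr (fun x => by ring) _ _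
  rw [h3] at h2
  rw [show l + 1 + 1 = l + 2 from rfl]
  (clear hm hW hF hmin hV hNs hN hy hl hcF hcN hd hl' e1 e2 h3; linarith)

/-- second identity -/
theorem idB (hm : 0 < finrank ℝ V) (hW : finrank ℝ W = finrank ℝ V + 2) {F : M → W}
    (hF : SphImm V F) (hmin : ∀ x n, IsUnitNormal V F x n → meanCurv V F x n = 0)
    (hV : VolChart V F) [IsFiniteMeasure (volM V F)] {N : M → W} (hNs : ContMDiff 𝓘(ℝ, V) 𝓘(ℝ, W) ∞ N)
    (hN : ∀ x, IsUnitNormal V F x (N x)) {y b : W} (hy : ‖y‖ = 1) (hyb : ⟪y, b⟫ = 0) (r : ℝ) :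
    U (volM V F) F (finrank ℝ V + 1) (fun x => ⟪N x, b⟫ * ⟪F x, y⟫) (r • y)
      = r * U (volM V F) F (finrank ℝ V) (fun x => ⟪N x, b⟫) (r • y)
        + U (volM V F) F (finrank ℝ V + 1) (fun x => ⟪N x, y⟫ * ⟪F x, b⟫) (r • y) := by
  obtain ⟨l, hl⟩ : ∃ l, finrank ℝ V = l + 1 := ⟨finrank ℝ V - 1, by omega⟩
  have h1 := ident2 hW hF hmin hV hNs hN hy hyb (w := fun t => K l (r * t))
    (fun p => (kc l r).contDiffAt)
  have hcF : Continuous F := hF.smooth.continuous
  have hcN : Continuous N := hNs.continuous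
  have hd : ∀ t, deriv (fun t => K l (r * t)) t = r * K (l + 1) (r * t) := fun t =>
    (kd l r t).deriv
  have hl' : ((finrank ℝ V : ℕ) : ℝ) = (l : ℝ) + 1 := by rw [hl]; push_cast; ring
  simp only [hd] at h1
  rw [hl'] at h1
  rw [hl]
  have e1 : ∫ p, r * K (l + 1) (r * ⟪F p, y⟫) * (⟪N p, b⟫ * (1 - ⟪F p, y⟫ ^ 2)
        + ⟪N p, y⟫ * ⟪F p, b⟫ * ⟪F p, y⟫) ∂(volM V F)
      = r * U (volM V F) F (l + 1) (fun x => ⟪N x, b⟫) (r • y)
        - r * U (volM V F) F (l + 1) (fun x => (⟪F x, y⟫ * ⟪N x, b⟫ - ⟪N x, y⟫ * ⟪F x, b⟫)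
          * ⟪F x, y⟫) (r • y) := by
    rw [← U_mul, ← U_mul, ← U_sub hcF (by fun_prop) (by fun_prop)]
    unfold U
    refine integral_congr_ae (Filter.Eventually.of_forall fun x => ?_)
    simp only
    rw [real_inner_smul_right]
    ring
  have e2 : ((l : ℝ) + 1) * ∫ p, (⟪F p, y⟫ * ⟪N p, b⟫ - ⟪N p, y⟫ * ⟪F p, b⟫)
        * K l (r * ⟪F p, y⟫) ∂(volM V F)
      = ((l : ℝ) + 1) * U (volM V F) F l
        (fun x => ⟪F x, y⟫ * ⟪N x, b⟫ - ⟪N x, y⟫ * ⟪F x, b⟫) (r • y) := by
    unfold U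
    congr 1
    refine integral_congr_ae (Filter.Eventually.of_forall fun x => ?_)
    simp only
    rw [real_inner_smul_right]
  rw [e1, e2] at h1
  have h2 := U_rec (μ := volM V F) hcF
    (w := fun x => ⟪F x, y⟫ * ⟪N x, b⟫ - ⟪N x, y⟫ * ⟪F x, b⟫) (by fun_prop) l y r
  have h3 : U (volM V F) F (l + 2) (fun x => ⟪F x, y⟫ * ⟪N x, b⟫ - ⟪N x, y⟫ * ⟪F x, b⟫) (r • y)
      = U (volM V F) F (l + 2) (fun x => ⟪N x, b⟫ * ⟪F x, y⟫) (r • y)
        - U (volM V F) F (l + 2) (fun x => ⟪N x, y⟫ * ⟪F x, b⟫) (r • y) := by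
    rw [← U_sub hcF (by fun_prop) (by fun_prop)]
    exact U_congr (fun x => by ring) _ _
  rw [show l + 1 + 1 = l + 2 from rfl]
  (clear hm hW hmin hV hN hy hyb hl hd hl' e1 e2; linarith)

/-- third identity -/
theorem idC (hm : 0 < finrank ℝ V) (hW : finrank ℝ W = finrank ℝ V + 2) {F : M → W}
    (hF : SphImm V F) (hmin : ∀ x n, IsUnitNormal V F x n → meanCurv V F x n = 0)
    (hV : VolChart V F) [IsFiniteMeasure (volM V F)] {N : M → W} (hNs : ContMDiff 𝓘(ℝ, V) 𝓘(ℝ, W) ∞ N)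
    (hN : ∀ x, IsUnitNormal V F x (N x)) {y a : W} (hya : ⟪a, y⟫ = 0) (r : ℝ) :
    U (volM V F) F (finrank ℝ V + 1) (fun x => ⟪F x, a⟫) (r • y)
      = - r * U (volM V F) F (finrank ℝ V) (fun x => ⟪N x, y⟫ * ⟪N x, a⟫) (r • y) := by
  obtain ⟨l, hl⟩ : ∃ l, finrank ℝ V = l + 1 := ⟨finrank ℝ V - 1, by omega⟩
  have hsm := smooth_comp (smooth_inner hF.smooth y) (w := fun t => K l (r * t))
    (fun p => (kc l r).contDiffAt)
  have h1 := first_variation hW hF hmin hV a hsm
  have hcF : Continuous F := hF.smooth.continuous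
  have hcN : Continuous N := hNs.continuous
  have hl' : ((finrank ℝ V : ℕ) : ℝ) = (l : ℝ) + 1 := by rw [hl]; push_cast; ring
  have e0 : ∀ p, dl V F a (fun q => K l (r * ⟪F q, y⟫)) p
      = r * K (l + 1) (r * ⟪F p, y⟫) * (- (⟪F p, a⟫ * ⟪F p, y⟫) - ⟪N p, a⟫ * ⟪N p, y⟫) := by
    intro p
    rw [dl_comp (w := fun t => K l (r * t)) a (smooth_inner hF.smooth y) p (kd l r _),
      dl_inner a hF.smooth, dl_F hW hF hN]
    simp only [inner_sub_left, real_inner_smul_left]
    rw [real_inner_comm (F p) a, real_inner_comm (N p) a, hya]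
    ring
  simp only [e0] at h1
  rw [hl'] at h1
  rw [hl]
  have e1 : ∫ p, r * K (l + 1) (r * ⟪F p, y⟫) * (- (⟪F p, a⟫ * ⟪F p, y⟫) - ⟪N p, a⟫ * ⟪N p, y⟫)
        ∂(volM V F)
      = - r * U (volM V F) F (l + 1) (fun x => ⟪F x, a⟫ * ⟪F x, y⟫) (r • y)
        - r * U (volM V F) F (l + 1) (fun x => ⟪N x, y⟫ * ⟪N x, a⟫) (r • y) := by
    rw [← U_mul, ← U_mul, ← U_sub hcF (by fun_prop) (by fun_prop)]
    unfold U
    refine integral_congr_ae (Filter.Eventually.of_forall fun x => ?_)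
    simp only
    rw [real_inner_smul_right]
    ring
  have e2 : ((l : ℝ) + 1) * ∫ p, ⟪a, F p⟫ * K l (r * ⟪F p, y⟫) ∂(volM V F)
      = ((l : ℝ) + 1) * U (volM V F) F l (fun x => ⟪F x, a⟫) (r • y) := by
    unfold U
    congr 1
    refine integral_congr_ae (Filter.Eventually.of_forall fun x => ?_)
    simp only
    rw [real_inner_smul_right, real_inner_comm (F x) a]
  rw [e1, e2] at h1
  have h2 := U_rec (μ := volM V F) hcF (w := fun x => ⟪F x, a⟫) (by fun_prop) l y r
  rw [show l + 1 + 1 = l + 2 from rfl]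
  (clear hm hW hmin hV hNs hN hya hl hsm hcN hl' e0 e1 e2; linarith)

/-- fourth identity -/
theorem idD (hW : finrank ℝ W = finrank ℝ V + 2) {F : M → W}
    (hF : SphImm V F) (hmin : ∀ x n, IsUnitNormal V F x n → meanCurv V F x n = 0)
    (hV : VolChart V F) [IsFiniteMeasure (volM V F)] {N : M → W} (hNs : ContMDiff 𝓘(ℝ, V) 𝓘(ℝ, W) ∞ N)
    (hN : ∀ x, IsUnitNormal V F x (N x)) {y a : W} (hya : ⟪a, y⟫ = 0) (r : ℝ) :
    U (volM V F) F (finrank ℝ V + 2) (fun x => ⟪F x, a⟫ ^ 2) (r • y)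
      + r * U (volM V F) F (finrank ℝ V + 1) (fun x => ⟪N x, y⟫ * ⟪F x, a⟫ * ⟪N x, a⟫) (r • y)
      + U (volM V F) F (finrank ℝ V) (fun x => ⟪N x, a⟫ ^ 2) (r • y)
      = ‖a‖ ^ 2 * U (volM V F) F (finrank ℝ V) (fun _ => 1) (r • y) := by
  set m := finrank ℝ V with hmdef
  have hs1 := smooth_comp (smooth_inner hF.smooth y) (w := fun t => K m (r * t))
    (fun p => (kc m r).contDiffAt)
  have hs2 := smooth_inner hF.smooth a
  have hsm : ContMDiff 𝓘(ℝ, V) 𝓘(ℝ, ℝ) ∞ (fun q => ⟪F q, a⟫ * K m (r * ⟪F q, y⟫)) := hs2.mul hs1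
  have h1 := first_variation hW hF hmin hV a hsm
  have hcF : Continuous F := hF.smooth.continuous
  have hcN : Continuous N := hNs.continuous
  have e0 : ∀ p, dl V F a (fun q => ⟪F q, a⟫ * K m (r * ⟪F q, y⟫)) p
      = (‖a‖ ^ 2 - ⟪F p, a⟫ ^ 2 - ⟪N p, a⟫ ^ 2) * K m (r * ⟪F p, y⟫)
        + ⟪F p, a⟫ * (r * K (m + 1) (r * ⟪F p, y⟫) * (- (⟪F p, a⟫ * ⟪F p, y⟫)
          - ⟪N p, a⟫ * ⟪N p, y⟫)) := by
    intro p
    rw [dl_mul a hs2 hs1,
      dl_comp (w := fun t => K m (r * t)) a (smooth_inner hF.smooth y) p (kd m r _),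
      dl_inner a hF.smooth, dl_inner a hF.smooth, dl_F hW hF hN]
    simp only [inner_sub_left, real_inner_smul_left, real_inner_self_eq_norm_sq]
    rw [real_inner_comm (F p) a, real_inner_comm (N p) a, hya]
    ring
  simp only [e0] at h1
  have e1 : ∫ p, ((‖a‖ ^ 2 - ⟪F p, a⟫ ^ 2 - ⟪N p, a⟫ ^ 2) * K m (r * ⟪F p, y⟫)
        + ⟪F p, a⟫ * (r * K (m + 1) (r * ⟪F p, y⟫) * (- (⟪F p, a⟫ * ⟪F p, y⟫)
          - ⟪N p, a⟫ * ⟪N p, y⟫))) ∂(volM V F)
      = U (volM V F) F m (fun x => ‖a‖ ^ 2 * 1 - ⟪F x, a⟫ ^ 2 - ⟪N x, a⟫ ^ 2) (r • y)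
        + U (volM V F) F (m + 1) (fun x => - r * (⟪F x, a⟫ ^ 2 * ⟪F x, y⟫)
          - r * (⟪N x, y⟫ * ⟪F x, a⟫ * ⟪N x, a⟫)) (r • y) := by
    unfold U
    rw [← integral_add (ufun_int hcF (by fun_prop) _ _) (ufun_int hcF (by fun_prop) _ _)]
    refine integral_congr_ae (Filter.Eventually.of_forall fun x => ?_)
    simp only
    rw [real_inner_smul_right]
    ring
  have e2 : (m : ℝ) * ∫ p, ⟪a, F p⟫ * (⟪F p, a⟫ * K m (r * ⟪F p, y⟫)) ∂(volM V F)
      = (m : ℝ) * U (volM V F) F m (fun x => ⟪F x, a⟫ ^ 2) (r • y) := by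
    unfold U
    congr 1
    refine integral_congr_ae (Filter.Eventually.of_forall fun x => ?_)
    simp only
    rw [real_inner_smul_right, real_inner_comm (F x) a]
    ring
  rw [e1, e2, U_sub hcF (by fun_prop) (by fun_prop), U_sub hcF (by fun_prop) (by fun_prop),
    U_sub hcF (by fun_prop) (by fun_prop), U_mul, U_mul, U_mul] at h1
  have h2 := U_rec (μ := volM V F) hcF (w := fun x => ⟪F x, a⟫ ^ 2) (by fun_prop) m y r
  (clear hmin hV hNs hN hya hW hmdef hs1 hs2 hsm hcN e0 e1 e2; linarith)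

end

end Vale.Agent.P224.PM

end
end

section
-- PM/StaticPt
section

namespace Vale.Agent.P224.PM

open Matrix MeasureTheory Module Function Set Vale.Agent.P224 Vale.Agent.P224.FV
open scoped RealInnerProductSpace Topology ContDiff Manifold

set_option linter.unusedSectionVars false

section

variable {V W M : Type*} [NormedAddCommGroup V] [InnerProductSpace ℝ V] [FiniteDimensional ℝ V]
  [NormedAddCommGroup W] [InnerProductSpace ℝ W] [FiniteDimensional ℝ W]
  [TopologicalSpace M] [ChartedSpace V M]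
  [MeasurableSpace V] [BorelSpace V] [MeasurableSpace M] [BorelSpace M]
  [IsManifold 𝓘(ℝ, V) ∞ M] [CompactSpace M] [T2Space M]

/-- the static inequality at a point -/
theorem static_pt (hm : 0 < finrank ℝ V) (hW : finrank ℝ W = finrank ℝ V + 2) {F : M → W}
    (hF : SphImm V F) (hmin : ∀ x n, IsUnitNormal V F x n → meanCurv V F x n = 0)
    (hV : VolChart V F) [IsFiniteMeasure (volM V F)] {N : M → W}
    (hNs : ContMDiff 𝓘(ℝ, V) 𝓘(ℝ, W) ∞ N)
    (hN : ∀ x, IsUnitNormal V F x (N x)) (p : M) {r : ℝ} (hr : 0 < r) {u0 w0 P2 R H Hc : ℝ}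
    (hu : 0 < u0) (hw : w0 ≠ 0)
    (eu0 : U (volM V F) F (finrank ℝ V) (fun _ => 1) (r • F p) = u0)
    (ew0 : U (volM V F) F (finrank ℝ V) (fun x => ⟪N x, N p⟫) (r • F p) = w0)
    (eP : U (volM V F) F (finrank ℝ V) (fun x => ⟪N x, F p⟫ ^ 2) (r • F p) = P2)
    (eR : U (volM V F) F (finrank ℝ V + 1) (fun x => ⟪N x, F p⟫ * ⟪F x, N p⟫) (r • F p) = R)
    (eH : U (volM V F) F (finrank ℝ V + 2) (fun x => ⟪F x, N p⟫ ^ 2) (r • F p) = H)
    (eHc : U (volM V F) F (finrank ℝ V + 2) (fun x => ⟪N x, N p⟫ * ⟪F x, N p⟫ ^ 2) (r • F p) = Hc)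
    (hT : r * P2 * u0 ≤ 11 / 25 * (w0 * R)) :
    0 ≤ u0 * H + 11 / 25 * (w0 * Hc)
      - 11 / 25 * ∑ a, ∑ b, U (volM V F) F (finrank ℝ V + 1)
          (fun x => ⟪dl V F (stdOrthonormalBasis ℝ W b) F p, N x⟫
            * ⟪dl V F (stdOrthonormalBasis ℝ W a) F p, F x⟫) (r • F p) ^ 2
      - r ^ 2 * P2 ^ 2 - 11 / 25 * R ^ 2
      - (1 + u0 ^ 2 / (11 / 25 * w0 ^ 2)) * ∑ a, U (volM V F) F (finrank ℝ V + 1)
          (fun x => ⟪dl V F (stdOrthonormalBasis ℝ W a) F p, F x⟫) (r • F p) ^ 2 := by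
  set m := finrank ℝ V with hmdef
  set μ := volM V F with hμ
  have hcF : Continuous F := hF.smooth.continuous
  have hcN : Continuous N := hNs.continuous
  set e := stdOrthonormalBasis ℝ W with he
  -- sign
  obtain ⟨σ, hσ2, hσ⟩ : ∃ σ : ℝ, σ * σ = 1 ∧ 0 < σ * w0 := by
    rcases lt_or_gt_of_ne hw with h | h
    · exact ⟨-1, by norm_num, by linarith only [h]⟩
    · exact ⟨1, by norm_num, by linarith only [h]⟩
  have hFp : ‖F p‖ = 1 := hF.unit p
  have hNp : ‖N p‖ = 1 := (hN p).1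
  have hFN : ⟪F p, N p⟫ = 0 := (hN p).2.1
  have hNF : ⟪N p, F p⟫ = 0 := by rw [real_inner_comm]; exact hFN
  have hff : ⟪F p, F p⟫ = 1 := by rw [real_inner_self_eq_norm_sq, hFp]; norm_num
  have hnn : ⟪N p, N p⟫ = 1 := by rw [real_inner_self_eq_norm_sq, hNp]; norm_num
  -- the projection
  have hP : ∀ a : W, dl V F a F p = a - ⟪a, F p⟫ • F p - ⟪a, N p⟫ • N p := fun a =>
    dl_F hW hF hN a p
  have hPF : ∀ a : W, ⟪dl V F a F p, F p⟫ = 0 := by
    intro a
    rw [hP, inner_sub_left, inner_sub_left, real_inner_smul_left, real_inner_smul_left, hff, hNF]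
    ring
  have hPn : ∀ a : W, ‖dl V F a F p‖ ^ 2 = ‖a‖ ^ 2 - ⟪a, F p⟫ ^ 2 - ⟪a, N p⟫ ^ 2 := by
    intro a
    rw [← real_inner_self_eq_norm_sq, hP]
    simp only [inner_sub_left, inner_sub_right, real_inner_smul_left, real_inner_smul_right, hff,
      hnn, hFN, hNF, real_inner_self_eq_norm_sq a]
    rw [real_inner_comm a (F p), real_inner_comm a (N p)]
    ring
  have hsym : ∀ a b : W, ⟪dl V F a F p, b⟫ = ⟪dl V F b F p, a⟫ := by
    intro a b
    rw [hP, hP]
    simp only [inner_sub_left, real_inner_smul_left]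
    rw [real_inner_comm a b, real_inner_comm a (F p), real_inner_comm a (N p),
      real_inner_comm b (F p), real_inner_comm b (N p)]
    ring
  set n : M → W := fun x => dl V F (N x) F p with hn
  set Y : M → W := fun x => dl V F (F x) F p with hY
  have cn : Continuous n := by
    simp only [hn, hP]; fun_prop
  have cY : Continuous Y := by
    simp only [hY, hP]; fun_prop
  have cK : ∀ j, Continuous fun x => K j ⟪F x, r • F p⟫ / u0 := fun j =>
    ((contDiff_K j).continuous.comp (hcF.inner continuous_const)).div_const _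
  -- integrals against the normalised kernels
  have int_k : ∀ (j : ℕ) (w : M → ℝ), ∫ x, w x * (K j ⟪F x, r • F p⟫ / u0) ∂μ
      = U μ F j w (r • F p) / u0 := by
    intro j w
    unfold U
    rw [← integral_div]
    exact integral_congr_ae (Filter.Eventually.of_forall fun x => by ring)
  have hD : ∀ a, ⟪a, F p⟫ = 0 → _ := fun a ha =>
    idD hW hF hmin hV hNs hN (y := F p) (a := a) ha r
  have hω1 : ∫ x, σ * ⟪N x, N p⟫ * (K m ⟪F x, r • F p⟫ / u0) ∂μ = σ * w0 / u0 := by
    rw [int_k m (fun x => σ * ⟪N x, N p⟫), U_mul, ew0]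
  have key := static (μ := μ) e (k0 := fun x => K m ⟪F x, r • F p⟫ / u0)
    (k1 := fun x => K (m + 1) ⟪F x, r • F p⟫ / u0) (k2 := fun x => K (m + 2) ⟪F x, r • F p⟫ / u0)
    (c := fun x => σ * ⟪N x, N p⟫) (π := fun x => ⟪N x, F p⟫) (h := fun x => σ * ⟪F x, N p⟫)
    (n := n) (Y := Y) (r := r)
    (cK m) (cK (m + 1)) (cK (m + 2)) (by fun_prop) (by fun_prop) (by fun_prop) cn cY
    (fun x => (div_pos (K_pos _ _) hu).le) (fun x => (div_pos (K_pos _ _) hu).le)
    (fun x => ?_) hr ?_ hω1 (div_pos hσ hu) ?_ ?_ ?_ ?_ ?_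
  · -- conclusion
    have i1 : ∫ x, (σ * ⟪F x, N p⟫) ^ 2 * (K (m + 2) ⟪F x, r • F p⟫ / u0) ∂μ = H / u0 := by
      rw [int_k, ← eH]
      congr 1
      exact U_congr (fun x => by rw [mul_pow, pow_two σ, hσ2, one_mul]) _ _
    have i2 : ∫ x, (σ * ⟪N x, N p⟫) * (σ * ⟪F x, N p⟫) ^ 2 * (K (m + 2) ⟪F x, r • F p⟫ / u0) ∂μ
        = σ * Hc / u0 := by
      rw [int_k, ← eHc, ← U_mul]
      congr 1
      exact U_congr (fun x => by rw [mul_pow, pow_two σ, hσ2]; ring) _ _
    have i3 : ∫ x, ⟪N x, F p⟫ ^ 2 * (K m ⟪F x, r • F p⟫ / u0) ∂μ = P2 / u0 := by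
      rw [int_k, ← eP]
    have i4 : ∫ x, ⟪N x, F p⟫ * (σ * ⟪F x, N p⟫) * (K (m + 1) ⟪F x, r • F p⟫ / u0) ∂μ
        = σ * R / u0 := by
      rw [int_k, ← eR, ← U_mul]
      congr 1
      exact U_congr (fun x => by ring) _ _
    have i5 : ∀ i j, ∫ x, ⟪n x, e i⟫ * ⟪Y x, e j⟫ * (K (m + 1) ⟪F x, r • F p⟫ / u0) ∂μ
        = U μ F (m + 1) (fun x => ⟪dl V F (e i) F p, N x⟫ * ⟪dl V F (e j) F p, F x⟫) (r • F p)
          / u0 := by
      intro i j
      rw [int_k (m + 1) (fun x => ⟪n x, e i⟫ * ⟪Y x, e j⟫)]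
      congr 1
      exact U_congr (fun x => by rw [hn, hY, hsym (N x), hsym (F x)]) _ _
    have i6 : ∀ j, ∫ x, ⟪Y x, e j⟫ * (K (m + 1) ⟪F x, r • F p⟫ / u0) ∂μ
        = U μ F (m + 1) (fun x => ⟪dl V F (e j) F p, F x⟫) (r • F p) / u0 := by
      intro j
      rw [int_k (m + 1) (fun x => ⟪Y x, e j⟫)]
      congr 1
      exact U_congr (fun x => by rw [hY, hsym (F x)]) _ _
    rw [i1, i2, i3, i4] at key
    simp only [i5, i6, div_pow] at key
    rw [Finset.sum_comm] at key
    simp only [← Finset.sum_div] at key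
    set X := ∑ a, ∑ b, U μ F (m + 1) (fun x => ⟪dl V F (e b) F p, N x⟫
      * ⟪dl V F (e a) F p, F x⟫) (r • F p) ^ 2 with hX
    set G := ∑ a, U μ F (m + 1) (fun x => ⟪dl V F (e a) F p, F x⟫) (r • F p) ^ 2 with hG
    have k2 := mul_nonneg (sq_nonneg u0) key
    refine k2.trans (le_of_eq ?_)
    have hu0 : u0 ≠ 0 := hu.ne'
    have hσn : σ ^ 2 = 1 := by rw [pow_two]; exact hσ2
    have e1 : σ * w0 / u0 * (σ * Hc / u0) = w0 * Hc / u0 ^ 2 := by
      have : σ * w0 / u0 * (σ * Hc / u0) = σ ^ 2 * (w0 * Hc) / u0 ^ 2 := by ring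
      rw [this, hσn, one_mul]
    have e2 : (σ * R / u0) ^ 2 = R ^ 2 / u0 ^ 2 := by
      have : (σ * R / u0) ^ 2 = σ ^ 2 * R ^ 2 / u0 ^ 2 := by ring
      rw [this, hσn, one_mul]
    have e3 : (σ * w0 / u0) ^ 2 = w0 ^ 2 / u0 ^ 2 := by
      have : (σ * w0 / u0) ^ 2 = σ ^ 2 * w0 ^ 2 / u0 ^ 2 := by ring
      rw [this, hσn, one_mul]
    simp only [mul_pow, hσn, one_mul, mul_assoc (11 / 25 : ℝ), e1]
    (clear * - hw hu0; field_simp)
  · -- Cauchy-Schwarz for the kernels
    rw [div_pow, div_mul_div_comm, ← pow_two]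
    exact div_le_div_of_nonneg_right (K_cs m _) (by positivity)
  · have := int_k m (fun _ => 1)
    simp only [one_mul] at this
    rw [this, eu0, div_self hu.ne']
  · intro x
    simp only [hn]
    rw [hPn, mul_pow, pow_two σ, hσ2, one_mul, (hN x).1, real_inner_comm]
    ring
  · -- hI
    have h1 := hD (N p) hNF
    rw [eH, hNp, eu0] at h1
    have i1 : ∫ x, (σ * ⟪F x, N p⟫) ^ 2 * (K (m + 2) ⟪F x, r • F p⟫ / u0) ∂μ = H / u0 := by
      rw [int_k (m + 2) (fun x => (σ * ⟪F x, N p⟫) ^ 2), ← eH]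
      congr 1
      exact U_congr (fun x => by rw [mul_pow, pow_two σ, hσ2, one_mul]) _ _
    have i2 : ∫ x, ⟪N x, F p⟫ * (σ * ⟪F x, N p⟫) * (σ * ⟪N x, N p⟫)
        * (K (m + 1) ⟪F x, r • F p⟫ / u0) ∂μ
        = U μ F (m + 1) (fun x => ⟪N x, F p⟫ * ⟪F x, N p⟫ * ⟪N x, N p⟫) (r • F p) / u0 := by
      rw [int_k (m + 1) (fun x => ⟪N x, F p⟫ * (σ * ⟪F x, N p⟫) * (σ * ⟪N x, N p⟫))]
      congr 1
      refine U_congr (fun x => ?_) _ _
      linear_combination (⟪N x, F p⟫ * ⟪F x, N p⟫ * ⟪N x, N p⟫) * hσ2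
    have i3 : ∫ x, (σ * ⟪N x, N p⟫) ^ 2 * (K m ⟪F x, r • F p⟫ / u0) ∂μ
        = U μ F m (fun x => ⟪N x, N p⟫ ^ 2) (r • F p) / u0 := by
      rw [int_k m (fun x => (σ * ⟪N x, N p⟫) ^ 2)]
      congr 1
      exact U_congr (fun x => by rw [mul_pow, pow_two σ, hσ2, one_mul]) _ _
    rw [i1, i2, i3]
    have hu0 : u0 ≠ 0 := hu.ne'
    field_simp
    (clear hF hmin hV hNs hN hr w0 P2 R Hc hu hw hT hm hW hmdef eu0 ew0 eP eR eH eHc hμ hcF hcN e he σ hσ2 hσ hFp hNp hFN hNF hff hnn hP hPF hPn hsym n hn Y hY cn cY cK int_k hD hω1 i1 i2 i3 hu0; linarith)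
  · -- hg
    intro a
    have h1 := idC hm hW hF hmin hV hNs hN (y := F p) (a := dl V F a F p) (hPF a) r
    rw [int_k (m + 1) (fun x => ⟪Y x, a⟫), int_k m (fun x => ⟪N x, F p⟫ * ⟪n x, a⟫)]
    have i1 : U μ F (m + 1) (fun x => ⟪Y x, a⟫) (r • F p)
        = U μ F (m + 1) (fun x => ⟪F x, dl V F a F p⟫) (r • F p) :=
      U_congr (fun x => by rw [hY, hsym (F x), real_inner_comm]) _ _
    have i2 : U μ F m (fun x => ⟪N x, F p⟫ * ⟪n x, a⟫) (r • F p)
        = U μ F m (fun x => ⟪N x, F p⟫ * ⟪N x, dl V F a F p⟫) (r • F p) :=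
      U_congr (fun x => by rw [hn, hsym (N x), real_inner_comm (N x) (dl V F a F p)]) _ _
    rw [i1, i2, h1]
    ring
  · -- hh
    intro a
    have h1 := hD (dl V F a F p) (hPF a)
    rw [int_k (m + 2) (fun x => ⟪Y x, a⟫ ^ 2),
      int_k (m + 1) (fun x => ⟪N x, F p⟫ * ⟪Y x, a⟫ * ⟪n x, a⟫), int_k m (fun x => ⟪n x, a⟫ ^ 2)]
    have i1 : U μ F (m + 2) (fun x => ⟪Y x, a⟫ ^ 2) (r • F p)
        = U μ F (m + 2) (fun x => ⟪F x, dl V F a F p⟫ ^ 2) (r • F p) :=
      U_congr (fun x => by rw [hY, hsym (F x), real_inner_comm]) _ _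
    have i2 : U μ F m (fun x => ⟪n x, a⟫ ^ 2) (r • F p)
        = U μ F m (fun x => ⟪N x, dl V F a F p⟫ ^ 2) (r • F p) :=
      U_congr (fun x => by rw [hn, hsym (N x), real_inner_comm]) _ _
    have i3 : U μ F (m + 1) (fun x => ⟪N x, F p⟫ * ⟪Y x, a⟫ * ⟪n x, a⟫) (r • F p)
        = U μ F (m + 1) (fun x => ⟪N x, F p⟫ * ⟪F x, dl V F a F p⟫ * ⟪N x, dl V F a F p⟫)
          (r • F p) :=
      U_congr (fun x => by
        rw [hn, hY, hsym (N x), hsym (F x), real_inner_comm (N x), real_inner_comm (F x)]) _ _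
    rw [i1, i2, i3]
    have h2 : ‖dl V F a F p‖ ^ 2 * u0 ≤ ‖a‖ ^ 2 * u0 := by
      have : ‖dl V F a F p‖ ^ 2 ≤ ‖a‖ ^ 2 := by
        rw [hPn]; nlinarith only []
      exact mul_le_mul_of_nonneg_right this hu.le
    rw [eu0] at h1
    have e3 : ∀ A B C : ℝ, A / u0 + r * (B / u0) + C / u0 = (A + r * B + C) / u0 := fun A B C => by
      ring
    rw [e3, div_le_iff₀ hu]
    (clear hF hmin hV hNs hN hr w0 P2 R H Hc hu hw hT hm hW hmdef eu0 ew0 eP eR eH eHc hμ hcF hcN e he σ hσ2 hσ hFp hNp hFN hNF hff hnn hP hPF hPn hsym n hn Y hY cn cY cK int_k hD hω1 i1 i2 i3 e3; linarith)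
  · -- hT
    have i3 : ∫ x, ⟪N x, F p⟫ ^ 2 * (K m ⟪F x, r • F p⟫ / u0) ∂μ = P2 / u0 := by
      rw [int_k m (fun x => ⟪N x, F p⟫ ^ 2), ← eP]
    have i4 : ∫ x, ⟪N x, F p⟫ * (σ * ⟪F x, N p⟫) * (K (m + 1) ⟪F x, r • F p⟫ / u0) ∂μ
        = σ * R / u0 := by
      rw [int_k (m + 1) (fun x => ⟪N x, F p⟫ * (σ * ⟪F x, N p⟫)), ← eR, ← U_mul]
      congr 1
      exact U_congr (fun x => by ring) _ _
    rw [i3, i4]
    have e1 : 11 / 25 * (σ * w0 / u0) * (σ * R / u0) = 11 / 25 * (w0 * R) / u0 ^ 2 := by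
      have : 11 / 25 * (σ * w0 / u0) * (σ * R / u0) = (σ * σ) * (11 / 25 * (w0 * R)) / u0 ^ 2 := by
        ring
      rw [this, hσ2, one_mul]
    have e2 : r * (P2 / u0) = r * P2 * u0 / u0 ^ 2 := by
      have hu0 : u0 ≠ 0 := hu.ne'
      (clear * - hu0 hr; field_simp)
    rw [e1, e2]
    exact div_le_div_of_nonneg_right hT (by positivity)

end

end Vale.Agent.P224.PM

end
end

section
-- PM/Lap
section

namespace Vale.Agent.P224.Gap.Sys

open Finset

variable {ι 𝒜 : Type*} [Fintype ι] [DecidableEq ι] [CommRing 𝒜] [Algebra ℝ 𝒜]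
variable {D : ι → Derivation ℝ 𝒜 𝒜} {F N : ι → 𝒜}
variable (h : Sys D F N)
include h

/-- the Laplacian of the position -/
lemma lapF (b : ι) : ∑ a, D a (D a (F b)) = - (((Fintype.card ι : 𝒜) - 2) * F b) := by
  have e1 : ∀ a, D a (D a (F b)) = - (D a (F a) * F b) - F a * D a (F b)
      - (D a (N a) * N b) - N a * D a (N b) := by
    intro a
    have hc : D a (if a = b then (1 : 𝒜) else 0) = 0 := by
      split_ifs
      · exact (D a).map_one_eq_zero
      · exact map_zero _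
    rw [h.DF a b, map_sub, map_sub, hc]
    simp only [Derivation.leibniz, smul_eq_mul]
    rw [h.DF a b]
    ring
  simp only [e1, sum_sub_distrib, sum_neg_distrib, ← sum_mul, h.sum_DF, h.FD, h.ND, h.tr]
  ring

lemma DF_DF (b c : ι) : ∑ a, D a (F b) * D a (F c) = D b (F c) := by
  have e1 : ∀ a, D a (F b) * D a (F c) = (if a = b then D a (F c) else 0)
      - F b * (F a * D a (F c)) - N b * (N a * D a (F c)) := by
    intro a
    rw [h.DF a b]
    split_ifs <;> ring
  simp only [e1, sum_sub_distrib, ← mul_sum, h.FD, h.ND, sum_ite_eq', mem_univ, if_true]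
  ring

/-- Laplacian of a function of the position -/
lemma lap_g {r : ℝ} {g : 𝒜} {g1 : ι → 𝒜} {g2 : ι → ι → 𝒜}
    (hg : ∀ a, D a g = r • ∑ b, D a (F b) * g1 b)
    (hg1 : ∀ a b, D a (g1 b) = r • ∑ c, D a (F c) * g2 b c) :
    ∑ a, D a (D a g) = r ^ 2 • (∑ b, g2 b b - ∑ b, ∑ c, F b * F c * g2 b c
      - ∑ b, ∑ c, N b * N c * g2 b c)
      - r • (((Fintype.card ι : 𝒜) - 2) * ∑ b, F b * g1 b) := by
  have e1 : ∀ a, D a (D a g) = r • ∑ b, (g1 b * D a (D a (F b))
      + r • ∑ c, g2 b c * (D a (F b) * D a (F c))) := by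
    intro a
    rw [hg a]
    simp only [Derivation.map_smul, map_sum, Derivation.leibniz, smul_eq_mul]
    congr 1
    refine sum_congr rfl fun b _ => ?_
    rw [hg1 a b, mul_smul_comm, mul_sum, add_comm]
    congr 2
    exact sum_congr rfl fun c _ => by ring
  have e2 : ∑ a, D a (D a g) = r • (∑ b, g1 b * ∑ a, D a (D a (F b)))
      + r • r • ∑ b, ∑ c, g2 b c * ∑ a, D a (F b) * D a (F c) := by
    simp only [e1, ← smul_sum, sum_add_distrib, smul_add, mul_sum]
    congr 1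
    · congr 1
      rw [sum_comm]
    · congr 2
      rw [sum_comm]
      refine sum_congr rfl fun b _ => ?_
      rw [sum_comm]
  rw [e2]
  simp only [h.lapF, h.DF_DF]
  have e3 : ∑ b, g1 b * -(((Fintype.card ι : 𝒜) - 2) * F b)
      = - (((Fintype.card ι : 𝒜) - 2) * ∑ b, F b * g1 b) := by
    rw [mul_sum, ← sum_neg_distrib]
    exact sum_congr rfl fun b _ => by ring
  have e4 : ∑ b, ∑ c, g2 b c * D b (F c) = ∑ b, g2 b b - ∑ b, ∑ c, F b * F c * g2 b c
      - ∑ b, ∑ c, N b * N c * g2 b c := by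
    rw [← sum_sub_distrib, ← sum_sub_distrib]
    refine sum_congr rfl fun b _ => ?_
    have e5 : ∀ c, g2 b c * D b (F c) = (if b = c then g2 b c else 0) - F b * F c * g2 b c
        - N b * N c * g2 b c := by
      intro c
      rw [h.DF b c]
      split_ifs <;> ring
    simp only [e5, sum_sub_distrib, sum_ite_eq, mem_univ, if_true]
  rw [e3, e4, smul_smul, ← pow_two, smul_neg]
  abel

end Vale.Agent.P224.Gap.Sys

end
end

section
-- PM/LapUW
section

namespace Vale.Agent.P224.PM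

open Matrix MeasureTheory Module Function Set Vale.Agent.P224 Vale.Agent.P224.FV Vale.Agent.P224.Gap
open scoped RealInnerProductSpace Topology ContDiff Manifold

set_option linter.unusedSectionVars false

section

variable {V W M : Type*} [NormedAddCommGroup V] [InnerProductSpace ℝ V] [FiniteDimensional ℝ V]
  [NormedAddCommGroup W] [InnerProductSpace ℝ W] [FiniteDimensional ℝ W]
  [TopologicalSpace M] [ChartedSpace V M] [MeasurableSpace M] [BorelSpace M]
  [IsManifold 𝓘(ℝ, V) ∞ M] [CompactSpace M] {μ : Measure M} [IsFiniteMeasure μ]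

lemma smooth_U {F : M → W} (hF : SphImm V F) (j : ℕ) {w : M → ℝ} (hw : Continuous w) (r : ℝ) :
    ContMDiff 𝓘(ℝ, V) 𝓘(ℝ, ℝ) ∞ (fun q => U μ F j w (r • F q)) := by
  have h1 : ContDiff ℝ ∞ (fun y : W => U μ F j w (r • y)) :=
    (contDiff_U (μ := μ) hF.smooth.continuous hw j).comp (contDiff_const_smul r)
  exact h1.comp_contMDiff hF.smooth

variable (V) in
lemma dl_U {F : M → W} (hF : SphImm V F) (a : W) (j : ℕ) {w : M → ℝ} (hw : Continuous w) (r : ℝ)
    (p : M) : dl V F a (fun q => U μ F j w (r • F q)) p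
      = r * U μ F (j + 1) (fun x => w x * ⟪F x, dl V F a F p⟫) (r • F p) := by
  have hFp : rep (V := V) F p (chartAt V p p) = F p := by
    unfold rep; rw [(chartAt V p).left_inv (mem_chart_source _ p)]
  obtain ⟨D, hD, hv⟩ := U_deriv (μ := μ) hF.smooth.continuous hw j (r • F p)
  unfold dl
  have e : rep (V := V) (fun q => U μ F j w (r • F q)) p
      = (U μ F j w) ∘ fun u => r • rep (V := V) F p u := rfl
  have h1 : HasFDerivAt (fun u => r • rep (V := V) F p u)
      (r • fderiv ℝ (rep (V := V) F p) (chartAt V p p)) (chartAt V p p) :=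
    (rep_diff_self hF.smooth p).hasFDerivAt.const_smul r
  have h2 : HasFDerivAt (U μ F j w) D (r • rep (V := V) F p (chartAt V p p)) := by
    rw [hFp]; exact hD
  have h3 := h2.comp (chartAt V p p) h1
  rw [e, h3.fderiv]
  simp only [ContinuousLinearMap.comp_apply, _root_.smul_apply, map_smul, smul_eq_mul]
  rw [hv]

/-- as an element of the algebra of smooth functions -/
noncomputable def Us (μ : Measure M) [IsFiniteMeasure μ] {F : M → W} (hF : SphImm V F) (j : ℕ)
    {w : M → ℝ} (hw : Continuous w) (r : ℝ) : SmAlg V M :=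
  ⟨fun q => U μ F j w (r • F q), smooth_U hF j hw r⟩

lemma cont_w {F : M → W} (hF : SphImm V F) {w : M → ℝ} (hw : Continuous w) (b : W) :
    Continuous fun x => w x * ⟪F x, b⟫ :=
  hw.mul (hF.smooth.continuous.inner continuous_const)

lemma parseval_U {F : M → W} (hcF : Continuous F) {w : M → ℝ} (hw : Continuous w) {G : M → W}
    (hG : Continuous G) (y : W) (j : ℕ) (Y : W) :
    ∑ b, ⟪y, stdOrthonormalBasis ℝ W b⟫
      * U μ F j (fun x => w x * ⟪G x, stdOrthonormalBasis ℝ W b⟫) Y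
      = U μ F j (fun x => w x * ⟪G x, y⟫) Y := by
  simp only [← U_mul]
  rw [← U_sum _ hcF (fun i => by (clear F hcF j Y; fun_prop))]
  refine U_congr (fun x => ?_) _ _
  rw [← (stdOrthonormalBasis ℝ W).sum_inner_mul_inner (G x) y, Finset.mul_sum]
  refine Finset.sum_congr rfl fun b _ => ?_
  rw [real_inner_comm y]
  ring

lemma DM_Us {F : M → W} (hF : SphImm V F) (j : ℕ) {w : M → ℝ} (hw : Continuous w) (r : ℝ)
    (a : W) : DM hF a (Us μ hF j hw r)
      = r • ∑ b, DM hF a (cM hF.smooth (stdOrthonormalBasis ℝ W b))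
        * Us μ hF (j + 1) (cont_w hF hw (stdOrthonormalBasis ℝ W b)) r := by
  ext p
  have h1 : (DM hF a (Us μ hF j hw r)).1 p
      = r * U μ F (j + 1) (fun x => w x * ⟪F x, dl V F a F p⟫) (r • F p) :=
    dl_U V hF a j hw r p
  rw [h1]
  have h2 : (r • ∑ b, DM hF a (cM hF.smooth (stdOrthonormalBasis ℝ W b))
        * Us μ hF (j + 1) (cont_w hF hw (stdOrthonormalBasis ℝ W b)) r).1 p
      = r * (∑ b, DM hF a (cM hF.smooth (stdOrthonormalBasis ℝ W b))
        * Us μ hF (j + 1) (cont_w hF hw (stdOrthonormalBasis ℝ W b)) r).1 p := rfl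
  rw [h2, sum_val]
  have h3 : ∀ b, (DM hF a (cM hF.smooth (stdOrthonormalBasis ℝ W b))
        * Us μ hF (j + 1) (cont_w hF hw (stdOrthonormalBasis ℝ W b)) r).1 p
      = ⟪dl V F a F p, stdOrthonormalBasis ℝ W b⟫
        * U μ F (j + 1) (fun x => w x * ⟪F x, stdOrthonormalBasis ℝ W b⟫) (r • F p) := by
    intro b
    rw [mul_val]
    have : (DM hF a (cM hF.smooth (stdOrthonormalBasis ℝ W b))).1 p
        = ⟪dl V F a F p, stdOrthonormalBasis ℝ W b⟫ := dl_inner a hF.smooth _ p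
    rw [this]
    rfl
  simp only [h3]
  rw [parseval_U hF.smooth.continuous hw hF.smooth.continuous]

lemma ev_natCast (p : M) (n : ℕ) : ((n : SmAlg V M)).1 p = (n : ℝ) := rfl

/-- the Laplacian of a parametric integral -/
theorem lap_U (hW : finrank ℝ W = finrank ℝ V + 2) {F : M → W}
    (hF : SphImm V F) (hmin : ∀ x n, IsUnitNormal V F x n → meanCurv V F x n = 0)
    {N : M → W} (hNs : ContMDiff 𝓘(ℝ, V) 𝓘(ℝ, W) ∞ N)
    (hN : ∀ x, IsUnitNormal V F x (N x)) (j : ℕ) {w : M → ℝ} (hw : Continuous w) (r : ℝ) (p : M) :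
    Lap V F (fun q => U μ F j w (r • F q)) p
      = r ^ 2 * (U μ F (j + 2) w (r • F p) - U μ F (j + 2) (fun x => w x * ⟪F x, F p⟫ ^ 2) (r • F p)
          - U μ F (j + 2) (fun x => w x * ⟪F x, N p⟫ ^ 2) (r • F p))
        - r * ((finrank ℝ V : ℝ) * U μ F (j + 1) (fun x => w x * ⟪F x, F p⟫) (r • F p)) := by
  have hs := sysM hW hF hmin hNs hN
  have hL := Lap_val hF (Us μ hF j hw r) p
  have hcF : Continuous F := hF.smooth.continuous
  set e := stdOrthonormalBasis ℝ W with he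
  have h1 := hs.lap_g (r := r) (g := Us μ hF j hw r)
    (g1 := fun b => Us μ hF (j + 1) (cont_w hF hw (e b)) r)
    (g2 := fun b c => Us μ hF (j + 1 + 1) (cont_w hF (cont_w hF hw (e b)) (e c)) r)
    (fun a => DM_Us hF j hw r (e a))
    (fun a b => DM_Us hF (j + 1) (cont_w hF hw (e b)) r (e a))
  have h2 : Lap V F (fun q => U μ F j w (r • F q)) p = Lap V F (Us μ hF j hw r).1 p := rfl
  rw [h2, ← hL, h1, ← evM_apply, Fintype.card_fin]
  simp only [map_sub, map_smul, map_mul, map_sum, map_natCast, map_ofNat, smul_eq_mul]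
  have k1 : ∀ b c, evM p (Us μ hF (j + 1 + 1) (cont_w hF (cont_w hF hw (e b)) (e c)) r)
      = U μ F (j + 2) (fun x => w x * ⟪F x, e b⟫ * ⟪F x, e c⟫) (r • F p) := fun b c => rfl
  have k2 : ∀ b, evM p (Us μ hF (j + 1) (cont_w hF hw (e b)) r)
      = U μ F (j + 1) (fun x => w x * ⟪F x, e b⟫) (r • F p) := fun b => rfl
  have k3 : ∀ b, evM p (cM hF.smooth (e b)) = ⟪F p, e b⟫ := fun b => rfl
  have k4 : ∀ b, evM p (cM hNs (e b)) = ⟪N p, e b⟫ := fun b => rfl
  simp only [k1, k2, k3, k4]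
  have quad : ∀ y : W, ∑ b, ∑ c, ⟪y, e b⟫ * ⟪y, e c⟫
        * U μ F (j + 2) (fun x => w x * ⟪F x, e b⟫ * ⟪F x, e c⟫) (r • F p)
      = U μ F (j + 2) (fun x => w x * ⟪F x, y⟫ ^ 2) (r • F p) := by
    intro y
    have q1 : ∀ b, ∑ c, ⟪y, e b⟫ * ⟪y, e c⟫
        * U μ F (j + 2) (fun x => w x * ⟪F x, e b⟫ * ⟪F x, e c⟫) (r • F p)
        = ⟪y, e b⟫ * U μ F (j + 2) (fun x => (w x * ⟪F x, y⟫) * ⟪F x, e b⟫) (r • F p) := by
      intro b
      simp only [mul_assoc ⟪y, e b⟫]
      rw [← Finset.mul_sum, parseval_U hcF (by (clear * - hw hcF; fun_prop)) hcF]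
      congr 1
      exact U_congr (fun x => by ring) _ _
    simp only [q1]
    rw [parseval_U hcF (by fun_prop) hcF]
    exact U_congr (fun x => by ring) _ _
  have tr : ∑ b, U μ F (j + 2) (fun x => w x * ⟪F x, e b⟫ * ⟪F x, e b⟫) (r • F p)
      = U μ F (j + 2) w (r • F p) := by
    rw [← U_sum _ hcF (fun i => by fun_prop)]
    refine U_congr (fun x => ?_) _ _
    have h5 : ∑ b, ⟪F x, e b⟫ * ⟪e b, F x⟫ = 1 := by
      rw [e.sum_inner_mul_inner, real_inner_self_eq_norm_sq, hF.unit]; norm_num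
    calc ∑ b, w x * ⟪F x, e b⟫ * ⟪F x, e b⟫ = w x * ∑ b, ⟪F x, e b⟫ * ⟪e b, F x⟫ := by
          rw [Finset.mul_sum]
          refine Finset.sum_congr rfl fun b _ => ?_
          rw [real_inner_comm (F x) (e b)]; ring
      _ = w x := by rw [h5, mul_one]
  rw [quad, quad, tr, parseval_U hcF hw hcF, hW]
  push_cast
  ring

/-- the weighted integral in coordinates -/
lemma W_eq {F : M → W} (hF : SphImm V F) {N : M → W} (hNs : ContMDiff 𝓘(ℝ, V) 𝓘(ℝ, W) ∞ N)
    (j : ℕ) (r : ℝ) (hcb : ∀ b, Continuous fun x => ⟪N x, stdOrthonormalBasis ℝ W b⟫) :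
    (fun q => U μ F j (fun x => ⟪N x, N q⟫) (r • F q))
      = (∑ b, cM hNs (stdOrthonormalBasis ℝ W b) * Us μ hF j (hcb b) r : SmAlg V M).1 := by
  have hcF : Continuous F := hF.smooth.continuous
  have hcN : Continuous N := hNs.continuous
  funext q
  rw [sum_val]
  have h1 : ∀ b, (cM hNs (stdOrthonormalBasis ℝ W b) * Us μ hF j (hcb b) r).1 q
      = ⟪N q, stdOrthonormalBasis ℝ W b⟫
        * U μ F j (fun x => 1 * ⟪N x, stdOrthonormalBasis ℝ W b⟫) (r • F q) := fun b => by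
    simp only [one_mul]
    rfl
  simp only [h1]
  rw [parseval_U hcF continuous_const hcN]
  exact U_congr (fun x => by rw [one_mul]) _ _

lemma smooth_W {F : M → W} (hF : SphImm V F) {N : M → W} (hNs : ContMDiff 𝓘(ℝ, V) 𝓘(ℝ, W) ∞ N)
    (j : ℕ) (r : ℝ) :
    ContMDiff 𝓘(ℝ, V) 𝓘(ℝ, ℝ) ∞ (fun q => U μ F j (fun x => ⟪N x, N q⟫) (r • F q)) := by
  have hcN : Continuous N := hNs.continuous
  rw [W_eq hF hNs j r (fun b => by fun_prop)]
  exact (∑ b, cM hNs (stdOrthonormalBasis ℝ W b) * Us μ hF j _ r : SmAlg V M).2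

/-- the Laplacian of the weighted integral -/
theorem lap_W (hW : finrank ℝ W = finrank ℝ V + 2) {F : M → W}
    (hF : SphImm V F) (hmin : ∀ x n, IsUnitNormal V F x n → meanCurv V F x n = 0)
    {N : M → W} (hNs : ContMDiff 𝓘(ℝ, V) 𝓘(ℝ, W) ∞ N)
    (hN : ∀ x, IsUnitNormal V F x (N x)) (j : ℕ) (r : ℝ) (p : M) :
    Lap V F (fun q => U μ F j (fun x => ⟪N x, N q⟫) (r • F q)) p
      = - (normSqA V F p (N p) * U μ F j (fun x => ⟪N x, N p⟫) (r • F p))
        + 2 * ∑ a, ∑ b, ⟪dl V F (stdOrthonormalBasis ℝ W a) N p, stdOrthonormalBasis ℝ W b⟫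
          * (r * U μ F (j + 1) (fun x => ⟪N x, stdOrthonormalBasis ℝ W b⟫
              * ⟪F x, dl V F (stdOrthonormalBasis ℝ W a) F p⟫) (r • F p))
        + (r ^ 2 * (U μ F (j + 2) (fun x => ⟪N x, N p⟫) (r • F p)
          - U μ F (j + 2) (fun x => ⟪N x, N p⟫ * ⟪F x, F p⟫ ^ 2) (r • F p)
          - U μ F (j + 2) (fun x => ⟪N x, N p⟫ * ⟪F x, N p⟫ ^ 2) (r • F p))
        - r * ((finrank ℝ V : ℝ) * U μ F (j + 1) (fun x => ⟪N x, N p⟫ * ⟪F x, F p⟫) (r • F p))) := by
  have hcF : Continuous F := hF.smooth.continuous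
  have hcN : Continuous N := hNs.continuous
  set e := stdOrthonormalBasis ℝ W with he
  have hcb : ∀ b, Continuous fun x => ⟪N x, e b⟫ := fun b => by fun_prop
  have hfun : (fun q => U μ F j (fun x => ⟪N x, N q⟫) (r • F q))
      = (∑ b, cM hNs (e b) * Us μ hF j (hcb b) r : SmAlg V M).1 := W_eq (μ := μ) hF hNs j r hcb
  have hL := Lap_val hF (∑ b, cM hNs (e b) * Us μ hF j (hcb b) r) p
  rw [hfun, ← hL]
  -- product rule
  have e1 : ∑ a, DM hF (e a) (DM hF (e a) (∑ b, cM hNs (e b) * Us μ hF j (hcb b) r))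
      = (∑ b, (∑ a, DM hF (e a) (DM hF (e a) (cM hNs (e b)))) * Us μ hF j (hcb b) r)
        + 2 * (∑ a, ∑ b, DM hF (e a) (cM hNs (e b)) * DM hF (e a) (Us μ hF j (hcb b) r))
        + ∑ b, cM hNs (e b) * ∑ a, DM hF (e a) (DM hF (e a) (Us μ hF j (hcb b) r)) := by
    have e2 : ∀ a, DM hF (e a) (DM hF (e a) (∑ b, cM hNs (e b) * Us μ hF j (hcb b) r))
        = ∑ b, (DM hF (e a) (DM hF (e a) (cM hNs (e b))) * Us μ hF j (hcb b) r
          + 2 * (DM hF (e a) (cM hNs (e b)) * DM hF (e a) (Us μ hF j (hcb b) r))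
          + cM hNs (e b) * DM hF (e a) (DM hF (e a) (Us μ hF j (hcb b) r))) := by
      intro a
      simp only [map_sum, Derivation.leibniz, smul_eq_mul, map_add]
      refine Finset.sum_congr rfl fun b _ => ?_
      ring
    simp only [e2, Finset.sum_add_distrib, Finset.sum_mul, Finset.mul_sum]
    congr 1
    · congr 1
      rw [Finset.sum_comm]
    · rw [Finset.sum_comm]
  have e3 : ∀ b, (∑ a, DM hF (e a) (DM hF (e a) (Us μ hF j (hcb b) r))).1 p
      = r ^ 2 * (U μ F (j + 2) (fun x => ⟪N x, e b⟫) (r • F p)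
          - U μ F (j + 2) (fun x => ⟪N x, e b⟫ * ⟪F x, F p⟫ ^ 2) (r • F p)
          - U μ F (j + 2) (fun x => ⟪N x, e b⟫ * ⟪F x, N p⟫ ^ 2) (r • F p))
        - r * ((finrank ℝ V : ℝ) * U μ F (j + 1) (fun x => ⟪N x, e b⟫ * ⟪F x, F p⟫) (r • F p)) := by
    intro b
    rw [Lap_val hF (Us μ hF j (hcb b) r) p]
    exact lap_U hW hF hmin hNs hN j (hcb b) r p
  rw [e1, ← evM_apply]
  simp only [map_add, map_mul, map_sum, map_ofNat]
  have k0 : ∀ b, ∑ a, evM p (DM hF (e a) (DM hF (e a) (Us μ hF j (hcb b) r)))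
      = (∑ a, DM hF (e a) (DM hF (e a) (Us μ hF j (hcb b) r))).1 p := fun b => by
    rw [← map_sum]; rfl
  have k1 : ∀ b, ∑ a, evM p (DM hF (e a) (DM hF (e a) (cM hNs (e b))))
      = - normSqA V F p (N p) * ⟪N p, e b⟫ := fun b => by
    rw [← map_sum, ← lap_normal hW hF hmin hNs hN p (e b), evM_apply, Lap_val hF (cM hNs (e b)) p]
    rfl
  have k2 : ∀ b, evM p (Us μ hF j (hcb b) r) = U μ F j (fun x => 1 * ⟪N x, e b⟫) (r • F p) :=
    fun b => by
      simp only [one_mul]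
      rfl
  have k3 : ∀ b, evM p (cM hNs (e b)) = ⟪N p, e b⟫ := fun b => rfl
  have k4 : ∀ a b, evM p (DM hF (e a) (cM hNs (e b))) = ⟪dl V F (e a) N p, e b⟫ := fun a b =>
    dl_inner (e a) hNs (e b) p
  have k5 : ∀ a b, evM p (DM hF (e a) (Us μ hF j (hcb b) r))
      = r * U μ F (j + 1) (fun x => ⟪N x, e b⟫ * ⟪F x, dl V F (e a) F p⟫) (r • F p) := fun a b =>
    dl_U V hF (e a) j (hcb b) r p
  simp only [k1, k2, k4, k5, k3, k0, e3]
  have s1 : ∑ b, - normSqA V F p (N p) * ⟪N p, e b⟫ * U μ F j (fun x => 1 * ⟪N x, e b⟫) (r • F p)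
      = - (normSqA V F p (N p) * U μ F j (fun x => ⟪N x, N p⟫) (r • F p)) := by
    simp only [mul_assoc]
    rw [← Finset.mul_sum, parseval_U hcF continuous_const hcN]
    simp only [one_mul]
    ring
  have s2 : ∀ i (g : M → ℝ), Continuous g → ∑ b, ⟪N p, e b⟫
        * U μ F i (fun x => ⟪N x, e b⟫ * g x) (r • F p)
      = U μ F i (fun x => ⟪N x, N p⟫ * g x) (r • F p) := by
    intro i g hg
    have := parseval_U (μ := μ) hcF hg hcN (N p) i (r • F p)
    rw [U_congr (fun x => mul_comm ⟪N x, N p⟫ (g x)), ← this]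
    refine Finset.sum_congr rfl fun b _ => ?_
    rw [U_congr (fun x => mul_comm ⟪N x, e b⟫ (g x))]
  have s3 : ∑ b, ⟪N p, e b⟫ * U μ F (j + 2) (fun x => ⟪N x, e b⟫) (r • F p)
      = U μ F (j + 2) (fun x => ⟪N x, N p⟫) (r • F p) := by
    have := s2 (j + 2) (fun _ => 1) continuous_const
    simpa only [mul_one] using this
  have s4 : ∑ b, ⟪N p, e b⟫ * (r ^ 2 * (U μ F (j + 2) (fun x => ⟪N x, e b⟫) (r • F p)
          - U μ F (j + 2) (fun x => ⟪N x, e b⟫ * ⟪F x, F p⟫ ^ 2) (r • F p)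
          - U μ F (j + 2) (fun x => ⟪N x, e b⟫ * ⟪F x, N p⟫ ^ 2) (r • F p))
        - r * ((finrank ℝ V : ℝ) * U μ F (j + 1) (fun x => ⟪N x, e b⟫ * ⟪F x, F p⟫) (r • F p)))
      = r ^ 2 * (∑ b, ⟪N p, e b⟫ * U μ F (j + 2) (fun x => ⟪N x, e b⟫) (r • F p)
          - ∑ b, ⟪N p, e b⟫ * U μ F (j + 2) (fun x => ⟪N x, e b⟫ * ⟪F x, F p⟫ ^ 2) (r • F p)
          - ∑ b, ⟪N p, e b⟫ * U μ F (j + 2) (fun x => ⟪N x, e b⟫ * ⟪F x, N p⟫ ^ 2) (r • F p))
        - r * ((finrank ℝ V : ℝ)
          * ∑ b, ⟪N p, e b⟫ * U μ F (j + 1) (fun x => ⟪N x, e b⟫ * ⟪F x, F p⟫) (r • F p)) := by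
    simp only [Finset.mul_sum, ← Finset.sum_sub_distrib]
    refine Finset.sum_congr rfl fun b _ => ?_
    ring
  rw [s1, s4, s3, s2 (j + 2) (fun x => ⟪F x, F p⟫ ^ 2) (by fun_prop),
    s2 (j + 2) (fun x => ⟪F x, N p⟫ ^ 2) (by fun_prop), s2 (j + 1) (fun x => ⟪F x, F p⟫)
    (by fun_prop)]

end

end Vale.Agent.P224.PM

end
end

section
-- PM/Core
section

namespace Vale.Agent.P224.PM

open Matrix MeasureTheory Module Function Set Vale.Agent.P224 Vale.Agent.P224.FV Vale.Agent.P224.Gap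
open scoped RealInnerProductSpace Topology ContDiff Manifold

set_option linter.unusedSectionVars false

section

variable {V W M : Type*} [NormedAddCommGroup V] [InnerProductSpace ℝ V] [FiniteDimensional ℝ V]
  [NormedAddCommGroup W] [InnerProductSpace ℝ W] [FiniteDimensional ℝ W]
  [TopologicalSpace M] [ChartedSpace V M] [MeasurableSpace M] [BorelSpace M]
  [IsManifold 𝓘(ℝ, V) ∞ M] [CompactSpace M]

/-- derivative along a ray with the Gaussian factor -/
lemma ray_deriv {μ : Measure M} [IsFiniteMeasure μ] {F : M → W} (hF : Continuous F) {w : M → ℝ}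
    (hw : Continuous w) (j : ℕ) (y : W) (r : ℝ) :
    HasDerivAt (fun r : ℝ => Real.exp (-r ^ 2 / 2) * U μ F j w (r • y))
      (Real.exp (-r ^ 2 / 2) * (U μ F (j + 1) (fun x => w x * ⟪F x, y⟫) (r • y)
        - r * U μ F j w (r • y))) r := by
  have h1 : HasDerivAt (fun r : ℝ => Real.exp (-r ^ 2 / 2)) (Real.exp (-r ^ 2 / 2) * (-r)) r := by
    have h0 : HasDerivAt (fun r : ℝ => -r ^ 2 / 2) (-r) r := by
      refine ((hasDerivAt_pow 2 r).neg.div_const 2).congr_deriv ?_
      norm_num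
      ring
    exact h0.exp
  refine (h1.mul (hasDerivAt_U_ray (μ := μ) hF hw j y r)).congr_deriv ?_
  ring

/-- second derivative along a ray -/
lemma ray_deriv2 {μ : Measure M} [IsFiniteMeasure μ] {F : M → W} (hF : Continuous F) {w : M → ℝ}
    (hw : Continuous w) (j : ℕ) (y : W) (r : ℝ) :
    HasDerivAt (fun r : ℝ => Real.exp (-r ^ 2 / 2) * (U μ F (j + 1) (fun x => w x * ⟪F x, y⟫) (r • y)
        - r * U μ F j w (r • y)))
      (Real.exp (-r ^ 2 / 2) * (U μ F (j + 2) (fun x => w x * ⟪F x, y⟫ ^ 2) (r • y)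
        - 2 * r * U μ F (j + 1) (fun x => w x * ⟪F x, y⟫) (r • y)
        + (r ^ 2 - 1) * U μ F j w (r • y))) r := by
  have hw1 : Continuous fun x => w x * ⟪F x, y⟫ := by fun_prop
  have h1 := ray_deriv (μ := μ) hF hw1 (j + 1) y r
  have h2 := (hasDerivAt_id r).mul (ray_deriv (μ := μ) hF hw j y r)
  have h3 := h1.sub h2
  have e : U μ F (j + 1 + 1) (fun x => w x * ⟪F x, y⟫ * ⟪F x, y⟫) (r • y)
      = U μ F (j + 2) (fun x => w x * ⟪F x, y⟫ ^ 2) (r • y) := U_congr (fun x => by ring) _ _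
  rw [e] at h3
  refine (h3.congr_deriv ?_).congr_of_eventuallyEq ?_
  · simp only [id]
    ring
  · refine Filter.Eventually.of_forall fun r => ?_
    simp only [Pi.sub_apply, Pi.mul_apply, id]
    ring

/-- the conditions at a minimum in the radial direction -/
lemma radial_min {A A' B B' : ℝ → ℝ} {A'' B'' k ε r : ℝ} (hr : 0 < r)
    (hA : ∀ t, HasDerivAt A (A' t) t) (hA' : HasDerivAt A' A'' r)
    (hB : ∀ t, HasDerivAt B (B' t) t) (hB' : HasDerivAt B' B'' r)
    (hm : IsLocalMin (fun t => A t ^ 2 + k * B t ^ 2 + ε / t) r) :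
    2 * A r * A' r + 2 * k * (B r * B' r) - ε / r ^ 2 = 0 ∧
      0 ≤ 2 * A' r ^ 2 + 2 * A r * A'' + 2 * k * (B' r ^ 2 + B r * B'') + 2 * ε / r ^ 3 := by
  have hinv : ∀ t : ℝ, t ≠ 0 → HasDerivAt (fun t => ε / t) (- ε / t ^ 2) t := by
    intro t ht
    have := (hasDerivAt_const t ε).div (hasDerivAt_id t) ht
    refine this.congr_deriv ?_
    simp only [id_eq, zero_mul, mul_one, zero_sub]
  have hinv2 : HasDerivAt (fun t : ℝ => - ε / t ^ 2) (2 * ε / r ^ 3) r := by
    have := (hasDerivAt_const r (-ε)).div (hasDerivAt_pow 2 r) (pow_ne_zero 2 hr.ne')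
    refine this.congr_deriv ?_
    have hr0 : r ≠ 0 := hr.ne'
    field_simp
    norm_num
    ring
  have h := second_deriv_min (f := fun t => A t ^ 2 + k * B t ^ 2 + ε / t)
    (f' := fun t => 2 * A t * A' t + 2 * k * (B t * B' t) + - ε / t ^ 2)
    (f'' := 2 * A' r ^ 2 + 2 * A r * A'' + 2 * k * (B' r ^ 2 + B r * B'') + 2 * ε / r ^ 3)
    (r := r) ?_ ?_ hm
  · refine ⟨?_, h.2⟩
    rw [← h.1]
    ring
  · filter_upwards [eventually_ne_nhds hr.ne'] with t ht
    have h1 := (((hA t).pow 2).add (((hB t).pow 2).const_mul k)).add (hinv t ht)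
    refine (h1.congr_deriv ?_).congr_of_eventuallyEq ?_
    · norm_num
      ring
    · exact Filter.Eventually.of_forall fun t => by simp
  · have h1 := (((hA r).const_mul 2).mul hA').add (((hB r).mul hB').const_mul (2 * k))
    have h2 := h1.add hinv2
    refine (h2.congr_deriv ?_).congr_of_eventuallyEq ?_
    · ring
    · exact Filter.Eventually.of_forall fun t => by simp only [Pi.mul_apply, Pi.add_apply]

/-- the conditions at a minimum on the hypersurface -/
lemma tangential_min {F : M → W} (hF : SphImm V F) {v w : M → ℝ}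
    (hv : ContMDiff 𝓘(ℝ, V) 𝓘(ℝ, ℝ) ∞ v) (hw : ContMDiff 𝓘(ℝ, V) 𝓘(ℝ, ℝ) ∞ w) {k : ℝ} {p : M}
    (hm : IsLocalMin (fun q => v q ^ 2 + k * w q ^ 2) p) :
    (∀ a, v p * dl V F a v p + k * (w p * dl V F a w p) = 0) ∧
      0 ≤ v p * Lap V F v p + ∑ i, dl V F (stdOrthonormalBasis ℝ W i) v p ^ 2
        + k * (w p * Lap V F w p + ∑ i, dl V F (stdOrthonormalBasis ℝ W i) w p ^ 2) := by
  set v' : SmAlg V M := ⟨v, hv⟩ with hv'
  set w' : SmAlg V M := ⟨w, hw⟩ with hw'
  have hg : (fun q => v q ^ 2 + k * w q ^ 2) = (v' * v' + k • (w' * w')).1 := by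
    funext q
    have : (v' * v' + k • (w' * w')).1 q = v q * v q + k * (w q * w q) := rfl
    rw [this]
    ring
  rw [hg] at hm
  have h := dl_min hF (v' * v' + k • (w' * w')).2 hm
  have e1 : ∀ a, DM hF a (v' * v' + k • (w' * w'))
      = 2 * (v' * DM hF a v' + k • (w' * DM hF a w')) := by
    intro a
    rw [map_add, Derivation.map_smul, Derivation.leibniz, Derivation.leibniz]
    simp only [smul_eq_mul, mul_add, mul_smul_comm, two_mul, smul_add]
  have e2 : ∀ a, DM hF a (DM hF a (v' * v' + k • (w' * w')))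
      = 2 * (DM hF a v' * DM hF a v' + v' * DM hF a (DM hF a v')
        + k • (DM hF a w' * DM hF a w' + w' * DM hF a (DM hF a w'))) := by
    intro a
    rw [e1, two_mul, map_add, map_add, Derivation.map_smul, Derivation.leibniz, Derivation.leibniz]
    simp only [smul_eq_mul, smul_add, two_mul]
    ring
  constructor
  · intro a
    have h1 := (h a).1
    have h2 : dl V F a (v' * v' + k • (w' * w')).1 p
        = (DM hF a (v' * v' + k • (w' * w'))).1 p := rfl
    rw [h2, e1] at h1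
    have h3 : (2 * (v' * DM hF a v' + k • (w' * DM hF a w'))).1 p
        = 2 * (v p * dl V F a v p + k * (w p * dl V F a w p)) := rfl
    rw [h3] at h1
    (clear hF hv hw v' hv' w' hm hw' hg h e1 e2 h2 h3; linarith)
  · have h4 : ∀ a, 0 ≤ dl V F a v p ^ 2 + v p * dl V F a (dl V F a v) p
        + k * (dl V F a w p ^ 2 + w p * dl V F a (dl V F a w) p) := by
      intro a
      have h1 := (h a).2
      have h2 : dl V F a (dl V F a (v' * v' + k • (w' * w')).1) p
          = (DM hF a (DM hF a (v' * v' + k • (w' * w')))).1 p := rfl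
      rw [h2, e2] at h1
      have h3 : (2 * (DM hF a v' * DM hF a v' + v' * DM hF a (DM hF a v')
          + k • (DM hF a w' * DM hF a w' + w' * DM hF a (DM hF a w')))).1 p
          = 2 * (dl V F a v p * dl V F a v p + v p * dl V F a (dl V F a v) p
        + k * (dl V F a w p * dl V F a w p + w p * dl V F a (dl V F a w) p)) := rfl
      rw [h3] at h1
      linarith
    have h5 := Finset.sum_nonneg fun i (_ : i ∈ Finset.univ) => h4 (stdOrthonormalBasis ℝ W i)
    have h6 : ∑ i, (dl V F (stdOrthonormalBasis ℝ W i) v p ^ 2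
          + v p * dl V F (stdOrthonormalBasis ℝ W i) (dl V F (stdOrthonormalBasis ℝ W i) v) p
        + k * (dl V F (stdOrthonormalBasis ℝ W i) w p ^ 2
          + w p * dl V F (stdOrthonormalBasis ℝ W i) (dl V F (stdOrthonormalBasis ℝ W i) w) p))
        = v p * Lap V F v p + ∑ i, dl V F (stdOrthonormalBasis ℝ W i) v p ^ 2
        + k * (w p * Lap V F w p + ∑ i, dl V F (stdOrthonormalBasis ℝ W i) w p ^ 2) := by
      unfold Lap
      simp only [Finset.sum_add_distrib, ← Finset.mul_sum]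
      ring
    rw [h6] at h5
    exact h5

/-- final algebra -/
lemma final_alg {k r η u0 w0 u1 w1 us ws T2 Tc H Hc P2 R G D X Q m : ℝ} (hr : 0 < r) (hk : 0 < k)
    (hη : 0 < η) (hm : 2 ≤ m)
    (m1 : 2 * u0 * (u1 - r * u0) + 2 * k * (w0 * (w1 - r * w0)) = η)
    (m2 : 0 ≤ 2 * (u1 - r * u0) ^ 2 + 2 * u0 * (us - 2 * r * u1 + (r ^ 2 - 1) * u0)
      + 2 * k * ((w1 - r * w0) ^ 2 + w0 * (ws - 2 * r * w1 + (r ^ 2 - 1) * w0)) + 2 * η / r)
    (m4 : 0 ≤ u0 * (r ^ 2 * (T2 - us - H) - r * (m * u1)) + r ^ 2 * G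
      + k * (w0 * (Q + (r ^ 2 * (Tc - ws - Hc) - r * (m * w1))) + r ^ 2 * D))
    (m5 : w0 * Q ≤ r ^ 2 * X)
    (m6 : T2 = r * u1 + (m + 1) * u0) (m6' : Tc = r * w1 + (m + 1) * w0)
    (m7 : u1 = r * u0 - r * P2) (m7' : w1 = r * w0 + R) :
    0 < r ^ 2 * P2 ^ 2 + k * R ^ 2 + G + k * D - u0 * H - k * (w0 * Hc) + k * X := by
  have h4 : 0 ≤ u0 * ((T2 - us - H) - m * u1 / r) + G
      + k * (w0 * ((Tc - ws - Hc) - m * w1 / r) + X + D) := by
    have h5 : 0 ≤ r ^ 2 * (u0 * ((T2 - us - H) - m * u1 / r) + G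
      + k * (w0 * ((Tc - ws - Hc) - m * w1 / r) + X + D)) := by
      have e : r ^ 2 * (u0 * ((T2 - us - H) - m * u1 / r) + G
        + k * (w0 * ((Tc - ws - Hc) - m * w1 / r) + X + D))
        = u0 * (r ^ 2 * (T2 - us - H) - r * (m * u1)) + r ^ 2 * G
          + k * (w0 * (r ^ 2 * (Tc - ws - Hc) - r * (m * w1)) + r ^ 2 * X + r ^ 2 * D) := by
        field_simp
      rw [e]
      nlinarith only [m4, hk, m5]
    exact nonneg_of_mul_nonneg_right h5 (by positivity)
  have h2 : 0 ≤ (u1 - r * u0) ^ 2 + u0 * (us - 2 * r * u1 + (r ^ 2 - 1) * u0)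
      + k * ((w1 - r * w0) ^ 2 + w0 * (ws - 2 * r * w1 + (r ^ 2 - 1) * w0)) + η / r := by
    have e : 2 * η / r = 2 * (η / r) := by ring
    rw [e] at m2
    linarith only [m2]
  have h3 : (m / r + r) * (u0 * (u1 - r * u0) + k * (w0 * (w1 - r * w0))) = (m / r + r) * (η / 2) := by
    congr 1
    linarith only [m1]
  have h6 : η / r < (m / r + r) * (η / 2) := by
    have e : (m / r + r) * (η / 2) - η / r = η * ((m - 2) / r + r) / 2 := by ring
    have : 0 < η * ((m - 2) / r + r) / 2 := by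
      have : 0 ≤ (m - 2) / r := div_nonneg (by linarith only [hm]) hr.le
      (clear * - hη hm hr; positivity)
    linarith only [e, this]
  have e7 : (r ^ 2 * P2 ^ 2 + k * R ^ 2 + G + k * D - u0 * H - k * (w0 * Hc) + k * X)
      = (u1 - r * u0) ^ 2 + u0 * (us - 2 * r * u1 + (r ^ 2 - 1) * u0)
      + k * ((w1 - r * w0) ^ 2 + w0 * (ws - 2 * r * w1 + (r ^ 2 - 1) * w0))
      + (u0 * ((T2 - us - H) - m * u1 / r) + G
      + k * (w0 * ((Tc - ws - Hc) - m * w1 / r) + X + D))
      + (m / r + r) * (u0 * (u1 - r * u0) + k * (w0 * (w1 - r * w0))) := by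
    rw [m6, m6', m7, m7']
    field_simp
    ring
  rw [e7]
  linarith only [h4, h2, h3, h6]

end

end Vale.Agent.P224.PM

end
end

section
-- PM/Contra
section

namespace Vale.Agent.P224.PM

open Matrix MeasureTheory Module Function Set Vale.Agent.P224 Vale.Agent.P224.FV Vale.Agent.P224.Gap
open scoped RealInnerProductSpace Topology ContDiff Manifold

set_option linter.unusedSectionVars false

section

variable {V W M : Type*} [NormedAddCommGroup V] [InnerProductSpace ℝ V] [FiniteDimensional ℝ V]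
  [NormedAddCommGroup W] [InnerProductSpace ℝ W] [FiniteDimensional ℝ W]
  [TopologicalSpace M] [ChartedSpace V M]
  [MeasurableSpace V] [BorelSpace V] [MeasurableSpace M] [BorelSpace M]
  [IsManifold 𝓘(ℝ, V) ∞ M] [CompactSpace M] [T2Space M]

variable (V) in
/-- the Gaussian area at scale r, with weight w -/
noncomputable def gV (F : M → W) (w : M → ℝ) (z : M) (r : ℝ) : ℝ :=
  Real.exp (-r ^ 2 / 2) * U (volM V F) F (finrank ℝ V) w (r • F z)

variable (V) in
/-- the function of the maximum principle -/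
noncomputable def gφ (F N : M → W) (z : M) (r : ℝ) : ℝ :=
  gV V F (fun _ => 1) z r ^ 2 + 11 / 25 * gV V F (fun x => ⟪N x, N z⟫) z r ^ 2

/-- completion of the square -/
lemma completion {ι : Type*} [Fintype ι] (A X : ι → ι → ℝ) (w r : ℝ) :
    w * (- ((∑ a, ∑ b, A a b ^ 2) * w) + 2 * ∑ a, ∑ b, A a b * (r * X a b))
      ≤ r ^ 2 * ∑ a, ∑ b, X a b ^ 2 := by
  have e : r ^ 2 * ∑ a, ∑ b, X a b ^ 2
      - w * (- ((∑ a, ∑ b, A a b ^ 2) * w) + 2 * ∑ a, ∑ b, A a b * (r * X a b))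
      = ∑ a, ∑ b, (A a b * w - r * X a b) ^ 2 := by
    simp only [Finset.mul_sum, Finset.sum_mul, ← Finset.sum_neg_distrib, ← Finset.sum_add_distrib, ← Finset.sum_sub_distrib]
    refine Finset.sum_congr rfl fun a _ => Finset.sum_congr rfl fun b _ => ?_
    ring
  have : 0 ≤ ∑ a, ∑ b, (A a b * w - r * X a b) ^ 2 :=
    Finset.sum_nonneg fun a _ => Finset.sum_nonneg fun b _ => sq_nonneg _
  linarith only [e, this]

/-- only the tangential parts matter -/
lemma tang_sum (hW : finrank ℝ W = finrank ℝ V + 2) {F : M → W}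
    (hF : SphImm V F) [IsFiniteMeasure (volM V F)] {N : M → W}
    (hNs : ContMDiff 𝓘(ℝ, V) 𝓘(ℝ, W) ∞ N)
    (hN : ∀ x, IsUnitNormal V F x (N x)) (j : ℕ) (p : M) (a : W) {g : M → ℝ} (hg : Continuous g)
    (Y : W) :
    ∑ b, ⟪dl V F a N p, stdOrthonormalBasis ℝ W b⟫
        * U (volM V F) F j (fun x => ⟪N x, stdOrthonormalBasis ℝ W b⟫ * g x) Y
      = ∑ b, ⟪dl V F a N p, stdOrthonormalBasis ℝ W b⟫
        * U (volM V F) F j (fun x => ⟪dl V F (stdOrthonormalBasis ℝ W b) F p, N x⟫ * g x) Y := by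
  have hcF : Continuous F := hF.smooth.continuous
  have hcN : Continuous N := hNs.continuous
  have hP : ∀ a : W, dl V F a F p = a - ⟪a, F p⟫ • F p - ⟪a, N p⟫ • N p := fun a =>
    dl_F hW hF hN a p
  have cn : Continuous fun x => dl V F (N x) F p := by
    simp only [hP]; fun_prop
  have hy : dl V F (dl V F a N p) F p = dl V F a N p := by
    rw [hP, dl_N_symm hW hF hNs hN a (F p) p, dl_N_symm hW hF hNs hN a (N p) p, dl_pos hF,
      dl_normal hF hN]
    simp
  have h1 := parseval_U (μ := volM V F) hcF hg hcN (dl V F a N p) j Y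
  have h2 := parseval_U (μ := volM V F) hcF hg cn (dl V F a N p) j Y
  have e1 : ∀ b : W, U (volM V F) F j (fun x => ⟪N x, b⟫ * g x) Y
      = U (volM V F) F j (fun x => g x * ⟪N x, b⟫) Y := fun b =>
    U_congr (fun x => mul_comm _ _) _ _
  have e2 : ∀ b : W, U (volM V F) F j (fun x => ⟪dl V F b F p, N x⟫ * g x) Y
      = U (volM V F) F j (fun x => g x * ⟪dl V F (N x) F p, b⟫) Y := fun b =>
    U_congr (fun x => by rw [dl_F_symm (N x) b p, real_inner_comm (N x), mul_comm]) _ _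
  simp only [e1, e2]
  rw [h1, h2]
  refine U_congr (fun x => ?_) _ _
  rw [dl_F_symm, hy]

lemma num1 {E r ε k u0 u1 w0 w1 : ℝ} (hE : 0 < E)
    (r1 : 2 * (E * u0) * (E * (u1 - r * u0)) + 2 * k * ((E * w0) * (E * (w1 - r * w0)))
      - ε / r ^ 2 = 0) :
    2 * u0 * (u1 - r * u0) + 2 * k * (w0 * (w1 - r * w0)) = ε / r ^ 2 / E ^ 2 := by
  rw [eq_div_iff (by positivity)]
  linear_combination r1

lemma num2 {E r ε k u0 u1 w0 w1 us ws : ℝ} (hE : 0 < E) (hr : 0 < r)
    (r2 : 0 ≤ 2 * (E * (u1 - r * u0)) ^ 2 + 2 * (E * u0) * (E * (us - 2 * r * u1 + (r ^ 2 - 1) * u0))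
      + 2 * k * ((E * (w1 - r * w0)) ^ 2 + (E * w0) * (E * (ws - 2 * r * w1 + (r ^ 2 - 1) * w0)))
      + 2 * ε / r ^ 3) :
    0 ≤ 2 * (u1 - r * u0) ^ 2 + 2 * u0 * (us - 2 * r * u1 + (r ^ 2 - 1) * u0)
      + 2 * k * ((w1 - r * w0) ^ 2 + w0 * (ws - 2 * r * w1 + (r ^ 2 - 1) * w0))
      + 2 * (ε / r ^ 2 / E ^ 2) / r := by
  have h0 : 0 ≤ E ^ 2 * (2 * (u1 - r * u0) ^ 2 + 2 * u0 * (us - 2 * r * u1 + (r ^ 2 - 1) * u0)
      + 2 * k * ((w1 - r * w0) ^ 2 + w0 * (ws - 2 * r * w1 + (r ^ 2 - 1) * w0))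
      + 2 * (ε / r ^ 2 / E ^ 2) / r) := by
    refine r2.trans (le_of_eq ?_)
    have hE1 : E ≠ 0 := hE.ne'
    have hr1 : r ≠ 0 := hr.ne'
    have e1 : E ^ 2 * (2 * (ε / r ^ 2 / E ^ 2) / r) = 2 * ε / r ^ 3 := by
      field_simp
    rw [← e1]
    ring
  exact nonneg_of_mul_nonneg_right h0 (by positivity)

lemma num3 {ι : Type*} [Fintype ι] {gv dw : ι → ℝ} {u0 w0 r k : ℝ} (hr : 0 < r) (hk : 0 < k)
    (hw : w0 ≠ 0) (t1 : ∀ a, u0 * (r * gv a) + k * (w0 * dw a) = 0) :
    k * ((∑ a, dw a ^ 2) / r ^ 2) = u0 ^ 2 / (k * w0 ^ 2) * ∑ a, gv a ^ 2 := by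
  have h1 : k ^ 2 * w0 ^ 2 * ∑ a, dw a ^ 2 = u0 ^ 2 * r ^ 2 * ∑ a, gv a ^ 2 := by
    simp only [Finset.mul_sum]
    refine Finset.sum_congr rfl fun a _ => ?_
    linear_combination (k * (w0 * dw a) - u0 * (r * gv a)) * t1 a
  have hr1 : r ≠ 0 := hr.ne'
  have hk1 : k ≠ 0 := hk.ne'
  have e1 : k * ((∑ a, dw a ^ 2) / r ^ 2)
      = (k ^ 2 * w0 ^ 2 * ∑ a, dw a ^ 2) / (k * w0 ^ 2 * r ^ 2) := by
    (clear * - hw hr1 hk1; field_simp)
  rw [e1, h1]
  (clear * - hr1 hw hk1; field_simp)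

lemma num4 {r k η u0 u1 w0 w1 P2 R : ℝ} (hr : 0 < r) (hη : 0 < η) (hu0 : 0 < u0) (hP2 : 0 ≤ P2)
    (m1 : 2 * u0 * (u1 - r * u0) + 2 * k * (w0 * (w1 - r * w0)) = η)
    (m7 : u1 = r * u0 - r * P2) (m7' : w1 = r * w0 + R) :
    r * P2 * u0 ≤ k * (w0 * R) ∧ w0 ≠ 0 := by
  have h : 2 * (k * (w0 * R)) - 2 * (r * P2 * u0) = η := by
    rw [← m1, m7, m7']; ring
  have h2 : 0 ≤ r * P2 * u0 := by (clear * - hr hP2 hu0; positivity)
  refine ⟨by linarith only [hη, h], fun h0 => ?_⟩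
  rw [h0, zero_mul, mul_zero] at h
  linarith only [hη, h, h2]

lemma num5 {A B C D1 D2 E1 E2 : ℝ} (h1 : 0 < A + B + C + D1 - D2 - E1 + E2)
    (h2 : 0 ≤ D2 + E1 - E2 - A - B - (C + D1)) : False := by linarith only [h1, h2]

lemma contra_num {ι : Type*} [Fintype ι] {E r ε k u0 w0 u1 w1 us ws T2 Tc H Hc P2 R S m L1 L2 : ℝ}
    {gv dw : ι → ℝ} {A X0 X : ι → ι → ℝ} (hr : 0 < r) (hE : 0 < E) (hε : 0 < ε) (hk : 0 < k)
    (hm : 2 ≤ m) (hu0 : 0 < u0) (hP2 : 0 ≤ P2)
    (r1 : 2 * (E * u0) * (E * (u1 - r * u0)) + 2 * k * ((E * w0) * (E * (w1 - r * w0)))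
      - ε / r ^ 2 = 0)
    (r2 : 0 ≤ 2 * (E * (u1 - r * u0)) ^ 2 + 2 * (E * u0) * (E * (us - 2 * r * u1 + (r ^ 2 - 1) * u0))
      + 2 * k * ((E * (w1 - r * w0)) ^ 2 + (E * w0) * (E * (ws - 2 * r * w1 + (r ^ 2 - 1) * w0)))
      + 2 * ε / r ^ 3)
    (m6 : T2 = r * u1 + (m + 1) * u0) (m6' : Tc = r * w1 + (m + 1) * w0)
    (m7 : u1 = r * u0 - r * P2) (m7' : w1 = r * w0 + R)
    (hS : ∑ a, ∑ b, A a b ^ 2 = S)
    (hAX : ∀ a, ∑ b, A a b * X0 a b = ∑ b, A a b * X a b)
    (t1 : ∀ a, u0 * (r * gv a) + k * (w0 * dw a) = 0)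
    (t2 : 0 ≤ u0 * L1 + ∑ a, (r * gv a) ^ 2 + k * (w0 * L2 + ∑ a, dw a ^ 2))
    (hL1 : L1 = r ^ 2 * (T2 - us - H) - r * (m * u1))
    (hL2 : L2 = - (S * w0) + 2 * ∑ a, ∑ b, A a b * (r * X0 a b)
      + (r ^ 2 * (Tc - ws - Hc) - r * (m * w1)))
    (hst : w0 ≠ 0 → r * P2 * u0 ≤ k * (w0 * R) → 0 ≤ u0 * H + k * (w0 * Hc)
      - k * ∑ a, ∑ b, X a b ^ 2 - r ^ 2 * P2 ^ 2 - k * R ^ 2
      - (1 + u0 ^ 2 / (k * w0 ^ 2)) * ∑ a, gv a ^ 2) : False := by
  have hη : 0 < ε / r ^ 2 / E ^ 2 := by positivity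
  have m1 := num1 hE r1
  have m2 := num2 hE hr r2
  obtain ⟨hTm, hw0n⟩ := num4 hr hη hu0 hP2 m1 m7 m7'
  have hAX2 : ∑ a, ∑ b, A a b * (r * X0 a b) = ∑ a, ∑ b, A a b * (r * X a b) := by
    refine Finset.sum_congr rfl fun a _ => ?_
    have h2 := congrArg (fun t => r * t) (hAX a)
    simp only [Finset.mul_sum] at h2
    refine Eq.trans ?_ (h2.trans ?_)
    · exact Finset.sum_congr rfl fun b _ => by ring
    · exact Finset.sum_congr rfl fun b _ => by ring
  have hcomp := completion A X w0 r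
  rw [hS] at hcomp
  rw [hAX2] at hL2
  have hDG := num3 hr hk hw0n t1
  have hr1 : r ≠ 0 := hr.ne'
  have m4 : 0 ≤ u0 * (r ^ 2 * (T2 - us - H) - r * (m * u1)) + r ^ 2 * ∑ a, gv a ^ 2
      + k * (w0 * ((- (S * w0) + 2 * ∑ a, ∑ b, A a b * (r * X a b))
        + (r ^ 2 * (Tc - ws - Hc) - r * (m * w1))) + r ^ 2 * ((∑ a, dw a ^ 2) / r ^ 2)) := by
    have e1 : ∑ a, (r * gv a) ^ 2 = r ^ 2 * ∑ a, gv a ^ 2 := by
      rw [Finset.mul_sum]
      exact Finset.sum_congr rfl fun a _ => by ring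
    have e2 : r ^ 2 * ((∑ a, dw a ^ 2) / r ^ 2) = ∑ a, dw a ^ 2 := by
      (clear * - hr1; field_simp)
    rw [e2, ← e1, ← hL1, ← hL2]
    exact t2
  have hfin := final_alg (k := k) hr hk hη hm m1 m2 m4 hcomp m6 m6' m7 m7'
  have hst' := hst hw0n hTm
  rw [hDG] at hfin
  rw [add_mul, one_mul] at hst'
  exact num5 hfin hst'

/-- no minimum in the interior -/
theorem contra (hm2 : 2 ≤ finrank ℝ V) (hW : finrank ℝ W = finrank ℝ V + 2) {F : M → W}
    (hF : SphImm V F) (hmin : ∀ x n, IsUnitNormal V F x n → meanCurv V F x n = 0)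
    (hV : VolChart V F) [IsFiniteMeasure (volM V F)] {N : M → W}
    (hNs : ContMDiff 𝓘(ℝ, V) 𝓘(ℝ, W) ∞ N)
    (hN : ∀ x, IsUnitNormal V F x (N x)) (hpos : ∀ z r, 0 < r → 0 < gV V F (fun _ => 1) z r)
    {ε : ℝ} (hε : 0 < ε) (p : M) {r : ℝ} (hr : 0 < r)
    (hmn : ∀ z' r', 0 < r' → gφ V F N p r + ε / r ≤ gφ V F N z' r' + ε / r') : False := by
  have hm : 0 < finrank ℝ V := by omega
  have hcF : Continuous F := hF.smooth.continuous
  have hcN : Continuous N := hNs.continuous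
  have hFp : ‖F p‖ = 1 := hF.unit p
  have hE0 : 0 < Real.exp (-r ^ 2 / 2) := Real.exp_pos _
  have hu0pos : 0 < U (volM V F) F (finrank ℝ V) (fun _ => 1) (r • F p) :=
    (pos_iff_pos_of_mul_pos (hpos p r hr)).mp hE0
  have one1 : ∀ (j : ℕ) (w : M → ℝ), U (volM V F) F j (fun x => 1 * w x) (r • F p)
      = U (volM V F) F j w (r • F p) := fun j w => U_congr (fun x => one_mul _) _ _
  have hP0 : 0 ≤ U (volM V F) F (finrank ℝ V) (fun x => ⟪N x, F p⟫ ^ 2) (r • F p) := by
    unfold U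
    exact integral_nonneg fun x => mul_nonneg (sq_nonneg _) (K_pos _ _).le
  -- radial conditions
  have hrad := radial_min
    (A := fun t => Real.exp (-t ^ 2 / 2) * U (volM V F) F (finrank ℝ V) (fun _ => 1) (t • F p))
    (A' := fun t => Real.exp (-t ^ 2 / 2)
        * (U (volM V F) F (finrank ℝ V + 1) (fun x => 1 * ⟪F x, F p⟫) (t • F p)
        - t * U (volM V F) F (finrank ℝ V) (fun _ => 1) (t • F p)))
    (B := fun t => Real.exp (-t ^ 2 / 2)
        * U (volM V F) F (finrank ℝ V) (fun x => ⟪N x, N p⟫) (t • F p))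
    (B' := fun t => Real.exp (-t ^ 2 / 2)
        * (U (volM V F) F (finrank ℝ V + 1) (fun x => ⟪N x, N p⟫ * ⟪F x, F p⟫)
        (t • F p) - t * U (volM V F) F (finrank ℝ V) (fun x => ⟪N x, N p⟫) (t • F p)))
    (k := 11 / 25) (ε := ε) hr
    (fun t => ray_deriv hcF continuous_const _ (F p) t)
    (ray_deriv2 hcF continuous_const _ (F p) r)
    (fun t => ray_deriv hcF (by fun_prop) _ (F p) t)
    (ray_deriv2 hcF (by fun_prop) _ (F p) r)
    (by
      filter_upwards [eventually_gt_nhds hr] with t ht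
      exact hmn p t ht)
  -- tangential conditions
  have htan := tangential_min (V := V) hF
    (v := fun q => U (volM V F) F (finrank ℝ V) (fun _ => 1) (r • F q))
    (w := fun q => U (volM V F) F (finrank ℝ V) (fun x => ⟪N x, N q⟫) (r • F q)) (k := 11 / 25)
    (p := p) (smooth_U hF _ continuous_const r) (smooth_W hF hNs _ r)
    (by
      refine Filter.Eventually.of_forall fun q => ?_
      have h := hmn q r hr
      unfold gφ gV at h
      have h2 : Real.exp (-r ^ 2 / 2) ^ 2 * (U (volM V F) F (finrank ℝ V) (fun _ => 1) (r • F p) ^ 2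
          + 11 / 25 * U (volM V F) F (finrank ℝ V) (fun x => ⟪N x, N p⟫) (r • F p) ^ 2)
          ≤ Real.exp (-r ^ 2 / 2) ^ 2 * (U (volM V F) F (finrank ℝ V) (fun _ => 1) (r • F q) ^ 2
          + 11 / 25 * U (volM V F) F (finrank ℝ V) (fun x => ⟪N x, N q⟫) (r • F q) ^ 2) := by
        simp only [mul_pow] at h
        (clear hm2 hW hF hmin hV hNs hN hpos hε hr hmn hm hcF hcN hFp hE0 hu0pos one1 hP0 hrad; linarith)
      exact le_of_mul_le_mul_left h2 (by positivity))
  obtain ⟨r1, r2⟩ := hrad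
  obtain ⟨t1, t2⟩ := htan
  simp only [one1] at r1 r2
  have dv : ∀ a, dl V F a (fun q => U (volM V F) F (finrank ℝ V) (fun _ => 1) (r • F q)) p
      = r * U (volM V F) F (finrank ℝ V + 1) (fun x => ⟪dl V F a F p, F x⟫) (r • F p) := by
    intro a
    rw [dl_U V hF a _ continuous_const r p, one1]
    congr 1
    exact U_congr (fun x => real_inner_comm _ _) _ _
  have lv := lap_U (μ := volM V F) hW hF hmin hNs hN (finrank ℝ V) (w := fun _ => 1)
    continuous_const r p
  simp only [one1] at lv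
  have lw := lap_W (μ := volM V F) hW hF hmin hNs hN (finrank ℝ V) r p
  have m6 := U_rec (μ := volM V F) hcF (w := fun _ => 1) continuous_const (finrank ℝ V) (F p) r
  simp only [one1] at m6
  have m6' := U_rec (μ := volM V F) hcF (w := fun x => ⟪N x, N p⟫) (by fun_prop)
    (finrank ℝ V) (F p) r
  have m7 := idA hm hW hF hmin hV hNs hN hFp r
  have m7' := idB hm hW hF hmin hV hNs hN hFp (hN p).2.1 r
  refine contra_num (k := 11 / 25) (E := Real.exp (-r ^ 2 / 2)) (ε := ε) (m := (finrank ℝ V : ℝ))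
    (A := fun a b => ⟪dl V F (stdOrthonormalBasis ℝ W a) N p, stdOrthonormalBasis ℝ W b⟫)
    (X := fun a b => U (volM V F) F (finrank ℝ V + 1)
        (fun x => ⟪dl V F (stdOrthonormalBasis ℝ W b) F p, N x⟫
          * ⟪dl V F (stdOrthonormalBasis ℝ W a) F p, F x⟫) (r • F p))
    (gv := fun a => U (volM V F) F (finrank ℝ V + 1)
        (fun x => ⟪dl V F (stdOrthonormalBasis ℝ W a) F p, F x⟫) (r • F p))
    hr hE0 hε (by norm_num) (by exact_mod_cast hm2) hu0pos hP0 r1 r2 m6 m6' m7 m7'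
    (trace_A hW hF hNs hN p).2 ?_ (fun a => ?_) (by simpa only [dv] using t2) lv lw ?_
  · intro a
    have h1 := tang_sum hW hF hNs hN (finrank ℝ V + 1) p (stdOrthonormalBasis ℝ W a)
      (g := fun x => ⟪F x, dl V F (stdOrthonormalBasis ℝ W a) F p⟫) (by fun_prop) (r • F p)
    refine h1.trans (Finset.sum_congr rfl fun b _ => ?_)
    congr 1
    exact U_congr (fun x => by rw [real_inner_comm (F x)]) _ _
  · have := t1 (stdOrthonormalBasis ℝ W a)
    rw [dv] at this
    exact this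
  · intro hw0n hTm
    exact static_pt hm hW hF hmin hV hNs hN p hr hu0pos hw0n rfl rfl rfl rfl rfl rfl hTm

end

end Vale.Agent.P224.PM

end
end

section
-- PM/Dens
section

/-!
P224: Gaussian density of an immersed hypersurface (helper109).
-/

namespace Vale.Agent.P224.PM

open MeasureTheory Filter Topology Set
open scoped RealInnerProductSpace ContDiff ENNReal Manifold

section basic

variable {m : ℕ}

lemma lint_exp (hm : 0 < m) :
    ∫⁻ w : EuclideanSpace ℝ (Fin m), ENNReal.ofReal (Real.exp (-‖w‖ ^ 2 / 2) * Real.sqrt (2 * Real.pi))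
      = ENNReal.ofReal ((2 * Real.pi) ^ (((m : ℝ) + 1) / 2)) := by
  have h := lint_gauss hm (b := 1 / 2) (by norm_num)
  have e : ∀ w : EuclideanSpace ℝ (Fin m),
      ENNReal.ofReal (Real.exp (-‖w‖ ^ 2 / 2) * Real.sqrt (2 * Real.pi)) =
        ENNReal.ofReal (Real.exp (-(1 / 2) * ‖w‖ ^ 2)) * ENNReal.ofReal (Real.sqrt (2 * Real.pi)) := by
    intro w
    rw [ENNReal.ofReal_mul (Real.exp_pos _).le]
    congr 3
    ring
  simp_rw [e]
  rw [lintegral_mul_const _ (by (clear * -; fun_prop)), h, ← ENNReal.ofReal_mul (by positivity)]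
  congr 1
  rw [Real.sqrt_eq_rpow, show Real.pi / (1 / 2) = 2 * Real.pi by ring,
    ← Real.rpow_add (by positivity)]
  congr 1
  ring

/-- linear change of variables -/
lemma lint_linear_exp {n : ℕ} (hm : 0 < m)
    (L : EuclideanSpace ℝ (Fin m) →L[ℝ] EuclideanSpace ℝ (Fin n)) (hL : Function.Injective L) :
    ∫⁻ z : EuclideanSpace ℝ (Fin m), ENNReal.ofReal ((Real.exp (-‖L z‖ ^ 2 / 2) *
      Real.sqrt (2 * Real.pi)) *
      Real.sqrt (Matrix.det (Matrix.of fun i j =>
        ⟪L (EuclideanSpace.single i 1), L (EuclideanSpace.single j 1)⟫)))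
      = ENNReal.ofReal ((2 * Real.pi) ^ (((m : ℝ) + 1) / 2)) := by
  set G0 : Matrix (Fin m) (Fin m) ℝ := Matrix.of fun i j =>
        ⟪L (EuclideanSpace.single i 1), L (EuclideanSpace.single j 1)⟫ with hG0
  have hG0' : G0 = Matrix.gram ℝ (fun i => L (EuclideanSpace.single i 1)) := by
    ext i j; rfl
  have hli : LinearIndependent ℝ (fun i => L (EuclideanSpace.single i (1 : ℝ))) := by
    have h1 := (EuclideanSpace.basisFun (Fin m) ℝ).toBasis.linearIndependent
    have hk : LinearMap.ker L.toLinearMap = ⊥ := by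
      rw [LinearMap.ker_eq_bot]
      exact hL
    have h2 := h1.map' _ hk
    have e : (fun i => L (EuclideanSpace.single i (1 : ℝ))) = (⇑L.toLinearMap ∘
        ⇑(EuclideanSpace.basisFun (Fin m) ℝ).toBasis) := by
      funext i
      simp only [ContinuousLinearMap.coe_coe, OrthonormalBasis.coe_toBasis, Function.comp_apply, EuclideanSpace.basisFun_apply]
    rw [e]
    exact h2
  have hpd : G0.PosDef := by
    rw [hG0']; exact Matrix.posDef_gram_of_linearIndependent hli
  obtain ⟨T, κ, hTG, -⟩ := exists_simul_diag G0 0 hpd (by simp)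
  have hdet : T.det * T.det * G0.det = 1 := by
    have := congrArg Matrix.det hTG
    rw [Matrix.det_mul, Matrix.det_mul, Matrix.det_transpose, Matrix.det_one] at this
    linarith only [this]
  have hTdet : T.det ≠ 0 := by
    intro h
    rw [h] at hdet
    simp only [mul_zero, zero_mul, zero_ne_one] at hdet
  set TL : EuclideanSpace ℝ (Fin m) →ₗ[ℝ] EuclideanSpace ℝ (Fin m) :=
    Matrix.toLpLin 2 2 T with hTL
  have hTLd : LinearMap.det TL = T.det := LinearMap.det_toLpLin 2 T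
  have hLsum : ∀ z : EuclideanSpace ℝ (Fin m), L z = ∑ b, z b • L (EuclideanSpace.single b 1) := by
    intro z
    have hx : z = ∑ b, z b • EuclideanSpace.single b (1 : ℝ) := by
      ext j
      simp only [WithLp.ofLp_sum, WithLp.ofLp_smul, PiLp.ofLp_single, Finset.sum_apply, Pi.smul_apply, Pi.single_apply, smul_eq_mul, mul_ite, mul_one, mul_zero, Finset.sum_ite_eq, Finset.mem_univ, ↓reduceIte]
    conv_lhs => rw [hx]
    rw [map_sum]
    simp only [map_smul]
  have hnorm : ∀ w, ‖L (TL w)‖ ^ 2 = ‖w‖ ^ 2 := by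
    intro w
    have h1 : ‖L (TL w)‖ ^ 2 = (w : Fin m → ℝ) ⬝ᵥ ((T.transpose * G0 * T).mulVec w) := by
      rw [← real_inner_self_eq_norm_sq, hLsum (TL w)]
      simp only [sum_inner, inner_sum, inner_smul_left, inner_smul_right, conj_trivial]
      have h2 : ∀ b, (TL w) b = (T.mulVec w) b := by
        intro b
        rw [hTL, Matrix.toLpLin_apply]
      simp only [h2]
      have h3 : (w : Fin m → ℝ) ⬝ᵥ ((T.transpose * G0 * T).mulVec w)
          = (T.mulVec w) ⬝ᵥ (G0.mulVec (T.mulVec w)) := by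
        rw [← Matrix.mulVec_mulVec, ← Matrix.mulVec_mulVec, Matrix.dotProduct_mulVec,
          Matrix.vecMul_transpose]
      rw [h3]
      generalize T.mulVec (w : Fin m → ℝ) = v
      simp only [Finset.mul_sum, dotProduct, Matrix.mulVec, hG0, Matrix.of_apply]
      apply Finset.sum_congr rfl
      intro i _
      apply Finset.sum_congr rfl
      intro j _
      rw [real_inner_comm (L (EuclideanSpace.single i 1)) (L (EuclideanSpace.single j 1))]
      ring
    rw [h1, hTG, Matrix.one_mulVec, EuclideanSpace.norm_eq, Real.sq_sqrt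
      (Finset.sum_nonneg fun i _ => by (clear * -; positivity))]
    simp only [dotProduct, Real.norm_eq_abs, pow_two, abs_mul_abs_self]
  have hmap := Measure.map_linearMap_addHaar_eq_smul_addHaar (f := TL)
    (volume : Measure (EuclideanSpace ℝ (Fin m))) (by rw [hTLd]; exact hTdet)
  have hcont : Continuous TL := TL.continuous_of_finiteDimensional
  set h : EuclideanSpace ℝ (Fin m) → ℝ≥0∞ := fun z =>
    ENNReal.ofReal ((Real.exp (-‖L z‖ ^ 2 / 2) * Real.sqrt (2 * Real.pi)) * Real.sqrt G0.det) with hh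
  have hmeas : Measurable h := by
    have : Continuous fun z : EuclideanSpace ℝ (Fin m) =>
        (Real.exp (-‖L z‖ ^ 2 / 2) * Real.sqrt (2 * Real.pi)) * Real.sqrt G0.det := by (clear * -; fun_prop)
    exact ENNReal.measurable_ofReal.comp this.measurable
  have h1 : ∫⁻ w, h (TL w) = ∫⁻ z, h z ∂(Measure.map TL volume) :=
    (lintegral_map hmeas hcont.measurable).symm
  rw [hmap, lintegral_smul_measure, hTLd, smul_eq_mul] at h1
  have h2 : ∫⁻ w, h (TL w) = ENNReal.ofReal ((2 * Real.pi) ^ (((m : ℝ) + 1) / 2)) *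
      ENNReal.ofReal (Real.sqrt G0.det) := by
    have : ∀ w, h (TL w) = ENNReal.ofReal (Real.exp (-‖w‖ ^ 2 / 2) * Real.sqrt (2 * Real.pi)) *
        ENNReal.ofReal (Real.sqrt G0.det) := by
      intro w
      simp only [hh]
      rw [hnorm, ENNReal.ofReal_mul (by positivity)]
    simp_rw [this]
    rw [lintegral_mul_const _ (by fun_prop), lint_exp hm]
  rw [h2] at h1
  have hs : Real.sqrt G0.det = |T.det⁻¹| := by
    have h3 : G0.det = (T.det⁻¹) ^ 2 := by
      field_simp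
      linarith only [hdet]
    rw [h3, Real.sqrt_sq_eq_abs]
  rw [hs] at h1
  have hne : ENNReal.ofReal |T.det⁻¹| ≠ 0 := by
    rw [ne_eq, ENNReal.ofReal_eq_zero, not_le]
    exact abs_pos.mpr (inv_ne_zero hTdet)
  rw [mul_comm] at h1
  exact ((ENNReal.mul_right_inj hne ENNReal.ofReal_ne_top).mp h1).symm

end basic

/-- The Gaussian density of an immersed piece at one of its points. -/
theorem dens_local {m n : ℕ} (hm : 0 < m)
    (f : EuclideanSpace ℝ (Fin m) → EuclideanSpace ℝ (Fin n))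
    (U : Set (EuclideanSpace ℝ (Fin m))) (hU : IsOpen U) (u₀ : EuclideanSpace ℝ (Fin m))
    (hu : u₀ ∈ U) (hf : ContDiffOn ℝ 1 f U) (hn : ∀ u ∈ U, ‖f u‖ = 1)
    (hinj : Function.Injective (fderiv ℝ f u₀)) {δ : ℝ} (hδ : 0 < δ)
    (hsub : Metric.ball u₀ δ ⊆ U) {ε : ℝ} (hε : 0 < ε) :
    ∀ᶠ r : ℝ in atTop,
      ENNReal.ofReal ((1 - ε) * (2 * Real.pi) ^ (((m : ℝ) + 1) / 2)) ≤ ∫⁻ u in Metric.ball u₀ δ,
        ENNReal.ofReal (Real.exp (-r ^ 2 / 2) * K m (r * ⟪f u, f u₀⟫) *
          Real.sqrt (Matrix.det (Matrix.of fun i j => ⟪fderiv ℝ f u (EuclideanSpace.single i 1),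
            fderiv ℝ f u (EuclideanSpace.single j 1)⟫))) := by
  set L := fderiv ℝ f u₀ with hL
  set D : EuclideanSpace ℝ (Fin m) → ℝ := fun u => Real.sqrt (Matrix.det (Matrix.of fun i j =>
    ⟪fderiv ℝ f u (EuclideanSpace.single i 1), fderiv ℝ f u (EuclideanSpace.single j 1)⟫)) with hD
  set g : ℝ → EuclideanSpace ℝ (Fin m) → ℝ≥0∞ := fun r u =>
    ENNReal.ofReal (Real.exp (-r ^ 2 / 2) * K m (r * ⟪f u, f u₀⟫) * D u) with hg
  set KK : ℝ → EuclideanSpace ℝ (Fin m) → ℝ≥0∞ := fun r z =>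
    ENNReal.ofReal (r⁻¹ ^ m) * (Metric.ball u₀ δ).indicator (g r) (u₀ + r⁻¹ • z) with hK
  have hfc : ContinuousOn f (Metric.ball u₀ δ) := (hf.continuousOn).mono hsub
  have hfdc : ContinuousOn (fderiv ℝ f) U := by
    have := hf.fderiv_of_isOpen (m := 0) hU (by norm_num)
    exact this.continuousOn
  have hDc : ContinuousOn D U := by
    apply Continuous.comp_continuousOn Real.continuous_sqrt
    apply (continuous_id.matrix_det).comp_continuousOn
    apply continuousOn_mat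
    intro i j
    exact (hfdc.clm_apply continuousOn_const).inner (𝕜 := ℝ) (hfdc.clm_apply continuousOn_const)
  have hKc : ∀ j, Continuous (K j) := fun j => (contDiff_K j).continuous
  -- measurability
  have hmeas : ∀ r, AEMeasurable (KK r) volume := by
    intro r
    have h1 : AEMeasurable ((Metric.ball u₀ δ).indicator (g r)) volume := by
      rw [aemeasurable_indicator_iff Metric.isOpen_ball.measurableSet]
      apply ENNReal.measurable_ofReal.comp_aemeasurable
      have h2 : ContinuousOn (fun u => Real.exp (-r ^ 2 / 2) * K m (r * ⟪f u, f u₀⟫) * D u)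
          (Metric.ball u₀ δ) :=
        (continuousOn_const.mul ((hKc m).comp_continuousOn
          (continuousOn_const.mul (hfc.inner (𝕜 := ℝ) continuousOn_const)))).mul (hDc.mono hsub)
      exact h2.aemeasurable Metric.isOpen_ball.measurableSet
    by_cases hc : r⁻¹ = 0
    · have : KK r = fun _ => ENNReal.ofReal (r⁻¹ ^ m) *
          (Metric.ball u₀ δ).indicator (g r) u₀ := by
        funext z
        simp only [hK, hc, zero_smul, add_zero]
      rw [this]
      exact aemeasurable_const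
    · apply AEMeasurable.const_mul
      have hmap := Measure.map_addHaar_smul (volume : Measure (EuclideanSpace ℝ (Fin m))) hc
      have hq1 : Measure.QuasiMeasurePreserving (fun z : EuclideanSpace ℝ (Fin m) => r⁻¹ • z)
          volume volume := by
        refine ⟨by fun_prop, ?_⟩
        rw [hmap]
        exact Measure.smul_absolutelyContinuous
      have hq2 : Measure.QuasiMeasurePreserving (fun z : EuclideanSpace ℝ (Fin m) => u₀ + z)
          volume volume := (measurePreserving_add_left volume u₀).quasiMeasurePreserving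
      exact h1.comp_quasiMeasurePreserving (hq2.comp hq1)
  have hrt : Tendsto (fun r : ℝ => r⁻¹) atTop (𝓝 0) := tendsto_inv_atTop_zero
  have hfd : HasFDerivAt f L u₀ :=
    ((hf.differentiableOn (by norm_num)).differentiableAt (hU.mem_nhds hu)).hasFDerivAt
  have hliminf : ∀ z, ENNReal.ofReal ((Real.exp (-‖L z‖ ^ 2 / 2) *
      Real.sqrt (2 * Real.pi)) * D u₀) ≤ liminf (fun r => KK r z) atTop := by
    intro z
    have hu' : Tendsto (fun r : ℝ => u₀ + r⁻¹ • z) atTop (𝓝 u₀) := by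
      have := (tendsto_const_nhds (x := u₀)).add (hrt.smul_const z)
      simpa only [zero_smul, add_zero] using this
    have hball : ∀ᶠ r : ℝ in atTop, u₀ + r⁻¹ • z ∈ Metric.ball u₀ δ :=
      hu'.eventually (Metric.ball_mem_nhds u₀ hδ)
    have hquot : Tendsto (fun r : ℝ => r • (f (u₀ + r⁻¹ • z) - f u₀)) atTop (𝓝 (L z)) := by
      have hder : HasDerivAt (fun t : ℝ => f (u₀ + t • z)) (L z) 0 := by
        have h3 : HasDerivAt (fun t : ℝ => u₀ + t • z) z 0 := by
          have := ((hasDerivAt_id (0 : ℝ)).smul_const z).const_add u₀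
          simpa using this
        have h4 : HasFDerivAt f L (u₀ + (0 : ℝ) • z) := by simpa only [zero_smul, add_zero] using hfd
        exact h4.comp_hasDerivAt 0 h3
      have h5 := hder.tendsto_slope_zero
      simp only [zero_add, zero_smul, add_zero] at h5
      have h6 : Tendsto (fun r : ℝ => r⁻¹) atTop (nhdsWithin 0 {0}ᶜ) :=
        tendsto_nhdsWithin_iff.mpr ⟨hrt, by
          filter_upwards [eventually_gt_atTop (0 : ℝ)] with r hr
          exact (inv_pos.mpr hr).ne'⟩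
      have h7 := h5.comp h6
      refine h7.congr' ?_
      filter_upwards [eventually_gt_atTop (0 : ℝ)] with r hr
      simp only [Function.comp, inv_inv]
    have hs1 : Tendsto (fun r : ℝ => ⟪f (u₀ + r⁻¹ • z), f u₀⟫) atTop (𝓝 1) := by
      have h1 : ContinuousAt f u₀ := hfd.continuousAt
      have h2 := (h1.tendsto.comp hu').inner (tendsto_const_nhds (x := f u₀)) (𝕜 := ℝ)
      have h3 : ⟪f u₀, f u₀⟫ = 1 := by
        rw [real_inner_self_eq_norm_sq, hn u₀ hu]; norm_num
      rw [h3] at h2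
      exact h2
    have hspos : ∀ᶠ r : ℝ in atTop, 0 < ⟪f (u₀ + r⁻¹ • z), f u₀⟫ :=
      hs1.eventually (lt_mem_nhds one_pos)
    have hrs : Tendsto (fun r : ℝ => r * ⟪f (u₀ + r⁻¹ • z), f u₀⟫) atTop atTop :=
      tendsto_id.atTop_mul_pos one_pos hs1
    have hreal : Tendsto (fun r : ℝ => ⟪f (u₀ + r⁻¹ • z), f u₀⟫ ^ m *
        (Real.exp (-(‖r • (f (u₀ + r⁻¹ • z) - f u₀)‖ ^ 2 / 2 *
          (1 + ⟪f (u₀ + r⁻¹ • z), f u₀⟫)) / 2) *
        (Real.exp (-(r * ⟪f (u₀ + r⁻¹ • z), f u₀⟫) ^ 2 / 2) *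
          K 0 (r * ⟪f (u₀ + r⁻¹ • z), f u₀⟫))) * D (u₀ + r⁻¹ • z)) atTop
        (𝓝 (1 ^ m * (Real.exp (-(‖L z‖ ^ 2 / 2 * (1 + 1)) / 2) * Real.sqrt (2 * Real.pi)) *
          D u₀)) := by
      apply Tendsto.mul
      · apply Tendsto.mul
        · exact hs1.pow m
        · apply Tendsto.mul
          · apply (Real.continuous_exp.tendsto _).comp
            exact ((((hquot.norm.pow 2).div_const 2).mul (hs1.const_add 1)).neg).div_const 2
          · exact tendsto_K0.comp hrs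
      · exact ((hDc.continuousAt (hU.mem_nhds hu)).tendsto).comp hu'
    have hval : (1 : ℝ) ^ m * (Real.exp (-(‖L z‖ ^ 2 / 2 * (1 + 1)) / 2) *
        Real.sqrt (2 * Real.pi)) * D u₀ =
        (Real.exp (-‖L z‖ ^ 2 / 2) * Real.sqrt (2 * Real.pi)) * D u₀ := by
      rw [one_pow, one_mul]
      congr 3
      ring
    rw [hval] at hreal
    have hlim := (ENNReal.tendsto_ofReal hreal).liminf_eq
    rw [← hlim]
    refine liminf_le_liminf ?_
    filter_upwards [hball, hspos, eventually_gt_atTop (0 : ℝ)] with r hb hs hr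
    simp only [hK]
    rw [indicator_of_mem hb]
    simp only [hg]
    rw [← ENNReal.ofReal_mul (by (clear * - hr; positivity))]
    apply ENNReal.ofReal_le_ofReal
    set s := ⟪f (u₀ + r⁻¹ • z), f u₀⟫ with hsdef
    have hD0 : 0 ≤ D (u₀ + r⁻¹ • z) := Real.sqrt_nonneg _
    have hge := K_ge m (mul_pos hr hs).le
    have hnn : ‖r • (f (u₀ + r⁻¹ • z) - f u₀)‖ ^ 2 = r ^ 2 * (2 * (1 - s)) := by
      rw [norm_smul, mul_pow, Real.norm_eq_abs, sq_abs, @norm_sub_sq ℝ, hn _ (hsub hb), hn _ hu]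
      simp only [RCLike.re_to_real, ← hsdef]
      ring
    rw [hnn]
    have hexp : Real.exp (-(r ^ 2 * (2 * (1 - s)) / 2 * (1 + s)) / 2) *
        Real.exp (-(r * s) ^ 2 / 2) = Real.exp (-r ^ 2 / 2) := by
      rw [← Real.exp_add]
      congr 1
      ring
    have hri : r⁻¹ ^ m * (r * s) ^ m = s ^ m := by
      rw [← mul_pow, ← mul_assoc, inv_mul_cancel₀ hr.ne', one_mul]
    calc s ^ m * (Real.exp (-(r ^ 2 * (2 * (1 - s)) / 2 * (1 + s)) / 2) *
          (Real.exp (-(r * s) ^ 2 / 2) * K 0 (r * s))) * D (u₀ + r⁻¹ • z)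
        = r⁻¹ ^ m * (Real.exp (-r ^ 2 / 2) * ((r * s) ^ m * K 0 (r * s)) *
            D (u₀ + r⁻¹ • z)) := by
          rw [← hexp, ← hri]; ring
      _ ≤ r⁻¹ ^ m * (Real.exp (-r ^ 2 / 2) * K m (r * s) * D (u₀ + r⁻¹ • z)) := by
          apply mul_le_mul_of_nonneg_left _ (by (clear * - hr; positivity))
          apply mul_le_mul_of_nonneg_right _ hD0
          exact mul_le_mul_of_nonneg_left hge (Real.exp_pos _).le
  -- Fatou
  have hfatou := lintegral_liminf_le' (μ := (volume : Measure (EuclideanSpace ℝ (Fin m))))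
    (f := KK) (u := (atTop : Filter ℝ)) hmeas
  have hle : ENNReal.ofReal ((2 * Real.pi) ^ (((m : ℝ) + 1) / 2)) ≤
      liminf (fun r => ∫⁻ z, KK r z) atTop := by
    rw [← lint_linear_exp hm L hinj]
    exact (lintegral_mono hliminf).trans hfatou
  have hs0 : 0 < (2 * Real.pi) ^ (((m : ℝ) + 1) / 2) := by positivity
  have hlt : ENNReal.ofReal ((1 - ε) * (2 * Real.pi) ^ (((m : ℝ) + 1) / 2)) <
      liminf (fun r => ∫⁻ z, KK r z) atTop := by
    refine lt_of_lt_of_le ?_ hle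
    rw [ENNReal.ofReal_lt_ofReal_iff hs0]
    nlinarith only [hε, hs0]
  have hev := eventually_lt_of_lt_liminf hlt
  filter_upwards [hev, eventually_gt_atTop (0 : ℝ)] with r h1 hr
  have h2 : ∫⁻ z, KK r z = ∫⁻ u in Metric.ball u₀ δ, g r u := by
    rw [← lintegral_indicator Metric.isOpen_ball.measurableSet]
    rw [lint_scale u₀ (inv_pos.mpr hr) ((Metric.ball u₀ δ).indicator (g r)),
      ← lintegral_const_mul' _ _ ENNReal.ofReal_ne_top]
  rw [h2] at h1
  exact h1.le

open Metric Module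

variable {V W M : Type*} [NormedAddCommGroup V] [InnerProductSpace ℝ V] [FiniteDimensional ℝ V]
  [NormedAddCommGroup W] [InnerProductSpace ℝ W] [FiniteDimensional ℝ W]
  [TopologicalSpace M] [ChartedSpace V M] {F : M → W}
  [MeasurableSpace V] [BorelSpace V] [MeasurableSpace M] [BorelSpace M]

/-- The Gaussian density at one point. -/
theorem dens_at [IsManifold 𝓘(ℝ, V) ∞ M] (hm : 0 < finrank ℝ V)
    (hW : finrank ℝ W = finrank ℝ V + 2) (hF : SphImm V F) (p : M) {ε : ℝ} (hε : 0 < ε) :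
    ∀ᶠ r : ℝ in atTop,
      ENNReal.ofReal ((1 - ε) * (2 * Real.pi) ^ (((finrank ℝ V : ℝ) + 1) / 2)) ≤
        ∫⁻ x, ENNReal.ofReal (Real.exp (-r ^ 2 / 2) * K (finrank ℝ V) (r * ⟪F x, F p⟫))
          ∂(volM V F) := by
  set χ := chartAt V p with hχ
  have hps := mem_chart_source V p
  have hut : χ p ∈ χ.target := χ.map_source hps
  obtain ⟨δ, hδ, hball⟩ := Metric.isOpen_iff.mp χ.open_target _ hut
  have hI := (immV_rep hF p)
  have hI' := hI.imm hW
  have hsub : Metric.ball (iV V (χ p)) δ ⊆ (iV V).symm ⁻¹' χ.target := by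
    intro u hu
    rw [mem_preimage]
    have : (iV V).symm u ∈ Metric.ball (χ p) δ := by
      rw [mem_ball] at hu ⊢
      rw [← (iV V).symm.dist_map] at hu
      simpa only [LinearIsometryEquiv.symm_apply_apply] using hu
    exact hball this
  have hmem : iV V (χ p) ∈ (iV V).symm ⁻¹' χ.target := by
    rw [mem_preimage, (iV V).symm_apply_apply]; exact hut
  have hd := dens_local hm (tr hW (rep (V := V) F p)) ((iV V).symm ⁻¹' χ.target) hI'.isOpen
    (iV V (χ p)) hmem (hI'.smooth.of_le (by norm_cast)) hI'.unit (hI'.inj _ hmem) hδ hsub hε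
  filter_upwards [hd] with r hr
  refine hr.trans ?_
  -- lower bound by the chart measure
  have hle : chartMeas (V := V) F p ≤ volM V F := by
    rw [← volM_restrict_source hF p]
    exact Measure.restrict_le_self
  set k : M → ℝ≥0∞ := fun x =>
    ENNReal.ofReal (Real.exp (-r ^ 2 / 2) * K (finrank ℝ V) (r * ⟪F x, F p⟫)) with hk
  have hKm : Measurable k := by
    have hFc : Continuous F := hF.1.continuous
    have hKc : Continuous (K (finrank ℝ V)) := (contDiff_K _).continuous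
    have : Continuous fun x => Real.exp (-r ^ 2 / 2) * K (finrank ℝ V) (r * ⟪F x, F p⟫) :=
      continuous_const.mul (hKc.comp (continuous_const.mul (hFc.inner continuous_const)))
    exact ENNReal.measurable_ofReal.comp this.measurable
  have h1 : ∫⁻ x, k x ∂(chartMeas (V := V) F p) ≤ ∫⁻ x, k x ∂(volM V F) :=
    lintegral_mono' hle le_rfl
  refine le_trans ?_ h1
  have hTm := χ.open_target.measurableSet
  unfold chartMeas
  rw [lintegral_map' hKm.aemeasurable
      (χ.continuousOn_symm.aemeasurable hTm), restrict_withDensity hTm,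
      lintegral_withDensity_eq_lintegral_mul₀]
  · -- compare on the ball
    have h2 : ∫⁻ u in Metric.ball (χ p) δ, ((fun u : V =>
        ENNReal.ofReal (Real.sqrt (metricMat (rep F p) u).det)) *
          fun a => k (χ.symm a)) u ≤
        ∫⁻ u in χ.target, ((fun u : V =>
        ENNReal.ofReal (Real.sqrt (metricMat (rep F p) u).det)) *
          fun a => k (χ.symm a)) u :=
      lintegral_mono_set hball
    refine le_trans ?_ h2
    have hmp : MeasurePreserving (iV V) := (iV V).measurePreserving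
    have hme : MeasurableEmbedding (iV V) := (iV V).toHomeomorph.measurableEmbedding
    have hpre : (iV V) ⁻¹' (Metric.ball (iV V (χ p)) δ) = Metric.ball (χ p) δ := by
      ext u
      rw [mem_preimage, mem_ball, mem_ball, (iV V).dist_map]
    rw [← hmp.setLIntegral_comp_preimage_emb hme, hpre]
    apply setLIntegral_mono_ae' measurableSet_ball
    refine Eventually.of_forall fun u hu => ?_
    rw [Pi.mul_apply]
    have e1 : tr hW (rep (V := V) F p) (iV V u) = iW hW (F (χ.symm u)) := by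
      unfold tr rep
      rw [(iV V).symm_apply_apply]
    have e2 : tr hW (rep (V := V) F p) (iV V (χ p)) = iW hW (F p) := by
      unfold tr rep
      rw [(iV V).symm_apply_apply, χ.left_inv hps]
    have e3 : (Matrix.of fun i j => ⟪fderiv ℝ (tr hW (rep (V := V) F p)) (iV V u)
        (EuclideanSpace.single i 1), fderiv ℝ (tr hW (rep (V := V) F p)) (iV V u)
        (EuclideanSpace.single j 1)⟫) = metricMat (rep F p) u := by
      rw [← G_tr hW (rep F p) u]
      rfl
    rw [e1, e2, e3, (iW hW).inner_map_map, hk]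
    beta_reduce
    rw [mul_comm (Real.exp (-r ^ 2 / 2) * _), ENNReal.ofReal_mul (Real.sqrt_nonneg _)]
  · exact ((measurable_rep_det hF p).aemeasurable hTm).ennreal_ofReal
  · exact hKm.comp_aemeasurable (χ.continuousOn_symm.aemeasurable hTm)

/-- **The Gaussian density of a compact immersed hypersurface at one of its points.** -/
theorem gauss_density [IsManifold 𝓘(ℝ, V) ∞ M] [CompactSpace M] [T2Space M]
    (hm : 0 < finrank ℝ V) (hW : finrank ℝ W = finrank ℝ V + 2) (hF : SphImm V F)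
    (z : M) {ε : ℝ} (hε : 0 < ε) :
    ∀ᶠ r : ℝ in atTop, sphereVol (finrank ℝ V) * K (finrank ℝ V) 0 - ε ≤
        Real.exp (-r ^ 2 / 2) * ∫ x, K (finrank ℝ V) (r * ⟪F x, F z⟫) ∂(volM V F) := by
  have := isFiniteMeasure_volM (V := V) hF
  rw [K_zero]
  set c : ℝ := (2 * Real.pi) ^ (((finrank ℝ V : ℝ) + 1) / 2) with hc
  have hc0 : 0 < c := by positivity
  have hd := dens_at hm hW hF z (ε := ε / c) (by positivity)
  filter_upwards [hd] with r hr
  have hFc : Continuous F := hF.1.continuous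
  have hKc : Continuous (K (finrank ℝ V)) := (contDiff_K _).continuous
  have hkc : Continuous fun x => Real.exp (-r ^ 2 / 2) * K (finrank ℝ V) (r * ⟪F x, F z⟫) :=
    continuous_const.mul (hKc.comp (continuous_const.mul (hFc.inner continuous_const)))
  have hk0 : ∀ x, 0 ≤ Real.exp (-r ^ 2 / 2) * K (finrank ℝ V) (r * ⟪F x, F z⟫) :=
    fun x => mul_nonneg (Real.exp_pos _).le (K_pos _ _).le
  have hki : Integrable (fun x => Real.exp (-r ^ 2 / 2) * K (finrank ℝ V) (r * ⟪F x, F z⟫))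
      (volM V F) := by
    obtain ⟨C, hC⟩ := (isCompact_univ (X := M)).exists_bound_of_continuousOn hkc.continuousOn
    exact Integrable.mono' (integrable_const C) hkc.aestronglyMeasurable
      (Eventually.of_forall fun x => hC x (mem_univ x))
  rw [← ofReal_integral_eq_lintegral_ofReal hki (Eventually.of_forall hk0),
    ENNReal.ofReal_le_ofReal_iff (integral_nonneg hk0), integral_const_mul] at hr
  refine le_trans (le_of_eq ?_) hr
  rw [← hc, sub_mul, one_mul, div_mul_cancel₀ _ hc0.ne']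

end Vale.Agent.P224.PM

end
end

section
-- PM/Limit
section

/-! P224, PM: the Gaussian functional along rays: monotonicity, bounds, closeness of normals. -/

namespace Vale.Agent.P224.PM

open MeasureTheory Set Filter Topology Module Vale.Agent.P224 Vale.Agent.P224.FV
open scoped ContDiff RealInnerProductSpace Manifold

section

variable {V W M : Type*} [NormedAddCommGroup V] [InnerProductSpace ℝ V] [FiniteDimensional ℝ V]
  [NormedAddCommGroup W] [InnerProductSpace ℝ W] [FiniteDimensional ℝ W]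
  [TopologicalSpace M] [ChartedSpace V M]

/-- the square of the normal component of a fixed vector is continuous -/
theorem limit_cont_normal [IsManifold 𝓘(ℝ, V) ∞ M] (hW : finrank ℝ W = finrank ℝ V + 2)
    {F : M → W} (hF : SphImm V F) {N : M → W} (hN : ∀ x, IsUnitNormal V F x (N x)) (y : W) :
    Continuous fun x => ⟪N x, y⟫ ^ 2 := by
  have h1 : Continuous (dl V F y fun q => ⟪F q, y⟫) :=
    continuous_dl hF y (smooth_inner hF.smooth y)
  have h2 : ∀ x, ⟪N x, y⟫ ^ 2 = ‖y‖ ^ 2 - ⟪F x, y⟫ ^ 2 - dl V F y (fun q => ⟪F q, y⟫) x := by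
    intro x
    rw [dl_inner y hF.smooth, dl_F hW hF hN]
    simp only [inner_sub_left, real_inner_smul_left, real_inner_self_eq_norm_sq]
    rw [real_inner_comm (F x) y, real_inner_comm (N x) y]
    ring
  have h3 : Continuous fun x => ⟪F x, y⟫ := hF.smooth.continuous.inner continuous_const
  simp only [h2]
  exact (continuous_const.sub (h3.pow 2)).sub h1

variable [MeasurableSpace V] [BorelSpace V] [MeasurableSpace M] [BorelSpace M]

/-- the identity behind the monotonicity -/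
theorem limit_ident [IsManifold 𝓘(ℝ, V) ∞ M] [CompactSpace M] [T2Space M]
    (hm : 0 < finrank ℝ V) (hW : finrank ℝ W = finrank ℝ V + 2) {F : M → W}
    (hF : SphImm V F) (hmin : ∀ x n, IsUnitNormal V F x n → meanCurv V F x n = 0)
    (hV : VolChart V F) [IsFiniteMeasure (volM V F)] {N : M → W}
    (hN : ∀ x, IsUnitNormal V F x (N x)) (z : M) (r : ℝ) :
    U (volM V F) F (finrank ℝ V + 1) (fun x => 1 * ⟪F x, F z⟫) (r • F z) -
        r * U (volM V F) F (finrank ℝ V) (fun _ => 1) (r • F z) =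
      -r * ∫ x, ⟪N x, F z⟫ ^ 2 * K (finrank ℝ V) (r * ⟪F x, F z⟫) ∂(volM V F) := by
  obtain ⟨l, hl⟩ : ∃ l, finrank ℝ V = l + 1 := ⟨finrank ℝ V - 1, by omega⟩
  have hcF : Continuous F := hF.smooth.continuous
  have hcs : Continuous fun x => ⟪F x, F z⟫ := hcF.inner continuous_const
  have hKc : ∀ j, Continuous fun x => K j (r * ⟪F x, F z⟫) := fun j =>
    (contDiff_K j).continuous.comp (continuous_const.mul hcs)
  have hcn := limit_cont_normal hW hF hN (F z)
  have hw : ∀ t : ℝ, HasDerivAt (fun t : ℝ => K l (r * t)) (r * K (l + 1) (r * t)) t := by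
    intro t
    have h1 := (hasDerivAt_K l (r * t)).comp t ((hasDerivAt_id t).const_mul r)
    refine h1.congr_deriv ?_
    simp only [mul_one]
    ring
  have h1 := ident1 hW hF hmin hV hN (hF.unit z) (w := fun t => K l (r * t))
    (fun p => ((contDiff_K l).comp (contDiff_const.mul contDiff_id)).contDiffAt)
  have hd : ∀ t : ℝ, deriv (fun t : ℝ => K l (r * t)) t = r * K (l + 1) (r * t) := fun t =>
    (hw t).deriv
  simp only [hd] at h1
  rw [hl] at h1 ⊢
  unfold U
  simp only [real_inner_smul_right, one_mul]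
  have j1 : Integrable (fun x => ⟪F x, F z⟫ * K (l + 1 + 1) (r * ⟪F x, F z⟫)) (volM V F) :=
    integrable_of_cont _ (hcs.mul (hKc _))
  have j2 : Integrable (fun x => r * K (l + 1) (r * ⟪F x, F z⟫)) (volM V F) :=
    integrable_of_cont _ (continuous_const.mul (hKc _))
  rw [← integral_const_mul, ← integral_const_mul, ← integral_sub j1 j2]
  have e1 : ∀ x, ⟪F x, F z⟫ * K (l + 1 + 1) (r * ⟪F x, F z⟫) - r * K (l + 1) (r * ⟪F x, F z⟫) =
      -r * (⟪N x, F z⟫ ^ 2 * K (l + 1) (r * ⟪F x, F z⟫)) +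
      (((l + 1 : ℕ) : ℝ) * (⟪F x, F z⟫ * K l (r * ⟪F x, F z⟫)) -
        r * K (l + 1) (r * ⟪F x, F z⟫) * (1 - ⟪F x, F z⟫ ^ 2 - ⟪N x, F z⟫ ^ 2)) := by
    intro x
    rw [K_rec]
    push_cast
    ring
  simp only [e1]
  have i1 : Integrable (fun x => -r * (⟪N x, F z⟫ ^ 2 * K (l + 1) (r * ⟪F x, F z⟫)))
      (volM V F) := integrable_of_cont _ (continuous_const.mul (hcn.mul (hKc _)))
  have i2 : Integrable (fun x => ((l + 1 : ℕ) : ℝ) * (⟪F x, F z⟫ * K l (r * ⟪F x, F z⟫)))
      (volM V F) := integrable_of_cont _ (continuous_const.mul (hcs.mul (hKc _)))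
  have i3 : Integrable (fun x => r * K (l + 1) (r * ⟪F x, F z⟫) *
      (1 - ⟪F x, F z⟫ ^ 2 - ⟪N x, F z⟫ ^ 2)) (volM V F) :=
    integrable_of_cont _ ((continuous_const.mul (hKc _)).mul
      ((continuous_const.sub (hcs.pow 2)).sub hcn))
  have i4 : Integrable (fun x => ((l + 1 : ℕ) : ℝ) * (⟪F x, F z⟫ * K l (r * ⟪F x, F z⟫)) -
      r * K (l + 1) (r * ⟪F x, F z⟫) * (1 - ⟪F x, F z⟫ ^ 2 - ⟪N x, F z⟫ ^ 2)) (volM V F) :=
    i2.sub i3
  rw [integral_add i1 i4]
  have e2 : ∫ x, (((l + 1 : ℕ) : ℝ) * (⟪F x, F z⟫ * K l (r * ⟪F x, F z⟫)) -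
        r * K (l + 1) (r * ⟪F x, F z⟫) * (1 - ⟪F x, F z⟫ ^ 2 - ⟪N x, F z⟫ ^ 2)) ∂(volM V F) = 0 := by
    rw [integral_sub i2 i3, integral_const_mul, h1, sub_self]
  rw [e2, add_zero]

/-- derivative of the Gaussian functional along a ray -/
theorem limit_deriv [IsManifold 𝓘(ℝ, V) ∞ M] [CompactSpace M] [T2Space M]
    (hm : 0 < finrank ℝ V) (hW : finrank ℝ W = finrank ℝ V + 2) {F : M → W}
    (hF : SphImm V F) (hmin : ∀ x n, IsUnitNormal V F x n → meanCurv V F x n = 0)
    (hV : VolChart V F) [IsFiniteMeasure (volM V F)] {N : M → W}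
    (hN : ∀ x, IsUnitNormal V F x (N x)) (z : M) (r : ℝ) :
    HasDerivAt (fun r : ℝ => Real.exp (-r ^ 2 / 2) *
        U (volM V F) F (finrank ℝ V) (fun _ => 1) (r • F z))
      (-(r * (Real.exp (-r ^ 2 / 2) *
        ∫ x, ⟪N x, F z⟫ ^ 2 * K (finrank ℝ V) (r * ⟪F x, F z⟫) ∂(volM V F)))) r := by
  have h1 : HasDerivAt (fun r : ℝ => Real.exp (-r ^ 2 / 2)) (-r * Real.exp (-r ^ 2 / 2)) r := by
    have h2 : HasDerivAt (fun r : ℝ => -r ^ 2 / 2) (-r) r := by
      refine ((hasDerivAt_pow 2 r).neg.div_const 2).congr_deriv ?_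
      norm_num
      ring
    refine h2.exp.congr_deriv ?_
    ring
  have h2 := hasDerivAt_U_ray (μ := volM V F) hF.smooth.continuous
    (continuous_const : Continuous fun _ : M => (1 : ℝ)) (finrank ℝ V) (F z) r
  refine (h1.mul h2).congr_deriv ?_
  have h3 := limit_ident hm hW hF hmin hV hN z r
  have h4 : U (volM V F) F (finrank ℝ V + 1) (fun x => 1 * ⟪F x, F z⟫) (r • F z) =
      r * U (volM V F) F (finrank ℝ V) (fun _ => 1) (r • F z) +
      -r * ∫ x, ⟪N x, F z⟫ ^ 2 * K (finrank ℝ V) (r * ⟪F x, F z⟫) ∂(volM V F) := by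
    rw [← h3]
    ring
  rw [h4]
  ring

/-- the Gaussian functional is antitone along rays -/
theorem limit_antitone [IsManifold 𝓘(ℝ, V) ∞ M] [CompactSpace M] [T2Space M]
    (hm : 0 < finrank ℝ V) (hW : finrank ℝ W = finrank ℝ V + 2) {F : M → W}
    (hF : SphImm V F) (hmin : ∀ x n, IsUnitNormal V F x n → meanCurv V F x n = 0)
    (hV : VolChart V F) [IsFiniteMeasure (volM V F)] {N : M → W}
    (hN : ∀ x, IsUnitNormal V F x (N x)) (z : M) :
    AntitoneOn (fun r : ℝ => Real.exp (-r ^ 2 / 2) *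
        U (volM V F) F (finrank ℝ V) (fun _ => 1) (r • F z)) (Ici 0) := by
  have hd := limit_deriv hm hW hF hmin hV hN z
  refine antitoneOn_of_deriv_nonpos (convex_Ici 0)
    (fun r _ => (hd r).continuousAt.continuousWithinAt)
    (fun r _ => (hd r).differentiableAt.differentiableWithinAt) fun r hr => ?_
  rw [interior_Ici] at hr
  have hr0 : (0 : ℝ) < r := hr
  rw [(hd r).deriv]
  have h1 : 0 ≤ ∫ x, ⟪N x, F z⟫ ^ 2 * K (finrank ℝ V) (r * ⟪F x, F z⟫) ∂(volM V F) :=
    integral_nonneg fun x => mul_nonneg (sq_nonneg _) (K_pos _ _).le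
  have h2 : 0 ≤ r * (Real.exp (-r ^ 2 / 2) *
      ∫ x, ⟪N x, F z⟫ ^ 2 * K (finrank ℝ V) (r * ⟪F x, F z⟫) ∂(volM V F)) := by (clear hm hW hF hmin hV hN hd; positivity)
  (clear hm hW hF hmin hV hN hd; linarith)

/-- lower bound of the Gaussian functional -/
theorem V_ge [IsManifold 𝓘(ℝ, V) ∞ M] [CompactSpace M] [T2Space M]
    (hm : 0 < finrank ℝ V) (hW : finrank ℝ W = finrank ℝ V + 2) {F : M → W}
    (hF : SphImm V F) (hmin : ∀ x n, IsUnitNormal V F x n → meanCurv V F x n = 0)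
    (hV : VolChart V F) [IsFiniteMeasure (volM V F)] {N : M → W}
    (hN : ∀ x, IsUnitNormal V F x (N x)) (z : M) {r : ℝ} (hr : 0 < r) :
    sphereVol (finrank ℝ V) * K (finrank ℝ V) 0 ≤
      Real.exp (-r ^ 2 / 2) * U (volM V F) F (finrank ℝ V) (fun _ => 1) (r • F z) := by
  refine le_of_forall_sub_le fun ε hε => ?_
  have h1 := gauss_density hm hW hF z hε
  obtain ⟨R, hR1, hR2⟩ := (h1.and (eventually_ge_atTop r)).exists
  have h2 := limit_antitone hm hW hF hmin hV hN z (mem_Ici.2 hr.le)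
    (mem_Ici.2 (hr.le.trans hR2)) hR2
  refine hR1.trans (le_trans (le_of_eq ?_) h2)
  simp only [U, real_inner_smul_right, one_mul]

/-- upper bound of the Gaussian functional -/
theorem V_le [IsManifold 𝓘(ℝ, V) ∞ M] [CompactSpace M] [T2Space M]
    (hm : 0 < finrank ℝ V) (hW : finrank ℝ W = finrank ℝ V + 2) {F : M → W}
    (hF : SphImm V F) (hmin : ∀ x n, IsUnitNormal V F x n → meanCurv V F x n = 0)
    (hV : VolChart V F) [IsFiniteMeasure (volM V F)] {N : M → W}
    (hN : ∀ x, IsUnitNormal V F x (N x)) (z : M) {r : ℝ} (hr : 0 < r) :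
    Real.exp (-r ^ 2 / 2) * U (volM V F) F (finrank ℝ V) (fun _ => 1) (r • F z) ≤
      (volM V F).real univ * K (finrank ℝ V) 0 := by
  have h2 := limit_antitone hm hW hF hmin hV hN z (mem_Ici.2 le_rfl) (mem_Ici.2 hr.le) hr.le
  refine h2.trans (le_of_eq ?_)
  simp [U]

/-- the normals are close where the kernel is large -/
theorem W_close [IsManifold 𝓘(ℝ, V) ∞ M] [CompactSpace M] [T2Space M] {F : M → W}
    (hF : SphImm V F) [IsFiniteMeasure (volM V F)] {N : M → W}
    (hN : ∀ x, IsUnitNormal V F x (N x)) (hcN : Continuous N) (hinj : Function.Injective F)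
    {η : ℝ} (hη : 0 < η) (C : ℝ)
    (hC : ∀ᶠ r : ℝ in atTop, ∀ z, Real.exp (-r ^ 2 / 2) *
      U (volM V F) F (finrank ℝ V) (fun _ => 1) (r • F z) ≤ C) :
    ∀ᶠ r : ℝ in atTop, ∀ z, Real.exp (-r ^ 2 / 2) *
      U (volM V F) F (finrank ℝ V) (fun x => 1 - ⟪N x, N z⟫) (r • F z) ≤ η := by
  have hcF : Continuous F := hF.smooth.continuous
  let _ : MeasurableSpace W := borel W
  have : BorelSpace W := ⟨rfl⟩
  set C' : ℝ := max C 0 + 1 with hC'
  have hC'0 : 0 < C' := by have := le_max_right C 0; linarith only [this]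
  obtain ⟨δ, hδ, hclose⟩ := close_normals hcF hcN hinj hF.unit (fun x => (hN x).1)
    (η := η / (2 * C')) (by (clear * - hη; positivity))
  set A : ℝ := (volM V F).real univ with hA
  have hA0 : 0 ≤ A := measureReal_nonneg
  have hδ1 : 0 < min δ 1 := lt_min hδ one_pos
  have hsmall : ∀ᶠ r : ℝ in atTop, Real.exp (-r ^ 2 / 2) *
      K (finrank ℝ V) (r * (1 - min δ 1)) < η / (4 * (A + 1)) :=
    (K_small (finrank ℝ V) hδ1 (min_le_right _ _)).eventually_lt_const (by (clear hF N hN hcN hinj C hC hcF C' hC' hC'0 δ hδ hclose hA hA0 hδ1; positivity))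
  filter_upwards [hsmall, hC, eventually_gt_atTop 0] with r h1 h2 hr z
  have hs : ∀ x, ⟪F x, F z⟫ = ⟪F x, F z⟫ := fun x => rfl
  set E : ℝ := Real.exp (-r ^ 2 / 2) with hE
  have hE0 : 0 < E := Real.exp_pos _
  set κ : ℝ := K (finrank ℝ V) (r * (1 - min δ 1)) with hκ
  have hκ0 : 0 < κ := K_pos _ _
  have hpt : ∀ x, (1 - ⟪N x, N z⟫) * K (finrank ℝ V) ⟪F x, r • F z⟫ ≤
      η / (2 * C') * (1 * K (finrank ℝ V) ⟪F x, r • F z⟫) + 2 * κ := by
    intro x
    have hk0 := (K_pos (finrank ℝ V) ⟪F x, r • F z⟫).le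
    by_cases hx : 1 - δ < ⟪F x, F z⟫
    · have h3 := hclose x z hx
      have h4 := mul_le_mul_of_nonneg_right h3.le hk0
      have h5 : 0 ≤ 2 * κ := by (clear * - hκ0; positivity)
      linarith only [hκ0, h4]
    · have hx' : ⟪F x, F z⟫ ≤ 1 - min δ 1 := by
        have := min_le_left δ 1
        have := not_lt.mp hx
        (clear hF N hN hcN hinj η hη C hC hcF C' hC' hC'0 hδ hclose A hA hA0 hδ1 hsmall r hr hs E h2 hE hE0 κ h1 hκ hκ0 hk0 this; linarith)
      have h3 : K (finrank ℝ V) ⟪F x, r • F z⟫ ≤ κ := by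
        rw [real_inner_smul_right]
        exact K_mono _ (mul_le_mul_of_nonneg_left hx' hr.le)
      have h4 : 1 - ⟪N x, N z⟫ ≤ 2 := by
        have h5 := abs_real_inner_le_norm (N x) (N z)
        rw [(hN x).1, (hN z).1, mul_one] at h5
        have := (abs_le.mp h5).1
        linarith only [this]
      have h6 : 0 ≤ η / (2 * C') * (1 * K (finrank ℝ V) ⟪F x, r • F z⟫) := by (clear * - hη hk0; positivity)
      calc (1 - ⟪N x, N z⟫) * K (finrank ℝ V) ⟪F x, r • F z⟫
          ≤ 2 * κ := mul_le_mul h4 h3 hk0 (by norm_num)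
        _ ≤ _ := by linarith only [h6]
  have i1 : Integrable (fun x => (1 - ⟪N x, N z⟫) * K (finrank ℝ V) ⟪F x, r • F z⟫) (volM V F) :=
    ufun_int hcF (continuous_const.sub (hcN.inner continuous_const)) _ _
  have i2 : Integrable (fun x => (1 : ℝ) * K (finrank ℝ V) ⟪F x, r • F z⟫) (volM V F) :=
    ufun_int hcF (continuous_const : Continuous fun _ : M => (1 : ℝ)) _ _
  have h3 : U (volM V F) F (finrank ℝ V) (fun x => 1 - ⟪N x, N z⟫) (r • F z) ≤
      η / (2 * C') * U (volM V F) F (finrank ℝ V) (fun _ => 1) (r • F z) + A * (2 * κ) := by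
    unfold U
    calc _ ≤ ∫ x, (η / (2 * C') * (1 * K (finrank ℝ V) ⟪F x, r • F z⟫) + 2 * κ) ∂(volM V F) :=
          integral_mono i1 ((i2.const_mul _).add (integrable_const _)) hpt
      _ = _ := by
          rw [integral_add (i2.const_mul _) (integrable_const _), integral_const_mul,
            integral_const, smul_eq_mul]
  have h4 := mul_le_mul_of_nonneg_left h3 hE0.le
  have h5 := h2 z
  have h6 : E * U (volM V F) F (finrank ℝ V) (fun _ => 1) (r • F z) ≤ C' := by
    have := le_max_left C 0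
    (clear hF N hN hcN hinj η hη hC hcF hC' hC'0 δ hδ hclose A hA hA0 hδ1 hsmall hr hs hE hE0 κ h1 hκ hκ0 hpt i1 i2 h3 h4; linarith)
  calc E * U (volM V F) F (finrank ℝ V) (fun x => 1 - ⟪N x, N z⟫) (r • F z)
      ≤ E * (η / (2 * C') * U (volM V F) F (finrank ℝ V) (fun _ => 1) (r • F z) + A * (2 * κ)) := h4
    _ = η / (2 * C') * (E * U (volM V F) F (finrank ℝ V) (fun _ => 1) (r • F z)) +
        A * (2 * (E * κ)) := by ring
    _ ≤ η / (2 * C') * C' + (A + 1) * (2 * (η / (4 * (A + 1)))) := by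
        gcongr
        linarith only []
    _ = η := by
        field_simp
        ring

end

end Vale.Agent.P224.PM

end
end

section
-- PM/Start
section

/-!
# P224: the starting point of the maximum principle

On a closed connected minimal hypersurface which is not totally geodesic, the total normal is
orthogonal to the normal at some point.
-/

namespace Vale.Agent.P224.PM

open Matrix MeasureTheory Module Function Set Vale.Agent.P224 Vale.Agent.P224.FV
open scoped RealInnerProductSpace Topology ContDiff Manifold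

set_option linter.unusedSectionVars false

section

variable {V W M : Type*} [NormedAddCommGroup V] [InnerProductSpace ℝ V] [FiniteDimensional ℝ V]
  [NormedAddCommGroup W] [InnerProductSpace ℝ W] [FiniteDimensional ℝ W]
  [TopologicalSpace M] [ChartedSpace V M]
  [MeasurableSpace V] [BorelSpace V] [MeasurableSpace M] [BorelSpace M]

/-- the integral of the Laplacian vanishes -/
theorem integral_Lap [IsManifold 𝓘(ℝ, V) ∞ M] [CompactSpace M] [T2Space M]
    (hW : finrank ℝ W = finrank ℝ V + 2) {F : M → W}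
    (hF : SphImm V F) (hmin : ∀ x n, IsUnitNormal V F x n → meanCurv V F x n = 0)
    (hV : VolChart V F) [IsFiniteMeasure (volM V F)] {g : M → ℝ}
    (hg : ContMDiff 𝓘(ℝ, V) 𝓘(ℝ, ℝ) ∞ g) :
    ∫ p, Lap V F g p ∂(volM V F) = 0 := by
  have h := green hW hF hmin hV (0 : W) (G := fun _ => 1) (fun _ => contDiffAt_const) hg
  simp only [deriv_const, zero_mul, integral_zero, one_mul] at h
  (clear hW hF hmin hV hg; linarith)

/-- there is a point whose normal is orthogonal to the total normal -/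
theorem exists_start [IsManifold 𝓘(ℝ, V) ∞ M] [CompactSpace M] [T2Space M] [ConnectedSpace M]
    (hm : 0 < finrank ℝ V)
    (hW : finrank ℝ W = finrank ℝ V + 2) {F : M → W}
    (hF : SphImm V F) (hmin : ∀ x n, IsUnitNormal V F x n → meanCurv V F x n = 0)
    (hV : VolChart V F) [IsFiniteMeasure (volM V F)] {N : M → W}
    (hNs : ContMDiff 𝓘(ℝ, V) 𝓘(ℝ, W) ∞ N) (hN : ∀ x, IsUnitNormal V F x (N x))
    (hA : ∃ x, normSqA V F x (N x) ≠ 0) :
    ∃ z, ∫ x, ⟪N x, N z⟫ ∂(volM V F) = 0 := by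
  have hcN : Continuous N := hNs.continuous
  obtain ⟨G, hG⟩ : ∃ G, G = ∫ x, N x ∂(volM V F) := ⟨_, rfl⟩
  have hint : Integrable N (volM V F) := by
    obtain ⟨C, hC⟩ : ∃ C : ℝ, ∀ x, ‖N x‖ ≤ C := ⟨1, fun x => (hN x).1.le⟩
    exact Integrable.of_bound hcN.aestronglyMeasurable C (Filter.Eventually.of_forall hC)
  have hz : ∀ z, ∫ x, ⟪N x, N z⟫ ∂(volM V F) = ⟪N z, G⟫ := by
    intro z
    rw [hG]
    have : ∀ x, ⟪N x, N z⟫ = ⟪N z, N x⟫ := fun x => real_inner_comm _ _
    simp only [this]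
    exact integral_inner hint (N z)
  by_contra hcon
  push Not at hcon
  simp only [hz] at hcon
  have hu : Continuous fun z => ⟪N z, G⟫ := hcN.inner continuous_const
  have hS : Continuous fun x => normSqA V F x (N x) :=
    (Gap.contMDiff_normSqA hW hF hNs hN).continuous
  have hS0 : ∀ x, 0 ≤ normSqA V F x (N x) := Gap.normSqA_nonneg hW hF hNs hN
  have h0 : ∫ x, normSqA V F x (N x) * ⟪N x, G⟫ ∂(volM V F) = 0 := by
    have h := integral_Lap hW hF hmin hV (smooth_inner hNs G)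
    simp only [Gap.lap_normal hW hF hmin hNs hN] at h
    have e : ∀ x, -normSqA V F x (N x) * ⟪N x, G⟫ = -(normSqA V F x (N x) * ⟪N x, G⟫) := by
      intro x; ring
    simp only [e] at h
    rw [integral_neg] at h
    (clear hm hW hF hmin hV hNs hN hA hcN hG hint hz hcon hu hS hS0 e; linarith)
  have hop : (volM V F).IsOpenPosMeasure :=
    ⟨fun U hU hne => (volM_pos_of_isOpen hW hF hU hne).ne'⟩
  obtain ⟨x₀, hx₀⟩ := hA
  have hsign : (∀ z, 0 < ⟪N z, G⟫) ∨ (∀ z, ⟪N z, G⟫ < 0) := by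
    by_contra hc
    push Not at hc
    obtain ⟨⟨a, ha⟩, ⟨b, hb⟩⟩ := hc
    obtain ⟨c, hc⟩ := mem_range_of_exists_le_of_exists_ge hu ⟨a, ha⟩ ⟨b, hb⟩
    exact hcon c hc
  rcases hsign with h | h
  · have := (hS.mul hu).integral_pos_of_hasCompactSupport_nonneg_nonzero (μ := volM V F)
      (HasCompactSupport.of_compactSpace _) (fun x => mul_nonneg (hS0 x) (h x).le)
      (x := x₀) (mul_ne_zero hx₀ (h x₀).ne')
    exact absurd h0 this.ne'
  · have h1 := (hS.mul hu).neg.integral_pos_of_hasCompactSupport_nonneg_nonzero (μ := volM V F)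
      (HasCompactSupport.of_compactSpace _)
      (fun x => neg_nonneg.2 (mul_nonpos_of_nonneg_of_nonpos (hS0 x) (h x).le))
      (x := x₀) (neg_ne_zero.2 (mul_ne_zero hx₀ (h x₀).ne))
    have h2 : ∫ x, -(normSqA V F x (N x) * ⟪N x, G⟫) ∂(volM V F) = 0 := by
      rw [integral_neg, h0, neg_zero]
    exact absurd h2 h1.ne'

end

end Vale.Agent.P224.PM

end
end

section
-- PM/Asm
section

/-!
# P224: from the core bound to the gap 6/5

The core bound is stated for injective immersions with a smooth unit normal. The general case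
follows: an injective immersion has a smooth unit normal, a non-injective one has at least twice
the volume of the sphere.
-/

namespace Vale.Agent.P224.PM

open MeasureTheory Set Real Filter Module Vale.Agent.P224 Vale.Agent.P224.FV
open scoped RealInnerProductSpace Topology ContDiff Manifold

set_option linter.unusedSectionVars false

section

variable {V W M : Type*} [NormedAddCommGroup V] [InnerProductSpace ℝ V] [FiniteDimensional ℝ V]
  [NormedAddCommGroup W] [InnerProductSpace ℝ W] [FiniteDimensional ℝ W]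
  [TopologicalSpace M] [ChartedSpace V M]
  [MeasurableSpace V] [BorelSpace V] [MeasurableSpace M] [BorelSpace M]

/-- extraction of the constant -/
theorem six_fifths_of_sq {S A k : ℝ} (hA : 0 ≤ A) (hk : 0 < k)
    (h : 36 / 25 * (S * k) ^ 2 ≤ (A * k) ^ 2) : 6 / 5 * S ≤ A := by
  have h1 : (6 / 5 * S * k) ^ 2 ≤ (A * k) ^ 2 := by
    have : (6 / 5 * S * k) ^ 2 = 36 / 25 * (S * k) ^ 2 := by ring
    rw [this]
    exact h
  have h2 : 6 / 5 * S * k ≤ A * k := by
    have := abs_le_of_sq_le_sq h1 (by (clear * - hA hk; positivity))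
    exact (le_abs_self _).trans this
  exact le_of_mul_le_mul_right h2 hk

/-- the gap 6/5 from the core bound -/
theorem main_of_core [IsManifold 𝓘(ℝ, V) ∞ M] [CompactSpace M] [T2Space M] [ConnectedSpace M]
    (hm : 2 ≤ finrank ℝ V) (hW : finrank ℝ W = finrank ℝ V + 2) {F : M → W}
    (hF : SphImm V F) (hmin : ∀ x n, IsUnitNormal V F x n → meanCurv V F x n = 0)
    (hne : ¬ ∃ a : W, a ≠ 0 ∧ ∀ x, ⟪F x, a⟫ = 0) {k : ℝ} (hk : 0 < k)
    (hcore : ∀ N : M → W, ContMDiff 𝓘(ℝ, V) 𝓘(ℝ, W) ∞ N → (∀ x, IsUnitNormal V F x (N x)) →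
      Function.Injective F → (∃ x, normSqA V F x (N x) ≠ 0) →
      36 / 25 * (sphereVol (finrank ℝ V) * k) ^ 2 ≤ ((volM V F).real univ * k) ^ 2) :
    ENNReal.ofReal (6 / 5 * sphereVol (finrank ℝ V)) ≤ volM V F univ := by
  have hfin : IsFiniteMeasure (volM V F) := isFiniteMeasure_volM hF
  have hs := sphereVol_pos' (finrank ℝ V)
  apply ENNReal.ofReal_le_of_le_toReal
  by_cases hinj : Function.Injective F
  · obtain ⟨N, hNs, hN⟩ := TwoSide.exists_normal hW hF hinj
    obtain ⟨x, hx⟩ := Gap.exists_normSqA_pos hW hF hNs hN hne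
    exact six_fifths_of_sq measureReal_nonneg hk (hcore N hNs hN hinj ⟨x, hx.ne'⟩)
  · have h2 := TwoSide.two_le (by omega) hW hF hmin hinj
    refine le_trans ?_ h2
    gcongr
    norm_num

end

end Vale.Agent.P224.PM

end
end

section
-- PM/MainPM
section

namespace Vale.Agent.P224.PM

open Matrix MeasureTheory Module Function Set Filter Vale.Agent.P224 Vale.Agent.P224.FV
  Vale.Agent.P224.Gap
open scoped RealInnerProductSpace Topology ContDiff Manifold

set_option linter.unusedSectionVars false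

section

variable {V W M : Type*} [NormedAddCommGroup V] [InnerProductSpace ℝ V] [FiniteDimensional ℝ V]
  [NormedAddCommGroup W] [InnerProductSpace ℝ W] [FiniteDimensional ℝ W]
  [TopologicalSpace M] [ChartedSpace V M]
  [MeasurableSpace V] [BorelSpace V] [MeasurableSpace M] [BorelSpace M]
  [IsManifold 𝓘(ℝ, V) ∞ M] [CompactSpace M] [T2Space M]

lemma cont_gV {F N : M → W} (hF : Continuous F) (hN : Continuous N) [IsFiniteMeasure (volM V F)] :
    Continuous fun q : M × ℝ => gφ V F N q.1 q.2 := by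
  have h1 : ∀ w : M → ℝ, Continuous w →
      Continuous fun q : M × ℝ => U (volM V F) F (finrank ℝ V) w (q.2 • F q.1) := fun w hw =>
    (contDiff_U (μ := volM V F) hF hw (finrank ℝ V)).continuous.comp
      (continuous_snd.smul (hF.comp continuous_fst))
  have h2 : Continuous fun q : M × ℝ =>
      U (volM V F) F (finrank ℝ V) (fun x => ⟪N x, N q.1⟫) (q.2 • F q.1) := by
    have h3 : (fun q : M × ℝ => U (volM V F) F (finrank ℝ V) (fun x => ⟪N x, N q.1⟫) (q.2 • F q.1))
        = fun q : M × ℝ => ∑ b, ⟪N q.1, stdOrthonormalBasis ℝ W b⟫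
          * U (volM V F) F (finrank ℝ V) (fun x => 1 * ⟪N x, stdOrthonormalBasis ℝ W b⟫)
            (q.2 • F q.1) := by
      funext q
      rw [parseval_U hF continuous_const hN]
      exact U_congr (fun x => (one_mul _).symm) _ _
    rw [h3]
    refine continuous_finsetSum _ fun b _ => ?_
    exact (((hN.comp continuous_fst).inner continuous_const)).mul (h1 _ (by (clear hF h1 h3; fun_prop)))
  unfold gφ gV
  have h4 : Continuous fun q : M × ℝ => Real.exp (-q.2 ^ 2 / 2) := by fun_prop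
  exact ((h4.mul (h1 _ continuous_const)).pow 2).add
    (continuous_const.mul ((h4.mul h2).pow 2))

lemma exists_eta {Z B : ℝ} (hZ0 : 0 < Z) (h : B < 36 / 25 * Z ^ 2) :
    ∃ η, 0 < η ∧ η ≤ Z ∧ B ≤ Z ^ 2 + 11 / 25 * (Z - η) ^ 2 := by
  have hδ0 : 0 < 36 / 25 * Z ^ 2 - B := by linarith only [h]
  refine ⟨min Z ((36 / 25 * Z ^ 2 - B) / (2 * Z)), lt_min hZ0 (by positivity), min_le_left _ _, ?_⟩
  have h1 : min Z ((36 / 25 * Z ^ 2 - B) / (2 * Z)) ≤ (36 / 25 * Z ^ 2 - B) / (2 * Z) :=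
    min_le_right _ _
  generalize min Z ((36 / 25 * Z ^ 2 - B) / (2 * Z)) = t at h1
  rw [le_div_iff₀ (by positivity)] at h1
  nlinarith [sq_nonneg t]

lemma near_zero {M : Type*} [TopologicalSpace M] {φ : M → ℝ → ℝ}
    (hc : Continuous fun q : M × ℝ => φ q.1 q.2) {z : M} {B : ℝ} (h0 : φ z 0 < B) :
    ∃ r ε, 0 < r ∧ 0 < ε ∧ φ z r + ε / r < B := by
  have hc' : Continuous (φ z) := hc.comp (continuous_const.prodMk continuous_id)
  obtain ⟨r, h4, h5⟩ : ∃ r, φ z r < B ∧ 0 < r := by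
    have h2 : ∀ᶠ r in 𝓝[>] (0 : ℝ), φ z r < B :=
      ((hc'.tendsto 0).mono_left nhdsWithin_le_nhds).eventually_lt_const h0
    exact (h2.and self_mem_nhdsWithin).exists
  have h6 : 0 < B - φ z r := by linarith only [h4]
  refine ⟨r, (B - φ z r) * r / 2, h5, by positivity, ?_⟩
  have : (B - φ z r) * r / 2 / r = (B - φ z r) / 2 := by
    (clear * - h5 h6; field_simp)
  rw [this]
  linarith only [h4]

lemma phi_nonneg {F N : M → W} (z : M) (r : ℝ) : 0 ≤ gφ V F N z r := by
  unfold gφ; positivity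

lemma phi_zero {F N : M → W} {z₀ : M} [IsFiniteMeasure (volM V F)] :
    gφ V F N z₀ 0 = ((volM V F).real univ * K (finrank ℝ V) 0) ^ 2
      + 11 / 25 * ((∫ x, ⟪N x, N z₀⟫ ∂(volM V F)) * K (finrank ℝ V) 0) ^ 2 := by
  have e1 : gV V F (fun _ => 1) z₀ 0 = (volM V F).real univ * K (finrank ℝ V) 0 := by
    simp only [gV, ne_eq, OfNat.ofNat_ne_zero, not_false_eq_true, zero_pow, neg_zero, zero_div, Real.exp_zero, U, zero_smul, inner_zero_right, one_mul, integral_const, smul_eq_mul]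
  have e2 : gV V F (fun x => ⟪N x, N z₀⟫) z₀ 0
      = (∫ x, ⟪N x, N z₀⟫ ∂(volM V F)) * K (finrank ℝ V) 0 := by
    simp only [gV, U, zero_smul, inner_zero_right]
    rw [integral_mul_const]
    simp only [ne_eq, OfNat.ofNat_ne_zero, not_false_eq_true, zero_pow, neg_zero, zero_div, Real.exp_zero, one_mul]
  unfold gφ
  rw [e1, e2]

lemma phi_inf (hm : 0 < finrank ℝ V) (hW : finrank ℝ W = finrank ℝ V + 2) {F : M → W}
    (hF : SphImm V F) (hmin : ∀ x n, IsUnitNormal V F x n → meanCurv V F x n = 0)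
    (hV : VolChart V F) [IsFiniteMeasure (volM V F)] {N : M → W} (hcN : Continuous N)
    (hN : ∀ x, IsUnitNormal V F x (N x)) (hinj : Function.Injective F) {Z B η : ℝ}
    (hZ0 : 0 < Z) (hVge : ∀ z r, 0 < r → Z ≤ gV V F (fun _ => 1) z r)
    (hη : 0 < η) (hηZ : η ≤ Z) (hηB : B ≤ Z ^ 2 + 11 / 25 * (Z - η) ^ 2) :
    ∀ᶠ r : ℝ in atTop, ∀ z, B ≤ gφ V F N z r := by
  have hcF : Continuous F := hF.smooth.continuous
  have h1 := W_close hF hN hcN hinj hη ((volM V F).real univ * K (finrank ℝ V) 0)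
    (by
      filter_upwards [eventually_gt_atTop 0] with r hr z
      exact V_le hm hW hF hmin hV hN z hr)
  filter_upwards [h1, eventually_gt_atTop 0] with r hr hr0 z
  have h2 := hr z
  rw [U_sub hcF continuous_const (by fun_prop), mul_sub] at h2
  have h3 : gV V F (fun _ => 1) z r - gV V F (fun x => ⟪N x, N z⟫) z r ≤ η := h2
  have h4 := hVge z r hr0
  have h5 : Z - η ≤ gV V F (fun x => ⟪N x, N z⟫) z r := by (clear hm hW hF hmin hV hcN hN hinj B hZ0 hη hηZ hηB hcF h1 hr; linarith)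
  have h6 : (Z - η) ^ 2 ≤ gV V F (fun x => ⟪N x, N z⟫) z r ^ 2 :=
    pow_le_pow_left₀ (by linarith only [hηZ]) h5 2
  have h7 : Z ^ 2 ≤ gV V F (fun _ => 1) z r ^ 2 := pow_le_pow_left₀ hZ0.le h4 2
  unfold gφ
  linarith

/-- the pointwise bound -/
theorem core_pt (hm2 : 2 ≤ finrank ℝ V)
    (hW : finrank ℝ W = finrank ℝ V + 2) {F : M → W}
    (hF : SphImm V F) (hmin : ∀ x n, IsUnitNormal V F x n → meanCurv V F x n = 0)
    (hV : VolChart V F) [IsFiniteMeasure (volM V F)] {N : M → W}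
    (hNs : ContMDiff 𝓘(ℝ, V) 𝓘(ℝ, W) ∞ N)
    (hN : ∀ x, IsUnitNormal V F x (N x)) (hinj : Function.Injective F) (z₀ : M) :
    36 / 25 * (sphereVol (finrank ℝ V) * K (finrank ℝ V) 0) ^ 2
      ≤ ((volM V F).real univ * K (finrank ℝ V) 0) ^ 2
        + 11 / 25 * ((∫ x, ⟪N x, N z₀⟫ ∂(volM V F)) * K (finrank ℝ V) 0) ^ 2 := by
  have hm : 0 < finrank ℝ V := by omega
  have hcF : Continuous F := hF.smooth.continuous
  have hcN : Continuous N := hNs.continuous
  have hZ0 : 0 < sphereVol (finrank ℝ V) * K (finrank ℝ V) 0 := mul_pos (sphereVol_pos' _) (K_pos _ _)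
  by_contra hcon
  push Not at hcon
  have hVge : ∀ z r, 0 < r → sphereVol (finrank ℝ V) * K (finrank ℝ V) 0
      ≤ gV V F (fun _ => 1) z r := fun z r hr =>
    V_ge hm hW hF hmin hV hN z hr
  obtain ⟨B, hB1, hB2⟩ := exists_between hcon
  obtain ⟨η, hη, hηZ, hηB⟩ := exists_eta hZ0 hB2
  have hinf := phi_inf hm hW hF hmin hV hcN hN hinj hZ0 hVge hη hηZ hηB
  have hc := cont_gV (V := V) hcF hcN
  have h00 : gφ V F N z₀ 0 < B := phi_zero.trans_lt hB1
  obtain ⟨r₀, ε, hr₀, hε0, hlt⟩ := near_zero (φ := gφ V F N) hc h00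
  obtain ⟨z, r, hr, hmn⟩ := exists_min (φ := gφ V F N) hc (fun z r => phi_nonneg z r) hε0
    ⟨z₀, r₀, hr₀, hlt⟩ hinf
  exact contra hm2 hW hF hmin hV hNs hN (fun z r hr => hZ0.trans_le (hVge z r hr)) hε0 z hr
    (fun z' r' hr' => hmn z' r' hr')

lemma cancel_K {A S I k : ℝ} (hk : 0 < k)
    (h : 36 / 25 * (S * k) ^ 2 ≤ (A * k) ^ 2 + 11 / 25 * (I * k) ^ 2) :
    36 * S ^ 2 ≤ 25 * A ^ 2 + 11 * I ^ 2 := by
  have h1 : k ^ 2 * (36 * S ^ 2) ≤ k ^ 2 * (25 * A ^ 2 + 11 * I ^ 2) := by linarith only [h]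
  exact le_of_mul_le_mul_left h1 (by positivity)

/-- the pointwise inequality for the total normal -/
theorem main_pt [ConnectedSpace M] (hm2 : 2 ≤ finrank ℝ V)
    (hW : finrank ℝ W = finrank ℝ V + 2) {F : M → W}
    (hF : SphImm V F) (hmin : ∀ x n, IsUnitNormal V F x n → meanCurv V F x n = 0)
    {N : M → W} (hNs : ContMDiff 𝓘(ℝ, V) 𝓘(ℝ, W) ∞ N)
    (hN : ∀ x, IsUnitNormal V F x (N x)) (z : M) :
    36 * sphereVol (finrank ℝ V) ^ 2
      ≤ 25 * (volM V F).real univ ^ 2 + 11 * (∫ x, ⟪N x, N z⟫ ∂(volM V F)) ^ 2 := by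
  have hfin : IsFiniteMeasure (volM V F) := isFiniteMeasure_volM hF
  by_cases hinj : Function.Injective F
  · exact cancel_K (K_pos (finrank ℝ V) 0)
      (core_pt hm2 hW hF hmin (volChart_of_sphImm hF) hNs hN hinj z)
  · have h2 : 2 * sphereVol (finrank ℝ V) ≤ (volM V F).real univ :=
      TwoSide.two_le (by omega) hW hF hmin hinj
    have hs := sphereVol_pos' (finrank ℝ V)
    have h3 : (2 * sphereVol (finrank ℝ V)) ^ 2 ≤ (volM V F).real univ ^ 2 :=
      pow_le_pow_left₀ (by positivity) h2 2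
    nlinarith [sq_nonneg (∫ x, ⟪N x, N z⟫ ∂(volM V F)), sq_nonneg (sphereVol (finrank ℝ V))]

/-- volume gap: six fifths -/
theorem main_six_fifths [ConnectedSpace M] (hm2 : 2 ≤ finrank ℝ V)
    (hW : finrank ℝ W = finrank ℝ V + 2) {F : M → W}
    (hF : SphImm V F) (hmin : ∀ x n, IsUnitNormal V F x n → meanCurv V F x n = 0)
    (hne : ¬ ∃ a : W, a ≠ 0 ∧ ∀ x, ⟪F x, a⟫ = 0) :
    ENNReal.ofReal (6 / 5 * sphereVol (finrank ℝ V)) ≤ volM V F univ := by
  have hfin : IsFiniteMeasure (volM V F) := isFiniteMeasure_volM hF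
  refine main_of_core hm2 hW hF hmin hne (K_pos (finrank ℝ V) 0) fun N hNs hN hinj hA => ?_
  obtain ⟨z₀, hz₀⟩ := exists_start (by omega) hW hF hmin (volChart_of_sphImm hF) hNs hN hA
  have h := core_pt hm2 hW hF hmin (volChart_of_sphImm hF) hNs hN hinj z₀
  rw [hz₀] at h
  simpa only [ge_iff_le, zero_mul, ne_eq, OfNat.ofNat_ne_zero, not_false_eq_true, zero_pow, mul_zero,     add_zero] using h

end

end Vale.Agent.P224.PM

end
end

section

section

namespace Vale.Agent.P224.PM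

open MeasureTheory Set Real Module Vale.Agent.P224 Vale.Agent.P224.FV
open scoped RealInnerProductSpace Manifold ContDiff

/-- comparison of the bound with the Clifford value -/
theorem frac_bound {m : ℕ} (hm : 2 ≤ m) : 0.76 * leastClifford m ≤ 6 / 5 * sphereVol m := by
  have hs := sphereVol_pos' m
  have key : ∀ C : ℝ, C ≤ 1.5789 → leastClifford m ≤ C * sphereVol m →
      0.76 * leastClifford m ≤ 6 / 5 * sphereVol m := by
    intro C h1 h2
    nlinarith only [hs, h2, h1]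
  rcases Nat.lt_or_ge m 4 with h | h
  · interval_cases m
    · refine key 1.5708 (by norm_num) ?_
      have h1 := even_bound (k := 1) le_rfl (B := 1.5708)
        (by rw [evenRatio_one]; linarith only [Real.pi_lt_d6])
      simpa only [ge_iff_le, mul_one] using h1
    · exact key (1 + 0.5525) (by norm_num) ratio3
  · rcases Nat.lt_or_ge m 9 with h9 | h9
    · exact key 1.5036 (by norm_num) (ratio4to8 m h (by omega))
    · rcases Nat.lt_or_ge m 12 with h12 | h12
      · exact key 1.484 (by norm_num) (ratio9to12 m h9 (by omega))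
      · exact key 1.4447 (by norm_num) (ratio12 m h12)

theorem frac_bound' {m : ℕ} (hm : 12 ≤ m) : 0.83 * leastClifford m ≤ 6 / 5 * sphereVol m := by
  have hs := sphereVol_pos' m
  have := ratio12 m hm
  nlinarith only [hs, this]

variable {V W M : Type*} [NormedAddCommGroup V] [InnerProductSpace ℝ V] [FiniteDimensional ℝ V]
  [NormedAddCommGroup W] [InnerProductSpace ℝ W] [FiniteDimensional ℝ W]
  [TopologicalSpace M] [ChartedSpace V M]
  [MeasurableSpace V] [BorelSpace V] [MeasurableSpace M] [BorelSpace M]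
  [IsManifold 𝓘(ℝ, V) ∞ M] [CompactSpace M] [T2Space M]

/-- volume gap: six fifths, and the comparison with the Clifford value -/
theorem main_frac [ConnectedSpace M] (hm2 : 2 ≤ finrank ℝ V)
    (hW : finrank ℝ W = finrank ℝ V + 2) {F : M → W}
    (hF : SphImm V F) (hmin : ∀ x n, IsUnitNormal V F x n → meanCurv V F x n = 0)
    (hne : ¬ ∃ a : W, a ≠ 0 ∧ ∀ x, ⟪F x, a⟫ = 0) :
    ENNReal.ofReal (6 / 5 * sphereVol (finrank ℝ V)) ≤ volM V F univ ∧
    ENNReal.ofReal (0.76 * leastClifford (finrank ℝ V)) ≤ volM V F univ ∧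
    (12 ≤ finrank ℝ V →
      ENNReal.ofReal (0.83 * leastClifford (finrank ℝ V)) ≤ volM V F univ) := by
  have h := main_six_fifths hm2 hW hF hmin hne
  exact ⟨h, (ENNReal.ofReal_le_ofReal (frac_bound hm2)).trans h,
    fun h12 => (ENNReal.ofReal_le_ofReal (frac_bound' h12)).trans h⟩

end Vale.Agent.P224.PM
end
end
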